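import Vale.Agent.P308.MathlibUsed

set_option linter.all false

section

/-!
# P308: inequalities for the parameters
-/

set_option linter.all false

namespace Vale.Agent.P308.Alg

/-- The size parameter. -/
def pp (n e l : ℕ) : ℕ := (n + 2) ^ Nat.log 2 (n + 2) * (e + l + 2)

section

variable (n e l : ℕ)

theorem log_pos' : 1 ≤ Nat.log 2 (n + 2) := Nat.log_pos (by norm_num) (by omega)

theorem two_mul_le_pp : 2 * (n + 2) ≤ pp n e l := by
  unfold pp
  have h1 : n + 2 ≤ (n + 2) ^ Nat.log 2 (n + 2) := Nat.le_self_pow (by have := log_pos' n; omega) _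
  calc 2 * (n + 2) = (n + 2) * 2 := mul_comm _ _
    _ ≤ (n + 2) ^ Nat.log 2 (n + 2) * (e + l + 2) := Nat.mul_le_mul h1 (by (clear * -; omega))

theorem el_le_pp : e + l + 2 ≤ pp n e l := by
  unfold pp
  exact Nat.le_mul_of_pos_left _ (by positivity)

theorem four_le_pp : 4 ≤ pp n e l := by
  have := two_mul_le_pp n e l
  (clear * - this; omega)

theorem size_le : Nat.size n ≤ Nat.log 2 (n + 2) + 1 := by
  rw [Nat.size_le]
  have := Nat.lt_pow_succ_log_self (b := 2) (by norm_num) (n + 2)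
  exact (by omega : n < n + 2).trans this

theorem two_pow_log : 2 ^ Nat.log 2 (n + 2) ≤ n + 2 := Nat.pow_log_le_self 2 (by omega)

theorem two_pow_sq_le : 2 ^ (Nat.log 2 (n + 2) * Nat.log 2 (n + 2)) ≤ pp n e l := by
  unfold pp
  rw [pow_mul]
  calc (2 ^ Nat.log 2 (n + 2)) ^ Nat.log 2 (n + 2) ≤ (n + 2) ^ Nat.log 2 (n + 2) :=
        Nat.pow_le_pow_left (two_pow_log n) _
    _ ≤ (n + 2) ^ Nat.log 2 (n + 2) * (e + l + 2) := Nat.le_mul_of_pos_right _ (by omega)

theorem two_pow_C_le (C : ℕ) :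
    2 ^ (C * (Nat.size n + 1) ^ 2 + 2 * Nat.size n + 1) ≤ pp n e l ^ (9 * C + 5) := by
  set s := Nat.log 2 (n + 2) with hs
  have h1 : 1 ≤ s := log_pos' n
  have h2 : Nat.size n ≤ s + 1 := size_le n
  have h3 : C * (Nat.size n + 1) ^ 2 + 2 * Nat.size n + 1 ≤ (s * s) * (9 * C + 5) := by
    have h4 : Nat.size n + 1 ≤ 3 * s := by omega
    have h5 : (Nat.size n + 1) ^ 2 ≤ (3 * s) ^ 2 := Nat.pow_le_pow_left h4 2
    have h6 : 2 * Nat.size n + 1 ≤ 5 * s := by omega
    have h7 : s ≤ s * s := Nat.le_mul_of_pos_left _ h1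
    calc C * (Nat.size n + 1) ^ 2 + 2 * Nat.size n + 1
        = C * (Nat.size n + 1) ^ 2 + (2 * Nat.size n + 1) := by ring
      _ ≤ C * (3 * s) ^ 2 + 5 * (s * s) := by
          have := Nat.mul_le_mul_left C h5
          omega
      _ = (s * s) * (9 * C + 5) := by ring
  calc 2 ^ (C * (Nat.size n + 1) ^ 2 + 2 * Nat.size n + 1) ≤ 2 ^ ((s * s) * (9 * C + 5)) :=
        Nat.pow_le_pow_right (by norm_num) h3
    _ = (2 ^ (s * s)) ^ (9 * C + 5) := by rw [pow_mul]
    _ ≤ pp n e l ^ (9 * C + 5) := Nat.pow_le_pow_left (two_pow_sq_le n e l) _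

theorem two_pow_c_le (c1 : ℕ) :
    2 ^ (c1 * (Nat.size n + 1) + 10) ≤ pp n e l ^ (2 * c1 + 5) := by
  have hp := four_le_pp n e l
  have h1 : 2 ^ (Nat.size n + 1) ≤ pp n e l ^ 2 := by
    have h2 : Nat.size n + 1 ≤ Nat.log 2 (n + 2) + 2 := by have := size_le n; omega
    calc 2 ^ (Nat.size n + 1) ≤ 2 ^ (Nat.log 2 (n + 2) + 2) :=
          Nat.pow_le_pow_right (by norm_num) h2
      _ = 4 * 2 ^ Nat.log 2 (n + 2) := by ring
      _ ≤ 4 * (n + 2) := Nat.mul_le_mul_left _ (two_pow_log n)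
      _ ≤ pp n e l * pp n e l := Nat.mul_le_mul hp (by have := two_mul_le_pp n e l; omega)
      _ = pp n e l ^ 2 := by ring
  have h3 : (2 : ℕ) ^ 10 ≤ pp n e l ^ 5 := by
    calc (2 : ℕ) ^ 10 = 4 ^ 5 := by norm_num
      _ ≤ _ := Nat.pow_le_pow_left hp 5
  calc 2 ^ (c1 * (Nat.size n + 1) + 10) = (2 ^ (Nat.size n + 1)) ^ c1 * 2 ^ 10 := by
        rw [pow_add, mul_comm c1, pow_mul]
    _ ≤ (pp n e l ^ 2) ^ c1 * pp n e l ^ 5 := Nat.mul_le_mul (Nat.pow_le_pow_left h1 _) h3
    _ = pp n e l ^ (2 * c1 + 5) := by rw [← pow_mul, ← pow_add]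

theorem two_pow_size_le {p : ℕ} (hp : 0 < p) : 2 ^ Nat.size p ≤ 2 * p := by
  obtain ⟨k, hk⟩ : ∃ k, Nat.size p = k + 1 := ⟨Nat.size p - 1, by
    have := Nat.size_pos.2 hp
    omega⟩
  have h1 : ¬ p < 2 ^ k := by
    intro h
    have := Nat.size_le.2 h
    omega
  rw [hk, pow_succ]
  omega

end

end Vale.Agent.P308.Alg
end

section

/-!
# P308, polynomial version: inequalities for the parameters
-/

set_option linter.all false

namespace Vale.Agent.P308.PA

/-! ### The exponents -/

/-- The exponent of `1 / η`. -/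
def k1 (c1 : ℕ) : ℕ := 2 * c1 + 9

/-- The exponent of the number of samples. -/
def k2 (c1 : ℕ) : ℕ := 2 * k1 c1 + 4

/-- The exponent of the start of the path. -/
def k6 (c1 C : ℕ) : ℕ := C + k1 c1 + 9

/-- The exponent of the basic accuracy. -/
def ka (c1 C : ℕ) : ℕ := C + k1 c1 + 1 + k6 c1 C

/-- The exponent of the number of replicas. -/
def k3 (c1 C : ℕ) : ℕ := 2 * ka c1 C

/-- The exponent of the mesh. -/
def k4 (c1 C : ℕ) : ℕ := 5 * ka c1 C

/-- The exponent of the number of steps. -/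
def k5 (c1 C : ℕ) : ℕ := 18 * ka c1 C

/-- The exponent of the number of bits. -/
def k7 (c1 C : ℕ) : ℕ := 4 + (2 * k2 c1 + (k6 c1 C + 1 + 2 * k4 c1 C + 2 * k5 c1 C + 13))

section

variable {n p : ℕ}

theorem size_le_self' (n : ℕ) : Nat.size n ≤ n := Nat.size_le.2 Nat.lt_two_pow_self

theorem two_pow_size_le' (hp : 0 < p) : 2 ^ Nat.size p ≤ 2 * p := by
  obtain ⟨k, hk⟩ : ∃ k, Nat.size p = k + 1 := ⟨Nat.size p - 1, by
    have := Nat.size_pos.2 hp
    omega⟩
  have h1 : ¬ p < 2 ^ k := by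
    intro h
    have := Nat.size_le.2 h
    omega
  rw [hk, pow_succ]
  omega

theorem pow_le_two_pow (c p : ℕ) : p ^ c ≤ 2 ^ (c * Nat.size p) := by
  rw [mul_comm, pow_mul]
  exact Nat.pow_le_pow_left (Nat.lt_size_self p).le _

theorem two_pow_le_pow (hp : 2 ≤ p) (c : ℕ) : 2 ^ (c * Nat.size p) ≤ p ^ (2 * c) := by
  calc 2 ^ (c * Nat.size p) = (2 ^ Nat.size p) ^ c := by rw [mul_comm, pow_mul]
    _ ≤ (2 * p) ^ c := Nat.pow_le_pow_left (two_pow_size_le' (by omega)) _
    _ ≤ (p * p) ^ c := Nat.pow_le_pow_left (Nat.mul_le_mul_right _ hp) _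
    _ = p ^ (2 * c) := by rw [pow_mul, sq]

theorem le_four_pow (m : ℕ) : m + 4 ≤ 4 ^ (m + 1) := by
  induction m with
  | zero => norm_num
  | succ m ih =>
    rw [pow_succ]
    omega

/-- The correction term. -/
theorem two_pow_c1_le (hp : 4 ≤ p) (hn : n ≤ p) (c1 : ℕ) :
    2 ^ (c1 * (Nat.size n + 1) + 10) ≤ p ^ k1 c1 := by
  have h1 : 2 ^ (Nat.size n + 1) ≤ p ^ 2 := by
    have h2 : Nat.size n ≤ Nat.size p := Nat.size_le_size hn
    calc 2 ^ (Nat.size n + 1) ≤ 2 ^ (Nat.size p + 1) := Nat.pow_le_pow_right (by norm_num) (by omega)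
      _ = 2 ^ Nat.size p * 2 := pow_succ _ _
      _ ≤ (2 * p) * 2 := Nat.mul_le_mul_right _ (two_pow_size_le' (by omega))
      _ = 4 * p := by ring
      _ ≤ p * p := Nat.mul_le_mul_right _ hp
      _ = p ^ 2 := by ring
  have h3 : (2 : ℕ) ^ 10 ≤ p ^ 9 := by
    calc (2 : ℕ) ^ 10 ≤ 4 ^ 9 := by norm_num
      _ ≤ _ := Nat.pow_le_pow_left hp 9
  calc 2 ^ (c1 * (Nat.size n + 1) + 10) = (2 ^ (Nat.size n + 1)) ^ c1 * 2 ^ 10 := by
        rw [pow_add, mul_comm c1, pow_mul]
    _ ≤ (p ^ 2) ^ c1 * p ^ 9 := Nat.mul_le_mul (Nat.pow_le_pow_left h1 _) h3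
    _ = p ^ k1 c1 := by rw [← pow_mul, ← pow_add]; rfl

/-- The basic quantity `(n + 2) ^ C * (X + D) / η`. -/
theorem base_le (hp : 4 ≤ p) (hn : n + 2 ≤ p) (c1 C : ℕ) :
    (n + 2) ^ C * (p ^ k6 c1 C + p ^ 8) * p ^ k1 c1 ≤ p ^ ka c1 C := by
  have h1 : p ^ 8 ≤ p ^ k6 c1 C := Nat.pow_le_pow_right (by omega) (by unfold k6; omega)
  calc (n + 2) ^ C * (p ^ k6 c1 C + p ^ 8) * p ^ k1 c1
      ≤ p ^ C * (p * p ^ k6 c1 C) * p ^ k1 c1 := by
        apply Nat.mul_le_mul_right
        apply Nat.mul_le_mul (Nat.pow_le_pow_left hn _)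
        calc p ^ k6 c1 C + p ^ 8 ≤ 2 * p ^ k6 c1 C := by omega
          _ ≤ p * p ^ k6 c1 C := Nat.mul_le_mul_right _ (by omega)
    _ = p ^ ka c1 C := by
        unfold ka
        ring

theorem sq_le (hp : 4 ≤ p) (c1 C : ℕ) : (p ^ ka c1 C) ^ 2 ≤ 2 ^ (k3 c1 C * Nat.size p) := by
  rw [← pow_mul, mul_comm (ka c1 C) 2]
  exact pow_le_two_pow _ _

theorem mesh_le (hp : 4 ≤ p) (c1 C : ℕ) :
    p ^ ka c1 C * 2 ^ (k3 c1 C * Nat.size p) ≤ 2 ^ (k4 c1 C * Nat.size p) := by
  calc p ^ ka c1 C * 2 ^ (k3 c1 C * Nat.size p) ≤ p ^ ka c1 C * p ^ (2 * k3 c1 C) :=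
        Nat.mul_le_mul_left _ (two_pow_le_pow (by omega) _)
    _ = p ^ k4 c1 C := by
        rw [← pow_add]
        congr 1
        unfold k4 k3
        ring
    _ ≤ _ := pow_le_two_pow _ _

theorem steps_le (hp : 4 ≤ p) (c1 C : ℕ) :
    (2 ^ (k3 c1 C * Nat.size p)) ^ 4 * (p ^ ka c1 C) ^ 2 ≤ p ^ k5 c1 C := by
  calc (2 ^ (k3 c1 C * Nat.size p)) ^ 4 * (p ^ ka c1 C) ^ 2
      ≤ (p ^ (2 * k3 c1 C)) ^ 4 * (p ^ ka c1 C) ^ 2 :=
        Nat.mul_le_mul_right _ (Nat.pow_le_pow_left (two_pow_le_pow (by omega) _) _)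
    _ = p ^ k5 c1 C := by
        rw [← pow_mul, ← pow_mul, ← pow_add, show 2 * k3 c1 C * 4 + ka c1 C * 2 = k5 c1 C by
          unfold k5 k3; ring]

theorem start_num_le (hp : 4 ≤ p) (hn : n ≤ p) (c1 C : ℕ) :
    n * Nat.size n + k3 c1 C * Nat.size p + k4 c1 C * Nat.size p + k1 c1 * p + C ≤
      p ^ k6 c1 C := by
  have h1 : n * Nat.size n ≤ p ^ 2 := by
    calc n * Nat.size n ≤ p * p := Nat.mul_le_mul hn ((size_le_self' n).trans hn)
      _ = p ^ 2 := by ring
  have h2 : Nat.size p ≤ p := size_le_self' p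
  have h3 : k3 c1 C * Nat.size p + k4 c1 C * Nat.size p + k1 c1 * p + C ≤ 8 * ka c1 C * p := by
    have h4 : k3 c1 C * Nat.size p ≤ k3 c1 C * p := Nat.mul_le_mul_left _ h2
    have h5 : k4 c1 C * Nat.size p ≤ k4 c1 C * p := Nat.mul_le_mul_left _ h2
    have h6 : C ≤ C * p := Nat.le_mul_of_pos_right _ (by omega)
    have h7 : k1 c1 + C ≤ ka c1 C := by unfold ka; omega
    have h8 : (k1 c1 + C) * p ≤ ka c1 C * p := Nat.mul_le_mul_right _ h7
    have h9 : k3 c1 C * p + k4 c1 C * p = 7 * (ka c1 C * p) := by unfold k3 k4; ring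
    have h10 : (k1 c1 + C) * p = k1 c1 * p + C * p := by ring
    have h11 : 8 * ka c1 C * p = 8 * (ka c1 C * p) := by ring
    omega
  obtain ⟨m, hm⟩ : ∃ m, m = C + k1 c1 + 1 := ⟨_, rfl⟩
  have hx : k6 c1 C = m + 8 := by unfold k6; (clear * - hm; omega)
  have ha : 8 * ka c1 C = 16 * (m + 4) := by unfold ka; rw [hx]; (clear * - hm; omega)
  have h4 : 8 * ka c1 C ≤ p ^ (m + 3) := by
    rw [ha]
    calc 16 * (m + 4) ≤ 16 * 4 ^ (m + 1) := Nat.mul_le_mul_left _ (le_four_pow m)
      _ = 4 ^ (m + 3) := by ring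
      _ ≤ p ^ (m + 3) := Nat.pow_le_pow_left hp _
  have h5 : 8 * ka c1 C * p ≤ p ^ (m + 4) := by
    calc 8 * ka c1 C * p ≤ p ^ (m + 3) * p := Nat.mul_le_mul_right _ h4
      _ = p ^ (m + 4) := by ring
  have h6 : p ^ 2 ≤ p ^ (m + 4) := Nat.pow_le_pow_right (by omega) (by omega)
  calc _ ≤ 2 * p ^ (m + 4) := by omega
    _ ≤ p * p ^ (m + 4) := Nat.mul_le_mul_right _ (by omega)
    _ = p ^ (m + 5) := by ring
    _ ≤ p ^ k6 c1 C := Nat.pow_le_pow_right (by omega) (by omega)

theorem bits_step_le (hp : 4 ≤ p) (hn : n ≤ p) (c1 C : ℕ) :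
    2 * (k3 c1 C * Nat.size p) + 2 * Nat.size n + 2 * (k4 c1 C * Nat.size p) +
      4 * (p ^ k6 c1 C + p ^ 8) + 16 ≤ p ^ k5 c1 C := by
  have h1 := start_num_le hp hn c1 C
  have h2 : Nat.size n ≤ p := (size_le_self' n).trans hn
  have h3 : p ^ 8 ≤ p ^ k6 c1 C := Nat.pow_le_pow_right (by omega) (by unfold k6; omega)
  have h4 : p ≤ p ^ k6 c1 C := Nat.le_self_pow (by unfold k6; omega) _
  have h5 : 16 * p ^ k6 c1 C ≤ p ^ k5 c1 C := by
    calc 16 * p ^ k6 c1 C ≤ p ^ 2 * p ^ k6 c1 C :=
          Nat.mul_le_mul_right _ (by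
            calc 16 = 4 ^ 2 := rfl
              _ ≤ p ^ 2 := Nat.pow_le_pow_left hp 2)
      _ = p ^ (2 + k6 c1 C) := by rw [pow_add]
      _ ≤ p ^ k5 c1 C := Nat.pow_le_pow_right (by omega) (by unfold k5 ka; (clear * -; omega))
  omega

/-- The total number of bits. -/
theorem total_bits_le (hp : 4 ≤ p) (hn : n ≤ p) (c1 C : ℕ) :
    n * (n * p ^ 2) * (2 ^ (k2 c1 * Nat.size p) *
      ((p ^ k6 c1 C + p ^ 8) * 2 ^ (k4 c1 C * Nat.size p) * (p ^ k5 c1 C * p ^ k5 c1 C) +
        p ^ 12)) ≤ p ^ k7 c1 C := by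
  have h1 : n * (n * p ^ 2) ≤ p ^ 4 := by
    calc n * (n * p ^ 2) ≤ p * (p * p ^ 2) := by (clear * - hn; gcongr)
      _ = p ^ 4 := by ring
  have h2 : 2 ^ (k2 c1 * Nat.size p) ≤ p ^ (2 * k2 c1) := two_pow_le_pow (by omega) _
  have h3 : (p ^ k6 c1 C + p ^ 8) * 2 ^ (k4 c1 C * Nat.size p) * (p ^ k5 c1 C * p ^ k5 c1 C) ≤
      p ^ (k6 c1 C + 1 + 2 * k4 c1 C + 2 * k5 c1 C) := by
    have h4 : p ^ 8 ≤ p ^ k6 c1 C := Nat.pow_le_pow_right (by omega) (by unfold k6; omega)
    calc _ ≤ p ^ (k6 c1 C + 1) * p ^ (2 * k4 c1 C) * (p ^ k5 c1 C * p ^ k5 c1 C) := by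
          apply Nat.mul_le_mul_right
          apply Nat.mul_le_mul _ (two_pow_le_pow (by omega) _)
          calc p ^ k6 c1 C + p ^ 8 ≤ 2 * p ^ k6 c1 C := by (clear * - h4; omega)
            _ ≤ p * p ^ k6 c1 C := Nat.mul_le_mul_right _ (by omega)
            _ = p ^ (k6 c1 C + 1) := by ring
      _ = _ := by ring
  have h5 : p ^ (k6 c1 C + 1 + 2 * k4 c1 C + 2 * k5 c1 C) + p ^ 12 ≤
      p ^ (k6 c1 C + 1 + 2 * k4 c1 C + 2 * k5 c1 C + 13) := by
    have h6 : p ^ (k6 c1 C + 1 + 2 * k4 c1 C + 2 * k5 c1 C) ≤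
        p ^ (k6 c1 C + 1 + 2 * k4 c1 C + 2 * k5 c1 C + 12) :=
      Nat.pow_le_pow_right (by omega) (by omega)
    have h7 : p ^ 12 ≤ p ^ (k6 c1 C + 1 + 2 * k4 c1 C + 2 * k5 c1 C + 12) :=
      Nat.pow_le_pow_right (by omega) (by (clear * -; omega))
    calc _ ≤ 2 * p ^ (k6 c1 C + 1 + 2 * k4 c1 C + 2 * k5 c1 C + 12) := by omega
      _ ≤ p * p ^ (k6 c1 C + 1 + 2 * k4 c1 C + 2 * k5 c1 C + 12) :=
          Nat.mul_le_mul_right _ (by omega)
      _ = _ := by ring
  calc _ ≤ p ^ 4 * (p ^ (2 * k2 c1) * (p ^ (k6 c1 C + 1 + 2 * k4 c1 C + 2 * k5 c1 C + 13))) := by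
        apply Nat.mul_le_mul h1
        apply Nat.mul_le_mul h2
        omega
    _ = p ^ k7 c1 C := by
        unfold k7
        rw [← pow_add, ← pow_add]

end

end Vale.Agent.P308.PA
end

section

/-!
# Canonical paths, Poincare inequality, mixing (module D of the soft blossom project)
-/

set_option linter.unusedSectionVars false

namespace Vale.Agent.P308.Soft.MC

open Finset

variable {Ω : Type*} [Fintype Ω]

/-- one step of the chain, on laws -/
def push (P : Ω → Ω → ℝ) (μ : Ω → ℝ) : Ω → ℝ := fun y => ∑ x, μ x * P x y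

/-- `t` steps of the chain, on laws -/
def pushIter (P : Ω → Ω → ℝ) (t : ℕ) (μ : Ω → ℝ) : Ω → ℝ := (push P)^[t] μ

/-- one step of the chain, on functions -/
def pull (P : Ω → Ω → ℝ) (f : Ω → ℝ) : Ω → ℝ := fun x => ∑ y, P x y * f y

/-- Dirichlet form -/
noncomputable def dir (π : Ω → ℝ) (P : Ω → Ω → ℝ) (f : Ω → ℝ) : ℝ :=
  (1 / 2) * ∑ x, ∑ y, π x * P x y * (f x - f y) ^ 2

/-- hypotheses on the chain: `π` is a positive probability law, `P` is a stochastic kernel,
reversible for `π` and lazy. -/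
structure Chain (π : Ω → ℝ) (P : Ω → Ω → ℝ) : Prop where
  pos : ∀ x, 0 < π x
  sum_one : ∑ x, π x = 1
  nonneg : ∀ x y, 0 ≤ P x y
  row : ∀ x, ∑ y, P x y = 1
  rev : ∀ x y, π x * P x y = π y * P y x
  lazy : ∀ x, 1 / 2 ≤ P x x

variable {π : Ω → ℝ} {P : Ω → Ω → ℝ}

theorem stationary (h : Chain π P) (y : Ω) : ∑ x, π x * P x y = π y := by
  have : ∀ x, π x * P x y = π y * P y x := fun x => h.rev x y
  simp only [this]
  rw [← mul_sum, h.row, mul_one]

/-- `D(f) = ⟨f,f⟩ - ⟨f,Pf⟩` -/
theorem dir_eq (h : Chain π P) (f : Ω → ℝ) :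
    dir π P f = ∑ x, π x * (f x) ^ 2 - ∑ x, π x * (f x * pull P f x) := by
  unfold dir
  have e : ∀ x y, π x * P x y * (f x - f y) ^ 2
      = π x * (f x) ^ 2 * P x y + π x * P x y * (f y) ^ 2 - 2 * (π x * (f x * (P x y * f y))) := by
    intro x y; ring
  simp only [e]
  have s1 : ∑ x, ∑ y, π x * (f x) ^ 2 * P x y = ∑ x, π x * (f x) ^ 2 := by
    refine sum_congr rfl fun x _ => ?_
    rw [← mul_sum, h.row, mul_one]
  have s2 : ∑ x, ∑ y, π x * P x y * (f y) ^ 2 = ∑ x, π x * (f x) ^ 2 := by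
    rw [sum_comm]
    refine sum_congr rfl fun y _ => ?_
    rw [← sum_mul, stationary h]
  have s3 : ∑ x, ∑ y, 2 * (π x * (f x * (P x y * f y)))
      = 2 * ∑ x, π x * (f x * pull P f x) := by
    rw [mul_sum]
    refine sum_congr rfl fun x _ => ?_
    rw [← mul_sum, ← mul_sum, ← mul_sum]
    rfl
  have : ∑ x, ∑ y, (π x * (f x) ^ 2 * P x y + π x * P x y * (f y) ^ 2
        - 2 * (π x * (f x * (P x y * f y))))
      = ∑ x, ∑ y, π x * (f x) ^ 2 * P x y + ∑ x, ∑ y, π x * P x y * (f y) ^ 2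
        - ∑ x, ∑ y, 2 * (π x * (f x * (P x y * f y))) := by
    simp only [sum_add_distrib, sum_sub_distrib]
  rw [this, s1, s2, s3]
  ring

/-- laziness: `⟨Pf,Pf⟩ ≤ ⟨f,Pf⟩` -/
theorem lazy_le [DecidableEq Ω] (h : Chain π P) (f : Ω → ℝ) :
    ∑ x, π x * (pull P f x) ^ 2 ≤ ∑ x, π x * (f x * pull P f x) := by
  -- Q = 2P - I
  set Q : Ω → Ω → ℝ := fun x y => 2 * P x y - (if x = y then 1 else 0) with hQ
  have Qnn : ∀ x y, 0 ≤ Q x y := by
    intro x y
    simp only [hQ]
    split_ifs with e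
    · subst e; have := h.lazy x; linarith only [this]
    · have := h.nonneg x y; linarith only [this]
  have Qrow : ∀ x, ∑ y, Q x y = 1 := by
    intro x
    simp only [hQ, sum_sub_distrib, ← mul_sum, h.row]
    simp only [mul_one, sum_ite_eq, mem_univ, ↓reduceIte]; norm_num
  have Qstat : ∀ y, ∑ x, π x * Q x y = π y := by
    intro y
    have : ∀ x, π x * Q x y = 2 * (π x * P x y) - (if x = y then π x else 0) := by
      intro x; simp only [hQ]; split_ifs <;> ring
    simp only [this, sum_sub_distrib, ← mul_sum, stationary h]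
    simp only [sum_ite_eq', mem_univ, ↓reduceIte]; ring
  have Qf : ∀ x, ∑ y, Q x y * f y = 2 * pull P f x - f x := by
    intro x
    have : ∀ y, Q x y * f y = 2 * (P x y * f y) - (if x = y then f y else 0) := by
      intro y; simp only [hQ]; split_ifs <;> ring
    simp only [this, sum_sub_distrib, ← mul_sum]
    simp only [sum_ite_eq, mem_univ, ↓reduceIte, pull]
  -- Jensen
  have J : ∀ x, (∑ y, Q x y * f y) ^ 2 ≤ ∑ y, Q x y * (f y) ^ 2 := by
    intro x
    have := sum_mul_sq_le_sq_mul_sq univ (fun y => Real.sqrt (Q x y))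
      (fun y => Real.sqrt (Q x y) * f y)
    have e1 : ∀ y, Real.sqrt (Q x y) * (Real.sqrt (Q x y) * f y) = Q x y * f y := by
      intro y; rw [← mul_assoc, Real.mul_self_sqrt (Qnn x y)]
    have e2 : ∀ y, Real.sqrt (Q x y) ^ 2 = Q x y := fun y => Real.sq_sqrt (Qnn x y)
    have e3 : ∀ y, (Real.sqrt (Q x y) * f y) ^ 2 = Q x y * f y ^ 2 := by
      intro y; rw [mul_pow, e2]
    simp only [e1, e2, e3, Qrow, one_mul] at this
    exact this
  have S : ∑ x, π x * (2 * pull P f x - f x) ^ 2 ≤ ∑ x, π x * (f x) ^ 2 := by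
    calc ∑ x, π x * (2 * pull P f x - f x) ^ 2
        ≤ ∑ x, π x * ∑ y, Q x y * (f y) ^ 2 := by
          refine sum_le_sum fun x _ => ?_
          rw [← Qf x]
          exact mul_le_mul_of_nonneg_left (J x) (h.pos x).le
      _ = ∑ x, ∑ y, π x * Q x y * (f y) ^ 2 := by
          refine sum_congr rfl fun x _ => ?_
          rw [mul_sum]; exact sum_congr rfl fun y _ => by ring
      _ = ∑ x, π x * (f x) ^ 2 := by
          rw [sum_comm]
          refine sum_congr rfl fun y _ => ?_
          rw [← sum_mul, Qstat]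
  have E : ∑ x, π x * (2 * pull P f x - f x) ^ 2
      = 4 * ∑ x, π x * (pull P f x) ^ 2 - 4 * ∑ x, π x * (f x * pull P f x)
        + ∑ x, π x * (f x) ^ 2 := by
    rw [mul_sum, mul_sum, ← sum_sub_distrib, ← sum_add_distrib]
    refine sum_congr rfl fun x _ => by ring
  linarith only [S, E]

/-- the density of the pushed law is the pulled density -/
theorem push_density (h : Chain π P) (μ : Ω → ℝ) :
    (fun y => push P μ y / π y) = pull P (fun x => μ x / π x) := by
  funext y
  unfold push pull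
  rw [sum_div]
  refine sum_congr rfl fun x _ => ?_
  have hx := (h.pos x).ne'
  have hy := (h.pos y).ne'
  have := h.rev x y
  rw [div_eq_iff hy, mul_assoc, div_mul_eq_mul_div, mul_div_assoc', eq_div_iff hx]
  linear_combination (μ x) * this

/-! ## D1: variance against a subset -/

/-! ## D2: canonical paths -/

/-! ## D3: mixing -/

end Vale.Agent.P308.Soft.MC
end

section

/-!
# The splitting lemma: definitions

Labels are natural numbers. A pairing of a duplicate free list `l` of labels is an involution of `ℕ`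
moving exactly the members of `l`. `cp l` pairs consecutive members `x0 x1 | x2 x3 | ...`;
`cp l` and `cp (l.rotate 1)` are the two perfect matchings of the cycle `l` (even length).
-/

namespace Vale.Agent.P308.Split

/-- `f` is a fixed point free involution of the set of members of `l`, the identity outside -/
def PairOn (l : List ℕ) (f : ℕ → ℕ) : Prop := (∀ v, f (f v) = v) ∧ ∀ v, f v ≠ v ↔ v ∈ l

/-- the consecutive pairing of a list -/
def cp : List ℕ → ℕ → ℕ
  | x :: y :: l => fun v => if v = x then y else if v = y then x else cp l v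
  | _ => fun v => v

/-- replace the pairs `{a, M a}`, `{b, M b}` by `{a, b}`, `{M a, M b}` -/
def sw (M : ℕ → ℕ) (a b : ℕ) : ℕ → ℕ := fun v =>
  if v = a then b else if v = b then a else if v = M a then M b else if v = M b then M a else M v

/-- equal or a switch -/
def Sw (M M' : ℕ → ℕ) : Prop :=
  M' = M ∨ ∃ a b, M a ≠ a ∧ M b ≠ b ∧ a ≠ b ∧ M a ≠ b ∧ M' = sw M a b

/-- A (finite-center) tree metric: triangle inequality, and every list of points has a center `c`
whose branches (`comp`, `none` = at `c`) contain at most half of the points; paths between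
different branches pass through `c`. -/
structure TreeD (W : Type) where
  d : W → W → ℤ
  symm : ∀ x y, d x y = d y x
  tri : ∀ x y z, d x z ≤ d x y + d y z
  center : ∀ l : List W, ∃ (c : W) (κ : Type) (_ : DecidableEq κ) (comp : W → Option κ),
    (∀ p q, (comp p = none ∨ comp q = none ∨ comp p ≠ comp q) → d p q = d p c + d c q) ∧
    ∀ j : κ, 2 * (l.filter fun p => comp p = some j).length ≤ l.length

/-- the pairs `{f v, f' v}` and `{g v, g' v}` differ -/
def Bad (f f' g g' : ℕ → ℕ) (v : ℕ) : Prop := ¬ ((f v = g v ∧ f' v = g' v) ∨ (f v = g' v ∧ f' v = g v))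

instance (f f' g g' : ℕ → ℕ) (v : ℕ) : Decidable (Bad f f' g g' v) := by unfold Bad; infer_instance

/-- twice the total length of the pairs of `f` and `f'` -/
def cost {W : Type} (D : TreeD W) (loc : ℕ → W) (l : List ℕ) (f f' : ℕ → ℕ) : ℤ :=
  (l.map fun v => D.d (loc v) (loc (f v)) + D.d (loc v) (loc (f' v))).sum

/-- The cycle `l` can be flipped in `L` steps with at most `B` bad labels at all times and without
increasing the cost. -/
def Flip {W : Type} (D : TreeD W) (loc : ℕ → W) (l : List ℕ) (B L : ℕ) : Prop :=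
  ∃ N N' : ℕ → ℕ → ℕ, N 0 = cp l ∧ N' 0 = cp (l.rotate 1) ∧ N L = cp (l.rotate 1) ∧ N' L = cp l ∧
    (∀ t ≤ L, PairOn l (N t) ∧ PairOn l (N' t)) ∧
    (∀ t < L, Sw (N t) (N (t + 1)) ∧ Sw (N' t) (N' (t + 1))) ∧
    (∀ t ≤ L, (l.filter fun v => Bad (N t) (N' t) (cp l) (cp (l.rotate 1)) v).length ≤ B) ∧
    ∀ t ≤ L, cost D loc l (N t) (N' t) ≤ cost D loc l (cp l) (cp (l.rotate 1))

/-- crossing the center -/
def Cr {κ : Type} (c : ℕ → Option κ) (u v : ℕ) : Prop := c u = none ∨ c v = none ∨ c u ≠ c v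

end Vale.Agent.P308.Split
end

section

/-! # H6: the tree metric of an integer ultrametric

`m : V → V → ℤ` symmetric with `m x z ≥ min (m x y) (m y z)` for distinct points. Points of the tree:
pairs `(v, t)` = the cluster of `v` at level `t`, `0 ≤ t ≤ H`; with the join level
`J (u,s) (v,t) = min s (min t (m u v))` (for `u = v`: `min s t`) the distance is `s + t - 2 J`. All
values of `m` are in `[0, H]`. The leaf of `v` is `(v, H)`: distance of two different leaves
`2 H - 2 m u v`.
Triangle inequality: `J p r ≥ min (J p q) (J q r)` and `J p q, J q r ≤ t_q`.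
CENTER of a list `l` of points: for `(v,t)` let `below (v,t)` = points `(u,s)` with `J (u,s) (v,t) = t`
(i.e. `s ≥ t` and `u = v` or `m u v ≥ t`). `below (v,0)` is everything. Take `t` maximal in `[0, H]` such that some
`(v, t)` has `2 |below (v,t)| > |l|` (if `l = []` anything works). `comp (u,s)`: `none` if
`J (u,s) (v,t) = t` and `s = t` (at the center); `some none` if `J (u,s) (v,t) < t` (outside; less than
half of the points); otherwise `some (some B)` with `B` the set of points `w` with `w = u` or `m u w ≥ t+1`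
(the cluster at level `t+1`); all points of this branch are in `below (u, t+1)`, at most half by
maximality. -/

namespace Vale.Agent.P308.Split

open Finset

/-- tree points -/
abbrev Pt (n H : ℕ) := Fin n × Fin (H + 1)

/-- Integer ultrametric with values in `[0, H]`. -/
structure Ultra (n H : ℕ) where
  m : Fin n → Fin n → ℕ
  symm : ∀ x y, m x y = m y x
  le : ∀ x y, m x y ≤ H
  ultra : ∀ x y z, x ≠ y → y ≠ z → x ≠ z → min (m x y) (m y z) ≤ m x z

/-- join level -/
def Ultra.J {n H : ℕ} (U : Ultra n H) (p q : Pt n H) : ℕ :=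
  min (p.2 : ℕ) (min (q.2 : ℕ) (if p.1 = q.1 then H else U.m p.1 q.1))

/-- the ultrametric completed on the diagonal -/
def Ultra.M {n H : ℕ} (U : Ultra n H) (x y : Fin n) : ℕ := if x = y then H else U.m x y

theorem Ultra.J_eq {n H : ℕ} (U : Ultra n H) (p q : Pt n H) :
    U.J p q = min (p.2 : ℕ) (min (q.2 : ℕ) (U.M p.1 q.1)) := rfl

theorem Ultra.M_comm {n H : ℕ} (U : Ultra n H) (x y : Fin n) : U.M x y = U.M y x := by
  unfold Ultra.M
  by_cases h : x = y
  · rw [if_pos h, if_pos h.symm]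
  · rw [if_neg h, if_neg (Ne.symm h), U.symm]

theorem Ultra.M_le {n H : ℕ} (U : Ultra n H) (x y : Fin n) : U.M x y ≤ H := by
  unfold Ultra.M
  split_ifs
  · exact le_rfl
  · exact U.le _ _

theorem Ultra.M_self {n H : ℕ} (U : Ultra n H) (x : Fin n) : U.M x x = H := if_pos rfl

theorem Ultra.M_ultra {n H : ℕ} (U : Ultra n H) (x y z : Fin n) :
    min (U.M x y) (U.M y z) ≤ U.M x z := by
  by_cases h1 : x = y
  · rw [h1]
    exact min_le_right _ _
  · by_cases h2 : y = z
    · rw [h2]
      exact min_le_left _ _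
    · by_cases h3 : x = z
      · rw [h3, U.M_self]
        exact (min_le_left _ _).trans (U.M_le _ _)
      · have h := U.ultra x y z h1 h2 h3
        unfold Ultra.M
        rw [if_neg h1, if_neg h2, if_neg h3]
        exact h

theorem Ultra.J_comm {n H : ℕ} (U : Ultra n H) (p q : Pt n H) : U.J p q = U.J q p := by
  rw [U.J_eq, U.J_eq, U.M_comm]
  exact min_left_comm _ _ _

theorem Ultra.J_le_left {n H : ℕ} (U : Ultra n H) (p q : Pt n H) : U.J p q ≤ (p.2 : ℕ) :=
  min_le_left _ _

theorem Ultra.J_le_right {n H : ℕ} (U : Ultra n H) (p q : Pt n H) : U.J p q ≤ (q.2 : ℕ) :=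
  (min_le_right _ _).trans (min_le_left _ _)

theorem Ultra.J_le_M {n H : ℕ} (U : Ultra n H) (p q : Pt n H) : U.J p q ≤ U.M p.1 q.1 :=
  (min_le_right _ _).trans (min_le_right _ _)

theorem Ultra.le_J {n H : ℕ} (U : Ultra n H) {p q : Pt n H} {t : ℕ} (h1 : t ≤ (p.2 : ℕ))
    (h2 : t ≤ (q.2 : ℕ)) (h3 : t ≤ U.M p.1 q.1) : t ≤ U.J p q :=
  le_min h1 (le_min h2 h3)

theorem Ultra.J_ultra {n H : ℕ} (U : Ultra n H) (p q r : Pt n H) :
    min (U.J p q) (U.J q r) ≤ U.J p r := by
  refine U.le_J ((min_le_left _ _).trans (U.J_le_left _ _))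
    ((min_le_right _ _).trans (U.J_le_right _ _)) ?_
  exact (min_le_min (U.J_le_M _ _) (U.J_le_M _ _)).trans (U.M_ultra _ _ _)

/-- The center of a list of points. -/
theorem Ultra.exists_center {n H : ℕ} (hn : 0 < n) (U : Ultra n H) (l : List (Pt n H)) :
    ∃ (c : Pt n H) (κ : Type) (_ : DecidableEq κ) (comp : Pt n H → Option κ),
    (∀ p q, (comp p = none ∨ comp q = none ∨ comp p ≠ comp q) →
      U.J p q + (c.2 : ℕ) = U.J p c + U.J c q) ∧
    ∀ j : κ, 2 * (l.filter fun p => comp p = some j).length ≤ l.length := by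
  classical
  by_cases hl : l = []
  · refine ⟨(⟨0, hn⟩, 0), Unit, inferInstance, fun _ => some (), ?_, ?_⟩
    · rintro p q (h | h | h)
      · exact absurd h (by simp)
      · exact absurd h (by simp)
      · exact absurd rfl h
    · intro j
      rw [hl]
      simp
  obtain ⟨P, hP⟩ : ∃ P : ℕ → Prop, P = fun t => ∃ v : Fin n,
      l.length < 2 * (l.filter fun p => decide (t ≤ (p.2 : ℕ) ∧ t ≤ U.M p.1 v)).length := ⟨_, rfl⟩
  have hP0 : P 0 := by
    rw [hP]
    refine ⟨⟨0, hn⟩, ?_⟩
    have h1 : (l.filter fun p => decide (0 ≤ (p.2 : ℕ) ∧ 0 ≤ U.M p.1 ⟨0, hn⟩)) = l := by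
      rw [List.filter_eq_self]
      intro p _
      simp only [zero_le, and_self, decide_true]
    rw [h1]
    have h2 := List.length_pos_of_ne_nil hl
    omega
  obtain ⟨t, htH, hPt, hmax⟩ : ∃ t ≤ H, P t ∧ ∀ s, t < s → s ≤ H → ¬ P s :=
    ⟨Nat.findGreatest P H, Nat.findGreatest_le H, Nat.findGreatest_spec (Nat.zero_le H) hP0,
      fun s h1 h2 => Nat.findGreatest_is_greatest h1 h2⟩
  rw [hP] at hPt
  obtain ⟨v, hv⟩ := hPt
  obtain ⟨c, hc⟩ : ∃ c : Pt n H, c = (v, ⟨t, Nat.lt_succ_of_le htH⟩) := ⟨_, rfl⟩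
  have hc1 : c.1 = v := by rw [hc]
  have hc2 : (c.2 : ℕ) = t := by rw [hc]
  have hJc : ∀ p, U.J p c ≤ t := fun p => hc2 ▸ U.J_le_right p c
  obtain ⟨B, hB⟩ : ∃ B : Fin n → Finset (Fin n),
      B = fun u => univ.filter (fun w => t + 1 ≤ U.M u w) := ⟨_, rfl⟩
  have hBmem : ∀ u w, w ∈ B u ↔ t + 1 ≤ U.M u w := by
    intro u w
    rw [hB]
    simp only [Order.add_one_le_iff, mem_filter, mem_univ, true_and]
  have hBeq : ∀ u w, t + 1 ≤ U.M u w → B u = B w := by
    intro u w h
    ext z
    rw [hBmem, hBmem]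
    constructor
    · intro h1
      exact (le_min (by rw [U.M_comm]; exact h) h1).trans (U.M_ultra w u z)
    · intro h1
      exact (le_min h h1).trans (U.M_ultra u w z)
  obtain ⟨comp, hcomp⟩ : ∃ comp : Pt n H → Option (Option (Finset (Fin n))), ∀ p, comp p =
      if U.J p c < t then some none else if (p.2 : ℕ) ≤ t then none else some (some (B p.1)) :=
    ⟨_, fun _ => rfl⟩
  have hnone : ∀ p, comp p = none → U.J p c = t ∧ (p.2 : ℕ) = t := by
    intro p hp
    rw [hcomp] at hp
    by_cases h1 : U.J p c < t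
    · rw [if_pos h1] at hp
      exact absurd hp (by simp)
    · rw [if_neg h1] at hp
      by_cases h2 : (p.2 : ℕ) ≤ t
      · have h3 := U.J_le_left p c
        have h4 := hJc p
        omega
      · rw [if_neg h2] at hp
        exact absurd hp (by simp)
  have hsn : ∀ p, comp p = some none → U.J p c < t := by
    intro p hp
    rw [hcomp] at hp
    by_contra h1
    rw [if_neg h1] at hp
    by_cases h2 : (p.2 : ℕ) ≤ t
    · rw [if_pos h2] at hp
      exact absurd hp (by simp)
    · rw [if_neg h2] at hp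
      exact absurd hp (by simp)
  have hss : ∀ p A, comp p = some (some A) → U.J p c = t ∧ t < (p.2 : ℕ) ∧ B p.1 = A := by
    intro p A hp
    rw [hcomp] at hp
    by_cases h1 : U.J p c < t
    · rw [if_pos h1] at hp
      exact absurd hp (by simp)
    · rw [if_neg h1] at hp
      by_cases h2 : (p.2 : ℕ) ≤ t
      · rw [if_pos h2] at hp
        exact absurd hp (by simp)
      · rw [if_neg h2] at hp
        have h3 := hJc p
        refine ⟨by omega, by omega, ?_⟩
        simpa using hp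
  have key1 : ∀ p q, comp p = none → U.J p q + t = U.J p c + U.J c q := by
    intro p q hp
    obtain ⟨h1, h2⟩ := hnone p hp
    have h3 := U.J_ultra c p q
    have h4 := U.J_ultra p c q
    have h5 := U.J_le_left p q
    have h6 := U.J_le_left c q
    rw [U.J_comm c p, h1] at h3
    rw [h1] at h4 ⊢
    (clear * - hc2 h1 h2 h3 h4 h5 h6; omega)
  have key2 : ∀ p q, comp p = some none → (∃ A, comp q = some (some A)) →
      U.J p q + t = U.J p c + U.J c q := by
    rintro p q hp ⟨A, hq⟩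
    have h1 := hsn p hp
    obtain ⟨h2, -, -⟩ := hss q A hq
    have h3 := U.J_ultra p c q
    have h4 := U.J_ultra p q c
    rw [U.J_comm c q] at h3 ⊢
    (clear * - hc2 h1 h2 h3 h4; omega)
  refine ⟨c, Option (Finset (Fin n)), inferInstance, comp, ?_, ?_⟩
  · intro p q hpq
    rw [hc2]
    by_cases hp : comp p = none
    · exact key1 p q hp
    by_cases hq : comp q = none
    · have h1 := key1 q p hq
      rw [U.J_comm q p, U.J_comm q c, U.J_comm c p] at h1
      omega
    have hne : comp p ≠ comp q := by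
      rcases hpq with h | h | h
      · exact absurd h hp
      · exact absurd h hq
      · exact h
    obtain ⟨a, ha⟩ := Option.ne_none_iff_exists'.1 hp
    obtain ⟨b, hb⟩ := Option.ne_none_iff_exists'.1 hq
    cases a with
    | none =>
      cases b with
      | none => exact absurd (ha.trans hb.symm) hne
      | some b => exact key2 p q ha ⟨b, hb⟩
    | some a =>
      cases b with
      | none =>
        have h1 := key2 q p hb ⟨a, ha⟩
        rw [U.J_comm q p, U.J_comm q c, U.J_comm c p] at h1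
        omega
      | some b =>
        obtain ⟨h1, h2, h3⟩ := hss p a ha
        obtain ⟨h4, h5, h6⟩ := hss q b hb
        have h7 := U.J_ultra p c q
        rw [U.J_comm c q, h1, h4] at h7
        have h8 : ¬ t + 1 ≤ U.J p q := by
          intro h
          apply hne
          rw [ha, hb, ← h3, ← h6, hBeq _ _ (h.trans (U.J_le_M p q))]
        rw [U.J_comm c q, h1, h4]
        omega
  · intro j
    cases j with
    | none =>
      have h1 : (l.filter fun p => decide (comp p = some none)).length +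
          (l.filter fun p => decide (t ≤ (p.2 : ℕ) ∧ t ≤ U.M p.1 v)).length ≤ l.length := by
        rw [← List.countP_eq_length_filter, ← List.countP_eq_length_filter,
          List.length_eq_countP_add_countP (fun p => decide (comp p = some none)) (l := l)]
        refine Nat.add_le_add_left (List.countP_mono_left ?_) _
        intro p _ hp
        rw [decide_eq_true_iff] at hp
        simp only [Bool.not_eq_true, decide_eq_false_iff_not, decide_eq_true_eq]
        intro h2
        have h3 := hsn p h2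
        have h4 : t ≤ U.J p c := U.le_J hp.1 (le_of_eq hc2.symm) (by rw [hc1]; exact hp.2)
        omega
      omega
    | some A =>
      by_cases h0 : ∃ p ∈ l, comp p = some (some A)
      · obtain ⟨p, -, hp⟩ := h0
        obtain ⟨h1, h2, h3⟩ := hss p A hp
        have h4 : ¬ P (t + 1) := hmax (t + 1) (Nat.lt_succ_self t) (by
          have h5 := p.2.2
          omega)
        rw [hP] at h4
        have h5 := not_lt.1 (fun h => h4 ⟨p.1, h⟩)
        refine le_trans (Nat.mul_le_mul_left 2 ?_) h5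
        rw [← List.countP_eq_length_filter, ← List.countP_eq_length_filter]
        refine List.countP_mono_left ?_
        intro q _ hq
        rw [decide_eq_true_iff] at hq ⊢
        obtain ⟨h6, h7, h8⟩ := hss q A hq
        refine ⟨h7, ?_⟩
        have h9 : p.1 ∈ B q.1 := by
          rw [h8, ← h3, hBmem, U.M_self]
          have h10 := p.2.2
          omega
        exact (hBmem _ _).1 h9
      · have h1 : (l.filter fun p => decide (comp p = some (some A))) = [] := by
          rw [List.filter_eq_nil_iff]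
          intro p hp
          rw [decide_eq_true_iff]
          exact fun h => h0 ⟨p, hp, h⟩
        rw [h1]
        simp

/-- the tree metric of an ultrametric -/
theorem exists_treeD {n H : ℕ} (hn : 0 < n) (U : Ultra n H) :
    ∃ D : TreeD (Pt n H), ∀ p q, D.d p q = (p.2 : ℤ) + (q.2 : ℤ) - 2 * (U.J p q : ℤ) := by
  refine ⟨⟨fun p q => (p.2 : ℤ) + (q.2 : ℤ) - 2 * (U.J p q : ℤ), ?_, ?_, ?_⟩, fun _ _ => rfl⟩
  · intro x y
    show ((x.2 : ℕ) : ℤ) + ((y.2 : ℕ) : ℤ) - 2 * (U.J x y : ℤ) =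
      ((y.2 : ℕ) : ℤ) + ((x.2 : ℕ) : ℤ) - 2 * (U.J y x : ℤ)
    rw [U.J_comm x y]
    omega
  · intro x y z
    show ((x.2 : ℕ) : ℤ) + ((z.2 : ℕ) : ℤ) - 2 * (U.J x z : ℤ) ≤
      (((x.2 : ℕ) : ℤ) + ((y.2 : ℕ) : ℤ) - 2 * (U.J x y : ℤ)) +
      (((y.2 : ℕ) : ℤ) + ((z.2 : ℕ) : ℤ) - 2 * (U.J y z : ℤ))
    have h1 := U.J_ultra x y z
    have h2 := U.J_le_right x y
    have h3 := U.J_le_left y z
    omega
  · intro l
    obtain ⟨c, κ, i, comp, h1, h2⟩ := U.exists_center hn l
    refine ⟨c, κ, i, comp, fun p q h => ?_, h2⟩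
    show ((p.2 : ℕ) : ℤ) + ((q.2 : ℕ) : ℤ) - 2 * (U.J p q : ℤ) =
      (((p.2 : ℕ) : ℤ) + ((c.2 : ℕ) : ℤ) - 2 * (U.J p c : ℤ)) +
      (((c.2 : ℕ) : ℤ) + ((q.2 : ℕ) : ℤ) - 2 * (U.J c q : ℤ))
    have h3 := h1 p q h
    (clear * - h3; omega)

end Vale.Agent.P308.Split
end

section

/-!
# Matchings as involutions, weights, partition functions with prescribed holes

A matching of the complete graph on `V` is an involution of `V`; its fixed points (*holes*) are the
uncovered vertices. Weights: `s v w` is the square root of the weight of the edge `vw`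
(`s v v = 1`), so the weight of a matching is the product over all vertices `v` of `s v (f v)`.
-/

set_option linter.unusedSectionVars false

namespace Vale.Agent.P308.Soft

open Finset

variable {V : Type*} [Fintype V] [DecidableEq V]

/-- square roots of edge weights of the complete graph -/
structure Wt (V : Type*) where
  s : V → V → ℝ
  pos : ∀ v w, 0 < s v w
  symm : ∀ v w, s v w = s w v
  diag : ∀ v, s v v = 1

/-- the component of `a` under two maps -/
noncomputable def Cp (f g : V → V) (a : V) : Finset V := by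
  classical
  exact univ.filter fun v => Relation.ReflTransGen (fun x y => y = f x ∨ y = g x) a v

theorem mem_Cp {f g : V → V} {a v : V} :
    v ∈ Cp f g a ↔ Relation.ReflTransGen (fun x y => y = f x ∨ y = g x) a v := by
  classical
  simp only [Cp, mem_filter, mem_univ, true_and]

theorem self_mem_Cp (f g : V → V) (a : V) : a ∈ Cp f g a := mem_Cp.2 .refl

theorem Cp_left {f g : V → V} {a v : V} (h : v ∈ Cp f g a) : f v ∈ Cp f g a :=
  mem_Cp.2 ((mem_Cp.1 h).tail (Or.inl rfl))

theorem Cp_right {f g : V → V} {a v : V} (h : v ∈ Cp f g a) : g v ∈ Cp f g a :=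
  mem_Cp.2 ((mem_Cp.1 h).tail (Or.inr rfl))

theorem Cp_trans {f g : V → V} {a b c : V} (h1 : b ∈ Cp f g a) (h2 : c ∈ Cp f g b) :
    c ∈ Cp f g a := mem_Cp.2 ((mem_Cp.1 h1).trans (mem_Cp.1 h2))

theorem Cp_symm {f g : V → V} (hf : ∀ v, f (f v) = v) (hg : ∀ v, g (g v) = v) {a b : V}
    (h : b ∈ Cp f g a) : a ∈ Cp f g b := by
  rw [mem_Cp] at h ⊢
  induction h with
  | refl => exact .refl
  | @tail x y _ hxy ih =>
    refine Relation.ReflTransGen.head ?_ ih
    rcases hxy with rfl | rfl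
    · exact Or.inl (hf x).symm
    · exact Or.inr (hg x).symm

end Vale.Agent.P308.Soft
end

section

/-! # H1: elementary lemmas on consecutive pairings, switches, flips -/

namespace Vale.Agent.P308.Split

variable {W : Type} {D : TreeD W} {loc : ℕ → W}

theorem cp_nil : cp [] = fun v => v := rfl

theorem cp_cons_cons (x y : ℕ) (l : List ℕ) (v : ℕ) :
    cp (x :: y :: l) v = if v = x then y else if v = y then x else cp l v := rfl

theorem basic_cp_notMem : ∀ (l : List ℕ) (v : ℕ), v ∉ l → cp l v = v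
  | [], _, _ => rfl
  | [_], _, _ => rfl
  | x :: y :: l, v, hv => by
    rw [List.mem_cons, List.mem_cons, not_or, not_or] at hv
    rw [cp_cons_cons, if_neg hv.1, if_neg hv.2.1]
    exact basic_cp_notMem l v hv.2.2

theorem basic_ne {l : List ℕ} {x v : ℕ} (hx : x ∉ l) (hv : v ∈ l) : v ≠ x := by
  rintro rfl
  exact hx hv

theorem basic_even_two {l : List ℕ} {x y : ℕ} (h : Even (x :: y :: l).length) :
    Even l.length := by
  rw [List.length_cons, List.length_cons, Nat.even_add_one, Nat.even_add_one, not_not] at h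
  exact h

theorem basic_cp_pairOn : ∀ (l : List ℕ), l.Nodup → Even l.length → PairOn l (cp l)
  | [], _, _ => ⟨fun _ => rfl, fun v => by simp [cp_nil]⟩
  | [x], _, h => absurd h (by simp only [List.length_cons, List.length_nil, zero_add, Nat.not_even_one, not_false_eq_true])
  | x :: y :: l, hl, he => by
    have ih := basic_cp_pairOn l (List.nodup_cons.1 (List.nodup_cons.1 hl).2).2 (basic_even_two he)
    have hx := (List.nodup_cons.1 hl).1
    rw [List.mem_cons, not_or] at hx
    have hy := (List.nodup_cons.1 (List.nodup_cons.1 hl).2).1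
    refine ⟨fun v => ?_, fun v => ?_⟩
    · by_cases h1 : v = x
      · rw [cp_cons_cons x y l v, if_pos h1, cp_cons_cons, if_neg (Ne.symm hx.1), if_pos rfl, h1]
      · by_cases h2 : v = y
        · rw [cp_cons_cons x y l v, if_neg h1, if_pos h2, cp_cons_cons, if_pos rfl, h2]
        · rw [cp_cons_cons x y l v, if_neg h1, if_neg h2]
          by_cases h3 : v ∈ l
          · have h4 : cp l v ∈ l := (ih.2 _).1 (by
              rw [ih.1]
              exact ((ih.2 v).2 h3).symm)
            rw [cp_cons_cons, if_neg (basic_ne hx.2 h4), if_neg (basic_ne hy h4), ih.1]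
          · rw [basic_cp_notMem l v h3, cp_cons_cons, if_neg h1, if_neg h2,
              basic_cp_notMem l v h3]
    · rw [cp_cons_cons, List.mem_cons, List.mem_cons]
      by_cases h1 : v = x
      · rw [if_pos h1, h1]
        exact ⟨fun _ => Or.inl rfl, fun _ => Ne.symm hx.1⟩
      · by_cases h2 : v = y
        · rw [if_neg h1, if_pos h2, h2]
          exact ⟨fun _ => Or.inr (Or.inl rfl), fun _ => hx.1⟩
        · rw [if_neg h1, if_neg h2, ih.2 v]
          exact ⟨fun h => Or.inr (Or.inr h), fun h => (h.resolve_left h1).resolve_left h2⟩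

/-- the consecutive pairing is a pairing -/
theorem cp_pairOn {l : List ℕ} (hl : l.Nodup) (he : Even l.length) : PairOn l (cp l) :=
  basic_cp_pairOn l hl he

theorem cp_notMem {l : List ℕ} {v : ℕ} (hv : v ∉ l) : cp l v = v :=
  basic_cp_notMem l v hv

theorem basic_cp_append : ∀ (l l' : List ℕ), Even l.length → ∀ v,
    cp (l ++ l') v = if v ∈ l then cp l v else cp l' v
  | [], l', _, v => by simp
  | [x], _, h, _ => absurd h (by simp only [List.length_cons, List.length_nil, zero_add, Nat.not_even_one, not_false_eq_true])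
  | x :: y :: l, l', he, v => by
    have ih := basic_cp_append l l' (basic_even_two he) v
    rw [List.cons_append, List.cons_append, cp_cons_cons, cp_cons_cons, ih]
    by_cases h1 : v = x
    · rw [if_pos h1, if_pos h1, if_pos (h1 ▸ List.mem_cons_self)]
    · by_cases h2 : v = y
      · rw [if_neg h1, if_pos h2, if_neg h1, if_pos h2,
          if_pos (List.mem_cons_of_mem _ (h2 ▸ List.mem_cons_self))]
      · rw [if_neg h1, if_neg h2, if_neg h1, if_neg h2]
        by_cases h3 : v ∈ l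
        · rw [if_pos h3, if_pos (List.mem_cons_of_mem _ (List.mem_cons_of_mem _ h3))]
        · rw [if_neg h3, if_neg]
          rw [List.mem_cons, List.mem_cons, not_or, not_or]
          exact ⟨h1, h2, h3⟩

theorem basic_rotate_two (x y : ℕ) (l : List ℕ) : (x :: y :: l).rotate 2 = l ++ [x, y] := by
  rw [List.rotate_cons_succ, List.cons_append, List.rotate_cons_succ, List.rotate_zero,
    List.append_assoc]
  rfl

theorem cp_rotate_two {l : List ℕ} (hl : l.Nodup) (he : Even l.length) :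
    cp (l.rotate 2) = cp l := by
  match l, hl, he with
  | [], _, _ => rfl
  | [x], _, h => exact absurd h (by simp only [List.length_cons, List.length_nil, zero_add, Nat.not_even_one, not_false_eq_true])
  | x :: y :: l, hl, he =>
    have hx := (List.nodup_cons.1 hl).1
    rw [List.mem_cons, not_or] at hx
    have hy := (List.nodup_cons.1 (List.nodup_cons.1 hl).2).1
    rw [basic_rotate_two]
    funext v
    rw [basic_cp_append l [x, y] (basic_even_two he) v, cp_cons_cons, cp_cons_cons]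
    by_cases h3 : v ∈ l
    · rw [if_pos h3, if_neg (basic_ne hx.2 h3), if_neg (basic_ne hy h3)]
    · rw [if_neg h3, basic_cp_notMem l v h3, cp_nil]

/-- the consecutive pairing of a concatenation of two disjoint even lists -/
theorem cp_append {l l' : List ℕ} (hl : (l ++ l').Nodup) (he : Even l.length) (v : ℕ) :
    cp (l ++ l') v = if v ∈ l then cp l v else cp l' v :=
  basic_cp_append l l' he v

theorem basic_cp_getElem : ∀ (l : List ℕ), l.Nodup → Even l.length → ∀ (i : ℕ)
    (hi : 2 * i + 1 < l.length),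
    cp l (l[2 * i]'(by omega)) = l[2 * i + 1] ∧ cp l (l[2 * i + 1]) = l[2 * i]'(by omega)
  | [], _, _, i, hi => absurd hi (by simp only [List.length_nil, not_lt_zero, not_false_eq_true])
  | [x], _, h, i, _ => absurd h (by simp only [List.length_cons, List.length_nil, zero_add, Nat.not_even_one, not_false_eq_true])
  | x :: y :: l, hl, he, 0, hi => by
    have hx := (List.nodup_cons.1 hl).1
    rw [List.mem_cons, not_or] at hx
    change cp (x :: y :: l) x = y ∧ cp (x :: y :: l) y = x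
    rw [cp_cons_cons, cp_cons_cons, if_pos rfl, if_neg (Ne.symm hx.1), if_pos rfl]
    exact ⟨rfl, rfl⟩
  | x :: y :: l, hl, he, i + 1, hi => by
    have hx := (List.nodup_cons.1 hl).1
    rw [List.mem_cons, not_or] at hx
    have hy := (List.nodup_cons.1 (List.nodup_cons.1 hl).2).1
    have hi' : 2 * i + 1 < l.length := by
      rw [List.length_cons, List.length_cons] at hi
      (clear * - hi; omega)
    have ih := basic_cp_getElem l (List.nodup_cons.1 (List.nodup_cons.1 hl).2).2
      (basic_even_two he) i hi'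
    have e1 : (x :: y :: l)[2 * (i + 1)]'(by (clear * - hi hi'; omega)) = l[2 * i]'(by omega) := rfl
    have e2 : (x :: y :: l)[2 * (i + 1) + 1] = l[2 * i + 1] := rfl
    rw [e1, e2]
    have m1 : l[2 * i]'(by omega) ∈ l := List.getElem_mem _
    have m2 : l[2 * i + 1] ∈ l := List.getElem_mem _
    rw [cp_cons_cons, cp_cons_cons, if_neg (basic_ne hx.2 m1), if_neg (basic_ne hy m1),
      if_neg (basic_ne hx.2 m2), if_neg (basic_ne hy m2)]
    exact ih

/-- the consecutive pairing in terms of indices -/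
theorem cp_getElem {l : List ℕ} (hl : l.Nodup) (he : Even l.length) (i : ℕ)
    (hi : 2 * i + 1 < l.length) :
    cp l (l[2 * i]'(by omega)) = l[2 * i + 1] ∧ cp l (l[2 * i + 1]) = l[2 * i]'(by omega) :=
  basic_cp_getElem l hl he i hi

theorem Sw.refl (M : ℕ → ℕ) : Sw M M := Or.inl rfl

theorem sw_apply (M : ℕ → ℕ) (a b v : ℕ) : sw M a b v =
    if v = a then b else if v = b then a else if v = M a then M b else
      if v = M b then M a else M v := rfl

/-- The values of a switch. -/
theorem sw_values {M : ℕ → ℕ} (hM : ∀ v, M (M v) = v) {a b : ℕ} (ha : M a ≠ a)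
    (hb : M b ≠ b) (hab : a ≠ b) (hab' : M a ≠ b) :
    sw M a b a = b ∧ sw M a b b = a ∧ sw M a b (M a) = M b ∧ sw M a b (M b) = M a ∧
      ∀ v, v ≠ a → v ≠ b → v ≠ M a → v ≠ M b → sw M a b v = M v := by
  have h1 : M b ≠ a := fun h => hab' (by rw [← h, hM])
  have h2 : M a ≠ M b := fun h => hab (by rw [← hM a, h, hM])
  refine ⟨?_, ?_, ?_, ?_, ?_⟩
  · rw [sw_apply, if_pos rfl]
  · rw [sw_apply, if_neg (Ne.symm hab), if_pos rfl]
  · rw [sw_apply, if_neg ha, if_neg hab', if_pos rfl]
  · rw [sw_apply, if_neg h1, if_neg hb, if_neg (Ne.symm h2), if_pos rfl]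
  · intro v g1 g2 g3 g4
    rw [sw_apply, if_neg g1, if_neg g2, if_neg g3, if_neg g4]

theorem sw_invol {M : ℕ → ℕ} (hM : ∀ v, M (M v) = v) {a b : ℕ} (ha : M a ≠ a)
    (hb : M b ≠ b) (hab : a ≠ b) (hab' : M a ≠ b) (v : ℕ) : sw M a b (sw M a b v) = v := by
  obtain ⟨v1, v2, v3, v4, v5⟩ := sw_values hM ha hb hab hab'
  by_cases g1 : v = a
  · rw [g1, v1, v2]
  by_cases g2 : v = b
  · rw [g2, v2, v1]
  by_cases g3 : v = M a
  · rw [g3, v3, v4]
  by_cases g4 : v = M b
  · rw [g4, v4, v3]
  rw [v5 v g1 g2 g3 g4, v5 (M v), hM]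
  · exact fun h => g3 (by rw [← h, hM])
  · exact fun h => g4 (by rw [← h, hM])
  · exact fun h => g1 (by rw [← hM v, h, hM])
  · exact fun h => g2 (by rw [← hM v, h, hM])

/-- switches can be undone -/
theorem Sw.symm {M M' : ℕ → ℕ} (hM : ∀ v, M (M v) = v) (h : Sw M M') : Sw M' M := by
  rcases h with rfl | ⟨a, b, ha, hb, hab, hab', rfl⟩
  · exact Or.inl rfl
  · obtain ⟨v1, v2, v3, v4, v5⟩ := sw_values hM ha hb hab hab'
    have h1 : M b ≠ a := fun h => hab' (by rw [← h, hM])
    have h2 : M a ≠ M b := fun h => hab (by rw [← hM a, h, hM])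
    have hb' : sw M a b (M a) ≠ M a := by rw [v3]; exact Ne.symm h2
    have ha' : sw M a b a ≠ a := by rw [v1]; exact Ne.symm hab
    have hab2 : sw M a b a ≠ M a := by rw [v1]; exact Ne.symm hab'
    obtain ⟨w1, w2, w3, w4, w5⟩ :=
      sw_values (sw_invol hM ha hb hab hab') ha' hb' (Ne.symm ha) hab2
    rw [v1, v3] at w3 w4 w5
    refine Or.inr ⟨a, M a, ha', hb', Ne.symm ha, hab2, ?_⟩
    funext v
    by_cases g1 : v = a
    · rw [g1, w1]
    by_cases g2 : v = M a
    · rw [g2, w2, hM]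
    by_cases g3 : v = b
    · rw [g3, w3]
    by_cases g4 : v = M b
    · rw [g4, w4, hM]
    rw [w5 v g1 g2 g3 g4, v5 v g1 g3 g2 g4]

theorem Flip.mono {l : List ℕ} {B B' L L' : ℕ} (h : Flip D loc l B L) (hB : B ≤ B')
    (hL : L ≤ L') : Flip D loc l B' L' := by
  obtain ⟨N, N', h0, h0', hL1, hL1', hp, hs, hb, hc⟩ := h
  refine ⟨fun t => N (min t L), fun t => N' (min t L), ?_, ?_, ?_, ?_, ?_, ?_, ?_, ?_⟩
  · change N (min 0 L) = _
    rw [Nat.zero_min, h0]
  · change N' (min 0 L) = _
    rw [Nat.zero_min, h0']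
  · change N (min L' L) = _
    rw [min_eq_right hL, hL1]
  · change N' (min L' L) = _
    rw [min_eq_right hL, hL1']
  · exact fun t _ => hp _ (min_le_right _ _)
  · intro t _
    by_cases h : t < L
    · have e1 : min t L = t := min_eq_left h.le
      have e2 : min (t + 1) L = t + 1 := min_eq_left h
      change Sw (N (min t L)) (N (min (t + 1) L)) ∧ Sw (N' (min t L)) (N' (min (t + 1) L))
      rw [e1, e2]
      exact hs t h
    · have e1 : min t L = L := min_eq_right (not_lt.1 h)
      have e2 : min (t + 1) L = L := min_eq_right ((not_lt.1 h).trans (Nat.le_succ t))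
      change Sw (N (min t L)) (N (min (t + 1) L)) ∧ Sw (N' (min t L)) (N' (min (t + 1) L))
      rw [e1, e2]
      exact ⟨Sw.refl _, Sw.refl _⟩
  · exact fun t _ => (hb _ (min_le_right _ _)).trans hB
  · exact fun t _ => hc _ (min_le_right _ _)

theorem basic_rotate_rotate {l : List ℕ} (hl : l.Nodup) (he : Even l.length) :
    cp ((l.rotate 1).rotate 1) = cp l := by
  rw [List.rotate_rotate]
  exact cp_rotate_two hl he

theorem basic_cost_symm (l l' : List ℕ) (h : l.Perm l') (f f' : ℕ → ℕ) :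
    cost D loc l f f' = cost D loc l' f' f := by
  unfold cost
  rw [(h.map _).sum_eq]
  congr 1
  refine List.map_congr_left fun v _ => ?_
  rw [add_comm]

/-- rotation by one exchanges the two matchings -/
theorem Flip.of_rotate_one {l : List ℕ} (hl : l.Nodup) (he : Even l.length) {B L : ℕ}
    (h : Flip D loc (l.rotate 1) B L) : Flip D loc l B L := by
  obtain ⟨N, N', h0, h0', hL1, hL1', hp, hs, hb, hc⟩ := h
  rw [basic_rotate_rotate hl he] at h0' hL1 hb hc
  have hperm : l.Perm (l.rotate 1) := (List.rotate_perm l 1).symm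
  refine ⟨N', N, h0', h0, hL1', hL1, ?_, ?_, ?_, ?_⟩
  · intro t ht
    have h1 := hp t ht
    exact ⟨⟨h1.2.1, fun v => (h1.2.2 v).trans List.mem_rotate⟩,
      ⟨h1.1.1, fun v => (h1.1.2 v).trans List.mem_rotate⟩⟩
  · exact fun t ht => ⟨(hs t ht).2, (hs t ht).1⟩
  · intro t ht
    refine le_trans (le_of_eq ?_) (hb t ht)
    rw [(hperm.filter _).length_eq]
    congr 1
    refine List.filter_congr fun v _ => ?_
    rw [decide_eq_decide]
    unfold Bad
    (clear * -; tauto)
  · intro t ht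
    rw [basic_cost_symm l (l.rotate 1) hperm (N' t) (N t),
      basic_cost_symm l (l.rotate 1) hperm (cp l) (cp (l.rotate 1))]
    exact hc t ht

theorem Flip.of_rotate {l : List ℕ} (hl : l.Nodup) (he : Even l.length) {B L : ℕ} (r : ℕ)
    (h : Flip D loc (l.rotate r) B L) : Flip D loc l B L := by
  induction r with
  | zero => rwa [List.rotate_zero] at h
  | succ r ih =>
    refine ih (Flip.of_rotate_one (List.nodup_rotate.2 hl) ?_ ?_)
    · rw [List.length_rotate]
      exact he
    · rwa [List.rotate_rotate]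

/-- a cycle of length two -/
theorem flip_two {x y : ℕ} (hxy : x ≠ y) : Flip D loc [x, y] 0 0 := by
  have h1 : cp ([x, y].rotate 1) = cp [x, y] := by
    change cp [y, x] = cp [x, y]
    funext v
    rw [cp_cons_cons, cp_cons_cons]
    by_cases h2 : v = x
    · rw [if_pos h2, if_neg (fun h => hxy (by rw [← h2, h])), if_pos h2]
    · rw [if_neg h2, if_neg h2]
  have h2 : PairOn [x, y] (cp [x, y]) := cp_pairOn (by simp [hxy]) (by simp only [List.length_cons, List.length_nil, zero_add, Nat.reduceAdd, even_two])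
  refine ⟨fun _ => cp [x, y], fun _ => cp [x, y], rfl, h1.symm, h1.symm, rfl,
    fun _ _ => ⟨h2, h2⟩, fun t ht => absurd ht (Nat.not_lt_zero t), fun t _ => ?_, fun t _ => ?_⟩
  · rw [h1, Nat.le_zero, List.length_eq_zero_iff, List.filter_eq_nil_iff]
    intro v _
    simp [Bad]
  · rw [h1]

end Vale.Agent.P308.Split
end

section

/-! # H2: balanced cut of a cyclic sequence of labels

PROOF. Cut the cyclic sequence at all crossing places (consecutive labels, cyclically) into pieces; each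
piece is constant with a label `some j` (length at most half) or a single `none`. There are at
least two pieces. If a piece has length `≥ m/3` take it as `A1` (length `≤ m/2`); otherwise add
consecutive pieces until the length is `≥ m/3`, it is then `< 2m/3`. -/

namespace Vale.Agent.P308.Split

/-- Two cut positions at a distance between one and two thirds of the period. -/
theorem cut_numbers (X : ℕ → Prop) (m : ℕ) (hm : 0 < m) (hper : ∀ i, X (i + m) ↔ X i)
    (i₀ : ℕ) (h0 : X i₀)
    (hgap : ∀ i d, 0 < d → X i → X (i + d) → (∀ t, 0 < t → t < d → ¬ X (i + t)) → 2 * d ≤ m) :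
    ∃ i d, X i ∧ X (i + d) ∧ m ≤ 3 * d ∧ 3 * d ≤ 2 * m := by
  classical
  -- the last cut position in the first third
  obtain ⟨t, ht, ht3, hmax⟩ : ∃ t, X (i₀ + t) ∧ 3 * t < m ∧
      ∀ s, t < s → X (i₀ + s) → m ≤ 3 * s := by
    have hex : ∃ t, t ≤ m ∧ (X (i₀ + t) ∧ 3 * t < m) := ⟨0, Nat.zero_le _, h0, by omega⟩
    refine ⟨Nat.findGreatest (fun t => X (i₀ + t) ∧ 3 * t < m) m, ?_, ?_, ?_⟩
    · exact (Nat.findGreatest_spec (P := fun t => X (i₀ + t) ∧ 3 * t < m) (Nat.zero_le m)
        ⟨h0, by omega⟩).1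
    · exact (Nat.findGreatest_spec (P := fun t => X (i₀ + t) ∧ 3 * t < m) (Nat.zero_le m)
        ⟨h0, by omega⟩).2
    · intro s hs hX
      by_contra hcon
      have h1 : s ≤ m := by (clear * - hex hcon; omega)
      exact Nat.findGreatest_is_greatest hs h1 ⟨hX, by omega⟩
  -- the next cut position
  have hex : ∃ s, t < s ∧ X (i₀ + s) := ⟨m, by omega, (hper i₀).2 h0⟩
  obtain ⟨hs1, hs2⟩ := Nat.find_spec hex
  have hsm : Nat.find hex ≤ m := Nat.find_min' hex ⟨by omega, (hper i₀).2 h0⟩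
  have hs3 := hmax _ hs1 hs2
  have hmin : ∀ u, u < Nat.find hex → ¬ (t < u ∧ X (i₀ + u)) := fun u hu => Nat.find_min hex hu
  obtain ⟨s, hs⟩ : ∃ s, s = Nat.find hex := ⟨_, rfl⟩
  rw [← hs] at hs1 hs2 hsm hs3 hmin
  by_cases h : 3 * s ≤ 2 * m
  · exact ⟨i₀, s, h0, hs2, hs3, h⟩
  · have h2 : X (i₀ + t + (s - t)) := by
      rwa [show i₀ + t + (s - t) = i₀ + s by (clear * - hex hs1 hs; omega)]
    have h3 : 2 * (s - t) ≤ m := by
      refine hgap (i₀ + t) (s - t) (by omega) ht h2 fun u hu1 hu2 hX => ?_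
      refine hmin (t + u) (by omega) ⟨by omega, ?_⟩
      rwa [← Nat.add_assoc]
    exact ⟨i₀ + t, s - t, ht, h2, by (clear * - ht3 hex hs1 hs h; omega), by omega⟩

theorem balanced_cut {κ : Type} [DecidableEq κ] (c : ℕ → Option κ) (l : List ℕ)
    (hl : 2 ≤ l.length)
    (hhalf : ∀ j : κ, 2 * (l.filter fun p => c p = some j).length ≤ l.length) :
    ∃ (r : ℕ) (A1 A2 : List ℕ) (h1 : A1 ≠ []) (h2 : A2 ≠ []), l.rotate r = A1 ++ A2 ∧
      l.length ≤ 3 * A1.length ∧ 3 * A1.length ≤ 2 * l.length ∧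
      Cr c (A1.getLast h1) (A2.head h2) ∧ Cr c (A2.getLast h2) (A1.head h1) := by
  classical
  obtain ⟨m, hm⟩ : ∃ m, m = l.length := ⟨_, rfl⟩
  have hm0 : 0 < l.length := by omega
  let g : ℕ → ℕ := fun i => l[i % l.length]'(Nat.mod_lt _ hm0)
  have hg : ∀ i, g (i + l.length) = g i := fun i => by
    simp only [Nat.add_mod_right, g]
  let X : ℕ → Prop := fun i => Cr c (g i) (g (i + 1))
  have hper : ∀ i, X (i + l.length) ↔ X i := fun i => by
    show Cr c (g (i + l.length)) (g (i + l.length + 1)) ↔ Cr c (g i) (g (i + 1))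
    rw [hg, show i + l.length + 1 = i + 1 + l.length by omega, hg]
  have hnX : ∀ i, ¬ X i → c (g i) ≠ none ∧ c (g (i + 1)) = c (g i) := fun i hi => by
    have h1 : ¬ (c (g i) = none ∨ c (g (i + 1)) = none ∨ c (g i) ≠ c (g (i + 1))) := hi
    push Not at h1
    exact ⟨h1.1, h1.2.2.symm⟩
  -- a constant block of labels is short
  have hblock : ∀ i d, d ≤ l.length → 0 < d → c (g (i + 1)) ≠ none →
      (∀ t, t < d → c (g (i + 1 + t)) = c (g (i + 1))) → 2 * d ≤ l.length := by
    intro i d hd hd0 hnone hconst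
    obtain ⟨j, hj⟩ := Option.ne_none_iff_exists'.1 hnone
    have h1 : ((l.rotate (i + 1)).filter fun p => c p = some j).length =
        (l.filter fun p => c p = some j).length :=
      ((List.rotate_perm l (i + 1)).filter _).length_eq
    have h2 : d ≤ ((l.rotate (i + 1)).filter fun p => c p = some j).length := by
      have h3 : (((l.rotate (i + 1)).take d).filter fun p => c p = some j).length = d := by
        rw [List.filter_eq_self.2, List.length_take, List.length_rotate]
        · (clear * - hm hd; omega)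
        · intro a ha
          obtain ⟨k, hk, rfl⟩ := List.getElem_of_mem ha
          rw [List.length_take, List.length_rotate] at hk
          rw [List.getElem_take, List.getElem_rotate]
          have h4 := hconst k (by omega)
          rw [hj] at h4
          have h5 : c (l[(k + (i + 1)) % l.length]'(Nat.mod_lt _ hm0)) = some j := by
            rw [← h4, Nat.add_comm k (i + 1)]
          simp [h5]
      calc d = (((l.rotate (i + 1)).take d).filter fun p => c p = some j).length := h3.symm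
        _ ≤ _ := ((List.take_sublist _ _).filter _).length_le
    have h3 := hhalf j
    omega
  -- there is a cut
  obtain ⟨i₀, hi₀⟩ : ∃ i, X i := by
    by_contra hcon
    push Not at hcon
    have h1 : ∀ t, c (g (0 + 1 + t)) = c (g (0 + 1)) := by
      intro t
      induction t with
      | zero => rfl
      | succ t ih =>
        rw [← ih]
        exact (hnX (0 + 1 + t) (hcon _)).2
    have h2 := hblock 0 l.length le_rfl hm0 (hnX (0 + 1) (hcon _)).1 fun t _ => h1 t
    (clear * - hl hm h2; omega)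
  -- gaps are short
  have hgap : ∀ i d, 0 < d → X i → X (i + d) → (∀ t, 0 < t → t < d → ¬ X (i + t)) →
      2 * d ≤ l.length := by
    intro i d hd hXi hXd hno
    have hdm : d ≤ l.length := by
      by_contra hcon
      exact hno l.length hm0 (by omega) ((hper i).2 hXi)
    by_cases hd1 : d = 1
    · omega
    · refine hblock i d hdm hd (hnX (i + 1) (hno 1 Nat.one_pos (by omega))).1 ?_
      intro t
      induction t with
      | zero => intro _; rfl
      | succ t ih =>
        intro ht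
        rw [← ih (by omega)]
        have h1 := hno (1 + t) (by omega) (by omega)
        rw [← Nat.add_assoc] at h1
        exact (hnX (i + 1 + t) h1).2
  obtain ⟨i, d, hXi, hXd, hd1, hd2⟩ := cut_numbers X l.length hm0 hper i₀ hi₀ hgap
  have hlen : (l.rotate (i + 1)).length = l.length := List.length_rotate ..
  have hA1 : ((l.rotate (i + 1)).take d).length = d := by
    rw [List.length_take, hlen]
    (clear * - hl hm hd2 hlen; omega)
  have hA2 : ((l.rotate (i + 1)).drop d).length = l.length - d := by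
    rw [List.length_drop, hlen]
  have hne1 : (l.rotate (i + 1)).take d ≠ [] := by
    intro h
    rw [h] at hA1
    simp at hA1
    omega
  have hne2 : (l.rotate (i + 1)).drop d ≠ [] := by
    intro h
    rw [h] at hA2
    simp only [List.length_nil] at hA2
    omega
  have hget : ∀ k (hk : k < (l.rotate (i + 1)).length), (l.rotate (i + 1))[k] = g (i + 1 + k) := by
    intro k hk
    rw [List.getElem_rotate]
    simp only [g, Nat.add_comm k (i + 1)]
  refine ⟨i + 1, _, _, hne1, hne2, (List.take_append_drop d _).symm, ?_, ?_, ?_, ?_⟩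
  · rw [hA1]
    exact hd1
  · rw [hA1]
    exact hd2
  · have h1 : ((l.rotate (i + 1)).take d).getLast hne1 = g (i + d) := by
      rw [List.getLast_eq_getElem, List.getElem_take, hget]
      congr 1
      rw [hA1]
      omega
    have h2 : ((l.rotate (i + 1)).drop d).head hne2 = g (i + d + 1) := by
      rw [List.head_eq_getElem, List.getElem_drop, hget]
      congr 1
      (clear * - hm0 hne1; omega)
    rw [h1, h2]
    exact hXd
  · have h1 : ((l.rotate (i + 1)).drop d).getLast hne2 = g i := by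
      rw [List.getLast_eq_getElem, List.getElem_drop, hget, ← hg i]
      congr 1
      rw [hA2]
      omega
    have h2 : ((l.rotate (i + 1)).take d).head hne1 = g (i + 1) := by
      rw [List.head_eq_getElem, List.getElem_take, hget]
    rw [h1, h2]
    exact hXi

end Vale.Agent.P308.Split
end

section

/-! # H3: the case of two even arcs

`l = A1 ++ A2` with even arcs. `cp l = cp A1` on `A1` and `cp A2` on `A2`. `cp (l.rotate 1)` contains the
two ge_junction pairs `{last A1, head A2}`, `{last A2, head A1}`; switching them gives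
`cp (A1.rotate 1)` on `A1`, `cp (A2.rotate 1)` on `A2` (pairs `{last A1, head A1}`,
`{last A2, head A2}`), which does not increase the cost since the ge_junction pairs pass through `c`:
`d(last A1, head A1) + d(last A2, head A2) ≤ d(last A1,c) + d(c,head A1) + ...`.
Schedule: step 1: `N` stays, `N'` is switched; then the steps of the flip of `A1` (on `A2` the pair
`(cp A2, cp (A2.rotate 1))` stays), then those of `A2`, finally `N` is switched to
`cp (l.rotate 1)`, `N'` stays `cp A1 ∪ cp A2 = cp l`. Bad labels: the four ge_junction labels and the bad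
labels of the arc in progress. -/

namespace Vale.Agent.P308.Split

variable {W : Type} {D : TreeD W} {loc : ℕ → W}

def ge_comb (A : List ℕ) (f g : ℕ → ℕ) : ℕ → ℕ := fun v => if v ∈ A then f v else g v

theorem ge_comb_mem {A : List ℕ} {f g : ℕ → ℕ} {v : ℕ} (h : v ∈ A) : ge_comb A f g v = f v :=
  if_pos h

theorem ge_comb_notMem {A : List ℕ} {f g : ℕ → ℕ} {v : ℕ} (h : v ∉ A) :
    ge_comb A f g v = g v := if_neg h

theorem ge_pairOn_mem {l : List ℕ} {f : ℕ → ℕ} (h : PairOn l f) {v : ℕ} (hv : v ∈ l) :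
    f v ∈ l := by
  have h1 := (h.2 v).2 hv
  refine (h.2 (f v)).1 ?_
  rw [h.1 v]
  exact h1.symm

theorem ge_comb_pairOn {A1 A2 : List ℕ} {f g : ℕ → ℕ} (hd : ∀ v ∈ A1, v ∉ A2)
    (hf : PairOn A1 f) (hg : PairOn A2 g) : PairOn (A1 ++ A2) (ge_comb A1 f g) := by
  refine ⟨fun v => ?_, fun v => ?_⟩
  · by_cases h1 : v ∈ A1
    · rw [ge_comb_mem h1, ge_comb_mem (ge_pairOn_mem hf h1), hf.1]
    · rw [ge_comb_notMem h1]
      by_cases h2 : v ∈ A2
      · rw [ge_comb_notMem (fun h => hd _ h (ge_pairOn_mem hg h2)), hg.1]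
      · have h3 : g v = v := by
          by_contra h
          exact h2 ((hg.2 v).1 h)
        rw [h3, ge_comb_notMem h1, h3]
  · rw [List.mem_append]
    by_cases h1 : v ∈ A1
    · rw [ge_comb_mem h1, hf.2 v]
      tauto
    · rw [ge_comb_notMem h1, hg.2 v]
      (clear * - h1; tauto)

theorem ge_comb_sw_left {A1 : List ℕ} {f f' g : ℕ → ℕ} (hf : PairOn A1 f) (h : Sw f f') :
    Sw (ge_comb A1 f g) (ge_comb A1 f' g) := by
  rcases h with rfl | ⟨a, b, ha, hb, hab, hab', rfl⟩
  · exact Sw.refl _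
  · have ma : a ∈ A1 := (hf.2 a).1 ha
    have mb : b ∈ A1 := (hf.2 b).1 hb
    have mfa := ge_pairOn_mem hf ma
    have mfb := ge_pairOn_mem hf mb
    refine Or.inr ⟨a, b, ?_, ?_, hab, ?_, ?_⟩
    · rwa [ge_comb_mem ma]
    · rwa [ge_comb_mem mb]
    · rwa [ge_comb_mem ma]
    · funext v
      unfold sw
      rw [ge_comb_mem ma, ge_comb_mem mb]
      by_cases hv : v ∈ A1
      · rw [ge_comb_mem hv, ge_comb_mem hv]
      · have v1 : v ≠ a := fun h => hv (h ▸ ma)
        have v2 : v ≠ b := fun h => hv (h ▸ mb)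
        have v3 : v ≠ f a := fun h => hv (h ▸ mfa)
        have v4 : v ≠ f b := fun h => hv (h ▸ mfb)
        rw [ge_comb_notMem hv, ge_comb_notMem hv, if_neg v1, if_neg v2, if_neg v3, if_neg v4]

theorem ge_comb_sw_right {A1 A2 : List ℕ} {f g g' : ℕ → ℕ} (hd : ∀ v ∈ A1, v ∉ A2)
    (hg : PairOn A2 g) (h : Sw g g') : Sw (ge_comb A1 f g) (ge_comb A1 f g') := by
  rcases h with rfl | ⟨a, b, ha, hb, hab, hab', rfl⟩
  · exact Sw.refl _
  · have ma : a ∈ A2 := (hg.2 a).1 ha
    have mb : b ∈ A2 := (hg.2 b).1 hb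
    have mfa := ge_pairOn_mem hg ma
    have mfb := ge_pairOn_mem hg mb
    have na : a ∉ A1 := fun h => hd _ h ma
    have nb : b ∉ A1 := fun h => hd _ h mb
    refine Or.inr ⟨a, b, ?_, ?_, hab, ?_, ?_⟩
    · rwa [ge_comb_notMem na]
    · rwa [ge_comb_notMem nb]
    · rwa [ge_comb_notMem na]
    · funext v
      unfold sw
      rw [ge_comb_notMem na, ge_comb_notMem nb]
      by_cases hv : v ∈ A1
      · have hv2 := hd _ hv
        have v1 : v ≠ a := fun h => hv2 (h ▸ ma)
        have v2 : v ≠ b := fun h => hv2 (h ▸ mb)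
        have v3 : v ≠ g a := fun h => hv2 (h ▸ mfa)
        have v4 : v ≠ g b := fun h => hv2 (h ▸ mfb)
        rw [ge_comb_mem hv, ge_comb_mem hv, if_neg v1, if_neg v2, if_neg v3, if_neg v4]
      · rw [ge_comb_notMem hv, ge_comb_notMem hv]

theorem ge_cost_append {A1 A2 : List ℕ} {f f' : ℕ → ℕ} :
    cost D loc (A1 ++ A2) f f' = cost D loc A1 f f' + cost D loc A2 f f' := by
  unfold cost
  rw [List.map_append, List.sum_append]

theorem ge_cost_congr {A : List ℕ} {f f' g g' : ℕ → ℕ} (h : ∀ v ∈ A, f v = g v)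
    (h' : ∀ v ∈ A, f' v = g' v) : cost D loc A f f' = cost D loc A g g' := by
  unfold cost
  refine congrArg List.sum (List.map_congr_left fun v hv => ?_)
  rw [h v hv, h' v hv]

theorem ge_cost_comb {A1 A2 : List ℕ} {f f' g g' : ℕ → ℕ} (hd : ∀ v ∈ A1, v ∉ A2) :
    cost D loc (A1 ++ A2) (ge_comb A1 f g) (ge_comb A1 f' g') =
      cost D loc A1 f f' + cost D loc A2 g g' := by
  rw [ge_cost_append]
  congr 1
  · exact ge_cost_congr (fun v hv => ge_comb_mem hv) fun v hv => ge_comb_mem hv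
  · exact ge_cost_congr (fun v hv => ge_comb_notMem fun h => hd _ h hv)
      fun v hv => ge_comb_notMem fun h => hd _ h hv

theorem ge_decomp {A : List ℕ} (h : A ≠ []) (he : Even A.length) :
    ∃ (a : ℕ) (u : List ℕ) (z : ℕ), A = a :: (u ++ [z]) ∧ Even u.length := by
  match A, h with
  | a :: A', _ =>
    have h1 : A' ≠ [] := by
      rintro rfl
      simp only [List.length_cons, List.length_nil, zero_add, Nat.not_even_one] at he
    refine ⟨a, A'.dropLast, A'.getLast h1, ?_, ?_⟩
    · rw [List.dropLast_append_getLast]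
    · have h2 : A'.length = A'.dropLast.length + 1 := by
        have := List.length_pos_iff.2 h1
        rw [List.length_dropLast]
        omega
      rw [List.length_cons, h2] at he
      rcases he with ⟨k, hk⟩
      exact ⟨k - 1, by omega⟩

theorem ge_cp_pair (x y v : ℕ) : cp [x, y] v = if v = x then y else if v = y then x else v :=
  rfl

theorem ge_cp_rot {a z : ℕ} {u : List ℕ} (hnd : (a :: (u ++ [z])).Nodup)
    (e : Even u.length) (v : ℕ) : cp ((a :: (u ++ [z])).rotate 1) v =
      if v ∈ u then cp u v else if v = z then a else if v = a then z else v := by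
  have e0 : (a :: (u ++ [z])).rotate 1 = u ++ [z, a] := by
    simp [List.rotate_cons_succ]
  have h0 : (u ++ [z, a]).Nodup := by
    rw [← e0, List.nodup_rotate]
    exact hnd
  rw [e0, cp_append h0 e, ge_cp_pair]

/-- the ge_junction pairing, by values -/
theorem ge_cp_rot_append {a1 z1 a2 z2 : ℕ} {u1 u2 : List ℕ}
    (hnd : ((a1 :: (u1 ++ [z1])) ++ (a2 :: (u2 ++ [z2]))).Nodup)
    (e1 : Even u1.length) (e2 : Even u2.length) (v : ℕ) :
    cp (((a1 :: (u1 ++ [z1])) ++ (a2 :: (u2 ++ [z2]))).rotate 1) v =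
      if v ∈ u1 then cp u1 v else if v = z1 then a2 else if v = a2 then z1 else
        if v ∈ u2 then cp u2 v else if v = z2 then a1 else if v = a1 then z2 else v := by
  have e0 : ((a1 :: (u1 ++ [z1])) ++ (a2 :: (u2 ++ [z2]))).rotate 1 =
      u1 ++ (z1 :: a2 :: (u2 ++ [z2, a1])) := by
    simp [List.rotate_cons_succ]
  have h0 : (u1 ++ (z1 :: a2 :: (u2 ++ [z2, a1]))).Nodup := by
    rw [← e0, List.nodup_rotate]
    exact hnd
  have h1 : (u2 ++ [z2, a1]).Nodup :=
    ((List.nodup_cons.1 (List.nodup_cons.1 (List.nodup_append.1 h0).2.1).2)).2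
  have h2 : cp (z1 :: a2 :: (u2 ++ [z2, a1])) v =
      if v = z1 then a2 else if v = a2 then z1 else cp (u2 ++ [z2, a1]) v := rfl
  rw [e0, cp_append h0 e1, h2, cp_append h1 e2, ge_cp_pair]

/-- `cp (l.rotate 1)` is obtained by switching at the junctions -/
theorem ge_junction {a1 z1 a2 z2 : ℕ} {u1 u2 : List ℕ}
    (hnd : ((a1 :: (u1 ++ [z1])) ++ (a2 :: (u2 ++ [z2]))).Nodup)
    (e1 : Even u1.length) (e2 : Even u2.length) :
    cp (((a1 :: (u1 ++ [z1])) ++ (a2 :: (u2 ++ [z2]))).rotate 1) =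
      sw (ge_comb (a1 :: (u1 ++ [z1])) (cp ((a1 :: (u1 ++ [z1])).rotate 1))
        (cp ((a2 :: (u2 ++ [z2])).rotate 1))) z1 a2 := by
  have n1 := (List.nodup_append.1 hnd).1
  have n2 := (List.nodup_append.1 hnd).2.1
  have hnd' := hnd
  simp only [List.cons_append, List.append_assoc, List.nodup_cons, List.nodup_append,
    List.mem_append, List.mem_cons, List.not_mem_nil, not_or, or_false, List.nodup_nil,
    List.nil_append, and_true, not_false_eq_true, true_and, ne_eq] at hnd'
  obtain ⟨⟨d1, d2, d3, d4, d5⟩, d6, ⟨⟨d7, d8, d9⟩, ⟨d10, d11⟩, d12, d13⟩, d14⟩ := hnd'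
  have d15 : z1 ∉ u1 := fun h => d14 _ h z1 (Or.inl rfl) rfl
  have d16 : a2 ∉ u1 := fun h => d14 _ h a2 (Or.inr (Or.inl rfl)) rfl
  have d17 : z2 ∉ u1 := fun h => d14 _ h z2 (Or.inr (Or.inr (Or.inr rfl))) rfl
  have d18 : z2 ∉ u2 := fun h => d13 _ h z2 rfl rfl
  have m1 : z1 ∈ a1 :: (u1 ++ [z1]) := by simp
  have m2 : a2 ∉ a1 :: (u1 ++ [z1]) := by
    simp only [List.mem_cons, List.mem_append, List.not_mem_nil, or_false, not_or]
    exact ⟨fun h => d3 h.symm, d16, fun h => d7 h.symm⟩
  have v1 : ge_comb (a1 :: (u1 ++ [z1])) (cp ((a1 :: (u1 ++ [z1])).rotate 1))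
        (cp ((a2 :: (u2 ++ [z2])).rotate 1)) z1 = a1 := by
    rw [ge_comb_mem m1, ge_cp_rot n1 e1, if_neg d15, if_pos rfl]
  have v2 : ge_comb (a1 :: (u1 ++ [z1])) (cp ((a1 :: (u1 ++ [z1])).rotate 1))
        (cp ((a2 :: (u2 ++ [z2])).rotate 1)) a2 = z2 := by
    rw [ge_comb_notMem m2, ge_cp_rot n2 e2, if_neg d10, if_neg d11, if_pos rfl]
  funext v
  unfold sw
  rw [v1, v2, ge_cp_rot_append hnd e1 e2]
  by_cases c1 : v ∈ u1
  · have x1 : v ≠ z1 := fun h => d15 (h ▸ c1)
    have x2 : v ≠ a2 := fun h => d16 (h ▸ c1)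
    have x3 : v ≠ a1 := fun h => d1 (h ▸ c1)
    have x4 : v ≠ z2 := fun h => d17 (h ▸ c1)
    have x5 : v ∈ a1 :: (u1 ++ [z1]) := by simp [c1]
    rw [if_pos c1, if_neg x1, if_neg x2, if_neg x3, if_neg x4, ge_comb_mem x5, ge_cp_rot n1 e1,
      if_pos c1]
  rw [if_neg c1]
  by_cases c2 : v = z1
  · rw [if_pos c2, if_pos c2]
  rw [if_neg c2, if_neg c2]
  by_cases c3 : v = a2
  · rw [if_pos c3, if_pos c3]
  rw [if_neg c3, if_neg c3]
  by_cases c4 : v ∈ u2
  · have x3 : v ≠ a1 := fun h => d4 (h ▸ c4)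
    have x4 : v ≠ z2 := fun h => d18 (h ▸ c4)
    have x5 : v ∉ a1 :: (u1 ++ [z1]) := by simp [c1, c2, x3]
    rw [if_pos c4, if_neg x3, if_neg x4, ge_comb_notMem x5, ge_cp_rot n2 e2, if_pos c4]
  rw [if_neg c4]
  by_cases c5 : v = z2
  · subst c5
    rw [if_pos rfl, if_neg (fun h => d5 h.symm), if_pos rfl]
  rw [if_neg c5]
  by_cases c6 : v = a1
  · rw [if_pos c6, if_pos c6]
  rw [if_neg c6, if_neg c6, if_neg c5]
  have x5 : v ∉ a1 :: (u1 ++ [z1]) := by simp [c1, c2, c6]
  rw [ge_comb_notMem x5, ge_cp_rot n2 e2, if_neg c4, if_neg c5, if_neg c3]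

/-- half of the cost -/
def ge_hc (D : TreeD W) (loc : ℕ → W) (A : List ℕ) (f : ℕ → ℕ) : ℤ :=
  (A.map fun v => D.d (loc v) (loc (f v))).sum

theorem ge_cost_eq {A : List ℕ} {f f' : ℕ → ℕ} :
    cost D loc A f f' = ge_hc D loc A f + ge_hc D loc A f' := by
  unfold cost ge_hc
  rw [List.sum_map_add]

theorem ge_hc_congr {A : List ℕ} {f g : ℕ → ℕ} (h : ∀ v ∈ A, f v = g v) :
    ge_hc D loc A f = ge_hc D loc A g := by
  unfold ge_hc
  refine congrArg List.sum (List.map_congr_left fun v hv => ?_)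
  rw [h v hv]

theorem ge_hc_split {a1 z1 a2 z2 : ℕ} {u1 u2 : List ℕ} {f : ℕ → ℕ} :
    ge_hc D loc ((a1 :: (u1 ++ [z1])) ++ (a2 :: (u2 ++ [z2]))) f =
      D.d (loc a1) (loc (f a1)) + ge_hc D loc u1 f + D.d (loc z1) (loc (f z1)) +
      D.d (loc a2) (loc (f a2)) + ge_hc D loc u2 f + D.d (loc z2) (loc (f z2)) := by
  unfold ge_hc
  simp only [List.map_append, List.map_cons, List.map_nil, List.sum_append, List.sum_cons,
    List.sum_nil, List.cons_append]
  ring

theorem ge_junction_cost {a1 z1 a2 z2 : ℕ} {u1 u2 : List ℕ}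
    (hnd : ((a1 :: (u1 ++ [z1])) ++ (a2 :: (u2 ++ [z2]))).Nodup)
    (e1 : Even u1.length) (e2 : Even u2.length) (c : W)
    (hc1 : D.d (loc z1) (loc a2) = D.d (loc z1) c + D.d c (loc a2))
    (hc2 : D.d (loc z2) (loc a1) = D.d (loc z2) c + D.d c (loc a1)) :
    ge_hc D loc ((a1 :: (u1 ++ [z1])) ++ (a2 :: (u2 ++ [z2])))
        (ge_comb (a1 :: (u1 ++ [z1])) (cp ((a1 :: (u1 ++ [z1])).rotate 1))
        (cp ((a2 :: (u2 ++ [z2])).rotate 1))) ≤
      ge_hc D loc ((a1 :: (u1 ++ [z1])) ++ (a2 :: (u2 ++ [z2])))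
        (cp (((a1 :: (u1 ++ [z1])) ++ (a2 :: (u2 ++ [z2]))).rotate 1)) := by
  have n1 := (List.nodup_append.1 hnd).1
  have n2 := (List.nodup_append.1 hnd).2.1
  have hnd' := hnd
  simp only [List.cons_append, List.append_assoc, List.nil_append, List.nodup_cons, List.mem_append, List.mem_cons, List.not_mem_nil, or_false, not_or, List.nodup_append, not_false_eq_true, List.nodup_nil, and_true, ne_eq, true_and] at hnd'
  obtain ⟨⟨d1, d2, d3, d4, d5⟩, d6, ⟨⟨d7, d8, d9⟩, ⟨d10, d11⟩, d12, d13⟩, d14⟩ := hnd'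
  have d15 : z1 ∉ u1 := fun h => d14 _ h z1 (Or.inl rfl) rfl
  have d16 : a2 ∉ u1 := fun h => d14 _ h a2 (Or.inr (Or.inl rfl)) rfl
  have d17 : z2 ∉ u1 := fun h => d14 _ h z2 (Or.inr (Or.inr (Or.inr rfl))) rfl
  have d18 : z2 ∉ u2 := fun h => d13 _ h z2 rfl rfl
  have d19 : ∀ v ∈ u2, v ∉ u1 := fun v h h' => d14 _ h' v (Or.inr (Or.inr (Or.inl h))) rfl
  have m1 : z1 ∈ a1 :: (u1 ++ [z1]) := by simp
  have m0 : a1 ∈ a1 :: (u1 ++ [z1]) := by simp
  have m2 : a2 ∉ a1 :: (u1 ++ [z1]) := by
    simp only [List.mem_cons, List.mem_append, List.not_mem_nil, or_false, not_or]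
    exact ⟨fun h => d3 h.symm, d16, fun h => d7 h.symm⟩
  have m3 : z2 ∉ a1 :: (u1 ++ [z1]) := by
    simp only [List.mem_cons, List.mem_append, List.not_mem_nil, or_false, not_or]
    exact ⟨fun h => d5 h.symm, d17, fun h => d9 h.symm⟩
  rw [ge_hc_split, ge_hc_split]
  have k1 : ge_hc D loc u1 (ge_comb (a1 :: (u1 ++ [z1])) (cp ((a1 :: (u1 ++ [z1])).rotate 1))
        (cp ((a2 :: (u2 ++ [z2])).rotate 1))) =
      ge_hc D loc u1 (cp (((a1 :: (u1 ++ [z1])) ++ (a2 :: (u2 ++ [z2]))).rotate 1)) := by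
    refine ge_hc_congr fun v hv => ?_
    have x5 : v ∈ a1 :: (u1 ++ [z1]) := by simp [hv]
    rw [ge_cp_rot_append hnd e1 e2, ge_comb_mem x5, ge_cp_rot n1 e1, if_pos hv, if_pos hv]
  have k2 : ge_hc D loc u2 (ge_comb (a1 :: (u1 ++ [z1])) (cp ((a1 :: (u1 ++ [z1])).rotate 1))
        (cp ((a2 :: (u2 ++ [z2])).rotate 1))) =
      ge_hc D loc u2 (cp (((a1 :: (u1 ++ [z1])) ++ (a2 :: (u2 ++ [z2]))).rotate 1)) := by
    refine ge_hc_congr fun v hv => ?_
    have y1 : v ≠ z1 := fun h => d8 (h ▸ hv)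
    have y2 : v ≠ a1 := fun h => d4 (h ▸ hv)
    have y3 : v ≠ a2 := fun h => d10 (h ▸ hv)
    have y4 := d19 v hv
    have x5 : v ∉ a1 :: (u1 ++ [z1]) := by simp [y1, y2, y4]
    rw [ge_cp_rot_append hnd e1 e2, ge_comb_notMem x5, ge_cp_rot n2 e2, if_pos hv, if_neg y4, if_neg y1,
      if_neg y3, if_pos hv]
  rw [k1, k2, ge_comb_mem m0, ge_comb_mem m1, ge_comb_notMem m2, ge_comb_notMem m3, ge_cp_rot n1 e1,
    ge_cp_rot n1 e1, ge_cp_rot n2 e2, ge_cp_rot n2 e2, ge_cp_rot_append hnd e1 e2, ge_cp_rot_append hnd e1 e2,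
    ge_cp_rot_append hnd e1 e2, ge_cp_rot_append hnd e1 e2]
  rw [if_neg d1, if_neg d2, if_pos rfl, if_neg d15, if_pos rfl, if_neg d10, if_neg d11,
    if_pos rfl, if_neg d18, if_pos rfl]
  have q1 := D.tri (loc a1) c (loc z1)
  have q2 := D.tri (loc z2) c (loc a2)
  have s1 := D.symm (loc a1) c
  have s2 := D.symm (loc z1) c
  have s3 := D.symm (loc a2) c
  have s4 := D.symm (loc z2) c
  have s5 := D.symm (loc a1) (loc z1)
  have s6 := D.symm (loc a2) (loc z2)
  have s7 := D.symm (loc a1) (loc z2)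
  have s8 := D.symm (loc a2) (loc z1)
  have f1 : ¬a2 = z1 := fun h => d7 h.symm
  have f2 : ¬z2 = z1 := fun h => d9 h.symm
  have f3 : ¬z2 = a2 := fun h => d11 h.symm
  simp only [if_neg d1, if_neg d2, if_neg d3, if_neg d4, if_neg d5, if_pos, if_neg d15, if_neg d16,
    if_neg f1, if_neg d17, if_neg f2, if_neg f3, if_neg d18]
  linarith only [hc1, hc2, q1, q2, s1, s2, s5, s6, s7, s8]

theorem ge_filter_le {l A J : List ℕ} {p q : ℕ → Prop} [DecidablePred p] [DecidablePred q]
    (hl : l.Nodup) (h : ∀ v ∈ l, p v → (v ∈ A ∧ q v) ∨ v ∈ J) :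
    (l.filter fun v => p v).length ≤ (A.filter fun v => q v).length + J.length := by
  rw [← List.length_append]
  refine ((hl.filter _).subperm ?_).length_le
  intro v hv
  rw [List.mem_filter] at hv
  rw [List.mem_append, List.mem_filter]
  rcases h v hv.1 (of_decide_eq_true hv.2) with h1 | h1
  · exact Or.inl ⟨h1.1, decide_eq_true h1.2⟩
  · exact Or.inr h1

theorem glue_even {A1 A2 : List ℕ} (hnd : (A1 ++ A2).Nodup) (h1 : A1 ≠ []) (h2 : A2 ≠ [])
    (e1 : Even A1.length) (e2 : Even A2.length) (c : W)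
    (hc1 : D.d (loc (A1.getLast h1)) (loc (A2.head h2)) =
      D.d (loc (A1.getLast h1)) c + D.d c (loc (A2.head h2)))
    (hc2 : D.d (loc (A2.getLast h2)) (loc (A1.head h1)) =
      D.d (loc (A2.getLast h2)) c + D.d c (loc (A1.head h1)))
    {B L1 L2 : ℕ} (f1 : Flip D loc A1 B L1) (f2 : Flip D loc A2 B L2) :
    Flip D loc (A1 ++ A2) (B + 4) (L1 + L2 + 2) := by
  have hd : ∀ v ∈ A1, v ∉ A2 := fun v hv hv' => (List.nodup_append.1 hnd).2.2 v hv v hv' rfl
  have n1 := (List.nodup_append.1 hnd).1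
  have n2 := (List.nodup_append.1 hnd).2.1
  have e12 : Even (A1 ++ A2).length := by
    rw [List.length_append]
    exact e1.add e2
  obtain ⟨a1, u1, z1, hA1, v1⟩ := ge_decomp h1 e1
  obtain ⟨a2, u2, z2, hA2, v2⟩ := ge_decomp h2 e2
  have g1 : A1.getLast h1 = z1 := by
    subst hA1
    rw [List.getLast_cons (by simp), List.getLast_append_singleton]
  have g2 : A2.getLast h2 = z2 := by
    subst hA2
    rw [List.getLast_cons (by simp), List.getLast_append_singleton]
  have g3 : A1.head h1 = a1 := by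
    subst hA1
    rfl
  have g4 : A2.head h2 = a2 := by
    subst hA2
    rfl
  rw [g1, g4] at hc1
  rw [g2, g3] at hc2
  have hnd' := hnd
  rw [hA1, hA2] at hnd'
  have J := ge_junction hnd' v1 v2
  have JC := ge_junction_cost (D := D) (loc := loc) hnd' v1 v2 c hc1 hc2
  rw [← hA1, ← hA2] at J JC
  -- the values needed for the switch
  have hz1 : ge_comb A1 (cp (A1.rotate 1)) (cp (A2.rotate 1)) z1 = a1 := by
    have m : z1 ∈ A1 := by rw [hA1]; simp
    rw [ge_comb_mem m, hA1, ge_cp_rot (hA1 ▸ n1) v1]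
    have : z1 ∉ u1 := by
      intro h
      have h3 := (List.nodup_append.1 ((List.nodup_cons.1 (hA1 ▸ n1)).2)).2.2
      exact h3 z1 h z1 (by simp) rfl
    rw [if_neg this, if_pos rfl]
  have ha2 : ge_comb A1 (cp (A1.rotate 1)) (cp (A2.rotate 1)) a2 = z2 := by
    have m : a2 ∈ A2 := by rw [hA2]; simp
    rw [ge_comb_notMem (fun h => hd _ h m), hA2, ge_cp_rot (hA2 ▸ n2) v2]
    have h3 := (List.nodup_cons.1 (hA2 ▸ n2)).1
    rw [List.mem_append, not_or] at h3
    rw [if_neg h3.1, if_neg (fun h => h3.2 (by simp [h])), if_pos rfl]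
  have hm_z1 : z1 ∈ A1 := by rw [hA1]; simp
  have hm_a1 : a1 ∈ A1 := by rw [hA1]; simp
  have hm_z2 : z2 ∈ A2 := by rw [hA2]; simp
  have hm_a2 : a2 ∈ A2 := by rw [hA2]; simp
  have hne1 : a1 ≠ z1 := by
    intro h
    have h3 := (List.nodup_cons.1 (hA1 ▸ n1)).1
    exact h3 (by simp [h])
  have hne2 : z2 ≠ a2 := by
    intro h
    have h3 := (List.nodup_cons.1 (hA2 ▸ n2)).1
    exact h3 (by simp [h])
  have hne3 : z1 ≠ a2 := fun h => hd _ hm_z1 (h ▸ hm_a2)
  have hne4 : a1 ≠ a2 := fun h => hd _ hm_a1 (h ▸ hm_a2)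
  have SW : Sw (ge_comb A1 (cp (A1.rotate 1)) (cp (A2.rotate 1))) (cp ((A1 ++ A2).rotate 1)) := by
    refine Or.inr ⟨z1, a2, ?_, ?_, hne3, ?_, J⟩
    · rw [hz1]; exact hne1
    · rw [ha2]; exact hne2
    · rw [hz1]; exact hne4
  obtain ⟨N1, N1', p1, p2, p3, p4, p5, p6, p7, p8⟩ := f1
  obtain ⟨N2, N2', r1, r2, r3, r4, r5, r6, r7, r8⟩ := f2
  have hcpl : cp (A1 ++ A2) = ge_comb A1 (cp A1) (cp A2) := by
    funext v
    rw [cp_append hnd e1]
    rfl
  have pr : PairOn (A1 ++ A2) (cp ((A1 ++ A2).rotate 1)) := by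
    have h3 := cp_pairOn (l := (A1 ++ A2).rotate 1) (List.nodup_rotate.2 hnd)
      (by rwa [List.length_rotate])
    exact ⟨h3.1, fun v => by rw [h3.2 v, List.mem_rotate]⟩
  have SW' : Sw (cp ((A1 ++ A2).rotate 1)) (ge_comb A1 (cp (A1.rotate 1)) (cp (A2.rotate 1))) := by
    refine Sw.symm ?_ SW
    have q1 : PairOn A1 (cp (A1.rotate 1)) := p2 ▸ (p5 0 (Nat.zero_le _)).2
    have q2 : PairOn A2 (cp (A2.rotate 1)) := r2 ▸ (r5 0 (Nat.zero_le _)).2
    exact (ge_comb_pairOn hd q1 q2).1
  have i0 : ∀ t, min (t - 1) L1 ≤ L1 := fun t => min_le_right _ _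
  have j0 : ∀ t, min (t - 1 - L1) L2 ≤ L2 := fun t => min_le_right _ _
  have PM : ∀ t, PairOn (A1 ++ A2) (ge_comb A1 (N1 (min (t - 1) L1)) (N2 (min (t - 1 - L1) L2))) :=
    fun t => ge_comb_pairOn hd (p5 _ (i0 t)).1 (r5 _ (j0 t)).1
  have PM' : ∀ t, PairOn (A1 ++ A2)
      (ge_comb A1 (N1' (min (t - 1) L1)) (N2' (min (t - 1 - L1) L2))) :=
    fun t => ge_comb_pairOn hd (p5 _ (i0 t)).2 (r5 _ (j0 t)).2
  have step : ∀ t, (min (t + 1 - 1) L1 = min (t - 1) L1 ∧
        min (t + 1 - 1 - L1) L2 = min (t - 1 - L1) L2) ∨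
      (min (t + 1 - 1) L1 = min (t - 1) L1 + 1 ∧ min (t - 1) L1 < L1 ∧
        min (t + 1 - 1 - L1) L2 = min (t - 1 - L1) L2) ∨
      (min (t + 1 - 1) L1 = min (t - 1) L1 ∧ min (t - 1 - L1) L2 < L2 ∧
        min (t + 1 - 1 - L1) L2 = min (t - 1 - L1) L2 + 1) := by
    intro t
    (clear * - h1 h2; omega)
  have SM : ∀ t, Sw (ge_comb A1 (N1 (min (t - 1) L1)) (N2 (min (t - 1 - L1) L2)))
      (ge_comb A1 (N1 (min (t + 1 - 1) L1)) (N2 (min (t + 1 - 1 - L1) L2))) := by
    intro t
    rcases step t with ⟨x1, x2⟩ | ⟨x1, x2, x3⟩ | ⟨x1, x2, x3⟩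
    · rw [x1, x2]
      exact Sw.refl _
    · rw [x1, x3]
      exact ge_comb_sw_left (p5 _ (i0 t)).1 (p6 _ x2).1
    · rw [x1, x3]
      exact ge_comb_sw_right hd (r5 _ (j0 t)).1 (r6 _ x2).1
  have SM' : ∀ t, Sw (ge_comb A1 (N1' (min (t - 1) L1)) (N2' (min (t - 1 - L1) L2)))
      (ge_comb A1 (N1' (min (t + 1 - 1) L1)) (N2' (min (t + 1 - 1 - L1) L2))) := by
    intro t
    rcases step t with ⟨x1, x2⟩ | ⟨x1, x2, x3⟩ | ⟨x1, x2, x3⟩
    · rw [x1, x2]
      exact Sw.refl _
    · rw [x1, x3]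
      exact ge_comb_sw_left (p5 _ (i0 t)).2 (p6 _ x2).2
    · rw [x1, x3]
      exact ge_comb_sw_right hd (r5 _ (j0 t)).2 (r6 _ x2).2
  -- bad labels of the combinations
  have BM : ∀ t, ((A1 ++ A2).filter fun v =>
      Bad (ge_comb A1 (N1 (min (t - 1) L1)) (N2 (min (t - 1 - L1) L2)))
        (ge_comb A1 (N1' (min (t - 1) L1)) (N2' (min (t - 1 - L1) L2)))
        (cp (A1 ++ A2)) (cp ((A1 ++ A2).rotate 1)) v).length ≤ B + 4 := by
    intro t
    have out : ∀ v, v ∉ [z1, a2, a1, z2] → cp ((A1 ++ A2).rotate 1) v =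
        ge_comb A1 (cp (A1.rotate 1)) (cp (A2.rotate 1)) v := by
      intro v hv
      simp only [List.mem_cons, List.not_mem_nil, or_false, not_or] at hv
      rw [J]
      unfold sw
      rw [hz1, ha2, if_neg hv.1, if_neg hv.2.1, if_neg hv.2.2.1, if_neg hv.2.2.2]
    by_cases ht : t ≤ L1 + 1
    · have y1 : min (t - 1 - L1) L2 = 0 := by (clear * - h1 h2 ht; omega)
      have y2 : min (t - 1) L1 ≤ L1 := i0 t
      refine le_trans (ge_filter_le (A := A1) (J := [z1, a2, a1, z2])
        (q := Bad (N1 (min (t - 1) L1)) (N1' (min (t - 1) L1)) (cp A1) (cp (A1.rotate 1)))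
        hnd ?_) ?_
      · intro v _ hb
        by_contra hcon
        rw [not_or, not_and'] at hcon
        obtain ⟨hcon1, hcon2⟩ := hcon
        unfold Bad at hb
        rw [out v hcon2, hcpl, y1, r1, r2] at hb
        by_cases hv : v ∈ A1
        · rw [ge_comb_mem hv, ge_comb_mem hv, ge_comb_mem hv, ge_comb_mem hv] at hb
          exact hcon1 hb hv
        · rw [ge_comb_notMem hv, ge_comb_notMem hv, ge_comb_notMem hv, ge_comb_notMem hv] at hb
          exact hb (Or.inl ⟨rfl, rfl⟩)
      · exact Nat.add_le_add (p7 _ y2) (by simp)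
    · have y1 : min (t - 1) L1 = L1 := by (clear * - h1 h2 ht; omega)
      refine le_trans (ge_filter_le (A := A2) (J := [z1, a2, a1, z2])
        (q := Bad (N2 (min (t - 1 - L1) L2)) (N2' (min (t - 1 - L1) L2)) (cp A2)
          (cp (A2.rotate 1))) hnd ?_) ?_
      · intro v hvl hb
        by_contra hcon
        rw [not_or, not_and'] at hcon
        obtain ⟨hcon1, hcon2⟩ := hcon
        unfold Bad at hb
        rw [out v hcon2, hcpl, y1, p3, p4] at hb
        by_cases hv : v ∈ A1
        · rw [ge_comb_mem hv, ge_comb_mem hv, ge_comb_mem hv, ge_comb_mem hv] at hb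
          exact hb (Or.inr ⟨rfl, rfl⟩)
        · rw [ge_comb_notMem hv, ge_comb_notMem hv, ge_comb_notMem hv, ge_comb_notMem hv] at hb
          exact hcon1 hb ((List.mem_append.1 hvl).resolve_left hv)
      · exact Nat.add_le_add (r7 _ (j0 t)) (by simp)
  have CM : ∀ t, cost D loc (A1 ++ A2)
      (ge_comb A1 (N1 (min (t - 1) L1)) (N2 (min (t - 1 - L1) L2)))
      (ge_comb A1 (N1' (min (t - 1) L1)) (N2' (min (t - 1 - L1) L2))) ≤
      cost D loc (A1 ++ A2) (cp (A1 ++ A2)) (cp ((A1 ++ A2).rotate 1)) := by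
    intro t
    rw [ge_cost_comb hd]
    refine (add_le_add (p8 _ (i0 t)) (r8 _ (j0 t))).trans ?_
    rw [← ge_cost_comb hd, ge_cost_eq, ge_cost_eq, hcpl]
    exact add_le_add le_rfl JC
  refine ⟨fun t => if t = L1 + L2 + 2 then cp ((A1 ++ A2).rotate 1) else
      ge_comb A1 (N1 (min (t - 1) L1)) (N2 (min (t - 1 - L1) L2)),
    fun t => if t = 0 then cp ((A1 ++ A2).rotate 1) else
      ge_comb A1 (N1' (min (t - 1) L1)) (N2' (min (t - 1 - L1) L2)), ?_, ?_, ?_, ?_, ?_, ?_, ?_, ?_⟩
  · have y1 : min (0 - 1) L1 = 0 := by omega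
    have y2 : min (0 - 1 - L1) L2 = 0 := by (clear * - h1 h2; omega)
    simp only [if_neg (show ¬(0 = L1 + L2 + 2) by omega)]
    rw [y1, y2, p1, r1, hcpl]
  · simp only [if_pos]
  · simp only [if_pos]
  · have y1 : min (L1 + L2 + 2 - 1) L1 = L1 := by omega
    have y2 : min (L1 + L2 + 2 - 1 - L1) L2 = L2 := by omega
    simp only [if_neg (show ¬(L1 + L2 + 2 = 0) by (clear * - h1 h2; omega))]
    rw [y1, y2, p4, r4, hcpl]
  · intro t _
    refine ⟨?_, ?_⟩
    · by_cases h : t = L1 + L2 + 2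
      · simp only [if_pos h]
        exact pr
      · simp only [if_neg h]
        exact PM t
    · by_cases h : t = 0
      · simp only [if_pos h]
        exact pr
      · simp only [if_neg h]
        exact PM' t
  · intro t ht
    refine ⟨?_, ?_⟩
    · simp only [if_neg (show ¬(t = L1 + L2 + 2) by omega)]
      by_cases h : t + 1 = L1 + L2 + 2
      · simp only [if_pos h]
        have y1 : min (t - 1) L1 = L1 := by (clear * - h1 h2 h; omega)
        have y2 : min (t - 1 - L1) L2 = L2 := by (clear * - h1 h2 h y1; omega)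
        rw [y1, y2, p3, r3]
        exact SW
      · simp only [if_neg h]
        exact SM t
    · simp only [if_neg (show ¬(t + 1 = 0) by omega)]
      by_cases h : t = 0
      · simp only [if_pos h]
        have y1 : min (t + 1 - 1) L1 = 0 := by omega
        have y2 : min (t + 1 - 1 - L1) L2 = 0 := by omega
        rw [y1, y2, p2, r2]
        exact SW'
      · simp only [if_neg h]
        exact SM' t
  · intro t _
    by_cases h : t = L1 + L2 + 2
    · have h0 : ¬(t = 0) := by omega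
      have y1 : min (t - 1) L1 = L1 := by (clear * - h1 h2 h; omega)
      have y2 : min (t - 1 - L1) L2 = L2 := by (clear * - h1 h2 h y1; omega)
      simp only [if_pos h, if_neg h0]
      rw [y1, y2, p4, r4, ← hcpl, List.filter_eq_nil_iff.2 ?_]
      · exact Nat.zero_le _
      · intro v _
        simp [Bad]
    · by_cases h0 : t = 0
      · have y1 : min (t - 1) L1 = 0 := by omega
        have y2 : min (t - 1 - L1) L2 = 0 := by (clear * - h1 h2 h0; omega)
        simp only [if_neg h, if_pos h0]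
        rw [y1, y2, p1, r1, ← hcpl, List.filter_eq_nil_iff.2 ?_]
        · exact Nat.zero_le _
        · intro v _
          simp [Bad]
      · simp only [if_neg h, if_neg h0]
        exact BM t
  · intro t _
    by_cases h : t = L1 + L2 + 2
    · have h0 : ¬(t = 0) := by omega
      have y1 : min (t - 1) L1 = L1 := by (clear * - h1 h2 h; omega)
      have y2 : min (t - 1 - L1) L2 = L2 := by (clear * - h1 h2 h y1; omega)
      simp only [if_pos h, if_neg h0]
      rw [y1, y2, p4, r4, ← hcpl, ge_cost_eq, ge_cost_eq, add_comm]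
    · by_cases h0 : t = 0
      · have y1 : min (t - 1) L1 = 0 := by omega
        have y2 : min (t - 1 - L1) L2 = 0 := by omega
        simp only [if_neg h, if_pos h0]
        rw [y1, y2, p1, r1, ← hcpl]
      · simp only [if_neg h, if_neg h0]
        exact CM t

end Vale.Agent.P308.Split
end

section

/-! # H4: the case of two odd arcs (ghost labels at the center)

`l = A1 ++ A2` with odd arcs, `z`, `z'` two new labels located at `c`. The cycles `A1 ++ [z]` and
`z' :: A2` are flipped one after the other. `glue f1 f2 z z'` is the pairing of `l` obtained from pairings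
`f1` of `A1 ++ [z]` and `f2` of `z' :: A2` by joining the partner of `z` with the partner of `z'`.
`glue (cp (A1 ++ [z])) (cp (z' :: A2)) = cp l` (partners `last A1`, `head A2`) and
`glue (cp ((A1 ++ [z]).rotate 1)) (cp ((z' :: A2).rotate 1)) = cp (l.rotate 1)` (partners `head A1`,
`last A2`). A switch of `f1` or `f2` is a switch of the glued pairing or leaves it equal. The cost of
the glued pairing is at most the sum of the costs (triangle inequality at `c`), with equality at the
beginning since the junction pairs pass through `c`. A label is bad for the glued pairings only if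
it is bad for one of the two cycles or is one of the four junction labels. -/

namespace Vale.Agent.P308.Split

variable {W : Type} {D : TreeD W} {loc : ℕ → W}

/-- join the partner of `z` with the partner of `z'` -/
def glue (f1 f2 : ℕ → ℕ) (z z' : ℕ) : ℕ → ℕ := fun v =>
  if v = z ∨ v = z' then v else if f1 v = z then f2 z' else if f2 v = z' then f1 z
  else if f1 v ≠ v then f1 v else f2 v

/-- hypotheses for glueing, symmetric in the two sides -/
structure GH (f1 f2 : ℕ → ℕ) (z z' : ℕ) (P1 P2 : ℕ → Prop) : Prop where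
  i1 : ∀ v, f1 (f1 v) = v
  i2 : ∀ v, f2 (f2 v) = v
  m1 : ∀ v, f1 v ≠ v ↔ (P1 v ∨ v = z)
  m2 : ∀ v, f2 v ≠ v ↔ (P2 v ∨ v = z')
  disj : ∀ v, P1 v → ¬ P2 v
  n1 : ¬ P1 z
  n1' : ¬ P1 z'
  n2 : ¬ P2 z
  n2' : ¬ P2 z'
  ne : z ≠ z'

namespace GH

variable {f1 f2 : ℕ → ℕ} {z z' : ℕ} {P1 P2 : ℕ → Prop}

theorem symm (h : GH f1 f2 z z' P1 P2) : GH f2 f1 z' z P2 P1 :=
  ⟨h.i2, h.i1, h.m2, h.m1, fun v h2 h1 => h.disj v h1 h2, h.n2', h.n2, h.n1', h.n1, h.ne.symm⟩

theorem fix1 (h : GH f1 f2 z z' P1 P2) {v : ℕ} (hv : ¬ P1 v) (hz : v ≠ z) : f1 v = v := by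
  by_contra hne
  rcases (h.m1 v).1 hne with h1 | h1
  · exact hv h1
  · exact hz h1

theorem fix2 (h : GH f1 f2 z z' P1 P2) {v : ℕ} (hv : ¬ P2 v) (hz : v ≠ z') : f2 v = v :=
  h.symm.fix1 hv hz

/-- the partner of `z` is in the first part -/
theorem pz (h : GH f1 f2 z z' P1 P2) : P1 (f1 z) := by
  have h1 : f1 z ≠ z := (h.m1 z).2 (Or.inr rfl)
  have h2 : f1 (f1 z) ≠ f1 z := by rw [h.i1]; exact h1.symm
  rcases (h.m1 _).1 h2 with h3 | h3
  · exact h3
  · exact absurd h3 h1

theorem pz' (h : GH f1 f2 z z' P1 P2) : P2 (f2 z') := h.symm.pz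

/-- partners of first part labels are in the first part or `z` -/
theorem part1 (h : GH f1 f2 z z' P1 P2) {v : ℕ} (hv : P1 v) (hz : f1 v ≠ z) : P1 (f1 v) := by
  have h1 : f1 v ≠ v := (h.m1 v).2 (Or.inl hv)
  have h2 : f1 (f1 v) ≠ f1 v := by rw [h.i1]; exact h1.symm
  rcases (h.m1 _).1 h2 with h3 | h3
  · exact h3
  · exact absurd h3 hz

theorem glue0 (h : GH f1 f2 z z' P1 P2) {v : ℕ} (hv : ¬ P1 v) (hv2 : ¬ P2 v) :
    glue f1 f2 z z' v = v := by
  unfold glue
  by_cases hz : v = z ∨ v = z'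
  · rw [if_pos hz]
  · have hz1 : v ≠ z := fun e => hz (Or.inl e)
    have hz2 : v ≠ z' := fun e => hz (Or.inr e)
    rw [if_neg hz, h.fix1 hv hz1, h.fix2 hv2 hz2, if_neg hz1, if_neg hz2]
    simp

theorem glue1 (h : GH f1 f2 z z' P1 P2) {v : ℕ} (hv : P1 v) :
    glue f1 f2 z z' v = if f1 v = z then f2 z' else f1 v := by
  unfold glue
  have hz1 : v ≠ z := by rintro rfl; exact h.n1 hv
  have hz2 : v ≠ z' := by rintro rfl; exact h.n1' hv
  have hf2 : f2 v = v := h.fix2 (h.disj v hv) hz2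
  have hm : f1 v ≠ v := (h.m1 v).2 (Or.inl hv)
  rw [if_neg (by (clear * - hz1 hz2; tauto)), hf2, if_neg hz2, if_pos hm]

theorem glue2 (h : GH f1 f2 z z' P1 P2) {v : ℕ} (hv : P2 v) :
    glue f1 f2 z z' v = if f2 v = z' then f1 z else f2 v := by
  unfold glue
  have hz1 : v ≠ z := by rintro rfl; exact h.n2 hv
  have hz2 : v ≠ z' := by rintro rfl; exact h.n2' hv
  have hf1 : f1 v = v := h.fix1 (fun h1 => h.disj v h1 hv) hz1
  rw [if_neg (by (clear * - hz1 hz2; tauto)), hf1, if_neg hz1]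
  simp

theorem glue_symm (h : GH f1 f2 z z' P1 P2) : glue f1 f2 z z' = glue f2 f1 z' z := by
  funext v
  by_cases h1 : P1 v
  · rw [h.glue1 h1, h.symm.glue2 h1]
  · by_cases h2 : P2 v
    · rw [h.glue2 h2, h.symm.glue1 h2]
    · rw [h.glue0 h1 h2, h.symm.glue0 h2 h1]

theorem glue_pz (h : GH f1 f2 z z' P1 P2) : glue f1 f2 z z' (f1 z) = f2 z' := by
  rw [h.glue1 h.pz, h.i1, if_pos rfl]

theorem glue_pz' (h : GH f1 f2 z z' P1 P2) : glue f1 f2 z z' (f2 z') = f1 z := by
  rw [h.glue2 h.pz', h.i2, if_pos rfl]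

theorem glue_inv1 (h : GH f1 f2 z z' P1 P2) {v : ℕ} (hv : P1 v) :
    glue f1 f2 z z' (glue f1 f2 z z' v) = v := by
  rw [h.glue1 hv]
  by_cases hz : f1 v = z
  · rw [if_pos hz, h.glue_pz', ← hz, h.i1]
  · rw [if_neg hz, h.glue1 (h.part1 hv hz), h.i1, if_neg]
    rintro rfl; exact h.n1 hv

theorem glue_inv (h : GH f1 f2 z z' P1 P2) (v : ℕ) :
    glue f1 f2 z z' (glue f1 f2 z z' v) = v := by
  by_cases h1 : P1 v
  · exact h.glue_inv1 h1
  · by_cases h2 : P2 v
    · rw [h.glue_symm]; exact h.symm.glue_inv1 h2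
    · rw [h.glue0 h1 h2, h.glue0 h1 h2]

theorem glue_moves1 (h : GH f1 f2 z z' P1 P2) {v : ℕ} (hv : P1 v) :
    glue f1 f2 z z' v ≠ v := by
  rw [h.glue1 hv]
  by_cases hz : f1 v = z
  · rw [if_pos hz]
    intro e
    exact h.disj v hv (e ▸ h.pz')
  · rw [if_neg hz]
    exact (h.m1 v).2 (Or.inl hv)

theorem glue_moves (h : GH f1 f2 z z' P1 P2) (v : ℕ) :
    glue f1 f2 z z' v ≠ v ↔ (P1 v ∨ P2 v) := by
  constructor
  · intro hne
    by_contra hc
    push Not at hc
    exact hne (h.glue0 hc.1 hc.2)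
  · rintro (h1 | h2)
    · exact h.glue_moves1 h1
    · rw [h.glue_symm]; exact h.symm.glue_moves1 h2

end GH


theorem sw_comm' {f : ℕ → ℕ} (hf : ∀ v, f (f v) = v) {a b : ℕ} (hab : a ≠ b) (hab' : f a ≠ b) :
    sw f a b = sw f b a := by
  have h1 : f a ≠ f b := fun e => hab (by rw [← hf a, e, hf b])
  funext v
  unfold sw
  by_cases c1 : v = a
  · subst c1; rw [if_pos rfl, if_neg hab, if_pos rfl]
  · rw [if_neg c1]
    by_cases c2 : v = b
    · subst c2; rw [if_pos rfl, if_pos rfl]
    · rw [if_neg c2, if_neg c2, if_neg c1]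
      by_cases c3 : v = f a
      · subst c3; rw [if_pos rfl, if_neg h1, if_pos rfl]
      · rw [if_neg c3, if_neg c3]

theorem sw_flip' {f : ℕ → ℕ} (hf : ∀ v, f (f v) = v) {a b : ℕ} (ha : f a ≠ a) (hb : f b ≠ b)
    (hab : a ≠ b) (hab' : f a ≠ b) : sw f a b = sw f (f a) (f b) := by
  have h1 : f a ≠ f b := fun e => hab (by rw [← hf a, e, hf b])
  have h2 : a ≠ f b := fun e => hab' (by rw [e, hf b])
  funext v
  unfold sw
  rw [hf a, hf b]
  by_cases c1 : v = a
  · subst c1; rw [if_pos rfl, if_neg ha.symm, if_neg h2, if_pos rfl]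
  · rw [if_neg c1]
    by_cases c2 : v = b
    · subst c2
      rw [if_pos rfl, if_neg hab'.symm, if_neg hb.symm, if_neg c1, if_pos rfl]
    · rw [if_neg c2, if_neg c1, if_neg c2]

namespace GH

variable {f1 f2 : ℕ → ℕ} {z z' : ℕ} {P1 P2 : ℕ → Prop}

/-- a switch not involving the pair of `z` -/
theorem glue_sw_far (h : GH f1 f2 z z' P1 P2) {a b : ℕ} (h' : GH (sw f1 a b) f2 z z' P1 P2)
    (ha : f1 a ≠ a) (hb : f1 b ≠ b) (hab : a ≠ b) (hab' : f1 a ≠ b)
    (za : z ≠ a) (za' : z ≠ f1 a) (zb : z ≠ b) (zb' : z ≠ f1 b) :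
    Sw (glue f1 f2 z z') (glue (sw f1 a b) f2 z z') := by
  have Pa : P1 a := ((h.m1 a).1 ha).resolve_right za.symm
  have Pb : P1 b := ((h.m1 b).1 hb).resolve_right zb.symm
  have ga : glue f1 f2 z z' a = f1 a := by rw [h.glue1 Pa, if_neg za'.symm]
  have gb : glue f1 f2 z z' b = f1 b := by rw [h.glue1 Pb, if_neg zb'.symm]
  have h1 : f1 a ≠ f1 b := fun e => hab (by rw [← h.i1 a, e, h.i1 b])
  refine Or.inr ⟨a, b, by rw [ga]; exact ha, by rw [gb]; exact hb, hab, by rw [ga]; exact hab', ?_⟩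
  have swz : sw f1 a b z = f1 z := by
    unfold sw; rw [if_neg za, if_neg zb, if_neg za', if_neg zb']
  funext v
  have hR : sw (glue f1 f2 z z') a b v = if v = a then b else if v = b then a else
      if v = f1 a then f1 b else if v = f1 b then f1 a else glue f1 f2 z z' v := by
    unfold sw; rw [ga, gb]
  have hS : sw f1 a b v = if v = a then b else if v = b then a else
      if v = f1 a then f1 b else if v = f1 b then f1 a else f1 v := rfl
  have Pa' : P1 (f1 a) := h.part1 Pa za'.symm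
  have Pb' : P1 (f1 b) := h.part1 Pb zb'.symm
  by_cases p1 : P1 v
  · rw [h'.glue1 p1, hS, hR, h.glue1 p1]
    by_cases c1 : v = a
    · rw [if_pos c1, if_neg zb.symm, if_pos c1]
    rw [if_neg c1, if_neg c1]
    by_cases c2 : v = b
    · rw [if_pos c2, if_neg za.symm, if_pos c2]
    rw [if_neg c2, if_neg c2]
    by_cases c3 : v = f1 a
    · rw [if_pos c3, if_neg zb'.symm, if_pos c3]
    rw [if_neg c3, if_neg c3]
    by_cases c4 : v = f1 b
    · rw [if_pos c4, if_neg za'.symm, if_pos c4]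
    rw [if_neg c4, if_neg c4]
  · have c1 : v ≠ a := by rintro rfl; exact p1 Pa
    have c2 : v ≠ b := by rintro rfl; exact p1 Pb
    have c3 : v ≠ f1 a := by rintro rfl; exact p1 Pa'
    have c4 : v ≠ f1 b := by rintro rfl; exact p1 Pb'
    rw [hR, if_neg c1, if_neg c2, if_neg c3, if_neg c4]
    by_cases p2 : P2 v
    · rw [h'.glue2 p2, h.glue2 p2, swz]
    · rw [h'.glue0 p1 p2, h.glue0 p1 p2]

/-- a switch involving `z` -/
theorem glue_sw_near (h : GH f1 f2 z z' P1 P2) {b : ℕ} (h' : GH (sw f1 z b) f2 z z' P1 P2)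
    (ha : f1 z ≠ z) (hb : f1 b ≠ b) (hab : z ≠ b) (hab' : f1 z ≠ b) :
    Sw (glue f1 f2 z z') (glue (sw f1 z b) f2 z z') := by
  have zb' : z ≠ f1 b := fun e => hab' (by rw [e, h.i1])
  have Pb : P1 b := ((h.m1 b).1 hb).resolve_right hab.symm
  have gb : glue f1 f2 z z' b = f1 b := by rw [h.glue1 Pb, if_neg zb'.symm]
  have gq := h.glue_pz'
  have gp := h.glue_pz
  have Pb' : P1 (f1 b) := h.part1 Pb zb'.symm
  have hqb : f2 z' ≠ b := fun e => h.disj b Pb (e ▸ h.pz')
  have hqb' : f2 z' ≠ f1 b := fun e => h.disj _ Pb' (e ▸ h.pz')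
  have hqp : f2 z' ≠ f1 z := fun e => h.disj _ h.pz (e ▸ h.pz')
  have h1 : f1 z ≠ f1 b := fun e => hab (by rw [← h.i1 z, e, h.i1 b])
  refine Or.inr ⟨f2 z', b, by rw [gq]; exact hqp.symm, by rw [gb]; exact hb, hqb,
    by rw [gq]; exact hab', ?_⟩
  have swz : sw f1 z b z = b := by
    unfold sw; rw [if_pos rfl]
  funext v
  have hR : sw (glue f1 f2 z z') (f2 z') b v = if v = f2 z' then b else if v = b then f2 z' else
      if v = f1 z then f1 b else if v = f1 b then f1 z else glue f1 f2 z z' v := by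
    unfold sw; rw [gq, gb]
  have hS : sw f1 z b v = if v = z then b else if v = b then z else
      if v = f1 z then f1 b else if v = f1 b then f1 z else f1 v := rfl
  by_cases p1 : P1 v
  · have c0 : v ≠ z := by rintro rfl; exact h.n1 p1
    have c0' : v ≠ f2 z' := by rintro rfl; exact h.disj _ p1 h.pz'
    rw [h'.glue1 p1, hS, hR, h.glue1 p1, if_neg c0, if_neg c0']
    by_cases c2 : v = b
    · rw [if_pos c2, if_pos rfl, if_pos c2]
    rw [if_neg c2, if_neg c2]
    by_cases c3 : v = f1 z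
    · rw [if_pos c3, if_neg zb'.symm, if_pos c3]
    rw [if_neg c3, if_neg c3]
    by_cases c4 : v = f1 b
    · rw [if_pos c4, if_neg ha, if_pos c4]
    rw [if_neg c4, if_neg c4]
  · have c2 : v ≠ b := by rintro rfl; exact p1 Pb
    have c3 : v ≠ f1 z := by rintro rfl; exact p1 h.pz
    have c4 : v ≠ f1 b := by rintro rfl; exact p1 Pb'
    rw [hR, if_neg c2, if_neg c3, if_neg c4]
    by_cases p2 : P2 v
    · rw [h'.glue2 p2, h.glue2 p2, swz]
      by_cases c5 : v = f2 z'
      · rw [if_pos c5, if_pos (by rw [c5, h.i2])]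
      · rw [if_neg c5]
        have c6 : f2 v ≠ z' := fun e => c5 (by rw [← e, h.i2])
        rw [if_neg c6, if_neg c6]
    · have c5 : v ≠ f2 z' := by rintro rfl; exact p2 h.pz'
      rw [if_neg c5, h'.glue0 p1 p2, h.glue0 p1 p2]

theorem glue_sw (h : GH f1 f2 z z' P1 P2) {a b : ℕ} (h' : GH (sw f1 a b) f2 z z' P1 P2)
    (ha : f1 a ≠ a) (hb : f1 b ≠ b) (hab : a ≠ b) (hab' : f1 a ≠ b) :
    Sw (glue f1 f2 z z') (glue (sw f1 a b) f2 z z') := by
  have i1 := h.i1
  have h1 : f1 a ≠ f1 b := fun e => hab (by rw [← i1 a, e, i1 b])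
  have h2 : a ≠ f1 b := fun e => hab' (by rw [e, i1 b])
  by_cases za : z = a
  · subst za; exact h.glue_sw_near h' ha hb hab hab'
  by_cases za' : z = f1 a
  · have e := sw_flip' i1 ha hb hab hab'
    rw [e] at h' ⊢
    rw [← za'] at h' ⊢
    have haz : f1 z = a := by rw [za', i1]
    refine h.glue_sw_near h' ?_ ?_ ?_ ?_
    · rw [haz]; exact fun e => za e.symm
    · rw [i1]; exact hb.symm
    · rw [za']; exact h1
    · rw [haz]; exact h2
  by_cases zb : z = b
  · subst zb
    rw [sw_comm' i1 hab hab'] at h' ⊢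
    exact h.glue_sw_near h' hb ha hab.symm h2.symm
  by_cases zb' : z = f1 b
  · have e := sw_flip' i1 hb ha hab.symm h2.symm
    rw [sw_comm' i1 hab hab', e] at h' ⊢
    rw [← zb'] at h' ⊢
    have haz : f1 z = b := by rw [zb', i1]
    refine h.glue_sw_near h' ?_ ?_ ?_ ?_
    · rw [haz]; exact fun e => zb e.symm
    · rw [i1]; exact ha.symm
    · rw [zb']; exact h1.symm
    · rw [haz]; exact hab'.symm
  exact h.glue_sw_far h' ha hb hab hab' za za' zb zb'

end GH


theorem GH.of_pairOn {A1 A2 : List ℕ} (hnd : (A1 ++ A2).Nodup) {z z' : ℕ} (hz : z ∉ A1 ++ A2)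
    (hz' : z' ∉ A1 ++ A2) (hzz : z ≠ z') {f1 f2 : ℕ → ℕ} (p1 : PairOn (A1 ++ [z]) f1)
    (p2 : PairOn (z' :: A2) f2) : GH f1 f2 z z' (· ∈ A1) (· ∈ A2) := by
  rw [List.mem_append, not_or] at hz hz'
  refine ⟨p1.1, p2.1, fun v => ?_, fun v => ?_, fun v h1 h2 => ?_, hz.1, hz'.1, hz.2, hz'.2, hzz⟩
  · rw [p1.2 v, List.mem_append, List.mem_singleton]
  · rw [p2.2 v, List.mem_cons]; (clear * - hz hz'; tauto)
  · exact (List.disjoint_of_nodup_append hnd) h1 h2

theorem GH.pairOn {A1 A2 : List ℕ} {z z' : ℕ} {f1 f2 : ℕ → ℕ}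
    (h : GH f1 f2 z z' (· ∈ A1) (· ∈ A2)) : PairOn (A1 ++ A2) (glue f1 f2 z z') :=
  ⟨h.glue_inv, fun v => by rw [h.glue_moves v, List.mem_append]⟩

theorem PairOn.mem {l : List ℕ} {f : ℕ → ℕ} (h : PairOn l f) {v : ℕ} (hv : v ∈ l) : f v ∈ l := by
  have h1 : f v ≠ v := (h.2 v).2 hv
  exact (h.2 (f v)).1 (by rw [h.1]; exact h1.symm)

/-- the glued consecutive pairings -/
theorem glue_cp {A1 A2 P Q : List ℕ} {a b : ℕ} (eA1 : A1 = P ++ [a]) (eA2 : A2 = b :: Q)
    (hnd : (A1 ++ A2).Nodup) (hP : Even P.length) (hQ : Even Q.length)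
    {z z' : ℕ} (hz : z ∉ A1 ++ A2) (hz' : z' ∉ A1 ++ A2) (hzz : z ≠ z') :
    glue (cp (A1 ++ [z])) (cp (z' :: A2)) z z' = cp (A1 ++ A2) ∧ cp (A1 ++ [z]) z = a ∧
      cp (z' :: A2) z' = b := by
  subst eA1; subst eA2
  have e1 : P ++ [a] ++ [z] = P ++ [a, z] := by simp
  have n1 : (P ++ [a, z]).Nodup := by
    rw [← e1, List.nodup_append]
    refine ⟨(List.nodup_append.1 hnd).1, by simp, ?_⟩
    intro x hx y hy
    rw [List.mem_singleton] at hy
    subst hy
    rintro rfl
    exact hz (List.mem_append_left _ hx)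
  have n2 : (z' :: b :: Q).Nodup := by
    refine List.nodup_cons.2 ⟨fun h => hz' (List.mem_append_right _ h), ?_⟩
    exact (List.nodup_append.1 hnd).2.1
  have n3 : (P ++ a :: b :: Q).Nodup := by simpa using hnd
  have nP : P.Nodup := (List.nodup_append.1 n1).1
  have nQ : Q.Nodup := (List.nodup_cons.1 (List.nodup_cons.1 n2).2).2
  have e3 : P ++ [a] ++ b :: Q = P ++ a :: b :: Q := by simp
  have p1 : PairOn (P ++ [a] ++ [z]) (cp (P ++ [a] ++ [z])) := by
    rw [e1]
    exact cp_pairOn n1 (by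
      simp only [List.length_append, List.length_cons, List.length_nil]
      exact hP.add (by decide))
  have p2 : PairOn (z' :: b :: Q) (cp (z' :: b :: Q)) :=
    cp_pairOn n2 (by simp only [List.length_cons]; exact (hQ.add (by decide : Even 2)))
  have h := GH.of_pairOn hnd hz hz' hzz p1 p2
  have haz : a ≠ z := by rintro rfl; exact hz (by simp)
  have hza : z ≠ a := haz.symm
  have hbz' : b ≠ z' := by rintro rfl; exact hz' (by simp)
  have haP : a ∉ P := fun hh => by
    have := (List.nodup_append.1 n3).2.2 a hh a (by simp); exact this rfl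
  have hzP : z ∉ P := fun hh => hz (by simp [hh])
  have hab : a ≠ b := by
    have := (List.nodup_append.1 n3).2.1
    rintro rfl
    simp at this
  have bP : b ∉ P := fun hh => by
    have := (List.nodup_append.1 n3).2.2 b hh b (by simp); exact this rfl
  have c1z : cp (P ++ [a] ++ [z]) z = a := by
    rw [e1, cp_append n1 hP, if_neg hzP]; unfold cp; simp [hza]
  have c1a : cp (P ++ [a] ++ [z]) a = z := by
    rw [e1, cp_append n1 hP, if_neg haP]; unfold cp; simp
  have c2z : cp (z' :: b :: Q) z' = b := by unfold cp; simp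
  have c2b : cp (z' :: b :: Q) b = z' := by unfold cp; simp [hbz']
  refine ⟨?_, c1z, c2z⟩
  funext v
  by_cases m1 : v ∈ P ++ [a]
  · rw [h.glue1 m1, e3, cp_append n3 hP]
    by_cases mP : v ∈ P
    · have hv : cp (P ++ [a] ++ [z]) v = cp P v := by rw [e1, cp_append n1 hP, if_pos mP]
      have hm : cp P v ∈ P := (cp_pairOn nP hP).mem mP
      rw [hv, if_neg (by intro e; exact hzP (e ▸ hm)), if_pos mP]
    · have hva : v = a := by
        rcases List.mem_append.1 m1 with h1 | h1
        · exact absurd h1 mP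
        · simpa using h1
      subst hva
      rw [c1a, if_pos rfl, if_neg mP, c2z]
      unfold cp; simp only [↓reduceIte]
  · by_cases m2 : v ∈ b :: Q
    · rw [h.glue2 m2, e3, cp_append n3 hP]
      have mP : v ∉ P := fun hh => m1 (by simp [hh])
      have va : v ≠ a := by rintro rfl; exact m1 (by simp)
      rw [if_neg mP]
      by_cases vb : v = b
      · subst vb
        rw [c2b, if_pos rfl, c1z]
        unfold cp; simp [hab.symm]
      · have mQ : v ∈ Q := by
          rcases List.mem_cons.1 m2 with h1 | h1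
          · exact absurd h1 vb
          · exact h1
        have vz' : v ≠ z' := by rintro rfl; exact hz' (by simp [mQ])
        have hm : cp Q v ∈ Q := (cp_pairOn nQ hQ).mem mQ
        have h4 : cp (z' :: b :: Q) v = cp Q v := by
          show (if v = z' then b else if v = b then z' else cp Q v) = _
          rw [if_neg vz', if_neg vb]
        have h5 : cp (a :: b :: Q) v = cp Q v := by
          show (if v = a then b else if v = b then a else cp Q v) = _
          rw [if_neg va, if_neg vb]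
        rw [h4, h5, if_neg]
        intro e
        exact hz' (by rw [← e]; simp only [List.append_assoc, List.cons_append, List.nil_append, List.mem_append, List.mem_cons, hm, or_true])
    · rw [h.glue0 m1 m2, cp_notMem]
      intro hh
      rcases List.mem_append.1 hh with h1 | h1
      · exact m1 h1
      · exact m2 h1

/-- the glued rotated consecutive pairings -/
theorem glue_cp_rot {A1 A2 P Q : List ℕ} {a b : ℕ} (eA1 : A1 = a :: P) (eA2 : A2 = Q ++ [b])
    (hnd : (A1 ++ A2).Nodup) (hP : Even P.length) (hQ : Even Q.length)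
    {z z' : ℕ} (hz : z ∉ A1 ++ A2) (hz' : z' ∉ A1 ++ A2) (hzz : z ≠ z') :
    glue (cp ((A1 ++ [z]).rotate 1)) (cp ((z' :: A2).rotate 1)) z z' = cp ((A1 ++ A2).rotate 1) ∧
      cp ((A1 ++ [z]).rotate 1) z = a ∧ cp ((z' :: A2).rotate 1) z' = b := by
  subst eA1; subst eA2
  have e1 : (a :: P ++ [z]).rotate 1 = P ++ [z, a] := by simp
  have e2 : (z' :: (Q ++ [b])).rotate 1 = Q ++ [b, z'] := by simp
  have e3 : (a :: P ++ (Q ++ [b])).rotate 1 = P ++ (Q ++ [b, a]) := by simp
  have n3 : (P ++ (Q ++ [b, a])).Nodup := by rw [← e3]; exact List.nodup_rotate.2 hnd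
  have nl : (Q ++ [b, a]).Nodup := (List.nodup_append.1 n3).2.1
  have n1 : (a :: P ++ [z]).Nodup := by
    rw [List.nodup_append]
    refine ⟨(List.nodup_append.1 hnd).1, by simp, ?_⟩
    intro x hx y hy
    rw [List.mem_singleton] at hy
    subst hy
    rintro rfl
    exact hz (List.mem_append_left _ hx)
  have n2 : (z' :: (Q ++ [b])).Nodup := by
    refine List.nodup_cons.2 ⟨fun h => hz' (List.mem_append_right _ h), ?_⟩
    exact (List.nodup_append.1 hnd).2.1
  have n1' : (P ++ [z, a]).Nodup := by rw [← e1]; exact List.nodup_rotate.2 n1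
  have n2' : (Q ++ [b, z']).Nodup := by rw [← e2]; exact List.nodup_rotate.2 n2
  have nP : P.Nodup := (List.nodup_append.1 n1').1
  have nQ : Q.Nodup := (List.nodup_append.1 n2').1
  have p1 : PairOn (a :: P ++ [z]) (cp ((a :: P ++ [z]).rotate 1)) := by
    have := cp_pairOn n1' (by
      simp only [List.length_append, List.length_cons, List.length_nil]
      exact hP.add (by decide))
    rw [← e1] at this
    refine ⟨this.1, fun v => ?_⟩
    rw [this.2 v, List.mem_rotate]
  have p2 : PairOn (z' :: (Q ++ [b])) (cp ((z' :: (Q ++ [b])).rotate 1)) := by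
    have := cp_pairOn n2' (by
      simp only [List.length_append, List.length_cons, List.length_nil]
      exact hQ.add (by decide))
    rw [← e2] at this
    refine ⟨this.1, fun v => ?_⟩
    rw [this.2 v, List.mem_rotate]
  have h := GH.of_pairOn hnd hz hz' hzz p1 p2
  have haz : a ≠ z := by rintro rfl; exact hz (by simp)
  have hbz' : b ≠ z' := by rintro rfl; exact hz' (by simp)
  have haP : a ∉ P := (List.nodup_cons.1 (List.nodup_append.1 n1).1).1
  have hzP : z ∉ P := fun hh => hz (by simp [hh])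
  have hbQ : b ∉ Q := fun hh => by
    have := (List.nodup_append.1 n2').2.2 b hh b (by simp); exact this rfl
  have hz'Q : z' ∉ Q := fun hh => hz' (by simp [hh])
  have hba : b ≠ a := by
    have := (List.nodup_append.1 nl).2.1
    rintro rfl
    simp at this
  have haQ : a ∉ Q := fun hh => by
    have := (List.nodup_append.1 nl).2.2 a hh a (by simp); exact this rfl
  have c1z : cp ((a :: P ++ [z]).rotate 1) z = a := by
    rw [e1, cp_append n1' hP, if_neg hzP]; unfold cp; simp
  have c1a : cp ((a :: P ++ [z]).rotate 1) a = z := by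
    rw [e1, cp_append n1' hP, if_neg haP]; unfold cp; simp [haz]
  have c2z : cp ((z' :: (Q ++ [b])).rotate 1) z' = b := by
    rw [e2, cp_append n2' hQ, if_neg hz'Q]; unfold cp; simp [hbz'.symm]
  have c2b : cp ((z' :: (Q ++ [b])).rotate 1) b = z' := by
    rw [e2, cp_append n2' hQ, if_neg hbQ]; unfold cp; simp
  refine ⟨?_, c1z, c2z⟩
  funext v
  by_cases m1 : v ∈ a :: P
  · rw [h.glue1 m1, e3, cp_append n3 hP]
    by_cases mP : v ∈ P
    · have hv : cp ((a :: P ++ [z]).rotate 1) v = cp P v := by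
        rw [e1, cp_append n1' hP, if_pos mP]
      have hm : cp P v ∈ P := (cp_pairOn nP hP).mem mP
      rw [hv, if_neg (by intro e; exact hzP (e ▸ hm)), if_pos mP]
    · have hva : v = a := by
        rcases List.mem_cons.1 m1 with h1 | h1
        · exact h1
        · exact absurd h1 mP
      subst hva
      rw [c1a, if_pos rfl, if_neg mP, c2z, cp_append nl hQ, if_neg haQ]
      unfold cp; simp [hba.symm]
  · by_cases m2 : v ∈ Q ++ [b]
    · rw [h.glue2 m2, e3, cp_append n3 hP]
      have mP : v ∉ P := fun hh => m1 (by simp [hh])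
      have va : v ≠ a := by rintro rfl; exact m1 (by simp)
      rw [if_neg mP, cp_append nl hQ]
      by_cases mQ : v ∈ Q
      · have hm : cp Q v ∈ Q := (cp_pairOn nQ hQ).mem mQ
        have h4 : cp ((z' :: (Q ++ [b])).rotate 1) v = cp Q v := by
          rw [e2, cp_append n2' hQ, if_pos mQ]
        rw [h4, if_pos mQ, if_neg]
        intro e
        exact hz'Q (e ▸ hm)
      · have vb : v = b := by
          rcases List.mem_append.1 m2 with h1 | h1
          · exact absurd h1 mQ
          · simpa using h1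
        subst vb
        rw [c2b, if_pos rfl, c1z, if_neg hbQ]
        unfold cp; simp
    · rw [h.glue0 m1 m2, cp_notMem]
      intro hh
      rw [List.mem_rotate] at hh
      rcases List.mem_append.1 hh with h1 | h1
      · exact m1 h1
      · exact m2 h1

/-- half of the cost -/
def hcost {W : Type} (D : TreeD W) (loc : ℕ → W) (l : List ℕ) (f : ℕ → ℕ) : ℤ :=
  (l.map fun v => D.d (loc v) (loc (f v))).sum

theorem cost_eq {W : Type} (D : TreeD W) (loc : ℕ → W) (l : List ℕ) (f f' : ℕ → ℕ) :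
    cost D loc l f f' = hcost D loc l f + hcost D loc l f' := by
  unfold cost hcost
  exact List.sum_map_add

theorem sum_update {A : List ℕ} (hA : A.Nodup) {p : ℕ} (hp : p ∈ A) {g g' : ℕ → ℤ}
    (h : ∀ v ∈ A, v ≠ p → g v = g' v) : (A.map g).sum + g' p = (A.map g').sum + g p := by
  induction A with
  | nil => simp at hp
  | cons x A ih =>
    rw [List.nodup_cons] at hA
    simp only [List.map_cons, List.sum_cons]
    by_cases hx : x = p
    · subst hx
      have : A.map g = A.map g' := List.map_congr_left fun v hv =>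
        h v (List.mem_cons_of_mem _ hv) (by rintro rfl; exact hA.1 hv)
      rw [this]; ring
    · have hp' : p ∈ A := by
        rcases List.mem_cons.1 hp with h1 | h1
        · exact absurd h1.symm hx
        · exact h1
      have := ih hA.2 hp' fun v hv hne => h v (List.mem_cons_of_mem _ hv) hne
      rw [h x (List.mem_cons_self ..) hx]
      linarith only [this]

theorem GH.side_cost {A1 A2 : List ℕ} (hnd : A1.Nodup) {z z' : ℕ} {f1 f2 : ℕ → ℕ}
    (h : GH f1 f2 z z' (· ∈ A1) (· ∈ A2)) {loc' : ℕ → W}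
    (hloc : ∀ v, (v ∈ A1 ∨ v ∈ A2) → loc' v = loc v) :
    hcost D loc A1 (glue f1 f2 z z') + D.d (loc (f1 z)) (loc' z) =
      hcost D loc' A1 f1 + D.d (loc (f1 z)) (loc (f2 z')) := by
  unfold hcost
  have hp := h.pz
  have hq := h.pz'
  have key := sum_update hnd hp (g := fun v => D.d (loc v) (loc (glue f1 f2 z z' v)))
    (g' := fun v => D.d (loc' v) (loc' (f1 v))) (by
      intro v hv hne
      have hz : f1 v ≠ z := fun e => hne (by rw [← e, h.i1])
      rw [h.glue1 hv, if_neg hz, hloc v (Or.inl hv), hloc (f1 v) (Or.inl (h.part1 hv hz))])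
  rw [h.i1, h.glue_pz, hloc _ (Or.inl hp)] at key
  exact key

theorem GH.cost_glue {A1 A2 : List ℕ} (hnd : (A1 ++ A2).Nodup) {z z' : ℕ} {f1 f2 : ℕ → ℕ}
    (h : GH f1 f2 z z' (· ∈ A1) (· ∈ A2)) {loc' : ℕ → W}
    (hloc : ∀ v, (v ∈ A1 ∨ v ∈ A2) → loc' v = loc v) {c : W} (hlz : loc' z = c)
    (hlz' : loc' z' = c) :
    hcost D loc (A1 ++ A2) (glue f1 f2 z z') = hcost D loc' (A1 ++ [z]) f1 +
      hcost D loc' (z' :: A2) f2 + 2 * (D.d (loc (f1 z)) (loc (f2 z')) -
        (D.d (loc (f1 z)) c + D.d c (loc (f2 z')))) := by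
  have k1 := h.side_cost (D := D) (List.nodup_append.1 hnd).1 hloc
  have k2 := h.symm.side_cost (D := D) (List.nodup_append.1 hnd).2.1
    (fun v hv => hloc v (Or.symm hv))
  rw [← h.glue_symm] at k2
  rw [hlz] at k1
  rw [hlz'] at k2
  have s1 : hcost D loc (A1 ++ A2) (glue f1 f2 z z') =
      hcost D loc A1 (glue f1 f2 z z') + hcost D loc A2 (glue f1 f2 z z') := by
    unfold hcost; rw [List.map_append, List.sum_append]
  have s2 : hcost D loc' (A1 ++ [z]) f1 = hcost D loc' A1 f1 + D.d c (loc (f1 z)) := by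
    unfold hcost
    rw [List.map_append, List.sum_append]
    simp only [List.map_cons, List.map_nil, List.sum_cons, List.sum_nil, add_zero]
    rw [hlz, hloc _ (Or.inl h.pz)]
  have s3 : hcost D loc' (z' :: A2) f2 = D.d c (loc (f2 z')) + hcost D loc' A2 f2 := by
    unfold hcost
    rw [List.map_cons, List.sum_cons, hlz', hloc _ (Or.inr h.pz')]
  have y1 := D.symm c (loc (f1 z))
  have y2 := D.symm c (loc (f2 z'))
  have y3 := D.symm (loc (f1 z)) (loc (f2 z'))
  rw [s1, s2, s3]
  linarith only [k1, k2, y1, y2, y3]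

theorem filter_le_two {A : List ℕ} (hA : A.Nodup) {P Q : ℕ → Prop} [DecidablePred P]
    [DecidablePred Q] {x y : ℕ} (h : ∀ v ∈ A, P v → Q v ∨ v = x ∨ v = y) :
    (A.filter fun v => P v).length ≤ (A.filter fun v => Q v).length + 2 := by
  classical
  have h1 : (A.filter fun v => P v).toFinset ⊆ (A.filter fun v => Q v).toFinset ∪ {x, y} := by
    intro v hv
    simp only [List.mem_toFinset, List.mem_filter, decide_eq_true_eq, Finset.mem_union,
      Finset.mem_insert, Finset.mem_singleton] at hv ⊢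
    rcases h v hv.1 hv.2 with h2 | h2
    · exact Or.inl ⟨hv.1, h2⟩
    · exact Or.inr h2
  have h2 := Finset.card_le_card h1
  rw [List.toFinset_card_of_nodup (hA.filter _)] at h2
  refine h2.trans ((Finset.card_union_le _ _).trans ?_)
  exact Nat.add_le_add (List.toFinset_card_le _) Finset.card_le_two

theorem GH.count_side {A1 A2 : List ℕ} (hnd : A1.Nodup) {z z' : ℕ}
    {g1 g2 g1' g2' c1 c2 c1' c2' : ℕ → ℕ}
    (h : GH g1 g2 z z' (· ∈ A1) (· ∈ A2)) (h' : GH g1' g2' z z' (· ∈ A1) (· ∈ A2))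
    (k : GH c1 c2 z z' (· ∈ A1) (· ∈ A2)) (k' : GH c1' c2' z z' (· ∈ A1) (· ∈ A2)) :
    (A1.filter fun v => Bad (glue g1 g2 z z') (glue g1' g2' z z') (glue c1 c2 z z')
      (glue c1' c2' z z') v).length ≤ (A1.filter fun v => Bad g1 g1' c1 c1' v).length + 2 := by
  refine filter_le_two (x := c1 z) (y := c1' z) hnd ?_
  intro v hv hbad
  by_contra hcon
  push Not at hcon
  obtain ⟨hb, hx, hy⟩ := hcon
  have e1 : c1 v ≠ z := fun e => hx (by rw [← e, k.i1])
  have e2 : c1' v ≠ z := fun e => hy (by rw [← e, k'.i1])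
  unfold Bad at hbad hb
  rw [not_not] at hb
  apply hbad
  rw [h.glue1 hv, h'.glue1 hv, k.glue1 hv, k'.glue1 hv, if_neg e1, if_neg e2]
  rcases hb with ⟨b1, b2⟩ | ⟨b1, b2⟩
  · left; rw [b1, b2, if_neg e1, if_neg e2]; exact ⟨rfl, rfl⟩
  · right; rw [b1, b2, if_neg e1, if_neg e2]; exact ⟨rfl, rfl⟩


theorem glue_odd {A1 A2 : List ℕ} (hnd : (A1 ++ A2).Nodup) (h1 : A1 ≠ []) (h2 : A2 ≠ [])
    (e1 : Odd A1.length) (e2 : Odd A2.length) (c : W)
    (hc1 : D.d (loc (A1.getLast h1)) (loc (A2.head h2)) =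
      D.d (loc (A1.getLast h1)) c + D.d c (loc (A2.head h2)))
    (hc2 : D.d (loc (A2.getLast h2)) (loc (A1.head h1)) =
      D.d (loc (A2.getLast h2)) c + D.d c (loc (A1.head h1)))
    {z z' : ℕ} (hz : z ∉ A1 ++ A2) (hz' : z' ∉ A1 ++ A2) (hzz : z ≠ z')
    {loc' : ℕ → W} (hloc : ∀ v ∈ A1 ++ A2, loc' v = loc v) (hlz : loc' z = c) (hlz' : loc' z' = c)
    {B L1 L2 : ℕ} (f1 : Flip D loc' (A1 ++ [z]) B L1) (f2 : Flip D loc' (z' :: A2) B L2) :
    Flip D loc (A1 ++ A2) (B + 4) (L1 + L2) := by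
  have hloc2 : ∀ v, (v ∈ A1 ∨ v ∈ A2) → loc' v = loc v := fun v hv =>
    hloc v (List.mem_append.2 hv)
  -- the consecutive pairings
  obtain ⟨g1, gz1, gz1'⟩ : glue (cp (A1 ++ [z])) (cp (z' :: A2)) z z' = cp (A1 ++ A2) ∧
      cp (A1 ++ [z]) z = A1.getLast h1 ∧ cp (z' :: A2) z' = A2.head h2 := by
    refine glue_cp (P := A1.dropLast) (Q := A2.tail) (List.dropLast_append_getLast h1).symm
      (List.cons_head_tail h2).symm hnd ?_ ?_ hz hz' hzz
    · rw [List.length_dropLast]; exact Nat.Odd.sub_odd e1 odd_one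
    · rw [List.length_tail]; exact Nat.Odd.sub_odd e2 odd_one
  obtain ⟨g2, gz2, gz2'⟩ : glue (cp ((A1 ++ [z]).rotate 1)) (cp ((z' :: A2).rotate 1)) z z' =
      cp ((A1 ++ A2).rotate 1) ∧
      cp ((A1 ++ [z]).rotate 1) z = A1.head h1 ∧ cp ((z' :: A2).rotate 1) z' = A2.getLast h2 := by
    refine glue_cp_rot (P := A1.tail) (Q := A2.dropLast) (List.cons_head_tail h1).symm
      (List.dropLast_append_getLast h2).symm hnd ?_ ?_ hz hz' hzz
    · rw [List.length_tail]; exact Nat.Odd.sub_odd e1 odd_one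
    · rw [List.length_dropLast]; exact Nat.Odd.sub_odd e2 odd_one
  obtain ⟨N1, N1', s1, s1', t1, t1', p1, w1, b1, k1⟩ := f1
  obtain ⟨N2, N2', s2, s2', t2, t2', p2, w2, b2, k2⟩ := f2
  have nd1 : A1.Nodup := (List.nodup_append.1 hnd).1
  have nd2 : A2.Nodup := (List.nodup_append.1 hnd).2.1
  -- glueing hypotheses
  have G : ∀ i ≤ L1, ∀ j ≤ L2, GH (N1 i) (N2 j) z z' (· ∈ A1) (· ∈ A2) ∧
      GH (N1' i) (N2' j) z z' (· ∈ A1) (· ∈ A2) := fun i hi j hj =>
    ⟨GH.of_pairOn hnd hz hz' hzz (p1 i hi).1 (p2 j hj).1,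
      GH.of_pairOn hnd hz hz' hzz (p1 i hi).2 (p2 j hj).2⟩
  have G0 := G 0 (Nat.zero_le _) 0 (Nat.zero_le _)
  rw [s1, s2, s1', s2'] at G0
  -- the cost
  have cost0 : cost D loc (A1 ++ A2) (cp (A1 ++ A2)) (cp ((A1 ++ A2).rotate 1)) =
      cost D loc' (A1 ++ [z]) (cp (A1 ++ [z])) (cp ((A1 ++ [z]).rotate 1)) +
      cost D loc' (z' :: A2) (cp (z' :: A2)) (cp ((z' :: A2).rotate 1)) := by
    have x1 := G0.1.cost_glue (D := D) hnd hloc2 hlz hlz'
    have x2 := G0.2.cost_glue (D := D) hnd hloc2 hlz hlz'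
    rw [g1, gz1, gz1', hc1] at x1
    rw [g2, gz2, gz2'] at x2
    have y1 := D.symm (loc (A1.head h1)) (loc (A2.getLast h2))
    have y2 := D.symm (loc (A1.head h1)) c
    have y3 := D.symm c (loc (A2.getLast h2))
    rw [cost_eq, cost_eq, cost_eq, x1, x2, y1, hc2, y2, y3]
    ring
  have cost1 : ∀ i ≤ L1, ∀ j ≤ L2,
      cost D loc (A1 ++ A2) (glue (N1 i) (N2 j) z z') (glue (N1' i) (N2' j) z z') ≤
      cost D loc (A1 ++ A2) (cp (A1 ++ A2)) (cp ((A1 ++ A2).rotate 1)) := by
    intro i hi j hj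
    have x1 := (G i hi j hj).1.cost_glue (D := D) hnd hloc2 hlz hlz'
    have x2 := (G i hi j hj).2.cost_glue (D := D) hnd hloc2 hlz hlz'
    have y1 := D.tri (loc (N1 i z)) c (loc (N2 j z'))
    have y2 := D.tri (loc (N1' i z)) c (loc (N2' j z'))
    have z1 := k1 i hi
    have z2 := k2 j hj
    rw [cost0]
    rw [cost_eq] at z1 z2 ⊢
    rw [x1, x2]
    linarith only [y1, y2, z1, z2]
  -- the count of bad labels
  have count : ∀ i ≤ L1, ∀ j ≤ L2, (i = L1 ∨ j = 0) →
      ((A1 ++ A2).filter fun v => Bad (glue (N1 i) (N2 j) z z') (glue (N1' i) (N2' j) z z')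
        (cp (A1 ++ A2)) (cp ((A1 ++ A2).rotate 1)) v).length ≤ B + 4 := by
    intro i hi j hj hij
    have q1 := GH.count_side nd1 (G i hi j hj).1 (G i hi j hj).2 G0.1 G0.2
    have q2 := GH.count_side nd2 (G i hi j hj).1.symm (G i hi j hj).2.symm G0.1.symm G0.2.symm
    rw [← (G i hi j hj).1.glue_symm, ← (G i hi j hj).2.glue_symm, ← G0.1.glue_symm,
      ← G0.2.glue_symm] at q2
    rw [g1, g2] at q1 q2
    have r1 : (A1.filter fun v => Bad (N1 i) (N1' i) (cp (A1 ++ [z]))
        (cp ((A1 ++ [z]).rotate 1)) v).length ≤ B := by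
      refine le_trans ?_ (b1 i hi)
      rw [List.filter_append, List.length_append]
      exact Nat.le_add_right _ _
    have r2 : (A2.filter fun v => Bad (N2 j) (N2' j) (cp (z' :: A2))
        (cp ((z' :: A2).rotate 1)) v).length ≤ B := by
      refine le_trans ?_ (b2 j hj)
      exact ((List.sublist_cons_self z' A2).filter _).length_le
    rw [List.filter_append, List.length_append]
    rcases hij with hij | hij
    · have r0 : (A1.filter fun v => Bad (N1 i) (N1' i) (cp (A1 ++ [z]))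
          (cp ((A1 ++ [z]).rotate 1)) v) = [] := by
        rw [List.filter_eq_nil_iff]
        intro v _
        subst hij
        rw [t1, t1']
        simp [Bad]
      rw [r0] at q1
      simp only [List.length_nil] at q1
      omega
    · have r0 : (A2.filter fun v => Bad (N2 j) (N2' j) (cp (z' :: A2))
          (cp ((z' :: A2).rotate 1)) v) = [] := by
        rw [List.filter_eq_nil_iff]
        intro v _
        subst hij
        rw [s2, s2']
        simp [Bad]
      rw [r0] at q2
      simp only [List.length_nil] at q2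
      omega
  -- switches
  have gsw : ∀ {g g' f : ℕ → ℕ}, GH g f z z' (· ∈ A1) (· ∈ A2) →
      GH g' f z z' (· ∈ A1) (· ∈ A2) → Sw g g' → Sw (glue g f z z') (glue g' f z z') := by
    intro g g' f hg hg' hs
    rcases hs with hs | ⟨a, b, ha, hb, hab, hab', hs⟩
    · subst hs; exact Or.inl rfl
    · subst hs; exact hg.glue_sw hg' ha hb hab hab'
  have gsw' : ∀ {g f f' : ℕ → ℕ}, GH g f z z' (· ∈ A1) (· ∈ A2) →
      GH g f' z z' (· ∈ A1) (· ∈ A2) → Sw f f' → Sw (glue g f z z') (glue g f' z z') := by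
    intro g f f' hg hg' hs
    rw [hg.glue_symm, hg'.glue_symm]
    rcases hs with hs | ⟨a, b, ha, hb, hab, hab', hs⟩
    · subst hs; exact Or.inl rfl
    · subst hs; exact hg.symm.glue_sw hg'.symm ha hb hab hab'
  refine ⟨fun t => glue (N1 (min t L1)) (N2 (t - L1)) z z',
    fun t => glue (N1' (min t L1)) (N2' (t - L1)) z z', ?_, ?_, ?_, ?_, ?_, ?_, ?_, ?_⟩
  · simp only [Nat.zero_min, Nat.zero_sub]; rw [s1, s2, g1]
  · simp only [Nat.zero_min, Nat.zero_sub]; rw [s1', s2', g2]
  · have m1 : min (L1 + L2) L1 = L1 := by omega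
    have m2 : L1 + L2 - L1 = L2 := by (clear * - h1 h2; omega)
    simp only [m1, m2]; rw [t1, t2, g2]
  · have m1 : min (L1 + L2) L1 = L1 := by (clear * - h1 h2; omega)
    have m2 : L1 + L2 - L1 = L2 := by omega
    simp only [m1, m2]; rw [t1', t2', g1]
  · intro t ht
    have hG := G (min t L1) (by omega) (t - L1) (by (clear * - h1 h2 ht; omega))
    exact ⟨hG.1.pairOn, hG.2.pairOn⟩
  · intro t ht
    by_cases hl : t < L1
    · have m1 : min t L1 = t := by omega
      have m2 : min (t + 1) L1 = t + 1 := by (clear * - h1 h2 hl m1; omega)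
      have m3 : t - L1 = 0 := by omega
      have m4 : t + 1 - L1 = 0 := by omega
      simp only [m1, m2, m3, m4]
      have hG := G t (by omega) 0 (by omega)
      have hG' := G (t + 1) (by omega) 0 (by omega)
      exact ⟨gsw hG.1 hG'.1 (w1 t hl).1, gsw hG.2 hG'.2 (w1 t hl).2⟩
    · have m1 : min t L1 = L1 := by omega
      have m2 : min (t + 1) L1 = L1 := by omega
      have m4 : t + 1 - L1 = (t - L1) + 1 := by omega
      simp only [m1, m2, m4]
      have hG := G L1 le_rfl (t - L1) (by omega)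
      have hG' := G L1 le_rfl (t - L1 + 1) (by omega)
      have hw := w2 (t - L1) (by (clear * - h1 h2 ht hl m1 m2; omega))
      exact ⟨gsw' hG.1 hG'.1 hw.1, gsw' hG.2 hG'.2 hw.2⟩
  · intro t ht
    exact count (min t L1) (by omega) (t - L1) (by omega) (by omega)
  · intro t ht
    exact cost1 (min t L1) (by omega) (t - L1) (by omega)

end Vale.Agent.P308.Split
end

section

/-!
# P308, quasi-polynomial FPRAS, module A (helper52)

Abstract hole sums: a function `Z : Finset V → ℝ` satisfying the expansion recursion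
`Z S = ∑_{y ∉ S + a} lam(a,y) Z(S + a + y)` for every `a ∉ S`.
From this recursion alone: exchange inequality, insertion, two- and four-hole bounds along a
path, and the comparison theorem `Z(lam + w) ≤ 2 Z(lam)` for the virtual edge weights.
-/

namespace Vale.Agent.P308.Soft

open Finset

variable {V : Type*} [Fintype V] [DecidableEq V]

/-- `Z` is the hole sum of the edge weights `lam`. -/
structure HoleSum (lam : Sym2 V → ℝ) (Z : Finset V → ℝ) : Prop where
  nonneg : ∀ S, 0 ≤ Z S
  top : Z univ = 1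
  expand : ∀ (S : Finset V) (a : V), a ∉ S →
    Z S = ∑ y ∈ (insert a S)ᶜ, lam s(a, y) * Z (insert y (insert a S))

variable {lam : Sym2 V → ℝ} {Z : Finset V → ℝ}

/-- insertion of one edge -/
theorem HoleSum.insertion (h : HoleSum lam Z) (hl : ∀ e, 0 ≤ lam e) {S : Finset V} {x y : V}
    (hx : x ∉ S) (hy : y ∉ S) (hxy : x ≠ y) :
    lam s(x, y) * Z (insert y (insert x S)) ≤ Z S := by
  rw [h.expand S x hx]
  refine Finset.single_le_sum (f := fun y => lam s(x, y) * Z (insert y (insert x S)))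
    (fun z _ => mul_nonneg (hl _) (h.nonneg _)) ?_
  simp [hy, hxy.symm]

/-- exchange inequality -/
theorem HoleSum.exchange (h : HoleSum lam Z) (hl : ∀ e, 0 ≤ lam e) :
    ∀ (N : ℕ) (S₁ S₂ : Finset V) (a : V), (S₁ᶜ).card + (S₂ᶜ).card = N → a ∈ S₂ → a ∉ S₁ →
      Z S₁ * Z S₂ ≤ ∑ b ∈ (symmDiff S₁ S₂).erase a,
        Z (symmDiff S₁ {a, b}) * Z (symmDiff S₂ {a, b}) := by
  intro N
  induction N using Nat.strong_induction_on with
  | _ N ih =>
  intro S₁ S₂ a hN ha2 ha1
  -- expand `Z S₁` at `a`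
  have step : ∀ y ∈ (insert a S₁)ᶜ, lam s(a, y) * Z (insert y (insert a S₁)) * Z S₂ ≤
      ∑ b ∈ (symmDiff S₁ S₂).erase a, Z (symmDiff S₁ {a, b}) *
        (if y ∈ S₂ then (if b = y then lam s(a, y) * Z S₂ else 0)
          else lam s(a, y) * Z (symmDiff S₂ {y, b})) := by
    intro y hy
    have hy' : y ≠ a ∧ y ∉ S₁ := by simpa only [ne_eq, compl_insert, mem_erase, mem_compl] using hy
    by_cases hy2 : y ∈ S₂
    · have hmem : y ∈ (symmDiff S₁ S₂).erase a := by
        simp only [mem_erase, ne_eq, hy'.1, not_false_eq_true, mem_symmDiff, hy'.2, hy2, not_true_eq_false, and_self, or_true]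
      simp only [hy2, if_true]
      have hS : symmDiff S₁ {a, y} = insert y (insert a S₁) := by
        ext z
        simp only [mem_symmDiff, mem_insert, mem_singleton]
        constructor
        · rintro (⟨h1, h2⟩ | ⟨h1, h2⟩)
          · exact Or.inr (Or.inr h1)
          · (clear * - hy' h1; tauto)
        · intro hz
          rcases hz with rfl | rfl | hz
          · exact Or.inr ⟨Or.inr rfl, hy'.2⟩
          · exact Or.inr ⟨Or.inl rfl, ha1⟩
          · refine Or.inl ⟨hz, ?_⟩
            rintro (rfl | rfl)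
            · exact ha1 hz
            · exact hy'.2 hz
      have := Finset.single_le_sum (f := fun b => Z (symmDiff S₁ {a, b}) *
        (if b = y then lam s(a, y) * Z S₂ else 0)) (fun b _ => ?_) hmem
      · refine le_trans (le_of_eq ?_) this
        simp only [if_true, hS]
        ring
      · refine mul_nonneg (h.nonneg _) ?_
        split_ifs
        · exact mul_nonneg (hl _) (h.nonneg _)
        · exact le_rfl
    · simp only [hy2, if_false]
      have hlt : (S₂ᶜ).card + ((insert y (insert a S₁))ᶜ).card < N := by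
        have : ((insert y (insert a S₁))ᶜ).card < (S₁ᶜ).card := by
          apply Finset.card_lt_card
          rw [Finset.ssubset_iff_of_subset]
          · exact ⟨a, by simpa using ha1, by simp only [compl_insert, mem_erase, ne_eq, not_true_eq_false, mem_compl, false_and, and_false, not_false_eq_true]⟩
          · intro z hz
            simp only [Finset.mem_compl, Finset.mem_insert, not_or] at hz ⊢
            exact hz.2.2
        omega
      have key := ih _ hlt S₂ (insert y (insert a S₁)) y rfl (by simp) hy2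
      have hidx : (symmDiff S₂ (insert y (insert a S₁))).erase y
          = (symmDiff S₁ S₂).erase a := by
        ext z
        simp only [Finset.mem_erase, Finset.mem_symmDiff, Finset.mem_insert]
        by_cases hza : z = a
        · subst hza
          simp [ha2, hy'.1.symm]
        · by_cases hzy : z = y
          · subst hzy
            simp [hy2, hy'.2]
          · simp only [hza, hzy, false_or, ne_eq, not_false_eq_true, true_and]
            (clear * - hy'; tauto)
      rw [hidx] at key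
      calc lam s(a, y) * Z (insert y (insert a S₁)) * Z S₂
          = lam s(a, y) * (Z S₂ * Z (insert y (insert a S₁))) := by ring
        _ ≤ lam s(a, y) * ∑ b ∈ (symmDiff S₁ S₂).erase a, Z (symmDiff S₂ {y, b}) *
              Z (symmDiff (insert y (insert a S₁)) {y, b}) :=
            mul_le_mul_of_nonneg_left key (hl _)
        _ = _ := by
            rw [Finset.mul_sum]
            refine Finset.sum_congr rfl fun b hb => ?_
            have hb' : b ≠ a ∧ b ∈ symmDiff S₁ S₂ := by simpa using hb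
            have hby : b ≠ y := by
              rintro rfl
              have := hb'.2
              simp [Finset.mem_symmDiff, hy2, hy'.2] at this
            have hS : symmDiff (insert y (insert a S₁)) {y, b} = symmDiff S₁ {a, b} := by
              ext z
              simp only [Finset.mem_symmDiff, Finset.mem_insert, Finset.mem_singleton]
              by_cases hza : z = a
              · subst hza
                simp [ha1, hy'.1.symm, hb'.1.symm]
              · by_cases hzy : z = y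
                · subst hzy
                  simp [hza, hy'.2, hby.symm]
                · simp [hza, hzy]
            rw [hS]
            ring
  rw [h.expand S₁ a ha1, Finset.sum_mul]
  refine (Finset.sum_le_sum step).trans ?_
  rw [Finset.sum_comm]
  refine Finset.sum_le_sum fun b hb => ?_
  rw [← Finset.mul_sum]
  refine mul_le_mul_of_nonneg_left ?_ (h.nonneg _)
  have hb' : b ≠ a ∧ b ∈ symmDiff S₁ S₂ := by simpa using hb
  have haS : a ∉ symmDiff S₂ {a, b} := by
    simp [Finset.mem_symmDiff, ha2]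
  rw [h.expand (symmDiff S₂ {a, b}) a haS]
  have hins : insert a (symmDiff S₂ {a, b}) = symmDiff S₂ {b} := by
    ext z
    simp only [Finset.mem_symmDiff, Finset.mem_insert, Finset.mem_singleton]
    by_cases hza : z = a
    · subst hza
      simp [ha2, hb'.1.symm]
    · simp [hza]
  rw [hins]
  -- compare the two sums
  have hterm : ∀ y ∈ (insert a S₁)ᶜ,
      (if y ∈ S₂ then (if b = y then lam s(a, y) * Z S₂ else 0)
          else lam s(a, y) * Z (symmDiff S₂ {y, b})) =
      if y ∈ (symmDiff S₂ {b})ᶜ then lam s(a, y) * Z (insert y (symmDiff S₂ {b})) else 0 := by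
    intro y hy
    have hy' : y ≠ a ∧ y ∉ S₁ := by simpa [not_or] using hy
    by_cases hy2 : y ∈ S₂
    · by_cases hby : b = y
      · subst hby
        have h1 : b ∈ (symmDiff S₂ {b})ᶜ := by simp [Finset.mem_symmDiff, hy2]
        have h2 : insert b (symmDiff S₂ {b}) = S₂ := by
          ext z
          simp only [Finset.mem_symmDiff, Finset.mem_insert, Finset.mem_singleton]
          by_cases hz : z = b
          · subst hz; simp [hy2]
          · simp [hz]
        simp only [hy2, if_true, h1, h2]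
      · have h1 : y ∉ (symmDiff S₂ {b})ᶜ := by
          simp only [Finset.mem_compl, Finset.mem_symmDiff, Finset.mem_singleton, not_not]
          exact Or.inl ⟨hy2, fun h => hby h.symm⟩
        simp only [hy2, if_true, hby, if_false, h1]
    · have hby : y ≠ b := by
        rintro rfl
        have := hb'.2
        simp [Finset.mem_symmDiff, hy2, hy'.2] at this
      have h1 : y ∈ (symmDiff S₂ {b})ᶜ := by
        simp [Finset.mem_symmDiff, hy2, hby]
      have h2 : symmDiff S₂ {y, b} = insert y (symmDiff S₂ {b}) := by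
        ext z
        simp only [Finset.mem_symmDiff, Finset.mem_insert, Finset.mem_singleton]
        by_cases hz : z = y
        · subst hz; simp [hy2]
        · simp [hz]
      simp only [hy2, if_false, h1, if_true, h2]
  rw [Finset.sum_congr rfl hterm]
  rw [← Finset.sum_filter]
  refine Finset.sum_le_sum_of_subset_of_nonneg ?_ ?_
  · intro z hz
    exact (Finset.mem_filter.1 hz).2
  · intro z _ _
    exact mul_nonneg (hl _) (h.nonneg _)

/-- two-hole exchange -/
theorem HoleSum.exchange_two (h : HoleSum lam Z) (hl : ∀ e, 0 ≤ lam e) {x y z r : V}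
    (hxy : x ≠ y) (hxz : x ≠ z) (hxr : x ≠ r) (hyz : y ≠ z) (hyr : y ≠ r) (hzr : z ≠ r) :
    Z {x, y} * Z {z, r} ≤ Z {y, z} * Z {x, r} + Z {x, z} * Z {y, r} + Z {x, y, z, r} * Z ∅ := by
  have key := h.exchange hl _ {x, y} {z, r} z rfl (by simp) (by simp [hxz.symm, hyz.symm])
  have hidx : (symmDiff ({x, y} : Finset V) {z, r}).erase z = {x, y, r} := by
    ext t
    simp only [Finset.mem_erase, Finset.mem_symmDiff, Finset.mem_insert, Finset.mem_singleton]
    constructor
    · (clear * -; tauto)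
    · rintro (rfl | rfl | rfl)
      · simp [hxz, hxr]
      · simp [hyz, hyr]
      · simp [hzr.symm, hxr.symm, hyr.symm]
  rw [hidx, Finset.sum_insert (by simp [hxy, hxr]), Finset.sum_insert (by simp [hyr]),
    Finset.sum_singleton] at key
  have e1 : symmDiff ({x, y} : Finset V) {z, x} = {y, z} := by
    ext t
    simp only [Finset.mem_symmDiff, Finset.mem_insert, Finset.mem_singleton]
    by_cases h1 : t = x
    · subst h1; simp [hxy, hxz]
    · by_cases h2 : t = y
      · subst h2; simp [h1, hyz]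
      · simp [h1, h2]
  have e2 : symmDiff ({z, r} : Finset V) {z, x} = {x, r} := by
    ext t
    simp only [Finset.mem_symmDiff, Finset.mem_insert, Finset.mem_singleton]
    by_cases h1 : t = z
    · subst h1; simp [hxz.symm, hzr]
    · by_cases h2 : t = x
      · subst h2; simp [h1, hxr]
      · simp [h1, h2]
  have e3 : symmDiff ({x, y} : Finset V) {z, y} = {x, z} := by
    ext t
    simp only [Finset.mem_symmDiff, Finset.mem_insert, Finset.mem_singleton]
    by_cases h1 : t = x
    · subst h1; simp [hxy, hxz]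
    · by_cases h2 : t = y
      · subst h2; simp [h1, hyz]
      · simp [h1, h2]
  have e4 : symmDiff ({z, r} : Finset V) {z, y} = {y, r} := by
    ext t
    simp only [Finset.mem_symmDiff, Finset.mem_insert, Finset.mem_singleton]
    by_cases h1 : t = z
    · subst h1; simp [hyz.symm, hzr]
    · by_cases h2 : t = y
      · subst h2; simp [h1, hyr]
      · simp [h1, h2]
  have e5 : symmDiff ({x, y} : Finset V) {z, r} = {x, y, z, r} := by
    ext t
    simp only [Finset.mem_symmDiff, Finset.mem_insert, Finset.mem_singleton]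
    constructor
    · (clear * -; tauto)
    · rintro (rfl | rfl | rfl | rfl)
      · simp [hxz, hxr]
      · simp [hyz, hyr]
      · simp [hxz.symm, hyz.symm]
      · simp [hxr.symm, hyr.symm]
  have e6 : symmDiff ({z, r} : Finset V) {z, r} = ∅ := by simp only [symmDiff_self, bot_eq_empty]
  rw [e1, e2, e3, e4, e5, e6] at key
  linarith only [key]

/-- four-hole exchange, `r` in both sets -/
theorem HoleSum.exchange_four (h : HoleSum lam Z) (hl : ∀ e, 0 ≤ lam e) {u r x y z : V}
    (hur : u ≠ r) (hux : u ≠ x) (huy : u ≠ y) (huz : u ≠ z) (hxy : x ≠ y) (hxz : x ≠ z)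
    (hxr : x ≠ r) (hyz : y ≠ z) (hyr : y ≠ r) (hzr : z ≠ r) :
    Z {u, r, x, y} * Z {z, r} ≤ Z {z, r, x, y} * Z {u, r} + Z {u, r, y, z} * Z {x, r} +
      Z {u, r, x, z} * Z {y, r} := by
  have key := h.exchange hl _ {u, r, x, y} {z, r} z rfl (by simp)
    (by simp [hxz.symm, hyz.symm, huz.symm, hzr])
  have hidx : (symmDiff ({u, r, x, y} : Finset V) {z, r}).erase z = {u, x, y} := by
    ext t
    simp only [Finset.mem_erase, Finset.mem_symmDiff, Finset.mem_insert, Finset.mem_singleton]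
    constructor
    · rintro ⟨h1, h2 | h2⟩
      · (clear * - h2; tauto)
      · (clear * - h2 h1; tauto)
    · rintro (rfl | rfl | rfl)
      · simp [huz, hur]
      · simp [hxz, hxr]
      · simp [hyz, hyr]
  rw [hidx, Finset.sum_insert (by simp only [mem_insert, hux, mem_singleton, huy, or_self, not_false_eq_true]), Finset.sum_insert (by simp [hxy]),
    Finset.sum_singleton] at key
  have e1 : symmDiff ({u, r, x, y} : Finset V) {z, u} = {z, r, x, y} := by
    ext t
    simp only [Finset.mem_symmDiff, Finset.mem_insert, Finset.mem_singleton]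
    by_cases h1 : t = u
    · subst h1; simp [hur, hux, huy, huz]
    · by_cases h2 : t = z
      · subst h2; simp [h1, hzr, hxz.symm, hyz.symm]
      · simp only [h1, false_or, h2, or_self, not_false_eq_true, and_true, not_or, false_and, or_false]
  have e2 : symmDiff ({z, r} : Finset V) {z, u} = {u, r} := by
    ext t
    simp only [Finset.mem_symmDiff, Finset.mem_insert, Finset.mem_singleton]
    by_cases h1 : t = z
    · subst h1; simp [huz.symm, hzr]
    · by_cases h2 : t = u
      · subst h2; simp [h1, hur]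
      · simp [h1, h2]
  have e3 : symmDiff ({u, r, x, y} : Finset V) {z, x} = {u, r, y, z} := by
    ext t
    simp only [Finset.mem_symmDiff, Finset.mem_insert, Finset.mem_singleton]
    by_cases h1 : t = x
    · subst h1; simp [hux.symm, hxr, hxy, hxz]
    · by_cases h2 : t = z
      · subst h2; simp [h1, hzr, huz.symm, hyz.symm]
      · simp [h1, h2]
  have e4 : symmDiff ({z, r} : Finset V) {z, x} = {x, r} := by
    ext t
    simp only [Finset.mem_symmDiff, Finset.mem_insert, Finset.mem_singleton]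
    by_cases h1 : t = z
    · subst h1; simp [hxz.symm, hzr]
    · by_cases h2 : t = x
      · subst h2; simp [h1, hxr]
      · simp [h1, h2]
  have e5 : symmDiff ({u, r, x, y} : Finset V) {z, y} = {u, r, x, z} := by
    ext t
    simp only [Finset.mem_symmDiff, Finset.mem_insert, Finset.mem_singleton]
    by_cases h1 : t = y
    · subst h1; simp [huy.symm, hyr, hxy.symm, hyz]
    · by_cases h2 : t = z
      · subst h2; simp [h1, hzr, huz.symm, hxz.symm]
      · simp [h1, h2]
  have e6 : symmDiff ({z, r} : Finset V) {z, y} = {y, r} := by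
    ext t
    simp only [Finset.mem_symmDiff, Finset.mem_insert, Finset.mem_singleton]
    by_cases h1 : t = z
    · subst h1; simp [hyz.symm, hzr]
    · by_cases h2 : t = y
      · subst h2; simp [h1, hyr]
      · simp [h1, h2]
  rw [e1, e2, e3, e4, e5, e6] at key
  linarith only [key]

end Vale.Agent.P308.Soft
end

section

/-!
# P308, module A, part 2: two- and four-hole bounds along a path, adding virtual edge weights
(helper52)
-/

namespace Vale.Agent.P308.Soft

open Finset

variable {V : Type*} [Fintype V] [DecidableEq V]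
variable {lam lam' : Sym2 V → ℝ} {Z Z' : Finset V → ℝ}

/-- the strong graph at level `t`: edges `xy` with `α x * α y * lam xy ≥ t`,
`α x = Z {x, r} / Z ∅` -/
def SG (lam : Sym2 V → ℝ) (Z : Finset V → ℝ) (r : V) (t : ℝ) : SimpleGraph V where
  Adj x y := x ≠ y ∧ x ≠ r ∧ y ≠ r ∧ t * Z ∅ * Z ∅ ≤ Z {x, r} * Z {y, r} * lam s(x, y)
  symm := ⟨by
    rintro x y ⟨h1, h2, h3, h4⟩
    refine ⟨h1.symm, h3, h2, ?_⟩
    rw [Sym2.eq_swap, mul_comm (Z {y, r})]
    exact h4⟩
  loopless := ⟨fun x h => h.1 rfl⟩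

omit [Fintype V] in
/-- a strong edge, multiplied by a hole sum containing both ends -/
theorem SG.mul_le {r : V} {t : ℝ} {x y : V} (h : (SG lam Z r t).Adj x y) {A B : ℝ}
    (hA : 0 ≤ A) (hxy : lam s(x, y) * A ≤ B) (hx : 0 ≤ Z {x, r}) (hy : 0 ≤ Z {y, r}) :
    t * Z ∅ * Z ∅ * A ≤ Z {x, r} * Z {y, r} * B := by
  have h4 := h.2.2.2
  calc t * Z ∅ * Z ∅ * A ≤ Z {x, r} * Z {y, r} * lam s(x, y) * A :=
        mul_le_mul_of_nonneg_right h4 hA
    _ = Z {x, r} * Z {y, r} * (lam s(x, y) * A) := by ring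
    _ ≤ Z {x, r} * Z {y, r} * B := mul_le_mul_of_nonneg_left hxy (mul_nonneg hx hy)

omit [Fintype V] in
theorem SG.pos {r : V} {t : ℝ} (ht : 0 < t) (h0 : 0 < Z ∅) (hz : ∀ S, 0 ≤ Z S) {x y : V}
    (h : (SG lam Z r t).Adj x y) : 0 < Z {y, r} := by
  rcases (hz {y, r}).lt_or_eq with h1 | h1
  · exact h1
  · exfalso
    have h4 := h.2.2.2
    rw [← h1] at h4
    have : 0 < t * Z ∅ * Z ∅ := by positivity
    simp only [mul_zero, zero_mul] at h4
    linarith

/-- two-hole bound along a walk in the strong graph -/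
theorem HoleSum.pair_walk (h : HoleSum lam Z) (hl : ∀ e, 0 ≤ lam e) (h0 : 0 < Z ∅)
    {r : V} {t : ℝ} (ht : 0 < t) {x : V} (hxr : x ≠ r) :
    ∀ {y : V} (p : (SG lam Z r t).Walk y x), x ≠ y →
      t * Z {x, y} * Z ∅ ≤ 2 * p.length * (Z {x, r} * Z {y, r}) := by
  intro y p
  induction p with
  | nil => intro hne; exact absurd rfl hne
  | @cons y z x hyz q ih =>
    intro hxy
    have hne : y ≠ z := hyz.1
    have hyr : y ≠ r := hyz.2.1
    have hzr : z ≠ r := hyz.2.2.1
    have nx := h.nonneg {x, r}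
    have ny := h.nonneg {y, r}
    have nz := h.nonneg {z, r}
    have hnn : 0 ≤ Z {x, r} * Z {y, r} := mul_nonneg nx ny
    -- strong edge bound for the pair y z
    have b1 : t * Z {y, z} * Z ∅ ≤ Z {y, r} * Z {z, r} := by
      have hins := h.insertion hl (S := ∅) (x := y) (y := z) (by simp) (by simp) hne
      have hset : insert z (insert y (∅ : Finset V)) = {y, z} := by ext t; simp; (clear * - ih hxr; tauto)
      rw [hset] at hins
      have := SG.mul_le hyz (h.nonneg {y, z}) hins ny nz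
      have h2 : (t * Z {y, z} * Z ∅) * Z ∅ ≤ (Z {y, r} * Z {z, r}) * Z ∅ := by linarith
      exact le_of_mul_le_mul_right h2 h0
    simp only [SimpleGraph.Walk.length_cons, Nat.cast_add, Nat.cast_one]
    have hlen : (0 : ℝ) ≤ (q.length : ℝ) := Nat.cast_nonneg _
    by_cases hzx : z = x
    · subst hzx
      have hc : Z {z, y} = Z {y, z} := by rw [Finset.pair_comm]
      rw [hc]
      have : 0 ≤ (q.length : ℝ) * (Z {z, r} * Z {y, r}) := mul_nonneg hlen hnn
      linarith
    · have hxz : x ≠ z := fun h => hzx h.symm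
      have hz0 : 0 < Z {z, r} := SG.pos ht h0 h.nonneg hyz
      have key := h.exchange_two hl hxy hxz hxr hne hyr hzr
      have IH := ih hxr hxz
      have b2 : t * Z {x, y, z, r} * Z ∅ * Z ∅ ≤ Z {x, r} * Z {y, r} * Z {z, r} := by
        have hins := h.insertion hl (S := {x, r}) (x := y) (y := z)
          (by simp [hxy.symm, hyr]) (by simp [hxz.symm, hzr]) hne
        have hset : insert z (insert y ({x, r} : Finset V)) = {x, y, z, r} := by
          ext t; simp only [mem_insert, mem_singleton]; (clear * - ih hxr hxz; tauto)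
        rw [hset] at hins
        have := SG.mul_le hyz (h.nonneg {x, y, z, r}) hins ny nz
        nlinarith only [this]
      -- multiply the exchange inequality by t * Z ∅
      have hm : (t * Z ∅) * (Z {x, y} * Z {z, r}) ≤ (t * Z ∅) *
          (Z {y, z} * Z {x, r} + Z {x, z} * Z {y, r} + Z {x, y, z, r} * Z ∅) :=
        mul_le_mul_of_nonneg_left key (by positivity)
      have c1 : t * Z {y, z} * Z ∅ * Z {x, r} ≤ Z {y, r} * Z {z, r} * Z {x, r} :=
        mul_le_mul_of_nonneg_right b1 nx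
      have c2 : t * Z {x, z} * Z ∅ * Z {y, r} ≤
          2 * q.length * (Z {x, r} * Z {z, r}) * Z {y, r} :=
        mul_le_mul_of_nonneg_right IH ny
      have hfin : (t * Z {x, y} * Z ∅) * Z {z, r} ≤
          (2 * ((q.length : ℝ) + 1) * (Z {x, r} * Z {y, r})) * Z {z, r} := by
        linarith
      exact le_of_mul_le_mul_right hfin hz0

/-- four-hole bound along a walk in the strong graph -/
theorem HoleSum.four_walk (h : HoleSum lam Z) (hl : ∀ e, 0 ≤ lam e) (h0 : 0 < Z ∅)
    {r : V} {t : ℝ} (ht : 0 < t) {u x : V} (hxr : x ≠ r) (hur : u ≠ r) (hux : u ≠ x) :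
    ∀ {y : V} (p : (SG lam Z r t).Walk y x), x ≠ y → u ≠ y →
      t * Z {u, r, x, y} * Z ∅ * Z ∅ ≤ 2 * p.length * (Z {u, r} * Z {x, r} * Z {y, r}) := by
  intro y p
  induction p with
  | nil => intro hne; exact absurd rfl hne
  | @cons y z x hyz q ih =>
    intro hxy huy
    have hne : y ≠ z := hyz.1
    have hyr : y ≠ r := hyz.2.1
    have hzr : z ≠ r := hyz.2.2.1
    have nu := h.nonneg {u, r}
    have nx := h.nonneg {x, r}
    have ny := h.nonneg {y, r}
    have nz := h.nonneg {z, r}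
    have hnn : 0 ≤ Z {u, r} * Z {x, r} * Z {y, r} := mul_nonneg (mul_nonneg nu nx) ny
    simp only [SimpleGraph.Walk.length_cons, Nat.cast_add, Nat.cast_one]
    have hlen : (0 : ℝ) ≤ (q.length : ℝ) := Nat.cast_nonneg _
    have hlen2 : 0 ≤ (q.length : ℝ) * (Z {u, r} * Z {x, r} * Z {y, r}) := mul_nonneg hlen hnn
    by_cases hzx : z = x
    · subst hzx
      have hins := h.insertion hl (S := {u, r}) (x := y) (y := z)
          (by simp [huy.symm, hyr]) (by simp [hux.symm, hzr]) hne
      have hset : insert z (insert y ({u, r} : Finset V)) = {u, r, z, y} := by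
        ext t; simp only [mem_insert, mem_singleton]; (clear * - ih hxr hux; tauto)
      rw [hset] at hins
      have := SG.mul_le hyz (h.nonneg {u, r, z, y}) hins ny nz
      linarith
    · by_cases hzu : z = u
      · subst hzu
        have hins := h.insertion hl (S := {x, r}) (x := y) (y := z)
          (by simp [hxy.symm, hyr]) (by simp [hux, hzr]) hne
        have hset : insert z (insert y ({x, r} : Finset V)) = {z, r, x, y} := by
          ext t; simp only [mem_insert, mem_singleton]; (clear * - ih hxr hux; tauto)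
        rw [hset] at hins
        have := SG.mul_le hyz (h.nonneg {z, r, x, y}) hins ny nz
        linarith
      · have hxz : x ≠ z := fun h => hzx h.symm
        have huz : u ≠ z := fun h => hzu h.symm
        have hz0 : 0 < Z {z, r} := SG.pos ht h0 h.nonneg hyz
        have key := h.exchange_four hl hur hux huy huz hxy hxz hxr hne hyr hzr
        have IH := ih hxr hux hxz huz
        have b1 : t * Z {z, r, x, y} * Z ∅ * Z ∅ ≤ Z {x, r} * Z {y, r} * Z {z, r} := by
          have hins := h.insertion hl (S := {x, r}) (x := y) (y := z)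
            (by simp [hxy.symm, hyr]) (by simp [hxz.symm, hzr]) hne
          have hset : insert z (insert y ({x, r} : Finset V)) = {z, r, x, y} := by
            ext t; simp; (clear * - ih hxr hux hxz huz; tauto)
          rw [hset] at hins
          have := SG.mul_le hyz (h.nonneg {z, r, x, y}) hins ny nz
          nlinarith only [this]
        have b2 : t * Z {u, r, y, z} * Z ∅ * Z ∅ ≤ Z {u, r} * Z {y, r} * Z {z, r} := by
          have hins := h.insertion hl (S := {u, r}) (x := y) (y := z)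
            (by simp [huy.symm, hyr]) (by simp [huz.symm, hzr]) hne
          have hset : insert z (insert y ({u, r} : Finset V)) = {u, r, y, z} := by
            ext t; simp only [mem_insert, mem_singleton]; (clear * - ih hxr hux hxz huz; tauto)
          rw [hset] at hins
          have := SG.mul_le hyz (h.nonneg {u, r, y, z}) hins ny nz
          nlinarith only [this]
        have hm : (t * Z ∅ * Z ∅) * (Z {u, r, x, y} * Z {z, r}) ≤ (t * Z ∅ * Z ∅) *
            (Z {z, r, x, y} * Z {u, r} + Z {u, r, y, z} * Z {x, r} +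
              Z {u, r, x, z} * Z {y, r}) :=
          mul_le_mul_of_nonneg_left key (by positivity)
        have c1 := mul_le_mul_of_nonneg_right b1 nu
        have c2 := mul_le_mul_of_nonneg_right b2 nx
        have c3 := mul_le_mul_of_nonneg_right IH ny
        have hfin : (t * Z {u, r, x, y} * Z ∅ * Z ∅) * Z {z, r} ≤
            (2 * ((q.length : ℝ) + 1) * (Z {u, r} * Z {x, r} * Z {y, r})) * Z {z, r} := by
          linarith only [hm, c1, c2, c3]
        exact le_of_mul_le_mul_right hfin hz0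

/-- changing one edge weight: sets meeting the edge are not affected -/
theorem HoleSum.congr_of_mem (h : HoleSum lam Z) (h' : HoleSum lam' Z') {p q : V}
    (hlam : ∀ e, e ≠ s(p, q) → ¬ e.IsDiag → lam' e = lam e) :
    ∀ (N : ℕ) (S : Finset V), (Sᶜ).card = N → (p ∈ S ∨ q ∈ S) → Z' S = Z S := by
  intro N
  induction N using Nat.strong_induction_on with
  | _ N ih =>
  intro S hN hS
  by_cases hu : S = univ
  · rw [hu, h.top, h'.top]
  · obtain ⟨a, ha⟩ : ∃ a, a ∉ S := by
      by_contra hcon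
      push Not at hcon
      exact hu (Finset.eq_univ_iff_forall.2 hcon)
    rw [h.expand S a ha, h'.expand S a ha]
    refine Finset.sum_congr rfl fun y hy => ?_
    have hy' : y ≠ a ∧ y ∉ S := by simpa [not_or] using hy
    have hlt : ((insert y (insert a S))ᶜ).card < N := by
      rw [← hN]
      apply Finset.card_lt_card
      rw [Finset.ssubset_iff_of_subset]
      · exact ⟨a, by simpa using ha, by simp only [compl_insert, mem_erase, ne_eq, not_true_eq_false, mem_compl, false_and, and_false, not_false_eq_true]⟩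
      · intro z hz
        simp only [Finset.mem_compl, Finset.mem_insert, not_or] at hz ⊢
        exact hz.2.2
    rw [ih _ hlt _ rfl (by rcases hS with h | h <;> simp [h])]
    rw [hlam]
    · intro he
      rcases Sym2.eq_iff.1 he with ⟨rfl, rfl⟩ | ⟨rfl, rfl⟩
      · (clear * - hy' hS ha; tauto)
      · (clear * - hy' hS ha; tauto)
    · simpa using hy'.1.symm

/-- adding weight `w` to one edge -/
theorem HoleSum.update (h : HoleSum lam Z) (h' : HoleSum lam' Z') {p q : V} (hpq : p ≠ q) {w : ℝ}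
    (hlam : ∀ e, e ≠ s(p, q) → ¬ e.IsDiag → lam' e = lam e)
    (hw : lam' s(p, q) = lam s(p, q) + w) (S : Finset V) (hp : p ∉ S) (hq : q ∉ S) :
    Z' S = Z S + w * Z (insert q (insert p S)) := by
  rw [h.expand S p hp, h'.expand S p hp]
  have hq' : q ∈ (insert p S)ᶜ := by simp [hpq.symm, hq]
  have : ∀ y ∈ (insert p S)ᶜ, lam' s(p, y) * Z' (insert y (insert p S)) =
      lam s(p, y) * Z (insert y (insert p S)) +
        if y = q then w * Z (insert q (insert p S)) else 0 := by
    intro y hy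
    have hy' : y ≠ p ∧ y ∉ S := by simpa only [ne_eq, compl_insert, mem_erase, mem_compl] using hy
    rw [h.congr_of_mem h' hlam _ _ rfl (Or.inl (by simp))]
    by_cases hyq : y = q
    · subst hyq
      rw [hw, if_pos rfl]
      ring
    · rw [if_neg hyq, hlam, add_zero]
      · intro he
        rcases Sym2.eq_iff.1 he with ⟨-, h2⟩ | ⟨h2, h3⟩
        · exact hyq h2
        · exact hpq h2
      · simpa using hy'.1.symm
  rw [Finset.sum_congr rfl this, Finset.sum_add_distrib, Finset.sum_ite_eq' _ q, if_pos hq']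

end Vale.Agent.P308.Soft
end

section

/-! P308, polynomial FPRAS, Part 2 (note 7578 of helper864): the replica chain.
Everything is about real functions on finite types, with weighted sums as inner products. -/

namespace Vale.Agent.P308.Rep

open Finset

/-- weighted inner product -/
def ip {Z : Type*} [Fintype Z] (m : Z → ℝ) (F G : Z → ℝ) : ℝ := ∑ z, m z * (F z * G z)

/-- squared weighted norm -/
def nsq {Z : Type*} [Fintype Z] (m : Z → ℝ) (F : Z → ℝ) : ℝ := ip m F F

/-- weighted mean -/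
def mean {Z : Type*} [Fintype Z] (m : Z → ℝ) (F : Z → ℝ) : ℝ := ∑ z, m z * F z

/-- positive probability weight -/
structure PosProb {Z : Type*} [Fintype Z] (m : Z → ℝ) : Prop where
  pos : ∀ z, 0 < m z
  sum : ∑ z, m z = 1

section
variable {X : Type*} [Fintype X] [DecidableEq X]

/-- product weight on pairs -/
def m2 (μ : X → ℝ) : X × X → ℝ := fun p => μ p.1 * μ p.2

/-- product weight on triples -/
def m3 (μ : X → ℝ) : X × X × X → ℝ := fun p => μ p.1 * (μ p.2.1 * μ p.2.2)

/-- product weight on configurations -/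
def mW (μ : X → ℝ) {s : ℕ} : (Fin s → X) → ℝ := fun x => ∏ i, μ (x i)

/-- `f ⊕ f` -/
def dbl (f : X → ℝ) : X × X → ℝ := fun p => f p.1 + f p.2

/-- Properties of `U = I - Q` (`Q` the lazy exchange kernel on pairs). -/
structure PairOp (μ : X → ℝ) (γ : ℝ) (U : ((X × X) → ℝ) →ₗ[ℝ] ((X × X) → ℝ)) : Prop where
  sa : ∀ f g, ip (m2 μ) (U f) g = ip (m2 μ) f (U g)
  contr : ∀ f, nsq (m2 μ) (U f) ≤ ip (m2 μ) (U f) f
  const : ∀ c : ℝ, U (fun _ => c) = 0
  swap : ∀ f p, U (fun q => f q.swap) p = U f p.swap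
  gap : ∀ f : X → ℝ, mean μ f = 0 → 2 * γ * nsq μ f ≤ ip (m2 μ) (U (dbl f)) (dbl f)

variable {s : ℕ}

/-- replace the coordinates `i`, `j` by the pair `p` -/
def upd (x : Fin s → X) (i j : Fin s) (p : X × X) : Fin s → X :=
  Function.update (Function.update x i p.1) j p.2

/-- `U` acting on the coordinates `i`, `j` -/
def lift (U : ((X × X) → ℝ) →ₗ[ℝ] ((X × X) → ℝ)) (i j : Fin s) (F : (Fin s → X) → ℝ) :
    (Fin s → X) → ℝ :=
  fun x => U (fun p => F (upd x i j p)) (x i, x j)

/-- `D = I - P`, the average of `lift U i j` over ordered pairs `i ≠ j` -/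
noncomputable def D (U : ((X × X) → ℝ) →ₗ[ℝ] ((X × X) → ℝ)) (F : (Fin s → X) → ℝ) :
    (Fin s → X) → ℝ :=
  fun x => (1 / ((s : ℝ) * (s - 1))) * ∑ q ∈ (univ : Finset (Fin s)).offDiag, lift U q.1 q.2 F x

/-- `P = I - D` -/
noncomputable def Pop (U : ((X × X) → ℝ) →ₗ[ℝ] ((X × X) → ℝ)) (F : (Fin s → X) → ℝ) :
    (Fin s → X) → ℝ :=
  fun x => F x - D U F x

def S1 (a : X → ℝ) : (Fin s → X) → ℝ := fun x => ∑ i, a (x i)

def S2 (b : X × X → ℝ) : (Fin s → X) → ℝ :=
  fun x => ∑ q ∈ (univ : Finset (Fin s)).offDiag, b (x q.1, x q.2)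

/-- ordered triples of distinct indices -/
def trip (s : ℕ) : Finset (Fin s × Fin s × Fin s) :=
  univ.filter fun q => q.1 ≠ q.2.1 ∧ q.1 ≠ q.2.2 ∧ q.2.1 ≠ q.2.2

def S3 (t : X × X × X → ℝ) : (Fin s → X) → ℝ :=
  fun x => ∑ q ∈ trip s, t (x q.1, x q.2.1, x q.2.2)

/-- the linearised operator -/
def Lop (μ : X → ℝ) (U : ((X × X) → ℝ) →ₗ[ℝ] ((X × X) → ℝ)) (a : X → ℝ) : X → ℝ :=
  fun x => ∑ y, μ y * U (dbl a) (x, y)

/-- the degenerate rest `R_a` -/
def Rop (μ : X → ℝ) (U : ((X × X) → ℝ) →ₗ[ℝ] ((X × X) → ℝ)) (a : X → ℝ) : X × X → ℝ :=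
  fun p => U (dbl a) p - Lop μ U a p.1 - Lop μ U a p.2

/-- `L ⊗ 1 + 1 ⊗ L` -/
def Mop (μ : X → ℝ) (U : ((X × X) → ℝ) →ₗ[ℝ] ((X × X) → ℝ)) (b : X × X → ℝ) : X × X → ℝ :=
  fun p => Lop μ U (fun y => b (p.1, y)) p.2 + Lop μ U (fun x => b (x, p.2)) p.1

/-- the three-body rest: the first variable is the spectator -/
def RRop (μ : X → ℝ) (U : ((X × X) → ℝ) →ₗ[ℝ] ((X × X) → ℝ)) (b : X × X → ℝ) :
    X × X × X → ℝ :=
  fun q => Rop μ U (fun u => b (q.1, u)) (q.2.1, q.2.2)

/-- symmetric function -/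
def Sym (b : X × X → ℝ) : Prop := ∀ x y, b (x, y) = b (y, x)

/-- degenerate function: mean zero in each variable -/
def Deg (μ : X → ℝ) (b : X × X → ℝ) : Prop :=
  (∀ x, ∑ y, μ y * b (x, y) = 0) ∧ (∀ y, ∑ x, μ x * b (x, y) = 0)

/-- degenerate function of three variables -/
def Deg3 (μ : X → ℝ) (t : X × X × X → ℝ) : Prop :=
  (∀ y z, ∑ x, μ x * t (x, y, z) = 0) ∧ (∀ x z, ∑ y, μ y * t (x, y, z) = 0) ∧
    (∀ x y, ∑ z, μ z * t (x, y, z) = 0)

end

end Vale.Agent.P308.Rep
end

section

/-! R2: the generator on one-body and two-body sums. -/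

namespace Vale.Agent.P308.Rep

open Finset

variable {X : Type*} [Fintype X] [DecidableEq X] {s : ℕ}

theorem upd_fst (x : Fin s → X) {i j : Fin s} (hij : i ≠ j) (p : X × X) : upd x i j p i = p.1 := by
  simp [upd, hij]

theorem upd_snd (x : Fin s → X) (i j : Fin s) (p : X × X) : upd x i j p j = p.2 := by
  simp only [upd, Function.update_self]

theorem upd_ne (x : Fin s → X) {i j k : Fin s} (hi : k ≠ i) (hj : k ≠ j) (p : X × X) :
    upd x i j p k = x k := by
  simp [upd, hi, hj]

/-- the indices different from `i` and `j` -/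
def rest (i j : Fin s) : Finset (Fin s) := (univ.erase i).erase j

theorem mem_rest {i j k : Fin s} : k ∈ rest i j ↔ k ≠ j ∧ k ≠ i := by
  simp only [rest, mem_erase, ne_eq, mem_univ, and_true]

theorem sum_split {i j : Fin s} (hij : i ≠ j) (f : Fin s → ℝ) :
    ∑ k, f k = f i + f j + ∑ k ∈ rest i j, f k := by
  rw [← add_sum_erase univ f (mem_univ i),
    ← add_sum_erase (univ.erase i) f (mem_erase.2 ⟨hij.symm, mem_univ j⟩), rest]
  ring

theorem sum_offDiag (g : Fin s → Fin s → ℝ) :
    ∑ q ∈ (univ : Finset (Fin s)).offDiag, g q.1 q.2 =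
      ∑ i, ∑ j, if i ≠ j then g i j else 0 := by
  rw [← Finset.sum_product', ← Finset.sum_filter]
  refine Finset.sum_congr ?_ fun _ _ => rfl
  ext q
  simp only [mem_offDiag, mem_univ, ne_eq, true_and, univ_product_univ, mem_filter]

theorem sum_offDiag_split {i j : Fin s} (hij : i ≠ j) (g : Fin s → Fin s → ℝ) :
    ∑ q ∈ (univ : Finset (Fin s)).offDiag, g q.1 q.2 =
      g i j + g j i + (∑ k ∈ rest i j, (g i k + g k i + g j k + g k j)) +
        ∑ k ∈ rest i j, ∑ l ∈ rest i j, if k ≠ l then g k l else 0 := by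
  rw [sum_offDiag, sum_split hij]
  have h1 : (∑ l, if i ≠ l then g i l else 0) = g i j + ∑ l ∈ rest i j, g i l := by
    rw [sum_split hij]
    simp only [ne_eq, not_true_eq_false, if_false, hij, not_false_eq_true, if_true, zero_add]
    congr 1
    refine sum_congr rfl fun l hl => ?_
    rw [if_pos (fun h => (mem_rest.1 hl).2 h.symm)]
  have h2 : (∑ l, if j ≠ l then g j l else 0) = g j i + ∑ l ∈ rest i j, g j l := by
    rw [sum_split hij]
    simp only [ne_eq, hij.symm, not_false_eq_true, if_true, not_true_eq_false, if_false, add_zero]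
    congr 1
    refine sum_congr rfl fun l hl => ?_
    rw [if_pos (fun h => (mem_rest.1 hl).1 h.symm)]
  have h3 : (∑ k ∈ rest i j, ∑ l, if k ≠ l then g k l else 0) =
      ∑ k ∈ rest i j, (g k i + g k j + ∑ l ∈ rest i j, if k ≠ l then g k l else 0) := by
    refine sum_congr rfl fun k hk => ?_
    rw [sum_split hij, if_pos (mem_rest.1 hk).2, if_pos (mem_rest.1 hk).1]
  rw [h1, h2, h3]
  simp only [sum_add_distrib]
  ring

theorem lift_S1 {μ : X → ℝ} {γ : ℝ} {U : ((X × X) → ℝ) →ₗ[ℝ] ((X × X) → ℝ)}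
    (hU : PairOp μ γ U) (a : X → ℝ) (x : Fin s → X) {i j : Fin s} (hij : i ≠ j) :
    lift U i j (S1 a) x = U (dbl a) (x i, x j) := by
  unfold lift
  have : (fun p => S1 a (upd x i j p)) =
      dbl a + fun _ : X × X => ∑ k ∈ rest i j, a (x k) := by
    funext p
    simp only [S1, Pi.add_apply, dbl]
    rw [sum_split hij, upd_fst x hij, upd_snd]
    congr 1
    refine sum_congr rfl fun k hk => ?_
    rw [upd_ne x (mem_rest.1 hk).2 (mem_rest.1 hk).1]
  rw [this, map_add, hU.const]
  simp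

theorem U_dbl_eq (μ : X → ℝ) (U : ((X × X) → ℝ) →ₗ[ℝ] ((X × X) → ℝ)) (a : X → ℝ) (u v : X) :
    U (dbl a) (u, v) = Rop μ U a (u, v) + Lop μ U a u + Lop μ U a v := by
  simp only [Rop]
  ring

theorem sum_offDiag_fst (f : Fin s → ℝ) :
    ∑ q ∈ (univ : Finset (Fin s)).offDiag, f q.1 = ((s : ℝ) - 1) * ∑ i, f i := by
  rw [sum_offDiag (fun i _ => f i), mul_sum]
  refine sum_congr rfl fun i _ => ?_
  have : (∑ j : Fin s, if i ≠ j then f i else 0) = ∑ j ∈ univ.erase i, f i := by
    rw [← sum_filter]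
    refine sum_congr ?_ fun _ _ => rfl
    ext j
    simp only [ne_eq, mem_filter, mem_univ, true_and, mem_erase, eq_comm, and_true]
  rw [this, sum_const, card_erase_of_mem (mem_univ i), nsmul_eq_mul, card_univ, Fintype.card_fin]
  congr 1
  rw [Nat.cast_sub (by have := i.pos; omega)]
  simp only [Nat.cast_one]

theorem sum_offDiag_swap (g : Fin s → Fin s → ℝ) :
    ∑ q ∈ (univ : Finset (Fin s)).offDiag, g q.1 q.2 =
      ∑ q ∈ (univ : Finset (Fin s)).offDiag, g q.2 q.1 := by
  rw [sum_offDiag, sum_offDiag (fun i j => g j i), sum_comm]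
  refine sum_congr rfl fun i _ => sum_congr rfl fun j _ => ?_
  simp only [ne_eq, eq_comm]

theorem sum_offDiag_snd (f : Fin s → ℝ) :
    ∑ q ∈ (univ : Finset (Fin s)).offDiag, f q.2 = ((s : ℝ) - 1) * ∑ i, f i := by
  rw [← sum_offDiag_fst, sum_offDiag_swap (fun i _ => f i)]

theorem D_S1 {μ : X → ℝ} {γ : ℝ} {U : ((X × X) → ℝ) →ₗ[ℝ] ((X × X) → ℝ)}
    (hU : PairOp μ γ U) (hs : 2 ≤ s) (a : X → ℝ) (x : Fin s → X) :
    D U (S1 a) x = (2 / s) * S1 (Lop μ U a) x + (1 / ((s : ℝ) * (s - 1))) * S2 (Rop μ U a) x := by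
  unfold D
  have h1 : ∑ q ∈ (univ : Finset (Fin s)).offDiag, lift U q.1 q.2 (S1 a) x =
      S2 (Rop μ U a) x + 2 * ((s : ℝ) - 1) * S1 (Lop μ U a) x := by
    have : ∀ q ∈ (univ : Finset (Fin s)).offDiag, lift U q.1 q.2 (S1 a) x =
        Rop μ U a (x q.1, x q.2) + Lop μ U a (x q.1) + Lop μ U a (x q.2) := by
      intro q hq
      rw [lift_S1 hU a x (mem_offDiag.1 hq).2.2, U_dbl_eq μ]
    rw [sum_congr rfl this, sum_add_distrib, sum_add_distrib,
      sum_offDiag_fst (fun i => Lop μ U a (x i)), sum_offDiag_snd (fun i => Lop μ U a (x i))]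
    simp only [S2, S1]
    ring
  rw [h1]
  have hs0 : (s : ℝ) ≠ 0 := by (clear * - hs; positivity)
  have hs1 : (s : ℝ) - 1 ≠ 0 := by
    have : (2 : ℝ) ≤ s := by exact_mod_cast hs
    linarith only [this]
  field_simp
  ring

theorem lift_S2 {μ : X → ℝ} {γ : ℝ} {U : ((X × X) → ℝ) →ₗ[ℝ] ((X × X) → ℝ)}
    (hU : PairOp μ γ U) (b : X × X → ℝ) (hb : Sym b) (x : Fin s → X) {i j : Fin s}
    (hij : i ≠ j) :
    lift U i j (S2 b) x = 2 * U b (x i, x j) +
      2 * ∑ k ∈ rest i j, U (dbl (fun u => b (x k, u))) (x i, x j) := by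
  unfold lift
  have : (fun p => S2 b (upd x i j p)) =
      (2 : ℝ) • b + (2 : ℝ) • (∑ k ∈ rest i j, dbl (fun u => b (x k, u))) +
        fun _ : X × X => ∑ k ∈ rest i j, ∑ l ∈ rest i j, if k ≠ l then b (x k, x l) else 0 := by
    funext p
    simp only [S2, Pi.add_apply, dbl, Pi.smul_apply, smul_eq_mul, Finset.sum_apply]
    rw [sum_offDiag_split hij (fun k l => b (upd x i j p k, upd x i j p l)), upd_fst x hij,
      upd_snd]
    congr 1
    · have h1 : ∑ k ∈ rest i j, (b (p.1, upd x i j p k) + b (upd x i j p k, p.1) +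
          b (p.2, upd x i j p k) + b (upd x i j p k, p.2)) =
          ∑ k ∈ rest i j, 2 * (b (x k, p.1) + b (x k, p.2)) := by
        refine sum_congr rfl fun k hk => ?_
        rw [upd_ne x (mem_rest.1 hk).2 (mem_rest.1 hk).1, hb p.1, hb p.2]
        ring
      rw [h1, ← mul_sum, hb p.2 p.1]
      ring
    · refine sum_congr rfl fun k hk => sum_congr rfl fun l hl => ?_
      rw [upd_ne x (mem_rest.1 hk).2 (mem_rest.1 hk).1,
        upd_ne x (mem_rest.1 hl).2 (mem_rest.1 hl).1]
  rw [this, map_add, map_add, hU.const, map_smul, map_smul, map_sum]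
  simp only [Pi.add_apply, Pi.smul_apply, smul_eq_mul, Finset.sum_apply, Pi.zero_apply, add_zero]

theorem sum_trip (g : Fin s → Fin s → Fin s → ℝ) :
    ∑ q ∈ trip s, g q.1 q.2.1 q.2.2 =
      ∑ q ∈ (univ : Finset (Fin s)).offDiag, ∑ k ∈ rest q.1 q.2, g k q.1 q.2 := by
  rw [sum_offDiag (fun i j => ∑ k ∈ rest i j, g k i j), trip, sum_filter]
  rw [← univ_product_univ, sum_product]
  rw [← univ_product_univ]
  simp only [sum_product]
  rw [sum_comm]
  refine sum_congr rfl fun i _ => ?_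
  rw [sum_comm]
  refine sum_congr rfl fun j _ => ?_
  by_cases hij : i = j
  · simp only [hij, ne_eq, not_true_eq_false, and_false, ↓reduceIte, sum_const_zero]
  · rw [if_pos hij, ← sum_filter]
    refine sum_congr ?_ fun _ _ => rfl
    ext k
    simp only [ne_eq, hij, not_false_eq_true, and_true, mem_filter, mem_univ, true_and, mem_rest]
    (clear * -; tauto)

theorem card_rest {i j : Fin s} (hij : i ≠ j) : ((rest i j).card : ℝ) = (s : ℝ) - 2 := by
  have h2 : 2 ≤ s := by
    have := i.isLt; have := j.isLt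
    by_contra h
    have : (i : ℕ) ≠ j := fun h => hij (Fin.ext h)
    omega
  rw [rest, card_erase_of_mem (mem_erase.2 ⟨hij.symm, mem_univ j⟩),
    card_erase_of_mem (mem_univ i), card_univ, Fintype.card_fin]
  rw [Nat.sub_sub, Nat.cast_sub (by omega)]
  norm_num

/-- summing a function of two of the three indices over the triples -/
theorem sum_rest_fst (f : Fin s → Fin s → ℝ) :
    ∑ q ∈ (univ : Finset (Fin s)).offDiag, ∑ k ∈ rest q.1 q.2, f k q.1 =
      ((s : ℝ) - 2) * ∑ q ∈ (univ : Finset (Fin s)).offDiag, f q.1 q.2 := by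
  have h : ∑ q ∈ (univ : Finset (Fin s)).offDiag, ∑ k ∈ rest q.1 q.2, f k q.1 =
      ∑ q ∈ (univ : Finset (Fin s)).offDiag, ∑ k ∈ rest q.1 q.2, f q.1 q.2 := by
    rw [sum_offDiag (fun i j => ∑ k ∈ rest i j, f k i),
      sum_offDiag (fun i j => ∑ k ∈ rest i j, f i j)]
    have e1 : ∀ i j : Fin s, (if i ≠ j then ∑ k ∈ rest i j, f k i else 0) =
        ∑ k, if (i ≠ j ∧ k ≠ j ∧ k ≠ i) then f k i else 0 := by
      intro i j
      by_cases hij : i = j
      · simp only [hij, ne_eq, not_true_eq_false, ↓reduceIte, and_self, false_and, sum_const_zero]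
      · rw [if_pos hij, ← sum_filter]
        refine sum_congr ?_ fun _ _ => rfl
        ext k
        simp only [mem_rest, ne_eq, hij, not_false_eq_true, true_and, mem_filter, mem_univ]
    have e2 : ∀ i j : Fin s, (if i ≠ j then ∑ k ∈ rest i j, f i j else 0) =
        ∑ k, if (i ≠ j ∧ k ≠ j ∧ k ≠ i) then f i j else 0 := by
      intro i j
      by_cases hij : i = j
      · simp only [hij, ne_eq, not_true_eq_false, ↓reduceIte, and_self, false_and, sum_const_zero]
      · rw [if_pos hij, ← sum_filter]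
        refine sum_congr ?_ fun _ _ => rfl
        ext k
        simp only [mem_rest, ne_eq, hij, not_false_eq_true, true_and, mem_filter, mem_univ]
    simp only [e1, e2]
    -- LHS: ∑ i j k, [distinct] f k i ; RHS: ∑ i j k, [distinct] f i j
    -- rename (i, j, k) ↦ (j, k, i)
    rw [sum_comm]
    have : ∀ j : Fin s, (∑ i, ∑ k, if (i ≠ j ∧ k ≠ j ∧ k ≠ i) then f k i else 0) =
        ∑ k, ∑ i, if (i ≠ j ∧ k ≠ j ∧ k ≠ i) then f k i else 0 := fun j => sum_comm
    simp only [this]
    rw [sum_comm]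
    refine sum_congr rfl fun k _ => ?_
    rw [sum_comm]
    refine sum_congr rfl fun i _ => sum_congr rfl fun j _ => ?_
    refine if_congr ?_ rfl rfl
    constructor
    · rintro ⟨h1, h2, h3⟩
      exact ⟨h3, fun h => h1 h.symm, fun h => h2 h.symm⟩
    · rintro ⟨h1, h2, h3⟩
      exact ⟨fun h => h2 h.symm, fun h => h3 h.symm, h1⟩
  rw [h, mul_sum]
  refine sum_congr rfl fun q hq => ?_
  rw [sum_const, nsmul_eq_mul, card_rest (mem_offDiag.1 hq).2.2]

theorem sum_rest_snd (f : Fin s → Fin s → ℝ) :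
    ∑ q ∈ (univ : Finset (Fin s)).offDiag, ∑ k ∈ rest q.1 q.2, f k q.2 =
      ((s : ℝ) - 2) * ∑ q ∈ (univ : Finset (Fin s)).offDiag, f q.1 q.2 := by
  rw [← sum_rest_fst, sum_offDiag_swap (fun i j => ∑ k ∈ rest i j, f k i)]
  refine sum_congr rfl fun q _ => ?_
  refine sum_congr ?_ fun _ _ => rfl
  ext k
  simp [mem_rest, and_comm]

theorem D_S2 {μ : X → ℝ} {γ : ℝ} {U : ((X × X) → ℝ) →ₗ[ℝ] ((X × X) → ℝ)}
    (hU : PairOp μ γ U) (b : X × X → ℝ) (hb : Sym b) (x : Fin s → X) :
    D U (S2 b) x = (1 / ((s : ℝ) * (s - 1))) *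
      (2 * S2 (U b) x + 2 * ((s : ℝ) - 2) * S2 (Mop μ U b) x + 2 * S3 (RRop μ U b) x) := by
  unfold D
  congr 1
  have h1 : ∀ q ∈ (univ : Finset (Fin s)).offDiag, lift U q.1 q.2 (S2 b) x =
      2 * U b (x q.1, x q.2) + (2 * (∑ k ∈ rest q.1 q.2, RRop μ U b (x k, x q.1, x q.2)) +
      (2 * (∑ k ∈ rest q.1 q.2, Lop μ U (fun u => b (x k, u)) (x q.1)) +
      2 * (∑ k ∈ rest q.1 q.2, Lop μ U (fun u => b (x k, u)) (x q.2)))) := by
    intro q hq
    rw [lift_S2 hU b hb x (mem_offDiag.1 hq).2.2]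
    congr 1
    rw [← mul_add, ← mul_add, ← sum_add_distrib, ← sum_add_distrib]
    congr 1
    refine sum_congr rfl fun k _ => ?_
    rw [U_dbl_eq μ]
    simp only [RRop]
    ring
  rw [sum_congr rfl h1, sum_add_distrib, sum_add_distrib, sum_add_distrib, ← mul_sum, ← mul_sum,
    ← mul_sum, ← mul_sum, ← sum_trip (fun k i j => RRop μ U b (x k, x i, x j)),
    sum_rest_fst (fun k i => Lop μ U (fun u => b (x k, u)) (x i)),
    sum_rest_snd (fun k i => Lop μ U (fun u => b (x k, u)) (x i))]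
  have h2 : S2 (Mop μ U b) x =
      2 * ∑ q ∈ (univ : Finset (Fin s)).offDiag, Lop μ U (fun u => b (x q.1, u)) (x q.2) := by
    simp only [S2, Mop]
    rw [sum_add_distrib, two_mul]
    congr 1
    rw [sum_offDiag_swap (fun i j => Lop μ U (fun u => b (x i, u)) (x j))]
    refine sum_congr rfl fun q _ => ?_
    have : (fun u => b (u, x q.2)) = fun u => b (x q.2, u) := by
      funext u
      exact hb _ _
    rw [this]
  rw [h2]
  simp only [S2, S3]
  ring

end Vale.Agent.P308.Rep
end

section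

/-!
# Solving coercive linear equations (Lemma R4 of Theorem 2)
-/

namespace Vale.Agent.P308.Rep

open Finset

section Abstract

variable {V : Type*} [AddCommGroup V] [Module ℝ V]

/-- Coercive linear maps of a finite dimensional subspace are onto, with a bound. `ip` is a
symmetric positive definite form. -/
theorem coercive_solve (ip : V →ₗ[ℝ] V →ₗ[ℝ] ℝ) (hs : ∀ v w, ip v w = ip w v)
    (W : Submodule ℝ V) [FiniteDimensional ℝ W] (hp : ∀ v ∈ W, ip v v ≤ 0 → v = 0)
    (hn : ∀ v, 0 ≤ ip v v)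
    (T : V →ₗ[ℝ] V) (hT : ∀ v ∈ W, T v ∈ W) {γ : ℝ} (hγ : 0 < γ)
    (hc : ∀ v ∈ W, γ * ip v v ≤ ip v (T v)) {r : V} (hr : r ∈ W) :
    ∃ v ∈ W, T v = r ∧ ip v v ≤ ip r r / γ ^ 2 := by
  have hinj : Function.Injective (T.restrict hT) := by
    rw [← LinearMap.ker_eq_bot, LinearMap.ker_eq_bot']
    intro v hv
    have h1 : T v = 0 := by
      have := congrArg Subtype.val hv
      simpa only [LinearMap.coe_restrict_apply, ZeroMemClass.coe_zero] using this
    have h2 := hc v v.2
    rw [h1, map_zero] at h2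
    have h3 : ip (v : V) v ≤ 0 := by
      by_contra h
      push Not at h
      nlinarith only [h2, hγ, h]
    exact Subtype.ext (hp v v.2 h3)
  obtain ⟨v, hv⟩ := (LinearMap.injective_iff_surjective.1 hinj) ⟨r, hr⟩
  have hTv : T v = r := congrArg Subtype.val hv
  refine ⟨v, v.2, hTv, ?_⟩
  have h1 := hc v v.2
  rw [hTv] at h1
  have h2 := hn (γ • (v : V) - r)
  simp only [map_sub, map_smul, LinearMap.sub_apply, LinearMap.smul_apply, smul_eq_mul] at h2
  rw [hs r v] at h2
  rw [le_div_iff₀ (by positivity)]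
  nlinarith only [h2, hγ, h1]

end Abstract

section Functions

variable {X : Type*} [Fintype X]

/-- The weighted inner product of functions. -/
noncomputable def ipL (μ : X → ℝ) : (X → ℝ) →ₗ[ℝ] (X → ℝ) →ₗ[ℝ] ℝ :=
  LinearMap.mk₂ ℝ (fun a b => ∑ x, μ x * (a x * b x))
    (fun a a' b => by simp only [Pi.add_apply, add_mul, mul_add, sum_add_distrib])
    (fun c a b => by
      simp only [Pi.smul_apply, smul_eq_mul, mul_sum]
      exact sum_congr rfl fun x _ => by ring)
    (fun a b b' => by simp only [Pi.add_apply, mul_add, sum_add_distrib])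
    (fun c a b => by
      simp only [Pi.smul_apply, smul_eq_mul, mul_sum]
      exact sum_congr rfl fun x _ => by ring)

theorem ipL_apply (μ : X → ℝ) (a b : X → ℝ) : ipL μ a b = ∑ x, μ x * (a x * b x) := rfl

theorem ipL_comm (μ : X → ℝ) (a b : X → ℝ) : ipL μ a b = ipL μ b a := by
  rw [ipL_apply, ipL_apply]
  exact sum_congr rfl fun x _ => by ring

theorem ipL_nonneg {μ : X → ℝ} (hμ : ∀ x, 0 < μ x) (a : X → ℝ) : 0 ≤ ipL μ a a :=
  sum_nonneg fun x _ => mul_nonneg (hμ x).le (mul_self_nonneg _)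

theorem eq_zero_of_ipL {μ : X → ℝ} (hμ : ∀ x, 0 < μ x) (a : X → ℝ) (h : ipL μ a a ≤ 0) : a = 0 := by
  rw [ipL_apply] at h
  funext x
  have h1 := (sum_eq_zero_iff_of_nonneg fun x _ =>
    mul_nonneg (hμ x).le (mul_self_nonneg (a x))).1
    (le_antisymm h (ipL_nonneg hμ a)) x (mem_univ x)
  rcases mul_eq_zero.1 h1 with h2 | h2
  · exact absurd h2 (hμ x).ne'
  · exact mul_self_eq_zero.1 h2

/-- The functions with mean zero. -/
noncomputable def meanZero (μ : X → ℝ) : Submodule ℝ (X → ℝ) where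
  carrier := {a | ∑ x, μ x * a x = 0}
  add_mem' := by
    intro a b ha hb
    simp only [Set.mem_ofPred_eq, Pi.add_apply, mul_add, sum_add_distrib] at *
    rw [ha, hb, add_zero]
  zero_mem' := by simp
  smul_mem' := by
    intro c a ha
    simp only [Set.mem_ofPred_eq, Pi.smul_apply, smul_eq_mul] at *
    have : ∀ x, μ x * (c * a x) = c * (μ x * a x) := fun x => by ring
    simp only [this, ← mul_sum, ha, mul_zero]

/-- Solving `L a = h`. -/
theorem solve_one {μ : X → ℝ} (hμ : ∀ x, 0 < μ x) (L : (X → ℝ) →ₗ[ℝ] (X → ℝ))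
    (hL : ∀ a : X → ℝ, ∑ x, μ x * a x = 0 → ∑ x, μ x * L a x = 0) {γ : ℝ} (hγ : 0 < γ)
    (hc : ∀ a : X → ℝ, ∑ x, μ x * a x = 0 →
      γ * ∑ x, μ x * (a x * a x) ≤ ∑ x, μ x * (a x * L a x))
    {h : X → ℝ} (hh : ∑ x, μ x * h x = 0) :
    ∃ a : X → ℝ, ∑ x, μ x * a x = 0 ∧ L a = h ∧
      ∑ x, μ x * (a x * a x) ≤ (∑ x, μ x * (h x * h x)) / γ ^ 2 := by
  obtain ⟨a, ha, h1, h2⟩ := coercive_solve (ipL μ) (ipL_comm μ) (meanZero μ)
    (fun v _ => eq_zero_of_ipL hμ v) (ipL_nonneg hμ) L hL hγ hc (r := h) hh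
  exact ⟨a, ha, h1, h2⟩

/-- The weighted inner product of functions of two variables. -/
noncomputable def ipM (μ : X → ℝ) : (X → X → ℝ) →ₗ[ℝ] (X → X → ℝ) →ₗ[ℝ] ℝ :=
  LinearMap.mk₂ ℝ (fun a b => ∑ x, μ x * ipL μ (a x) (b x))
    (fun a a' b => by
      simp only [Pi.add_apply, map_add, LinearMap.add_apply, mul_add, sum_add_distrib])
    (fun c a b => by
      simp only [Pi.smul_apply, map_smul, LinearMap.smul_apply, smul_eq_mul, mul_sum]
      exact sum_congr rfl fun x _ => by ring)
    (fun a b b' => by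
      simp only [Pi.add_apply, map_add, mul_add, sum_add_distrib])
    (fun c a b => by
      simp only [Pi.smul_apply, map_smul, smul_eq_mul, mul_sum]
      exact sum_congr rfl fun x _ => by ring)

theorem ipM_apply (μ : X → ℝ) (a b : X → X → ℝ) :
    ipM μ a b = ∑ x, μ x * ∑ y, μ y * (a x y * b x y) := rfl

theorem ipM_swap (μ : X → ℝ) (a b : X → X → ℝ) :
    ipM μ (fun x y => a y x) (fun x y => b y x) = ipM μ a b := by
  rw [ipM_apply, ipM_apply]
  simp only [mul_sum]
  rw [sum_comm]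
  exact sum_congr rfl fun x _ => sum_congr rfl fun y _ => by ring

/-- The operator `L ⊗ 1 + 1 ⊗ L`. -/
noncomputable def two (L : (X → ℝ) →ₗ[ℝ] (X → ℝ)) : (X → X → ℝ) →ₗ[ℝ] (X → X → ℝ) where
  toFun b := fun x y => L (fun z => b z y) x + L (b x) y
  map_add' a b := by
    funext x y
    have h1 : L (fun z => (a + b) z y) x = L (fun z => a z y) x + L (fun z => b z y) x :=
      congrFun (map_add L (fun z => a z y) fun z => b z y) x
    have h2 : L ((a + b) x) y = L (a x) y + L (b x) y := congrFun (map_add L (a x) (b x)) y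
    rw [h1, h2]
    simp only [Pi.add_apply]
    ring
  map_smul' c a := by
    funext x y
    have h1 : L (fun z => (c • a) z y) x = c * L (fun z => a z y) x :=
      congrFun (map_smul L c fun z => a z y) x
    have h2 : L ((c • a) x) y = c * L (a x) y := congrFun (map_smul L c (a x)) y
    rw [h1, h2]
    simp only [Pi.smul_apply, RingHom.id_apply, smul_eq_mul]
    ring

theorem two_apply (L : (X → ℝ) →ₗ[ℝ] (X → ℝ)) (b : X → X → ℝ) (x y : X) :
    two L b x y = L (fun z => b z y) x + L (b x) y := rfl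

/-- The symmetric degenerate functions of two variables. -/
noncomputable def symDeg (μ : X → ℝ) : Submodule ℝ (X → X → ℝ) where
  carrier := {b | (∀ x y, b x y = b y x) ∧ ∀ x, ∑ y, μ y * b x y = 0}
  add_mem' := by
    rintro a b ⟨h1, h2⟩ ⟨h3, h4⟩
    refine ⟨fun x y => ?_, fun x => ?_⟩
    · rw [Pi.add_apply, Pi.add_apply, Pi.add_apply, Pi.add_apply, h1, h3]
    · simp only [Pi.add_apply, mul_add, sum_add_distrib]
      rw [h2, h4, add_zero]
  zero_mem' := ⟨fun _ _ => rfl, fun x => by simp⟩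
  smul_mem' := by
    rintro c a ⟨h1, h2⟩
    refine ⟨fun x y => ?_, fun x => ?_⟩
    · rw [Pi.smul_apply, Pi.smul_apply, Pi.smul_apply, Pi.smul_apply, h1]
    · simp only [Pi.smul_apply, smul_eq_mul]
      have : ∀ y, μ y * (c * a x y) = c * (μ y * a x y) := fun y => by ring
      simp only [this, ← mul_sum, h2, mul_zero]

/-- Averages of `L` applied to a family. -/
theorem sum_mul_map (μ : X → ℝ) (L : (X → ℝ) →ₗ[ℝ] (X → ℝ)) (b : X → X → ℝ) (y : X) :
    ∑ x, μ x * L (b x) y = L (fun z => ∑ x, μ x * b x z) y := by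
  have h1 : (fun z => ∑ x, μ x * b x z) = ∑ x, μ x • b x := by
    funext z
    simp only [Finset.sum_apply, Pi.smul_apply, smul_eq_mul]
  rw [h1, map_sum, Finset.sum_apply]
  simp only [map_smul, Pi.smul_apply, smul_eq_mul]

/-- Solving `(L ⊗ 1 + 1 ⊗ L) b = r`. -/
theorem solve_two {μ : X → ℝ} (hμ : ∀ x, 0 < μ x) (L : (X → ℝ) →ₗ[ℝ] (X → ℝ))
    (hL : ∀ a : X → ℝ, ∑ x, μ x * a x = 0 → ∑ x, μ x * L a x = 0) {γ : ℝ} (hγ : 0 < γ)
    (hc : ∀ a : X → ℝ, ∑ x, μ x * a x = 0 →
      γ * ∑ x, μ x * (a x * a x) ≤ ∑ x, μ x * (a x * L a x))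
    {r : X → X → ℝ} (hr : ∀ x y, r x y = r y x) (hr0 : ∀ x, ∑ y, μ y * r x y = 0) :
    ∃ b : X → X → ℝ, (∀ x y, b x y = b y x) ∧ (∀ x, ∑ y, μ y * b x y = 0) ∧
      (∀ x y, L (fun z => b z y) x + L (b x) y = r x y) ∧
      ∑ x, μ x * ∑ y, μ y * (b x y * b x y) ≤
        (∑ x, μ x * ∑ y, μ y * (r x y * r x y)) / (2 * γ) ^ 2 := by
  have hsym : ∀ v w, ipM μ v w = ipM μ w v := fun v w => by
    rw [ipM_apply, ipM_apply]
    exact sum_congr rfl fun x _ => congrArg _ (sum_congr rfl fun y _ => by ring)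
  have hnn : ∀ v : X → X → ℝ, 0 ≤ ipM μ v v := fun v =>
    sum_nonneg fun x _ => mul_nonneg (hμ x).le (ipL_nonneg hμ (v x))
  have hpos : ∀ v ∈ symDeg μ, ipM μ v v ≤ 0 → v = 0 := by
    intro v _ h
    funext x
    refine eq_zero_of_ipL hμ (v x) ?_
    have h1 := (sum_eq_zero_iff_of_nonneg fun x _ =>
      mul_nonneg (hμ x).le (ipL_nonneg hμ (v x))).1 (le_antisymm h (hnn v)) x (mem_univ x)
    rcases mul_eq_zero.1 h1 with h2 | h2
    · exact absurd h2 (hμ x).ne'
    · exact h2.le
  have hT : ∀ v ∈ symDeg μ, two L v ∈ symDeg μ := by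
    rintro v ⟨h1, h2⟩
    refine ⟨fun x y => ?_, fun x => ?_⟩
    · rw [two_apply, two_apply, add_comm]
      have e1 : (fun z => v z y) = v y := funext fun z => h1 z y
      have e2 : (fun z => v z x) = v x := funext fun z => h1 z x
      rw [e1, e2]
    · have e1 : ∀ y, (fun z => v z y) = v y := fun y => funext fun z => h1 z y
      simp only [two_apply, e1, mul_add, sum_add_distrib]
      rw [sum_mul_map, hL _ (h2 x), add_zero]
      have e2 : (fun z => ∑ y, μ y * v y z) = 0 := by
        funext z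
        rw [Pi.zero_apply, ← h2 z]
        exact sum_congr rfl fun y _ => by rw [h1 y z]
      rw [e2, map_zero, Pi.zero_apply]
  have hco : ∀ v ∈ symDeg μ, (2 * γ) * ipM μ v v ≤ ipM μ v (two L v) := by
    rintro v ⟨h1, h2⟩
    have e1 : ipM μ v (two L v) = ipM μ v (fun x y => L (v x) y) +
        ipM μ v (fun x y => L (fun z => v z y) x) := by
      rw [← map_add]
      congr 1
      funext x y
      rw [two_apply]
      exact add_comm _ _
    have e2 : ipM μ v (fun x y => L (fun z => v z y) x) = ipM μ v (fun x y => L (v x) y) := by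
      rw [← ipM_swap]
      congr 1
      · congr 1
        funext x y
        exact h1 y x
      · funext x y
        have : (fun z => v z x) = v x := funext fun z => h1 z x
        rw [this]
    have e3 : γ * ipM μ v v ≤ ipM μ v (fun x y => L (v x) y) := by
      rw [ipM_apply, ipM_apply, mul_sum]
      refine sum_le_sum fun x _ => ?_
      have := mul_le_mul_of_nonneg_left (hc (v x) (h2 x)) (hμ x).le
      linarith
    rw [e1, e2]
    linarith only [e3]
  obtain ⟨b, ⟨hb1, hb2⟩, h3, h4⟩ := coercive_solve (ipM μ) hsym (symDeg μ) hpos hnn (two L) hT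
    (γ := 2 * γ) (by positivity) hco (r := r) ⟨hr, hr0⟩
  exact ⟨b, hb1, hb2, fun x y => congrFun (congrFun h3 x) y, h4⟩

end Functions

end Vale.Agent.P308.Rep
end
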