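import Vale.Agent.P308.MathlibUsed
import Vale.Agent.P308.Bd3.B2
import Vale.Agent.P308.Bd3.B1

set_option linter.all false

section

/-!
# The linearised gap: definitions

Perfect matchings of the complete graph on `V` are fixed point free involutions `V → V`; all
matchings are raw functions `V → V`. Paths are lists of distinct vertices. `pL a` pairs the vertices
`1 2 | 3 4 | …` of the list `a`.
-/

set_option linter.unusedSectionVars false

namespace Vale.Agent.P308.Lin

open Finset

variable {V : Type*} [Fintype V] [DecidableEq V]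

/-- perfect matchings -/
def IsPM (g : V → V) : Prop := (∀ v, g (g v) = v) ∧ ∀ v, g v ≠ v

instance (g : V → V) : Decidable (IsPM g) := by unfold IsPM; infer_instance

/-- the finite set of all perfect matchings -/
def pms (V : Type*) [Fintype V] [DecidableEq V] : Finset (V → V) := univ.filter IsPM

theorem mem_pms {g : V → V} : g ∈ pms V ↔ IsPM g := by simp only [pms, mem_filter, mem_univ, true_and]

/-- The data: square roots `s` of the edge weights, an ultrametric similarity `c`, and `ε` with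
`ε c ≤ s² ≤ c`. -/
structure Sim (V : Type*) where
  s : V → V → ℝ
  c : V → V → ℝ
  ε : ℝ
  s_pos : ∀ x y, 0 < s x y
  s_symm : ∀ x y, s x y = s y x
  s_diag : ∀ x, s x x = 1
  c_pos : ∀ x y, 0 < c x y
  c_symm : ∀ x y, c x y = c y x
  c_ultra : ∀ x y z, min (c x y) (c y z) ≤ c x z
  ε_pos : 0 < ε
  ε_le : ε ≤ 1
  low : ∀ x y, x ≠ y → ε * c x y ≤ s x y ^ 2
  up : ∀ x y, x ≠ y → s x y ^ 2 ≤ c x y

/-- the diagonal dominates (consequence of the ultrametric inequality) -/
theorem Sim.c_diag (W : Sim V) (x y : V) : W.c x y ≤ W.c x x := by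
  have h := W.c_ultra x y x
  rwa [W.c_symm y x, min_self] at h

/-- weight of an edge -/
def Sim.lam (W : Sim V) (x y : V) : ℝ := W.s x y ^ 2

/-- weight of a matching (fixed points have weight one) -/
def Sim.wt (W : Sim V) (g : V → V) : ℝ := ∏ v, W.s v (g v)

/-- partition function -/
def Sim.Z (W : Sim V) : ℝ := ∑ g ∈ pms V, W.wt g

/-- pairing of consecutive vertices of a list, identity elsewhere -/
def pL : List V → V → V
  | [], v => v
  | [_], v => v
  | x :: y :: l, v => if v = x then y else if v = y then x else pL l v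

/-- `g` on the vertices of the list `b`, and `E` elsewhere -/
def un (g : V → V) (b : List V) (E : V → V) : V → V := fun v => if v ∈ b then g v else E v

/-- product of the weights of all edges of a path -/
def Sim.pw (W : Sim V) : List V → ℝ
  | [] => 1
  | [_] => 1
  | x :: y :: l => W.lam x y * W.pw (y :: l)

/-- the minimum of `c` along a path (`c x x` for one vertex) -/
def Sim.cm (W : Sim V) : List V → ℝ
  | [] => 1
  | [x] => W.c x x
  | x :: y :: l => min (W.c x y) (W.cm (y :: l))

/-- paths: lists of distinct vertices -/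
abbrev NL (V : Type*) := {l : List V // l.Nodup}

/-- environments `(s, E)` of a path `a`. Even paths: `E` is a matching of all vertices outside `a`
(`s` is the first vertex of `a`, a dummy). Odd paths: `E` is a matching of all vertices outside
`a` and `s`. -/
def IsEnv (a : List V) (e : V × (V → V)) : Prop :=
  (∀ v, e.2 (e.2 v) = v) ∧
    ((a.length % 2 = 0 ∧ a.head? = some e.1 ∧ ∀ v, e.2 v = v ↔ v ∈ a) ∨
      (a.length % 2 = 1 ∧ e.1 ∉ a ∧ ∀ v, e.2 v = v ↔ v ∈ a ∨ v = e.1))

instance (a : List V) (e : V × (V → V)) : Decidable (IsEnv a e) := by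
  unfold IsEnv; infer_instance

/-- the finite set of environments -/
def envs (a : List V) : Finset (V × (V → V)) := univ.filter (IsEnv a)

theorem mem_envs {a : List V} {e : V × (V → V)} : e ∈ envs a ↔ IsEnv a e := by simp only [envs, mem_filter, mem_univ, true_and]

/-- the completed path: an even path is complete, the vertex `s` is added to an odd path -/
def cmp (a : List V) (s : V) : List V := if a.length % 2 = 0 then a else a ++ [s]

/-- weight of an environment -/
noncomputable def Sim.om (W : Sim V) (a : List V) (e : V × (V → V)) : ℝ :=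
  (if a.length % 2 = 0 then Real.sqrt (W.cm a) else W.cm (a ++ [e.1])) * W.wt e.2

/-- the perfect matching `12|34|…` on the even list `b`, and `E` elsewhere -/
def M1 (b : List V) (E : V → V) : V → V := un (pL b) b E

/-- the perfect matching `23|45|…|n1` on the even list `b`, and `E` elsewhere -/
def M0 (b : List V) (E : V → V) : V → V := un (pL (b.rotate 1)) b E

/-- effect of the flip of the completed path -/
def Dl (f : (V → V) → ℝ) (a : List V) (e : V × (V → V)) : ℝ :=
  f (M0 (cmp a e.1) e.2) - f (M1 (cmp a e.1) e.2)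

/-- total weight of the environments -/
noncomputable def Sim.Zh (W : Sim V) (a : List V) : ℝ := ∑ e ∈ envs a, W.om a e

/-- mean of the effect -/
noncomputable def Sim.g (W : Sim V) (f : (V → V) → ℝ) (a : List V) : ℝ :=
  (∑ e ∈ envs a, W.om a e * Dl f a e) / W.Zh a

/-- weight of a path with two environments -/
noncomputable def Sim.Wc (W : Sim V) (a : List V) (e e' : V × (V → V)) : ℝ :=
  W.pw a * (W.om a e * W.om a e')

/-- total weight of a path -/
noncomputable def Sim.Rh (W : Sim V) (a : List V) : ℝ := W.pw a * W.Zh a ^ 2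

/-- variance of the effect, times the total weight of the path -/
noncomputable def Sim.RV (W : Sim V) (f : (V → V) → ℝ) (a : List V) : ℝ :=
  W.pw a * W.Zh a * ∑ e ∈ envs a, W.om a e * (Dl f a e - W.g f a) ^ 2

/-! ### Alternating lists and the energies -/

/-- the alternating list `x, N x, Y (N x), …` with `m` vertices -/
def orb (N Y : V → V) : V → ℕ → List V
  | _, 0 => []
  | x, m + 1 => x :: orb Y N (N x) m

/-- the matching `N` in which the edges `x (N x)`, `y (N y)` are replaced by `x y`, `(N x) (N y)` -/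
def sw (N : V → V) (x y : V) : V → V := fun z =>
  if z = x then y else if z = y then x else if z = N x then N y else if z = N y then N x else N z

/-- energy of the 2-switches -/
noncomputable def Sim.Eloc (W : Sim V) (f : (V → V) → ℝ) : ℝ :=
  ∑ N ∈ pms V, ∑ x, ∑ y, if x ≠ y ∧ N x ≠ y then
    min (W.wt N) (W.wt (sw N x y)) * (f (sw N x y) - f N) ^ 2 else 0

/-- exchange of a cycle: `m` vertices starting from `x` (even `m`, closed cycle) -/
noncomputable def Sim.Ex0 (W : Sim V) (f : (V → V) → ℝ) : ℝ :=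
  ∑ N ∈ pms V, ∑ Y ∈ pms V, ∑ x, ∑ m ∈ range (Fintype.card V + 1),
    if (orb N Y x m).Nodup ∧ m % 2 = 0 ∧ 0 < m ∧ (orb N Y x m).getLast? = some (Y x) then
      W.wt N * W.wt Y * (f (un Y (orb N Y x m) N) + f (un N (orb N Y x m) Y) - f N - f Y) ^ 2
    else 0

/-- exchange of an odd segment `a` of a cycle: `a = orb N Y x m` with `m` odd and last vertex `y`,
`s = N y`, `t = Y x` outside `a`; the new matchings are `23|45|…|(m-1) m` with `x s`, resp.
`12|34|…` with `y t`. -/
noncomputable def Sim.Ex1 (W : Sim V) (f : (V → V) → ℝ) : ℝ :=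
  ∑ N ∈ pms V, ∑ Y ∈ pms V, ∑ x, ∑ m ∈ range (Fintype.card V + 1), ∑ s,
    if (orb N Y x m ++ [s]).Nodup ∧ m % 2 = 1 ∧ (orb N Y x m).getLast? = some (N s) ∧
        Y x ∉ orb N Y x m then
      min (W.wt N * W.wt Y)
        (W.wt (M0 (orb N Y x m ++ [s]) N) * W.wt (M1 (orb N Y x m ++ [Y x]) Y)) *
      (f (M0 (orb N Y x m ++ [s]) N) + f (M1 (orb N Y x m ++ [Y x]) Y) - f N - f Y) ^ 2
    else 0

/-- the variance, times `2 Z²` -/
noncomputable def Sim.Var2 (W : Sim V) (f : (V → V) → ℝ) : ℝ :=
  ∑ N ∈ pms V, ∑ Y ∈ pms V, W.wt N * W.wt Y * (f N - f Y) ^ 2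

/-- **Theorem 1** (linearised gap) with explicit constants. -/
def Theorem1 (V : Type*) [Fintype V] [DecidableEq V] (A B : ℕ) : Prop :=
  ∀ (W : Sim V) (f : (V → V) → ℝ),
    W.Var2 f ≤ ((Fintype.card V + 2 : ℕ) : ℝ) ^ A * (1 / W.ε) ^ B *
      (W.Z * W.Eloc f + W.Ex0 f + W.Ex1 f)

end Vale.Agent.P308.Lin
end

section

/-!
# Alternating orbs in two perfect matchings (P308, Part 1b)
-/

namespace Vale.Agent.P308.Lin.Wk

open Finset
open Vale.Agent.P308.Soft (Cp mem_Cp self_mem_Cp Cp_left Cp_right Cp_trans Cp_symm)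

variable {V : Type*}

/-- the `i`-th vertex of the alternating orb -/
def pos (J K : V → V) : ℕ → V → V
  | 0, x => x
  | m + 1, x => pos K J m (J x)

@[simp] theorem orb_zero (J K : V → V) (x : V) : orb J K x 0 = [] := rfl

@[simp] theorem orb_succ (J K : V → V) (m : ℕ) (x : V) :
    orb J K x (m + 1) = x :: orb K J (J x) m := rfl

@[simp] theorem pos_zero (J K : V → V) (x : V) : pos J K 0 x = x := rfl

theorem pos_succ (J K : V → V) (m : ℕ) (x : V) : pos J K (m + 1) x = pos K J m (J x) := rfl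

@[simp] theorem length_orb (J K : V → V) (m : ℕ) (x : V) : (orb J K x m).length = m := by
  induction m generalizing J K x with
  | zero => rfl
  | succ m ih => simp [ih]

/-- the map used at step `i` -/
def sg (J K : V → V) (i : ℕ) : V → V := if Even i then J else K

theorem pos_succ' (J K : V → V) (m : ℕ) (x : V) : pos J K (m + 1) x = sg J K m (pos J K m x) := by
  induction m generalizing J K x with
  | zero => simp only [pos, sg, Even.zero, ↓reduceIte]
  | succ m ih =>
    rw [pos_succ, ih, pos_succ]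
    unfold sg
    by_cases h : Even m
    · simp only [h, ↓reduceIte, Nat.even_add_one, not_true_eq_false]
    · simp only [h, ↓reduceIte, Nat.even_add_one, not_false_eq_true]

theorem getElem_orb (J K : V → V) (m : ℕ) (x : V) (i : ℕ) (h : i < (orb J K x m).length) :
    (orb J K x m)[i] = pos J K i x := by
  induction m generalizing J K x i with
  | zero => simp at h
  | succ m ih =>
    cases i with
    | zero => simp
    | succ i =>
      simp only [orb_succ, List.getElem_cons_succ]
      rw [ih]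
      rfl

theorem mem_orb {J K : V → V} {m : ℕ} {x v : V} :
    v ∈ orb J K x m ↔ ∃ i < m, pos J K i x = v := by
  rw [List.mem_iff_getElem]
  constructor
  · rintro ⟨i, hi, h⟩
    rw [getElem_orb] at h
    exact ⟨i, by simpa using hi, h⟩
  · rintro ⟨i, hi, h⟩
    exact ⟨i, by simpa using hi, by rw [getElem_orb]; exact h⟩

theorem orb_nodup_iff {J K : V → V} {m : ℕ} {x : V} :
    (orb J K x m).Nodup ↔ ∀ i < m, ∀ j < m, pos J K i x = pos J K j x → i = j := by
  rw [List.nodup_iff_injective_get]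
  constructor
  · intro h i hi j hj hij
    have := @h ⟨i, by simpa using hi⟩ ⟨j, by simpa using hj⟩ (by
      simp only [List.get_eq_getElem, getElem_orb]
      exact hij)
    simpa using this
  · intro h i j hij
    simp only [List.get_eq_getElem, getElem_orb] at hij
    apply Fin.ext
    exact h _ (by simpa using i.2) _ (by simpa using j.2) hij

theorem orb_append (J K : V → V) (m k : ℕ) (x : V) :
    orb J K x (m + k) = orb J K x m ++ orb (sg J K m) (sg J K (m + 1)) (pos J K m x) k := by
  induction m generalizing J K x with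
  | zero => simp only [zero_add, orb_zero, sg, Even.zero, ↓reduceIte, Nat.not_even_one, pos_zero, List.nil_append]
  | succ m ih =>
    rw [show m + 1 + k = (m + k) + 1 by omega, orb_succ, ih, orb_succ, List.cons_append, pos_succ]
    have h1 : sg K J m = sg J K (m + 1) := by
      unfold sg
      by_cases h : Even m
      · simp only [h, ↓reduceIte, Nat.even_add_one, not_true_eq_false]
      · simp only [h, ↓reduceIte, Nat.even_add_one, not_false_eq_true]
    have h2 : sg K J (m + 1) = sg J K (m + 1 + 1) := by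
      unfold sg
      by_cases h : Even m
      · simp only [Nat.even_add_one, h, not_true_eq_false, ↓reduceIte, Even.add_one, Odd.add_one]
      · simp only [Nat.even_add_one, h, not_false_eq_true, ↓reduceIte, not_true_eq_false]
    rw [h1, h2]

section Cycle

variable {J K : V → V} (hJ : ∀ v, J (J v) = v) (hK : ∀ v, K (K v) = v)
  (hJ' : ∀ v, J v ≠ v) (hK' : ∀ v, K v ≠ v)

include hJ hK in
theorem sg_invol (i : ℕ) (v : V) : sg J K i (sg J K i v) = v := by
  unfold sg
  split_ifs
  · exact hJ v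
  · exact hK v

include hJ' hK' in
theorem sg_ne (i : ℕ) (v : V) : sg J K i v ≠ v := by
  unfold sg
  split_ifs
  · exact hJ' v
  · exact hK' v

include hJ hK in
theorem sg_pos (i : ℕ) (x : V) : sg J K i (pos J K (i + 1) x) = pos J K i x := by
  rw [pos_succ', sg_invol hJ hK]

theorem sg_parity {i j : ℕ} (h : i % 2 = j % 2) : sg J K i = sg J K j := by
  unfold sg
  have : Even i ↔ Even j := by rw [Nat.even_iff, Nat.even_iff, h]
  by_cases hi : Even i
  · rw [if_pos hi, if_pos (this.1 hi)]
  · rw [if_neg hi, if_neg (fun h' => hi (this.2 h'))]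

include hJ hK hJ' hK' in
/-- the first return of the alternating orb -/
theorem first_return {x : V} {m i : ℕ} (hinj : ∀ i < m, ∀ j < m, pos J K i x = pos J K j x → i = j)
    (hi : i < m) (h : pos J K m x = pos J K i x) : i = 0 ∧ Even m := by
  obtain ⟨m, rfl⟩ : ∃ k, m = k + 1 := ⟨m - 1, by omega⟩
  have h1 : sg J K m (pos J K (m + 1) x) = pos J K m x := sg_pos hJ hK m x
  rw [h] at h1
  by_cases hp : i % 2 = m % 2
  · exfalso
    rw [← sg_parity hp, ← pos_succ'] at h1
    by_cases him : i = m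
    · subst him
      rw [pos_succ'] at h
      exact sg_ne hJ' hK' _ _ h
    · have := hinj (i + 1) (by omega) m (by omega) h1
      omega
  · rcases Nat.eq_zero_or_pos i with rfl | hi0
    · refine ⟨rfl, ?_⟩
      rw [Nat.even_add_one, Nat.even_iff]
      omega
    · exfalso
      obtain ⟨i, rfl⟩ : ∃ k, i = k + 1 := ⟨i - 1, by omega⟩
      have h2 : i % 2 = m % 2 := by omega
      rw [← sg_parity h2, sg_pos hJ hK] at h1
      have := hinj i (by omega) m (by omega) h1
      omega

variable [Fintype V] [DecidableEq V]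

include hJ hK hJ' hK' in
/-- the closed alternating orb through `x` -/
theorem exists_closed_orb (x : V) : ∃ m, Even m ∧ 0 < m ∧ (orb J K x m).Nodup ∧
    pos J K m x = x ∧ (orb J K x m).toFinset = Cp J K x := by
  classical
  -- the first repetition
  have hex : ∃ m, ¬ (orb J K x m).Nodup := by
    refine ⟨Fintype.card V + 1, fun h => ?_⟩
    have := h.length_le_card
    simp only [orb_succ, List.length_cons, length_orb, add_le_iff_nonpos_right, nonpos_iff_eq_zero, one_ne_zero] at this
  obtain ⟨hm1, hm2⟩ := (⟨Nat.find_spec hex, fun k hk => Nat.find_min hex hk⟩ :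
    ¬ (orb J K x (Nat.find hex)).Nodup ∧ ∀ k < Nat.find hex, ¬ ¬ (orb J K x k).Nodup)
  set m' := Nat.find hex with hm'
  have hm'0 : m' ≠ 0 := by
    intro h0
    rw [h0] at hm1
    simp at hm1
  obtain ⟨m, hm⟩ : ∃ m, m' = m + 1 := ⟨m' - 1, by omega⟩
  have hnd : (orb J K x m).Nodup := not_not.1 (hm2 m (by omega))
  have hinj := orb_nodup_iff.1 hnd
  have hm0 : 0 < m := by
    rcases Nat.eq_zero_or_pos m with h0 | h0
    · exfalso
      rw [hm, h0] at hm1
      simp at hm1
    · exact h0
  have hrep : ∃ i < m, pos J K m x = pos J K i x := by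
    by_contra hcon
    push Not at hcon
    apply hm1
    rw [hm, orb_nodup_iff]
    intro i hi j hj hij
    rcases Nat.lt_succ_iff_lt_or_eq.1 hi with hi' | rfl
    · rcases Nat.lt_succ_iff_lt_or_eq.1 hj with hj' | rfl
      · exact hinj i hi' j hj' hij
      · exact absurd hij.symm (hcon i hi')
    · rcases Nat.lt_succ_iff_lt_or_eq.1 hj with hj' | rfl
      · exact absurd hij (hcon j hj')
      · rfl
  obtain ⟨i, hi, hpi⟩ := hrep
  obtain ⟨rfl, hev⟩ := first_return hJ hK hJ' hK' hinj hi hpi
  refine ⟨m, hev, hm0, hnd, hpi, ?_⟩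
  -- the set of the orb is closed
  have hcl : ∀ v ∈ orb J K x m, J v ∈ orb J K x m ∧ K v ∈ orb J K x m := by
    intro v hv
    obtain ⟨i, hi, rfl⟩ := mem_orb.1 hv
    have hstep : sg J K i (pos J K i x) ∈ orb J K x m := by
      rw [← pos_succ']
      by_cases him : i + 1 < m
      · exact mem_orb.2 ⟨i + 1, him, rfl⟩
      · have : i + 1 = m := by omega
        rw [this, hpi]
        exact mem_orb.2 ⟨0, hm0, rfl⟩
    have hback : sg J K (i + 1) (pos J K i x) ∈ orb J K x m := by
      rcases Nat.eq_zero_or_pos i with rfl | hi0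
      · have h3 : sg J K (0 + 1) = sg J K (m - 1) := sg_parity (by
          rw [Nat.even_iff] at hev
          omega)
        have h4 := sg_pos hJ hK (m - 1) x
        rw [Nat.sub_add_cancel hm0, hpi] at h4
        rw [h3]
        show sg J K (m - 1) (pos J K 0 x) ∈ _
        rw [h4]
        exact mem_orb.2 ⟨m - 1, by omega, rfl⟩
      · obtain ⟨k, rfl⟩ : ∃ k, i = k + 1 := ⟨i - 1, by omega⟩
        have h3 : sg J K (k + 1 + 1) = sg J K k := sg_parity (by omega)
        rw [h3, sg_pos hJ hK]
        exact mem_orb.2 ⟨k, by omega, rfl⟩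
    rcases Nat.even_or_odd i with he | ho
    · have e1 : sg J K i = J := by simp only [sg, he, ↓reduceIte]
      have e2 : sg J K (i + 1) = K := by simp only [sg, Nat.even_add_one, he, not_true_eq_false, ↓reduceIte]
      rw [e1] at hstep
      rw [e2] at hback
      exact ⟨hstep, hback⟩
    · have e1 : sg J K i = K := by simp only [sg, Nat.not_even_iff_odd.2 ho, ↓reduceIte]
      have e2 : sg J K (i + 1) = J := by simp only [sg, Nat.even_add_one, Nat.not_even_iff_odd.2 ho, not_false_eq_true, ↓reduceIte]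
      rw [e1] at hstep
      rw [e2] at hback
      exact ⟨hback, hstep⟩
  ext v
  rw [List.mem_toFinset]
  constructor
  · intro hv
    obtain ⟨i, hi, rfl⟩ := mem_orb.1 hv
    clear hi hpi hv hcl
    induction i with
    | zero => exact self_mem_Cp _ _ _
    | succ i ih =>
      rw [pos_succ']
      unfold sg
      split_ifs
      · exact Cp_left ih
      · exact Cp_right ih
  · intro hv
    rw [mem_Cp] at hv
    induction hv with
    | refl => exact mem_orb.2 ⟨0, hm0, rfl⟩
    | tail _ h ih =>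
      rcases h with rfl | rfl
      · exact (hcl _ ih).1
      · exact (hcl _ ih).2

end Cycle

end Vale.Agent.P308.Lin.Wk
end

section

section

/-! # Basic facts on the pairing of consecutive vertices of a list -/

set_option linter.unusedSectionVars false

namespace Vale.Agent.P308.Lin

open Finset

variable {V : Type*} [Fintype V] [DecidableEq V]

theorem two_step {P : List V → Prop} (h0 : P []) (h1 : ∀ x, P [x])
    (h2 : ∀ x y l, P l → P (x :: y :: l)) (l : List V) : P l := by
  suffices h : ∀ n (l : List V), l.length ≤ n → P l from h _ l le_rfl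
  intro n
  induction n with
  | zero => intro l hl; rw [List.length_eq_zero_iff.1 (Nat.le_zero.1 hl)]; exact h0
  | succ n ih =>
    intro l hl
    match l with
    | [] => exact h0
    | [x] => exact h1 x
    | x :: y :: l => exact h2 x y l (ih l (by simp only [List.length_cons, add_le_add_iff_right, Order.add_one_le_iff] at hl; omega))

@[simp] theorem pL_nil (v : V) : pL [] v = v := rfl
@[simp] theorem pL_one (x v : V) : pL [x] v = v := rfl
theorem pL_cons2 (x y : V) (l : List V) (v : V) :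
    pL (x :: y :: l) v = if v = x then y else if v = y then x else pL l v := rfl

theorem pL_of_notMem {l : List V} {v : V} (h : v ∉ l) : pL l v = v := by
  revert h
  induction l using two_step with
  | h0 => intro _; rfl
  | h1 x => intro _; rfl
  | h2 x y l ih =>
    intro h
    simp only [List.mem_cons, not_or] at h
    rw [pL_cons2, if_neg h.1, if_neg h.2.1, ih h.2.2]

theorem pL_mem {l : List V} {v : V} (h : v ∈ l) : pL l v ∈ l := by
  revert h
  induction l using two_step with
  | h0 => intro h; simp at h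
  | h1 x => intro h; exact h
  | h2 x y l ih =>
    intro h
    rw [pL_cons2]
    split_ifs with h1 h2
    · simp
    · simp
    · have : v ∈ l := by simp only [List.mem_cons] at h; tauto
      exact List.mem_cons_of_mem _ (List.mem_cons_of_mem _ (ih this))

theorem pL_pL {l : List V} (hl : l.Nodup) (v : V) : pL l (pL l v) = v := by
  revert hl
  induction l using two_step with
  | h0 => intro _; rfl
  | h1 x => intro _; rfl
  | h2 x y l ih =>
    intro hl
    simp only [List.nodup_cons, List.mem_cons, not_or] at hl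
    obtain ⟨⟨hxy, hx⟩, hy, hl⟩ := hl
    by_cases h1 : v = x
    · subst h1
      rw [pL_cons2, pL_cons2, if_pos rfl, if_neg (Ne.symm hxy), if_pos rfl]
    by_cases h2 : v = y
    · subst h2
      rw [pL_cons2, pL_cons2, if_neg h1, if_pos rfl, if_pos rfl]
    · have e : pL (x :: y :: l) v = pL l v := by rw [pL_cons2, if_neg h1, if_neg h2]
      rw [e, pL_cons2]
      by_cases hv : v ∈ l
      · have hm := pL_mem hv
        have n1 : pL l v ≠ x := fun h => hx (by rw [← h]; exact hm)
        have n2 : pL l v ≠ y := fun h => hy (by rw [← h]; exact hm)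
        rw [if_neg n1, if_neg n2, ih hl]
      · rw [pL_of_notMem hv, if_neg h1, if_neg h2, pL_of_notMem hv]

/-- even lists: no fixed point in the list -/
theorem pL_ne_of_even {l : List V} (hl : l.Nodup) (he : l.length % 2 = 0) {v : V} (hv : v ∈ l) :
    pL l v ≠ v := by
  revert hl he hv
  induction l using two_step with
  | h0 => intro _ _ h; simp at h
  | h1 x => intro _ h; simp at h
  | h2 x y l ih =>
    intro hl he hv
    simp only [List.nodup_cons, List.mem_cons, not_or] at hl
    obtain ⟨⟨hxy, hx⟩, hy, hl⟩ := hl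
    rw [pL_cons2]
    split_ifs with h1 h2
    · subst h1; exact Ne.symm hxy
    · subst h2; exact hxy
    · refine ih hl (by simp at he; omega) ?_
      simp only [List.mem_cons] at hv; (clear * - ih hv h1 h2 hl; tauto)

/-- odd lists: only the last vertex is fixed -/
theorem pL_eq_iff_of_odd {l : List V} (hl : l.Nodup) (he : l.length % 2 = 1) {v : V}
    (hv : v ∈ l) : pL l v = v ↔ l.getLast? = some v := by
  revert hl he hv
  induction l using two_step with
  | h0 => intro _ h; simp at h
  | h1 x => intro _ _ h; simp at h; simp [h]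
  | h2 x y l ih =>
    intro hl he hv
    have hl' := hl
    simp only [List.nodup_cons, List.mem_cons, not_or] at hl
    obtain ⟨⟨hxy, hx⟩, hy, hl⟩ := hl
    have hne : l ≠ [] := by rintro rfl; simp at he
    have e : (x :: y :: l).getLast? = l.getLast? := by
      obtain ⟨z, l', rfl⟩ := List.exists_cons_of_ne_nil hne
      rw [List.getLast?_cons_cons, List.getLast?_cons_cons]
    rw [e, pL_cons2]
    have hlast : ∀ w, l.getLast? = some w → w ∈ l := fun w h => List.mem_of_getLast? h
    split_ifs with h1 h2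
    · subst h1
      exact ⟨fun h => absurd h.symm hxy, fun h => absurd (hlast _ h) hx⟩
    · subst h2
      exact ⟨fun h => absurd h hxy, fun h => absurd (hlast _ h) hy⟩
    · have hv' : v ∈ l := by simp only [List.mem_cons] at hv; (clear * - ih hv h1 h2 hl; tauto)
      exact ih hl (by simp at he; omega) hv'

/-- appending to an even list -/
theorem pL_append_even {l l' : List V} (he : l.length % 2 = 0) (hd : (l ++ l').Nodup) (v : V) :
    pL (l ++ l') v = if v ∈ l then pL l v else pL l' v := by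
  revert he hd
  induction l using two_step with
  | h0 => intro _ _; simp
  | h1 x => intro h; simp at h
  | h2 x y l ih =>
    intro he hd
    have he' : l.length % 2 = 0 := by simp at he; omega
    have hd' : (l ++ l').Nodup := by
      simp only [List.cons_append, List.nodup_cons] at hd; exact hd.2.2
    have ih' := ih he' hd'
    rw [List.cons_append, List.cons_append, pL_cons2, pL_cons2, ih']
    by_cases h1 : v = x
    · simp [h1]
    by_cases h2 : v = y
    · simp [h2]
    by_cases h3 : v ∈ l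
    · simp [h1, h2, h3]
    · simp [h1, h2, h3]

/-- product of the weights of the pairs -/
def Sim.pr (W : Sim V) : List V → ℝ
  | [] => 1
  | [_] => 1
  | x :: y :: l => W.lam x y * W.pr l

theorem Sim.lam_pos (W : Sim V) (x y : V) : 0 < W.lam x y := by
  have := W.s_pos x y
  unfold Sim.lam; positivity

theorem Sim.lam_symm (W : Sim V) (x y : V) : W.lam x y = W.lam y x := by
  unfold Sim.lam; rw [W.s_symm]

theorem Sim.lam_eq (W : Sim V) (x y : V) : W.lam x y = W.s x y * W.s y x := by
  unfold Sim.lam; rw [W.s_symm y x, sq]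

theorem Sim.lam_le (W : Sim V) {x y : V} (h : x ≠ y) : W.lam x y ≤ W.c x y := W.up x y h

theorem Sim.le_lam (W : Sim V) {x y : V} (h : x ≠ y) : W.ε * W.c x y ≤ W.lam x y := W.low x y h

theorem Sim.wt_pos (W : Sim V) (g : V → V) : 0 < W.wt g :=
  Finset.prod_pos fun _ _ => W.s_pos _ _

theorem Sim.pr_pos (W : Sim V) (l : List V) : 0 < W.pr l := by
  induction l using two_step with
  | h0 => exact one_pos
  | h1 x => exact one_pos
  | h2 x y l ih => exact mul_pos (W.lam_pos _ _) ih

theorem Sim.pw_pos (W : Sim V) (l : List V) : 0 < W.pw l := by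
  induction l with
  | nil => exact one_pos
  | cons x l ih =>
    cases l with
    | nil => exact one_pos
    | cons y l => exact mul_pos (W.lam_pos _ _) ih

theorem Sim.cm_pos (W : Sim V) (l : List V) : 0 < W.cm l := by
  induction l with
  | nil => exact one_pos
  | cons x l ih =>
    cases l with
    | nil => exact W.c_pos _ _
    | cons y l => exact lt_min (W.c_pos _ _) ih

theorem Sim.pr_mul_tail (W : Sim V) (l : List V) : W.pr l * W.pr l.tail = W.pw l := by
  induction l with
  | nil => simp only [pr, List.tail_nil, mul_one, pw]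
  | cons x l ih =>
    cases l with
    | nil => simp [Sim.pr, Sim.pw]
    | cons y l =>
      have e : W.pr (x :: y :: l) = W.lam x y * W.pr l := rfl
      have e' : W.pw (x :: y :: l) = W.lam x y * W.pw (y :: l) := rfl
      rw [e, e', List.tail_cons, ← ih, List.tail_cons]
      ring

theorem Sim.pr_append_even (W : Sim V) {l : List V} (he : l.length % 2 = 0) (l' : List V) :
    W.pr (l ++ l') = W.pr l * W.pr l' := by
  revert he
  induction l using two_step with
  | h0 => intro _; simp only [List.nil_append, pr, one_mul]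
  | h1 x => intro h; simp at h
  | h2 x y l ih =>
    intro he
    rw [List.cons_append, List.cons_append]
    show W.lam x y * W.pr (l ++ l') = W.lam x y * W.pr l * W.pr l'
    rw [ih (by simp at he; omega)]; ring

/-- the weight of a union -/
theorem Sim.wt_un (W : Sim V) {b : List V} (hb : b.Nodup) {E : V → V} (hE : ∀ v ∈ b, E v = v) :
    W.wt (un (pL b) b E) = W.pr b * W.wt E := by
  revert hb hE
  induction b using two_step with
  | h0 =>
    intro _ _
    have : un (pL ([] : List V)) [] E = E := by funext v; simp [un]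
    rw [this]; simp only [pr, one_mul]
  | h1 x =>
    intro _ hE
    have : un (pL [x]) [x] E = E := by
      funext v
      by_cases h : v = x
      · subst h; simp [un, hE]
      · simp [un, h]
    rw [this]; simp [Sim.pr]
  | h2 x y l ih =>
    intro hb hE
    have hb' := hb
    simp only [List.nodup_cons, List.mem_cons, not_or] at hb
    obtain ⟨⟨hxy, hx⟩, hy, hl⟩ := hb
    have hEl : ∀ v ∈ l, E v = v := fun v hv => hE v (by simp [hv])
    have hEx : E x = x := hE x (by simp)
    have hEy : E y = y := hE y (by simp)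
    have ih' := ih hl hEl
    show W.wt _ = W.lam x y * W.pr l * W.wt E
    rw [mul_assoc, ← ih']
    unfold Sim.wt
    have key : ∀ v, W.s v (un (pL (x :: y :: l)) (x :: y :: l) E v) =
        (if v = x then W.s x y else if v = y then W.s y x else 1) * W.s v (un (pL l) l E v) := by
      intro v
      by_cases h1 : v = x
      · subst h1
        have e1 : un (pL (v :: y :: l)) (v :: y :: l) E v = y := by simp [un, pL_cons2]
        have e2 : un (pL l) l E v = v := by simp [un, hx, hEx]
        rw [e1, e2, W.s_diag, if_pos rfl, mul_one]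
      by_cases h2 : v = y
      · subst h2
        have e1 : un (pL (x :: v :: l)) (x :: v :: l) E v = x := by simp [un, pL_cons2, h1]
        have e2 : un (pL l) l E v = v := by simp [un, hy, hEy]
        rw [e1, e2, W.s_diag, if_neg h1, if_pos rfl, mul_one]
      · have e1 : un (pL (x :: y :: l)) (x :: y :: l) E v = un (pL l) l E v := by
          simp [un, pL_cons2, h1, h2]
        rw [e1, if_neg h1, if_neg h2, one_mul]
    rw [Finset.prod_congr rfl fun v _ => key v, Finset.prod_mul_distrib]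
    congr 1
    rw [W.lam_eq]
    have : ∀ v, (if v = x then W.s x y else if v = y then W.s y x else 1) =
        (if v = x then W.s x y else 1) * (if v = y then W.s y x else 1) := by
      intro v
      by_cases h1 : v = x
      · subst h1; rw [if_pos rfl, if_pos rfl, if_neg hxy, mul_one]
      · rw [if_neg h1, if_neg h1, one_mul]
    rw [Finset.prod_congr rfl fun v _ => this v, Finset.prod_mul_distrib,
      Finset.prod_ite_eq' univ x, Finset.prod_ite_eq' univ y]
    simp only [mem_univ, ↓reduceIte]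

end Vale.Agent.P308.Lin

end

section

/-! # Splitting a path at a weakest edge: definitions of the new environments -/

set_option linter.unusedSectionVars false

namespace Vale.Agent.P308.Lin

open Finset

variable {V : Type*} [Fintype V] [DecidableEq V]

/-- first vertex -/
def hd (a : List V) (d : V) : V := a.head?.getD d

/-- last vertex -/
def lt (a : List V) (d : V) : V := a.getLast?.getD d

/-- the first weakest edge splits the path in two parts -/
noncomputable def Sim.spl (W : Sim V) : List V → List V × List V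
  | [] => ([], [])
  | [x] => ([x], [])
  | x :: y :: l => if W.c x y ≤ W.cm (y :: l) then ([x], y :: l) else
      (x :: (W.spl (y :: l)).1, (W.spl (y :: l)).2)

/-- parity -/
def ev (a : List V) : Bool := a.length % 2 == 0

/-- sign of the second part -/
def sg (a : List V) : ℝ := if ev a then 1 else -1

/-- The environment of the first part `a` of `a ++ b` in the first world. -/
def eL1 (a b : List V) (e : V × (V → V)) : V × (V → V) :=
  match ev a, ev b with
  | true, true => (hd a e.1, M0 b e.2)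
  | false, false => (lt b e.1, un (pL b) b e.2)
  | true, false => (hd a e.1, M1 (e.1 :: b) e.2)
  | false, true => (e.1, M1 b e.2)

/-- The environment of the first part `a` of `a ++ b` in the second world. -/
def eL2 (a b : List V) (e : V × (V → V)) : V × (V → V) :=
  match ev a, ev b with
  | true, true => (hd a e.1, M1 b e.2)
  | false, false => (hd b e.1, un (pL b.tail) b e.2)
  | true, false => (hd a e.1, M1 (b ++ [e.1]) e.2)
  | false, true => (e.1, M0 b e.2)

/-- The environment of the second part `b` of `a ++ b` in the first world. -/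
def eR1 (a b : List V) (e : V × (V → V)) : V × (V → V) :=
  match ev a, ev b with
  | true, true => (hd b e.1, M1 a e.2)
  | false, false => (lt a e.1, un (pL a) a e.2)
  | true, false => (e.1, M1 a e.2)
  | false, true => (hd b e.1, M1 (a ++ [e.1]) e.2)

/-- The environment of the second part `b` of `a ++ b` in the second world. -/
def eR2 (a b : List V) (e : V × (V → V)) : V × (V → V) :=
  match ev a, ev b with
  | true, true => (hd b e.1, M0 a e.2)
  | false, false => (hd a e.1, un (pL a.tail) a e.2)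
  | true, false => (e.1, M0 a e.2)
  | false, true => (hd b e.1, M0 (a ++ [e.1]) e.2)

/-- The 2-switch, first matching. -/
def S1 (a b : List V) (e : V × (V → V)) : V → V :=
  match ev a, ev b with
  | true, true => M0 (a ++ b) e.2
  | false, false => M1 (a ++ b) e.2
  | true, false => M0 (a ++ b ++ [e.1]) e.2
  | false, true => M0 b (M1 (a ++ [e.1]) e.2)

/-- The 2-switch, second matching. -/
def S2 (a b : List V) (e : V × (V → V)) : V → V :=
  match ev a, ev b with
  | true, true => M0 a (M0 b e.2)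
  | false, false => M1 (a ++ b) e.2
  | true, false => M0 a (M1 (e.1 :: b) e.2)
  | false, true => M1 (a ++ b ++ [e.1]) e.2

/-- the remainder of the recursion -/
noncomputable def Sim.xi (W : Sim V) (f : (V → V) → ℝ) (a : List V) : ℝ :=
  W.g f a - W.g f (W.spl a).1 - sg (W.spl a).1 * W.g f (W.spl a).2

/-- (T0) the telescoping identity -/
def StT0 (V : Type*) [Fintype V] [DecidableEq V] : Prop :=
  ∀ (f : (V → V) → ℝ) (a b : List V) (e : V × (V → V)), (a ++ b).Nodup → a ≠ [] → b ≠ [] →
    IsEnv (a ++ b) e →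
    Dl f (a ++ b) e = Dl f a (eL1 a b e) + sg a * Dl f b (eR1 a b e) + (f (S1 a b e) - f (S2 a b e))

/-- paths with at least two vertices -/
def paths2 (V : Type*) [Fintype V] [DecidableEq V] : Finset (NL V) :=
  univ.filter fun a => 2 ≤ a.1.length

/-- (TL) the transfer to the first part: for every nonnegative function `h` of a path and an
environment -/
def StTL (V : Type*) [Fintype V] [DecidableEq V] : Prop :=
  ∀ (W : Sim V) (h : List V → V × (V → V) → ℝ), (∀ a e, 0 ≤ h a e) →
    ∑ a ∈ paths2 V, ∑ e ∈ envs a.1, ∑ e' ∈ envs a.1, W.Wc a.1 e e' *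
        h (W.spl a.1).1 (eL1 (W.spl a.1).1 (W.spl a.1).2 e) ≤
      ((Fintype.card V + 2 : ℕ) : ℝ) ^ 2 * (1 / W.ε) ^ 2 *
        ∑ a : NL V, ∑ e ∈ envs a.1, ∑ e' ∈ envs a.1, W.Wc a.1 e e' * h a.1 e

/-- (TR) the transfer to the second part -/
def StTR (V : Type*) [Fintype V] [DecidableEq V] : Prop :=
  ∀ (W : Sim V) (h : List V → V × (V → V) → ℝ), (∀ a e, 0 ≤ h a e) →
    ∑ a ∈ paths2 V, ∑ e ∈ envs a.1, ∑ e' ∈ envs a.1, W.Wc a.1 e e' *
        h (W.spl a.1).2 (eR1 (W.spl a.1).1 (W.spl a.1).2 e) ≤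
      ((Fintype.card V + 2 : ℕ) : ℝ) ^ 2 * (1 / W.ε) ^ 2 *
        ∑ a : NL V, ∑ e ∈ envs a.1, ∑ e' ∈ envs a.1, W.Wc a.1 e e' * h a.1 e

/-- (TS) the 2-switches -/
def StTS (V : Type*) [Fintype V] [DecidableEq V] : Prop :=
  ∀ (W : Sim V) (f : (V → V) → ℝ),
    ∑ a ∈ paths2 V, ∑ e ∈ envs a.1, ∑ e' ∈ envs a.1, W.Wc a.1 e e' *
        (f (S1 (W.spl a.1).1 (W.spl a.1).2 e) - f (S2 (W.spl a.1).1 (W.spl a.1).2 e)) ^ 2 ≤
      ((Fintype.card V + 2 : ℕ) : ℝ) ^ 8 * (1 / W.ε) ^ 3 * (W.Z * W.Eloc f)

/-- (B) the variances are exchange energies -/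
def StB (V : Type*) [Fintype V] [DecidableEq V] : Prop :=
  ∀ (W : Sim V) (f : (V → V) → ℝ),
    ∑ a : NL V, W.RV f a.1 ≤ (1 / W.ε) ^ 2 * (W.Ex0 f + W.Ex1 f)

/-- one level of the recursion -/
def StXi (V : Type*) [Fintype V] [DecidableEq V] : Prop :=
  ∀ (W : Sim V) (f : (V → V) → ℝ),
    ∑ a ∈ paths2 V, W.Rh a.1 * W.xi f a.1 ^ 2 ≤
      9 * ((Fintype.card V + 2 : ℕ) : ℝ) ^ 8 * (1 / W.ε) ^ 4 *
        (W.Z * W.Eloc f + W.Ex0 f + W.Ex1 f)

end Vale.Agent.P308.Lin

end

section

/-!
# Cutting alternating walks at their weakest edges (P308, Part 1b)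

`Good W J K b`: the list `b` is a walk in the superposition of `J` and `K`, and its two boundary
edges are at most `cm b`. This is inherited by the two parts when `b` is cut at a weakest edge.
-/

set_option linter.unusedSectionVars false

namespace Vale.Agent.P308.Lin

open Finset

variable {V : Type*} [Fintype V] [DecidableEq V]

/-- `a' ++ a''` is a path whose edge between the two parts is a weakest one -/
structure Cut (W : Sim V) (a' a'' : List V) : Prop where
  ne' : a' ≠ []
  ne'' : a'' ≠ []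
  nd : (a' ++ a'').Nodup
  weak : ∀ y x, a'.getLast? = some y → a''.head? = some x → W.c y x ≤ W.cm (a' ++ a'')

/-- a walk with weak boundary edges -/
structure Good (W : Sim V) (J K : V → V) (b : List V) : Prop where
  ne : b ≠ []
  nd : b.Nodup
  walk : ∃ x, b = orb J K x b.length
  left : ∀ x, b.head? = some x → W.c (K x) x ≤ W.cm b
  right : ∀ y, b.getLast? = some y → W.c y ((if b.length % 2 = 0 then K else J) y) ≤ W.cm b

namespace Dec

variable (W : Sim V)

theorem cm_cons_cons (x y : V) (l : List V) :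
    W.cm (x :: y :: l) = min (W.c x y) (W.cm (y :: l)) := rfl

theorem cm_append : ∀ (a b : List V) (ha : a ≠ []) (hb : b ≠ []),
    W.cm (a ++ b) = min (W.cm a) (min (W.c (a.getLast ha) (b.head hb)) (W.cm b))
  | [], _, ha, _ => absurd rfl ha
  | [x], [], _, hb => absurd rfl hb
  | [x], y :: l, _, _ => by
    show min (W.c x y) (W.cm (y :: l)) = min (W.c x x) (min (W.c x y) (W.cm (y :: l)))
    rw [min_eq_right (le_trans (min_le_left _ _) (W.c_diag x y))]
  | x :: y :: l, b, _, hb => by
    have ih := cm_append (y :: l) b (by simp) hb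
    have h1 : W.cm (x :: y :: l ++ b) = min (W.c x y) (W.cm (y :: l ++ b)) := rfl
    have h2 : (x :: y :: l).getLast (by simp) = (y :: l).getLast (by simp) := by
      rw [List.getLast_cons]
    rw [h1, ih, h2, cm_cons_cons, min_assoc]

theorem cm_append_le_left (a b : List V) (ha : a ≠ []) (hb : b ≠ []) :
    W.cm (a ++ b) ≤ W.cm a := by
  rw [cm_append W a b ha hb]
  exact min_le_left _ _

theorem cm_append_le_right (a b : List V) (ha : a ≠ []) (hb : b ≠ []) :
    W.cm (a ++ b) ≤ W.cm b := by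
  rw [cm_append W a b ha hb]
  exact le_trans (min_le_right _ _) (min_le_right _ _)

theorem spl_append : ∀ a : List V, (W.spl a).1 ++ (W.spl a).2 = a
  | [] => rfl
  | [x] => rfl
  | x :: y :: l => by
    unfold Sim.spl
    split_ifs
    · rfl
    · show x :: ((W.spl (y :: l)).1 ++ (W.spl (y :: l)).2) = _
      rw [spl_append (y :: l)]

theorem spl_ne : ∀ a : List V, 2 ≤ a.length → (W.spl a).1 ≠ [] ∧ (W.spl a).2 ≠ []
  | [], h => by simp at h
  | [x], h => by simp at h
  | [x, y], _ => by
    unfold Sim.spl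
    rw [if_pos]
    · simp
    · show W.c x y ≤ W.c y y
      rw [W.c_symm]
      exact W.c_diag y x
  | x :: y :: z :: l, _ => by
    unfold Sim.spl
    split_ifs
    · simp
    · exact ⟨by simp, (spl_ne (y :: z :: l) (by simp only [List.length_cons, le_add_iff_nonneg_left, zero_le])).2⟩

theorem spl_weak : ∀ a : List V, ∀ u v, 2 ≤ a.length → (W.spl a).1.getLast? = some u →
    (W.spl a).2.head? = some v → W.c u v ≤ W.cm a
  | [], _, _, h, _, _ => by simp at h
  | [x], _, _, h, _, _ => by simp at h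
  | [x, y], u, v, _, hu, hv => by
    unfold Sim.spl at hu hv
    have h1 : W.c x y ≤ W.cm [y] := by
      show W.c x y ≤ W.c y y
      rw [W.c_symm]
      exact W.c_diag y x
    rw [if_pos h1] at hu hv
    simp at hu hv
    subst hu hv
    exact le_min le_rfl h1
  | x :: y :: z :: l, u, v, _, hu, hv => by
    unfold Sim.spl at hu hv
    by_cases h1 : W.c x y ≤ W.cm (y :: z :: l)
    · rw [if_pos h1] at hu hv
      simp at hu hv
      subst hu hv
      exact le_min le_rfl h1
    · rw [if_neg h1] at hu hv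
      have hne := (spl_ne W (y :: z :: l) (by simp only [List.length_cons, le_add_iff_nonneg_left, zero_le])).1
      have hu' : (W.spl (y :: z :: l)).1.getLast? = some u := by
        obtain ⟨w, t, hwt⟩ := List.exists_cons_of_ne_nil hne
        simp only [] at hu
        rw [hwt] at hu ⊢
        rwa [List.getLast?_cons_cons] at hu
      have := spl_weak (y :: z :: l) u v (by simp only [List.length_cons, le_add_iff_nonneg_left, zero_le]) hu' hv
      show W.c u v ≤ min (W.c x y) (W.cm (y :: z :: l))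
      exact le_min (le_trans this (not_le.1 h1).le) this

theorem spl_cut {a : List V} (hnd : a.Nodup) (h : 2 ≤ a.length) :
    Cut W (W.spl a).1 (W.spl a).2 := by
  obtain ⟨h1, h2⟩ := spl_ne W a h
  refine ⟨h1, h2, by rw [spl_append]; exact hnd, fun y x hy hx => ?_⟩
  rw [spl_append]
  exact spl_weak W a y x h hy hx

variable {W}

theorem sg_if {J K : V → V} (m : ℕ) : (if m % 2 = 0 then J else K) = Wk.sg J K m := by
  unfold Wk.sg
  by_cases h : Even m
  · rw [if_pos h, if_pos (Nat.even_iff.1 h)]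
  · rw [if_neg h, if_neg (fun h' => h (Nat.even_iff.2 h'))]

/-- **The invariant is inherited.** -/
theorem Good.cut {J K : V → V} (hJ : ∀ v, J (J v) = v) (hK : ∀ v, K (K v) = v)
    {a' a'' : List V} (hg : Good W J K (a' ++ a'')) (hc : Cut W a' a'') :
    Good W J K a' ∧ (if a'.length % 2 = 0 then Good W J K a'' else Good W K J a'') := by
  obtain ⟨x, hx⟩ := hg.walk
  rw [List.length_append, Wk.orb_append] at hx
  have hlen : a'.length = (orb J K x a'.length).length := by rw [Wk.length_orb]
  obtain ⟨h1, h2⟩ := List.append_inj hx hlen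
  have ha'0 : 0 < a'.length := List.length_pos_iff.2 hc.ne'
  have ha''0 : 0 < a''.length := List.length_pos_iff.2 hc.ne''
  set m := a'.length with hm
  set k := a''.length with hk
  -- the last vertex of `a'` and the first one of `a''`
  have hlast : ∀ y, a'.getLast? = some y → y = Wk.pos J K (m - 1) x := by
    intro y hy
    rw [List.getLast?_eq_getElem?, ← hm, List.getElem?_eq_some_iff] at hy
    obtain ⟨h, hy⟩ := hy
    rw [← hy]
    have : a'[m - 1] = (orb J K x m)[m - 1]'(by rw [Wk.length_orb]; omega) := by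
      congr 1
    rw [this, Wk.getElem_orb]
  have hhead : ∀ z, a''.head? = some z → z = Wk.pos J K m x := by
    intro z hz
    rw [h2] at hz
    obtain ⟨k', hk'⟩ : ∃ k', k = k' + 1 := ⟨k - 1, by omega⟩
    rw [hk', Wk.orb_succ] at hz
    simpa using hz.symm
  have hsg : ∀ y, (Wk.sg J K m y) = (if m % 2 = 0 then J else K) y := fun y => by rw [sg_if]
  have hstep : Wk.sg J K (m - 1) (Wk.pos J K (m - 1) x) = Wk.pos J K m x := by
    rw [← Wk.pos_succ', Nat.sub_add_cancel ha'0]
  have hback : Wk.sg J K (m - 1) (Wk.pos J K m x) = Wk.pos J K (m - 1) x := by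
    have := Wk.sg_pos hJ hK (m - 1) x
    rwa [Nat.sub_add_cancel ha'0] at this
  have hpar : Wk.sg K J m = Wk.sg J K (m - 1) := by
    unfold Wk.sg
    by_cases h : Even m
    · rw [if_pos h, if_neg]
      rw [Nat.even_iff] at h ⊢
      (clear * - hlen ha'0 h; omega)
    · rw [if_neg h, if_pos]
      rw [Nat.even_iff] at h ⊢
      omega
  have hpar' : (if m % 2 = 0 then K else J) = Wk.sg J K (m - 1) := by rw [sg_if, hpar]
  have hcm1 : W.cm (a' ++ a'') ≤ W.cm a' := cm_append_le_left W _ _ hc.ne' hc.ne''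
  have hcm2 : W.cm (a' ++ a'') ≤ W.cm a'' := cm_append_le_right W _ _ hc.ne' hc.ne''
  have hex1 : ∃ y, a'.getLast? = some y := ⟨_, List.getLast?_eq_some_getLast hc.ne'⟩
  have hex2 : ∃ z, a''.head? = some z := ⟨_, List.head?_eq_some_head hc.ne''⟩
  obtain ⟨y0, hy0⟩ := hex1
  obtain ⟨z0, hz0⟩ := hex2
  have hedge := hc.weak y0 z0 hy0 hz0
  rw [hlast y0 hy0, hhead z0 hz0] at hedge
  refine ⟨⟨hc.ne', (List.nodup_append.1 hc.nd).1, ⟨x, h1⟩, ?_, ?_⟩, ?_⟩
  · intro z hz
    refine le_trans (hg.left z ?_) hcm1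
    rw [List.head?_append, hz]
    rfl
  · intro y hy
    rw [← hm, hpar', hlast y hy, hstep]
    exact le_trans hedge hcm1
  · have hright : ∀ y, a''.getLast? = some y →
        W.c y ((if (m + k) % 2 = 0 then K else J) y) ≤ W.cm a'' := by
      intro y hy
      have := hg.right y (by rw [List.getLast?_append, hy]; rfl)
      rw [List.length_append] at this
      exact le_trans this hcm2
    split_ifs with hpe
    · have e1 : Wk.sg J K m = J := by rw [← sg_if, if_pos hpe]
      have e2 : Wk.sg J K (m + 1) = K := by rw [← sg_if, if_neg (by omega)]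
      rw [e1, e2] at h2
      refine ⟨hc.ne'', (List.nodup_append.1 hc.nd).2.1, ⟨_, h2⟩, ?_, ?_⟩
      · intro z hz
        have e3 : Wk.sg J K (m - 1) = K := by rw [← sg_if, if_neg (by omega)]
        have hb := hback
        rw [e3] at hb
        rw [hhead z hz, hb]
        exact le_trans hedge hcm2
      · intro y hy
        have := hright y hy
        have e4 : (m + k) % 2 = k % 2 := by omega
        rwa [e4] at this
    · have e1 : Wk.sg J K m = K := by rw [← sg_if, if_neg hpe]
      have e2 : Wk.sg J K (m + 1) = J := by rw [← sg_if, if_pos (by omega)]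
      rw [e1, e2] at h2
      refine ⟨hc.ne'', (List.nodup_append.1 hc.nd).2.1, ⟨_, h2⟩, ?_, ?_⟩
      · intro z hz
        have e3 : Wk.sg J K (m - 1) = J := by rw [← sg_if, if_pos (by omega)]
        have hb := hback
        rw [e3] at hb
        rw [hhead z hz, hb]
        exact le_trans hedge hcm2
      · intro y hy
        have := hright y hy
        by_cases hk2 : k % 2 = 0
        · rw [if_neg (by omega)] at this
          rw [← hk, if_pos hk2]
          exact this
        · rw [if_pos (by omega)] at this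
          rw [← hk, if_neg hk2]
          exact this

end Dec

end Vale.Agent.P308.Lin

end

section

/-!
# Step (C): the law of a path with weak boundary edges (P308, Part 1b)
-/

set_option linter.unusedSectionVars false

namespace Vale.Agent.P308.Lin

open Finset
open Vale.Agent.P308.Soft (Cp)

/-- Step (A): flips of one component. `Cp N Y t` is the component of `t` under `N` and `Y`. -/
def FlipSt (V : Type*) [Fintype V] [DecidableEq V] : Prop :=
  ∀ (W : Sim V) (f : (V → V) → ℝ),
    W.Var2 f ≤ Fintype.card V * ∑ t, ∑ N ∈ pms V, ∑ Y ∈ pms V,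
      W.wt N * W.wt Y * (f N - f (fun v => if v ∈ Cp N Y t then Y v else N v)) ^ 2

/-- the constant -/
noncomputable def Sim.K {V : Type*} [Fintype V] (W : Sim V) (A B : ℕ) : ℝ :=
  ((Fintype.card V + 2 : ℕ) : ℝ) ^ A * (1 / W.ε) ^ B

open Classical in
/-- Step (C): the law of a path with weak boundary edges. -/
def LawSt (V : Type*) [Fintype V] [DecidableEq V] (A B : ℕ) : Prop :=
  ∀ (W : Sim V) (b : List V), ∑ N ∈ pms V, ∑ Y ∈ pms V,
    (if Good W N Y b then W.wt N * W.wt Y else 0) ≤ W.K A B * W.Rh b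

end Vale.Agent.P308.Lin

end

section

/-! # Alternating lists, unions, minima, and the transfer lemma -/

set_option linter.unusedSectionVars false

namespace Vale.Agent.P308.Lin

open Finset

variable {V : Type*} [Fintype V] [DecidableEq V]

/-! ### Alternating lists -/

/-- consecutive vertices are joined by `N`, `Y`, `N`, … -/
def Alt (N Y : V → V) : List V → Prop
  | x :: y :: l => N x = y ∧ Alt Y N (y :: l)
  | _ => True

theorem orb_of_alt {N Y : V → V} {x : V} {l : List V} (h : Alt N Y (x :: l)) :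
    orb N Y x (l.length + 1) = x :: l := by
  induction l generalizing N Y x with
  | nil => rfl
  | cons y l ih =>
    obtain ⟨h1, h2⟩ := h
    show x :: orb Y N (N x) (l.length + 1) = x :: y :: l
    rw [h1, ih h2]

/-- `pL` of a longer list -/
theorem pL_append_left {l l' : List V} {v : V} (hv : v ∈ l) (h : pL l v ≠ v) :
    pL (l ++ l') v = pL l v := by
  revert hv h
  induction l using two_step with
  | h0 => intro h; simp at h
  | h1 x => intro _ h; exact absurd rfl h
  | h2 x y l ih =>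
    intro hv h
    rw [List.cons_append, List.cons_append, pL_cons2, pL_cons2]
    by_cases h1 : v = x
    · rw [if_pos h1, if_pos h1]
    by_cases h2 : v = y
    · rw [if_neg h1, if_neg h1, if_pos h2, if_pos h2]
    · rw [if_neg h1, if_neg h1, if_neg h2, if_neg h2]
      rw [pL_cons2, if_neg h1, if_neg h2] at h
      exact ih (by simp only [List.mem_cons] at hv; (clear * - ih hv h1 h2; tauto)) h

theorem alt_of {N Y : V → V} {a : List V} (ha : a.Nodup)
    (hN : ∀ v ∈ a, pL a v ≠ v → N v = pL a v)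
    (hY : ∀ v ∈ a.tail, pL a.tail v ≠ v → Y v = pL a.tail v) : Alt N Y a := by
  induction a generalizing N Y with
  | nil => trivial
  | cons x l ih =>
    cases l with
    | nil => trivial
    | cons y l =>
      have ha' := ha
      simp only [List.nodup_cons, List.mem_cons, not_or] at ha'
      obtain ⟨⟨hxy, hx⟩, hy, hl⟩ := ha'
      have e1 : pL (x :: y :: l) x = y := by rw [pL_cons2, if_pos rfl]
      refine ⟨?_, ?_⟩
      · rw [hN x (by simp) (by rw [e1]; exact Ne.symm hxy), e1]
      · refine ih (List.nodup_cons.1 ha).2 hY ?_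
        intro v hv hne
        have hv' : v ∈ l := hv
        have n1 : v ≠ x := fun h => hx (h ▸ hv')
        have n2 : v ≠ y := fun h => hy (h ▸ hv')
        have e2 : pL (x :: y :: l) v = pL l v := by rw [pL_cons2, if_neg n1, if_neg n2]
        have h3 := hN v (by simp [hv']) (by rw [e2]; exact hne)
        rw [e2] at h3
        exact h3

/-! ### Unions -/

theorem M1_mem {b : List V} {E : V → V} {v : V} (h : v ∈ b) : M1 b E v = pL b v := by
  simp [M1, un, h]

theorem M1_notMem {b : List V} {E : V → V} {v : V} (h : v ∉ b) : M1 b E v = E v := by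
  simp [M1, un, h]

theorem M0_eq (b : List V) (E : V → V) : M0 b E = M1 (b.rotate 1) E := by
  funext v
  simp [M0, M1, un]

theorem un_tail_eq {b : List V} (hb : b.Nodup) {E : V → V} (hE : ∀ v ∈ b, E v = v) :
    un (pL b.tail) b E = M1 b.tail E := by
  funext v
  cases b with
  | nil => simp [un, M1]
  | cons x l =>
    by_cases h : v ∈ l
    · simp [un, M1, h]
    · by_cases h1 : v = x
      · subst h1
        simp [un, M1, h, pL_of_notMem h, hE]
      · simp [un, M1, h, h1]

theorem M1_invol {b : List V} (hb : b.Nodup) {E : V → V} (hE : ∀ v ∈ b, E v = v)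
    (hi : ∀ v, E (E v) = v) (v : V) : M1 b E (M1 b E v) = v := by
  by_cases h : v ∈ b
  · rw [M1_mem h, M1_mem (pL_mem h), pL_pL hb]
  · rw [M1_notMem h]
    by_cases h' : E v ∈ b
    · exfalso
      have := hE _ h'
      rw [hi] at this
      rw [← this] at h'
      exact h h'
    · rw [M1_notMem h', hi]

theorem M1_fix_even {b : List V} (hb : b.Nodup) (he : b.length % 2 = 0) {E : V → V} {v : V} :
    M1 b E v = v ↔ E v = v ∧ v ∉ b := by
  by_cases h : v ∈ b
  · rw [M1_mem h]
    exact ⟨fun h' => absurd h' (pL_ne_of_even hb he h), fun h' => absurd h h'.2⟩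
  · rw [M1_notMem h]; (clear * - h; tauto)

theorem M1_fix_odd {b : List V} (hb : b.Nodup) (he : b.length % 2 = 1) {E : V → V} {v : V} :
    M1 b E v = v ↔ (E v = v ∧ v ∉ b) ∨ b.getLast? = some v := by
  by_cases h : v ∈ b
  · rw [M1_mem h, pL_eq_iff_of_odd hb he h]; (clear * - h; tauto)
  · rw [M1_notMem h]
    constructor
    · intro h'; exact Or.inl ⟨h', h⟩
    · rintro (h' | h')
      · exact h'.1
      · exact absurd (List.mem_of_getLast? h') h

/-- the environment is determined by the union -/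
theorem M1_inj {b : List V} {E E' : V → V} (hE : ∀ v ∈ b, E v = v) (hE' : ∀ v ∈ b, E' v = v)
    (h : M1 b E = M1 b E') : E = E' := by
  funext v
  by_cases hv : v ∈ b
  · rw [hE v hv, hE' v hv]
  · have := congrFun h v
    rwa [M1_notMem hv, M1_notMem hv] at this

theorem Sim.wt_M1 (W : Sim V) {b : List V} (hb : b.Nodup) {E : V → V} (hE : ∀ v ∈ b, E v = v) :
    W.wt (M1 b E) = W.pr b * W.wt E := W.wt_un hb hE

/-! ### Minima -/

theorem Sim.cm_attained (W : Sim V) {l : List V} (hl : l ≠ []) :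
    ∃ u ∈ l, ∃ v ∈ l, W.cm l = W.c u v := by
  induction l with
  | nil => exact absurd rfl hl
  | cons x l ih =>
    cases l with
    | nil => exact ⟨x, by simp, x, by simp, rfl⟩
    | cons y l =>
      obtain ⟨u, hu, v, hv, h⟩ := ih (by simp)
      have e : W.cm (x :: y :: l) = min (W.c x y) (W.cm (y :: l)) := rfl
      rcases le_total (W.c x y) (W.cm (y :: l)) with h1 | h1
      · exact ⟨x, by simp, y, by simp, by rw [e, min_eq_left h1]⟩
      · exact ⟨u, List.mem_cons_of_mem _ hu, v, List.mem_cons_of_mem _ hv, by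
          rw [e, min_eq_right h1, h]⟩

theorem Sim.cm_le_head (W : Sim V) (x : V) (l : List V) : ∀ v ∈ x :: l, W.cm (x :: l) ≤ W.c x v := by
  induction l generalizing x with
  | nil =>
    intro v hv
    simp only [List.mem_singleton] at hv
    subst hv; exact le_rfl
  | cons y l ih =>
    intro v hv
    have e : W.cm (x :: y :: l) = min (W.c x y) (W.cm (y :: l)) := rfl
    rw [e]
    rcases List.mem_cons.1 hv with rfl | hv
    · exact (min_le_left _ _).trans (W.c_diag _ _)
    · have h1 := ih y v hv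
      exact (min_le_min le_rfl h1).trans (W.c_ultra _ _ _)

theorem Sim.cm_le (W : Sim V) {l : List V} {u v : V} (hu : u ∈ l) (hv : v ∈ l) :
    W.cm l ≤ W.c u v := by
  cases l with
  | nil => simp at hu
  | cons x l =>
    have h1 := W.cm_le_head x l u hu
    have h2 := W.cm_le_head x l v hv
    rw [W.c_symm] at h1
    exact (le_min h1 h2).trans (W.c_ultra _ _ _)

theorem Sim.cm_mono (W : Sim V) {l l' : List V} (hl : l' ≠ []) (h : ∀ v ∈ l', v ∈ l) :
    W.cm l ≤ W.cm l' := by
  obtain ⟨u, hu, v, hv, e⟩ := W.cm_attained hl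
  rw [e]
  exact W.cm_le (h u hu) (h v hv)

/-! ### The splitting -/

theorem Sim.spl_append (W : Sim V) (a : List V) : (W.spl a).1 ++ (W.spl a).2 = a := by
  induction a with
  | nil => simp [Sim.spl]
  | cons x l ih =>
    cases l with
    | nil => simp [Sim.spl]
    | cons y l =>
      rw [Sim.spl]
      split_ifs with h
      · simp
      · simp only [List.cons_append, ih]

theorem Sim.spl_fst_ne (W : Sim V) {a : List V} (ha : a ≠ []) : (W.spl a).1 ≠ [] := by
  match a with
  | [] => exact absurd rfl ha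
  | [x] => simp [Sim.spl]
  | x :: y :: l =>
    rw [Sim.spl]
    split_ifs <;> simp

/-- the splitting edge is a weakest edge -/
theorem Sim.spl_edge (W : Sim V) {a : List V} (ha : 2 ≤ a.length) :
    ∃ u v, (W.spl a).1.getLast? = some u ∧ (W.spl a).2.head? = some v ∧ W.c u v = W.cm a := by
  induction a with
  | nil => simp at ha
  | cons x l ih =>
    cases l with
    | nil => simp only [List.length_cons, List.length_nil, zero_add, Nat.not_ofNat_le_one] at ha
    | cons y l =>
      have e : W.cm (x :: y :: l) = min (W.c x y) (W.cm (y :: l)) := rfl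
      rw [Sim.spl]
      split_ifs with h
      · exact ⟨x, y, by simp, by simp, by rw [e, min_eq_left h]⟩
      · push_neg at h
        cases l with
        | nil =>
          exfalso
          have : W.cm [y] = W.c y y := rfl
          rw [this] at h
          have := W.c_diag y x
          rw [W.c_symm] at this
          linarith only [h, this]
        | cons z l =>
          obtain ⟨u, v, h1, h2, h3⟩ := ih (by simp only [List.length_cons, le_add_iff_nonneg_left, zero_le])
          refine ⟨u, v, ?_, h2, ?_⟩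
          · have hne := W.spl_fst_ne (a := y :: z :: l) (by simp)
            obtain ⟨w, l', hw⟩ := List.exists_cons_of_ne_nil hne
            simp only [hw] at h1 ⊢
            rw [List.getLast?_cons_cons]; exact h1
          · rw [h3, e, min_eq_right h.le]

theorem Sim.spl_snd_ne (W : Sim V) {a : List V} (ha : 2 ≤ a.length) : (W.spl a).2 ≠ [] := by
  obtain ⟨u, v, -, h, -⟩ := W.spl_edge ha
  intro h'
  rw [h'] at h
  simp at h

/-- weight of an appended path -/
theorem Sim.pw_append (W : Sim V) {a b : List V} {u v : V} (ha : a.getLast? = some u)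
    (hb : b.head? = some v) : W.pw (a ++ b) = W.pw a * W.lam u v * W.pw b := by
  obtain ⟨b', rfl⟩ : ∃ b', b = v :: b' := by
    cases b with
    | nil => simp at hb
    | cons w b' => simp at hb; exact ⟨b', by rw [hb]⟩
  induction a with
  | nil => simp at ha
  | cons x l ih =>
    cases l with
    | nil =>
      simp at ha
      subst ha
      show W.lam x v * W.pw (v :: b') = 1 * W.lam x v * W.pw (v :: b')
      rw [one_mul]
    | cons y l =>
      rw [List.getLast?_cons_cons] at ha
      have := ih ha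
      show W.lam x y * W.pw (y :: l ++ v :: b') = W.lam x y * W.pw (y :: l) * _ * _
      rw [this]; ring

/-! ### The transfer lemma -/

theorem transfer {α β κ : Type*} [DecidableEq β] [Fintype κ] [DecidableEq κ] (S : Finset α)
    (T : Finset β) (Φ : α → β) (m : α → κ) (w : α → ℝ) (w' : β → ℝ) (C : ℝ) (hC : 0 ≤ C)
    (hT : ∀ x ∈ S, Φ x ∈ T) (hinj : ∀ x ∈ S, ∀ y ∈ S, Φ x = Φ y → m x = m y → x = y)
    (hw : ∀ x ∈ S, w x ≤ C * w' (Φ x)) (hw' : ∀ y ∈ T, 0 ≤ w' y) :
    ∑ x ∈ S, w x ≤ Fintype.card κ * C * ∑ y ∈ T, w' y := by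
  classical
  have h1 : ∑ x ∈ S, w x ≤ C * ∑ x ∈ S, w' (Φ x) := by
    rw [Finset.mul_sum]; exact Finset.sum_le_sum hw
  have h2 : ∑ x ∈ S, w' (Φ x) = ∑ z ∈ S.image (fun x => (Φ x, m x)), w' z.1 := by
    rw [Finset.sum_image]
    intro x hx y hy hxy
    exact hinj x hx y hy (congrArg Prod.fst hxy) (congrArg Prod.snd hxy)
  have h3 : ∑ z ∈ S.image (fun x => (Φ x, m x)), w' z.1 ≤ ∑ z ∈ T ×ˢ (univ : Finset κ), w' z.1 := by
    refine Finset.sum_le_sum_of_subset_of_nonneg ?_ ?_
    · intro z hz
      obtain ⟨x, hx, rfl⟩ := Finset.mem_image.1 hz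
      exact Finset.mem_product.2 ⟨hT x hx, Finset.mem_univ _⟩
    · intro z hz _
      exact hw' _ (Finset.mem_product.1 hz).1
  have h4 : ∑ z ∈ T ×ˢ (univ : Finset κ), w' z.1 = Fintype.card κ * ∑ y ∈ T, w' y := by
    rw [Finset.sum_product]
    simp only [Finset.sum_const, Finset.card_univ, nsmul_eq_mul]
    rw [Finset.mul_sum]
  calc ∑ x ∈ S, w x ≤ C * ∑ x ∈ S, w' (Φ x) := h1
    _ ≤ C * (Fintype.card κ * ∑ y ∈ T, w' y) := by
        refine mul_le_mul_of_nonneg_left ?_ hC
        rw [h2, ← h4]; exact h3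
    _ = Fintype.card κ * C * ∑ y ∈ T, w' y := by ring

end Vale.Agent.P308.Lin

end

section

/-!
# The law bound: a path occurs as a part of a pair of perfect matchings with probability at most
`(n / ε) Rh`
-/

set_option linter.unusedSectionVars false

namespace Vale.Agent.P308.Lin

open Finset

variable {V : Type*} [Fintype V] [DecidableEq V]

/-- product of the weights of the edges `12|34|…` -/
def Sim.zpe (W : Sim V) : List V → ℝ
  | [] => 1
  | [_] => 1
  | x :: y :: l => W.lam x y * W.zpe l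

theorem Sim.zpw_eq (W : Sim V) : ∀ (x : V) (l : List V), W.pw (x :: l) = W.zpe (x :: l) * W.zpe l
  | _, [] => by simp only [pw, zpe, mul_one]
  | x, y :: l => by
    rw [Sim.pw, Sim.zpw_eq W y l, Sim.zpe]
    ring

theorem Sim.zpe_pos (W : Sim V) : ∀ l : List V, 0 < W.zpe l
  | [] => by simp only [zpe, zero_lt_one]
  | [_] => by simp only [zpe, zero_lt_one]
  | x :: y :: l => by rw [Sim.zpe]; exact mul_pos (W.lam_pos x y) (Sim.zpe_pos W l)

theorem zpL_mem : ∀ (l : List V) (v : V), v ∈ l → pL l v ∈ l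
  | [], v, h => h
  | [_], v, h => h
  | x :: y :: l, v, h => by
    rw [pL]
    split_ifs with h1 h2
    · simp
    · simp
    · have h3 : v ∈ l := by
        simp only [List.mem_cons] at h
        tauto
      have := zpL_mem l v h3
      simp [this]

theorem Sim.zprod_pL (W : Sim V) : ∀ (l : List V), l.Nodup →
    ∏ v ∈ l.toFinset, W.s v (pL l v) = W.zpe l
  | [], _ => by simp [Sim.zpe]
  | [x], _ => by simp [Sim.zpe, pL, W.s_diag]
  | x :: y :: l, h => by
    have hx : x ∉ y :: l := (List.nodup_cons.1 h).1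
    have hyl := (List.nodup_cons.1 h).2
    have hy : y ∉ l := (List.nodup_cons.1 hyl).1
    have hl := (List.nodup_cons.1 hyl).2
    have hxy : x ≠ y := fun e => hx (by rw [e]; exact List.mem_cons_self)
    have hxl : x ∉ l := fun e => hx (List.mem_cons_of_mem _ e)
    rw [List.toFinset_cons, List.toFinset_cons, Finset.prod_insert, Finset.prod_insert]
    · rw [Sim.zpe, ← Sim.zprod_pL W l hl]
      have e1 : pL (x :: y :: l) x = y := by simp [pL]
      have e2 : pL (x :: y :: l) y = x := by simp [pL, hxy.symm]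
      rw [e1, e2, W.s_symm y x]
      have e3 : ∏ v ∈ l.toFinset, W.s v (pL (x :: y :: l) v) = ∏ v ∈ l.toFinset, W.s v (pL l v) := by
        refine Finset.prod_congr rfl fun v hv => ?_
        have hv' : v ∈ l := List.mem_toFinset.1 hv
        have h1 : v ≠ x := fun e => hxl (e ▸ hv')
        have h2 : v ≠ y := fun e => hy (e ▸ hv')
        rw [pL, if_neg h1, if_neg h2]
      rw [e3]
      unfold Sim.lam
      ring
    · simpa using hy
    · simpa using ⟨hxy, hxl⟩

/-- removing the pairs of a list -/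
theorem Sim.zwt_rem (W : Sim V) {J : V → V} {l : List V} (hl : l.Nodup)
    (h : ∀ v ∈ l, J v = pL l v) : W.wt J = W.zpe l * W.wt (un id l J) := by
  unfold Sim.wt
  rw [← W.zprod_pL l hl, ← Finset.prod_mul_prod_compl l.toFinset,
    ← Finset.prod_mul_prod_compl l.toFinset (fun v => W.s v (un id l J v))]
  have e1 : ∏ v ∈ l.toFinset, W.s v (J v) = ∏ v ∈ l.toFinset, W.s v (pL l v) :=
    Finset.prod_congr rfl fun v hv => by rw [h v (List.mem_toFinset.1 hv)]
  have e2 : ∏ v ∈ l.toFinset, W.s v (un id l J v) = 1 :=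
    Finset.prod_eq_one fun v hv => by
      unfold un
      rw [if_pos (List.mem_toFinset.1 hv)]
      exact W.s_diag v
  have e3 : ∏ v ∈ l.toFinsetᶜ, W.s v (un id l J v) = ∏ v ∈ l.toFinsetᶜ, W.s v (J v) :=
    Finset.prod_congr rfl fun v hv => by
      unfold un
      rw [if_neg]
      simpa using hv
  rw [e1, e2, e3, one_mul]

/-! ### Alternating lists -/

theorem zorb_two (J K : V → V) (x : V) (m : ℕ) :
    orb J K x (m + 2) = x :: J x :: orb J K (K (J x)) m := rfl

/-- an even alternating list is paired by `J` -/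
theorem zorb_pL {J : V → V} (hJ : ∀ v, J (J v) = v) (K : V → V) (k : ℕ) : ∀ (x v : V),
    v ∈ orb J K x (2 * k) → J v = pL (orb J K x (2 * k)) v := by
  induction k with
  | zero => intro x v h; simp only [orb, List.not_mem_nil] at h
  | succ k ih =>
    intro x v h
    rw [show 2 * (k + 1) = 2 * k + 2 by ring, zorb_two] at h ⊢
    rw [pL]
    split_ifs with h1 h2
    · rw [h1]
    · rw [h2, hJ]
    · refine ih _ _ ?_
      simp only [List.mem_cons] at h
      tauto

theorem zorb_closed {J : V → V} (hJ : ∀ v, J (J v) = v) (K : V → V) (k : ℕ) {x v : V}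
    (h : v ∈ orb J K x (2 * k)) : J v ∈ orb J K x (2 * k) := by
  rw [zorb_pL hJ K k x v h]
  exact zpL_mem _ _ h

/-- the entries of an alternating list -/
def zal : (V → V) → (V → V) → V → ℕ → V
  | _, _, x, 0 => x
  | J, K, x, m + 1 => zal K J (J x) m

theorem zal_step (m : ℕ) : ∀ (J K : V → V) (x : V),
    zal J K x (m + 1) = if m % 2 = 0 then J (zal J K x m) else K (zal J K x m) := by
  induction m with
  | zero => intro J K x; simp only [zal, Nat.zero_mod, ↓reduceIte]
  | succ m ih =>
    intro J K x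
    rw [zal, ih K J (J x)]
    have h : zal J K x (m + 1) = zal K J (J x) m := rfl
    rw [h]
    rcases Nat.mod_two_eq_zero_or_one m with h0 | h1
    · rw [if_pos h0, if_neg (by omega)]
    · rw [if_neg (by omega), if_pos (by omega)]

theorem zorb_succ (m : ℕ) : ∀ (J K : V → V) (x : V),
    orb J K x (m + 1) = orb J K x m ++ [zal J K x m] := by
  induction m with
  | zero => intro J K x; simp [zal, orb]
  | succ m ih =>
    intro J K x
    rw [orb, ih K J (J x)]
    simp [orb, zal]

theorem zorb_getLast (m : ℕ) (J K : V → V) (x : V) :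
    (orb J K x (m + 1)).getLast? = some (zal J K x m) := by
  rw [zorb_succ, List.getLast?_append]
  simp

/-- the list with the previous vertex -/
theorem zorb_cons {K : V → V} (hK : ∀ v, K (K v) = v) (J : V → V) (x : V) (m : ℕ) :
    K x :: orb J K x m = orb K J (K x) (m + 1) := by
  rw [orb, hK]

/-! ### The minimum along a path -/

theorem Sim.zcm_append (W : Sim V) (p : V) : ∀ (l : List V) (y : V), l.getLast? = some y →
    W.cm (l ++ [p]) = min (W.cm l) (W.c y p)
  | [], y, h => by simp at h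
  | [x], y, h => by
    simp only [List.getLast?_singleton, Option.some.injEq] at h
    subst h
    simp only [List.cons_append, List.nil_append, cm]
    rw [min_eq_left, min_eq_right (W.c_diag x p)]
    rw [W.c_symm x p]
    exact W.c_diag p x
  | x :: z :: l, y, h => by
    have h' : (z :: l).getLast? = some y := by rwa [List.getLast?_cons_cons] at h
    have ih := Sim.zcm_append W p (z :: l) y h'
    simp only [List.cons_append, Sim.cm] at ih ⊢
    rw [ih, min_assoc]

theorem Sim.zcm_le (W : Sim V) : ∀ (l : List V) (x v : V), v ∈ x :: l → W.cm (x :: l) ≤ W.c x v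
  | [], x, v, h => by
    simp only [List.mem_cons, List.not_mem_nil, or_false] at h
    subst h
    simp only [cm, Std.le_refl]
  | y :: l, x, v, h => by
    rw [Sim.cm]
    rcases List.mem_cons.1 h with h | h
    · subst h
      exact (min_le_left _ _).trans (W.c_diag _ _)
    · have ih := Sim.zcm_le W l y v h
      exact (le_min (min_le_left _ _) ((min_le_right _ _).trans ih)).trans (W.c_ultra x y v)

theorem Sim.zpe_append (W : Sim V) (q : V) : ∀ (l : List V) (y : V), l.length % 2 = 1 →
    l.getLast? = some y → W.zpe (l ++ [q]) = W.zpe l * W.lam y q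
  | [], y, h, _ => by simp at h
  | [x], y, _, h => by
    simp only [List.getLast?_singleton, Option.some.injEq] at h
    subst h
    simp [Sim.zpe]
  | [x, z], y, h, _ => by simp at h
  | x :: z :: w :: l, y, h, h2 => by
    have h' : (w :: l).getLast? = some y := by
      rwa [List.getLast?_cons_cons, List.getLast?_cons_cons] at h2
    have ih := Sim.zpe_append W q (w :: l) y (by simp only [List.length_cons] at h ⊢; omega) h'
    simp only [List.cons_append, Sim.zpe] at ih ⊢
    rw [ih]
    ring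

/-! ### Good pairs -/

theorem zsum_le_of_injOn {α β : Type*} (G : Finset α) (T : Finset β) (φ : α → β)
    (F : α → ℝ) (H : β → ℝ) (hφ : ∀ x ∈ G, φ x ∈ T) (hinj : Set.InjOn φ G)
    (hle : ∀ x ∈ G, F x ≤ H (φ x)) (hH : ∀ y ∈ T, 0 ≤ H y) : ∑ x ∈ G, F x ≤ ∑ y ∈ T, H y := by
  classical
  calc ∑ x ∈ G, F x ≤ ∑ x ∈ G, H (φ x) := Finset.sum_le_sum hle
    _ = ∑ y ∈ G.image φ, H y := (Finset.sum_image hinj).symm
    _ ≤ ∑ y ∈ T, H y := by
      refine Finset.sum_le_sum_of_subset_of_nonneg ?_ fun y hy _ => hH y hy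
      intro y hy
      obtain ⟨x, hx, rfl⟩ := Finset.mem_image.1 hy
      exact hφ x hx

theorem zun_invol {J : V → V} (hJ : ∀ v, J (J v) = v) {l : List V} (h : ∀ v ∈ l, J v = pL l v)
    (v : V) : un id l J (un id l J v) = v := by
  unfold un
  by_cases hv : v ∈ l
  · simp [hv]
  · have : J v ∉ l := fun h' => hv (by
      have h2 := h _ h'
      rw [hJ] at h2
      rw [h2]
      exact zpL_mem _ _ h')
    simp [hv, this, hJ]

theorem zun_fix {J : V → V} (hJ : ∀ v, J v ≠ v) {l : List V} (v : V) :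
    un id l J v = v ↔ v ∈ l := by
  unfold un
  by_cases hv : v ∈ l
  · simp [hv]
  · simp [hv, hJ v]

/-! ### Odd paths -/

theorem zorb_fwd {J K : V → V} (hJ : IsPM J) {x : V} {k : ℕ}
    (hn : (orb J K x (2 * k + 1)).Nodup) :
    J (zal J K x (2 * k)) ∉ orb J K x (2 * k + 1) := by
  rw [zorb_succ] at hn ⊢
  intro h
  rw [List.mem_append, List.mem_singleton] at h
  rcases h with h | h
  · have h2 := zorb_closed hJ.1 K k h
    rw [hJ.1] at h2
    rw [List.nodup_append] at hn
    exact hn.2.2 _ h2 _ (by simp) rfl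
  · exact hJ.2 _ h

theorem zorb_bwd {J K : V → V} (hK : IsPM K) {x : V} {k : ℕ}
    (hn : (orb J K x (2 * k + 1)).Nodup) :
    K x ∉ orb J K x (2 * k + 1) := by
  rw [orb] at hn ⊢
  intro h
  rw [List.mem_cons] at h
  rcases h with h | h
  · exact hK.2 _ h
  · have h2 := zorb_closed hK.1 J k h
    rw [hK.1] at h2
    exact (List.nodup_cons.1 hn).1 h2

/-- the data of a good pair with an odd path -/
theorem zgood_odd {W : Sim V} {J K : V → V} (hJ : IsPM J) (hK : IsPM K) {b : List V}
    (h : Good W J K b) (ho : b.length % 2 = 1) :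
    ∃ x y : V, b.head? = some x ∧ b.getLast? = some y ∧ K x ∉ b ∧ J y ∉ b ∧
      (∀ v ∈ b ++ [J y], J v = pL (b ++ [J y]) v) ∧ (∀ v ∈ K x :: b, K v = pL (K x :: b) v) := by
  obtain ⟨x, hx⟩ := h.walk
  obtain ⟨k, hk⟩ : ∃ k, b.length = 2 * k + 1 := ⟨b.length / 2, by omega⟩
  rw [hk] at hx
  have hn := h.nd
  rw [hx] at hn
  refine ⟨x, zal J K x (2 * k), ?_, ?_, ?_, ?_, ?_, ?_⟩
  · rw [hx]; rfl
  · rw [hx]; exact zorb_getLast _ _ _ _
  · rw [hx]; exact zorb_bwd hK hn
  · rw [hx]; exact zorb_fwd hJ hn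
  · have e : b ++ [J (zal J K x (2 * k))] = orb J K x (2 * (k + 1)) := by
      rw [show 2 * (k + 1) = (2 * k + 1) + 1 by ring, zorb_succ, ← hx, zal_step, if_pos (by omega)]
    rw [e]
    exact fun v hv => zorb_pL hJ.1 K (k + 1) x v hv
  · have e : K x :: b = orb K J (K x) (2 * (k + 1)) := by
      rw [show 2 * (k + 1) = (2 * k + 1) + 1 by ring, ← zorb_cons hK.1, ← hx]
    rw [e]
    exact fun v hv => zorb_pL hK.1 J (k + 1) (K x) v hv

theorem Sim.zom_nonneg (W : Sim V) (a : List V) (e : V × (V → V)) : 0 ≤ W.om a e := by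
  unfold Sim.om
  refine mul_nonneg ?_ (W.wt_pos _).le
  split_ifs
  · exact Real.sqrt_nonneg _
  · exact (W.cm_pos _).le

theorem zlaw_odd (W : Sim V) {b : List V} (hn : b.Nodup) (ho : b.length % 2 = 1)
    (G : Finset ((V → V) × (V → V)))
    (hG : ∀ q ∈ G, IsPM q.1 ∧ IsPM q.2 ∧ Good W q.1 q.2 b) :
    ∑ q ∈ G, W.wt q.1 * W.wt q.2 ≤ W.Rh b := by
  classical
  have hne : b ≠ [] := fun h => by rw [h] at ho; simp at ho
  obtain ⟨x, t, rfl⟩ := List.exists_cons_of_ne_nil hne
  set y := (x :: t).getLast hne with hy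
  have hlast : (x :: t).getLast? = some y := List.getLast?_eq_getLast_of_ne_nil hne
  have hdata : ∀ q ∈ G, q.2 x ∉ x :: t ∧ q.1 y ∉ x :: t ∧
      (∀ v ∈ (x :: t) ++ [q.1 y], q.1 v = pL ((x :: t) ++ [q.1 y]) v) ∧
      (∀ v ∈ q.2 x :: x :: t, q.2 v = pL (q.2 x :: x :: t) v) := by
    intro q hq
    obtain ⟨h1, h2, h3⟩ := hG q hq
    obtain ⟨x', y', e1, e2, e3⟩ := zgood_odd h1 h2 h3 ho
    rw [hlast] at e2
    simp only [List.head?_cons, Option.some.injEq] at e1 e2
    subst e1
    rw [← e2] at e3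
    exact e3
  have key : ∑ q ∈ G, W.wt q.1 * W.wt q.2 ≤
      ∑ r ∈ envs (x :: t) ×ˢ envs (x :: t),
        W.pw (x :: t) * (W.om (x :: t) r.1 * W.om (x :: t) r.2) := by
    refine zsum_le_of_injOn G _ (fun q => ((q.2 x, un id (q.2 x :: x :: t) q.2),
      (q.1 y, un id ((x :: t) ++ [q.1 y]) q.1))) _ _ ?_ ?_ ?_ ?_
    · intro q hq
      obtain ⟨h1, h2, h3⟩ := hG q hq
      obtain ⟨d1, d2, d3, d4⟩ := hdata q hq
      rw [Finset.mem_product, mem_envs, mem_envs]
      refine ⟨⟨zun_invol h2.1 d4, Or.inr ⟨ho, d1, fun v => ?_⟩⟩,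
        ⟨zun_invol h1.1 d3, Or.inr ⟨ho, d2, fun v => ?_⟩⟩⟩
      · rw [zun_fix h2.2]
        simp only [List.mem_cons]
        (clear * -; tauto)
      · rw [zun_fix h1.2]
        simp only [List.mem_append, List.mem_cons, List.not_mem_nil, or_false]
    · intro q hq q' hq' he
      obtain ⟨d1, d2, d3, d4⟩ := hdata q hq
      obtain ⟨d1', d2', d3', d4'⟩ := hdata q' hq'
      simp only [Prod.mk.injEq] at he
      obtain ⟨⟨e1, e2⟩, e3, e4⟩ := he
      rw [← e1] at d4' e2
      rw [← e3] at d3' e4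
      have a1 : q.1 = q'.1 := by
        funext v
        by_cases hv : v ∈ (x :: t) ++ [q.1 y]
        · rw [d3 v hv, d3' v hv]
        · have := congrFun e4 v
          unfold un at this
          rwa [if_neg hv, if_neg hv] at this
      have a2 : q.2 = q'.2 := by
        funext v
        by_cases hv : v ∈ q.2 x :: x :: t
        · rw [d4 v hv, d4' v hv]
        · have := congrFun e2 v
          unfold un at this
          rwa [if_neg hv, if_neg hv] at this
      exact Prod.ext a1 a2
    · intro q hq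
      obtain ⟨h1, h2, h3⟩ := hG q hq
      obtain ⟨d1, d2, d3, d4⟩ := hdata q hq
      have n1 : ((x :: t) ++ [q.1 y]).Nodup := by
        rw [List.nodup_append]
        refine ⟨hn, by simp, ?_⟩
        intro a ha b hb
        rw [List.mem_singleton] at hb
        subst hb
        exact fun e => d2 (e ▸ ha)
      have n2 : (q.2 x :: x :: t).Nodup := List.nodup_cons.2 ⟨d1, hn⟩
      have w1 := W.zwt_rem n1 d3
      have w2 := W.zwt_rem n2 d4
      have p1 := W.zpe_append (q.1 y) (x :: t) y ho hlast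
      have p2 : W.zpe (q.2 x :: x :: t) = W.lam (q.2 x) x * W.zpe t := rfl
      have p3 := W.zpw_eq x t
      have hl : W.c x (q.2 x) ≤ W.cm (x :: t) := by rw [W.c_symm]; exact h3.left x rfl
      have hr : W.c y (q.1 y) ≤ W.cm (x :: t) := by
        have := h3.right y hlast
        rwa [if_neg (by omega)] at this
      have hyx : W.cm (x :: t) ≤ W.c y x := by
        rw [W.c_symm]
        exact W.zcm_le t x y (List.mem_of_getLast? hlast)
      have c1 : W.lam y (q.1 y) ≤ W.cm ((x :: t) ++ [q.1 y]) := by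
        rw [W.zcm_append _ _ y hlast]
        exact (W.up y (q.1 y) (h1.2 y).symm).trans (le_min hr le_rfl)
      have c2 : W.lam (q.2 x) x ≤ W.cm ((x :: t) ++ [q.2 x]) := by
        rw [W.zcm_append _ _ y hlast, W.lam_symm]
        have h5 : W.lam x (q.2 x) ≤ W.c x (q.2 x) := W.up _ _ (h2.2 x).symm
        have h6 : W.c x (q.2 x) ≤ W.c y (q.2 x) :=
          (le_min (hl.trans hyx) le_rfl).trans (W.c_ultra y x (q.2 x))
        exact h5.trans (le_min hl h6)
      simp only
      unfold Sim.om
      simp only [if_neg (show ¬ (x :: t).length % 2 = 0 by omega)]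
      rw [w1, w2, p1, p2, p3]
      have q1 := W.zpe_pos (x :: t)
      have q2 := W.zpe_pos t
      have q3 := W.wt_pos (un id ((x :: t) ++ [q.1 y]) q.1)
      have q4 := W.wt_pos (un id (q.2 x :: x :: t) q.2)
      have q5 := W.lam_pos y (q.1 y)
      have q6 := W.lam_pos (q.2 x) x
      calc W.zpe (x :: t) * W.lam y (q.1 y) * W.wt (un id ((x :: t) ++ [q.1 y]) q.1) *
            (W.lam (q.2 x) x * W.zpe t * W.wt (un id (q.2 x :: x :: t) q.2))
          = (W.zpe (x :: t) * W.zpe t * W.wt (un id ((x :: t) ++ [q.1 y]) q.1) *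
            W.wt (un id (q.2 x :: x :: t) q.2)) * (W.lam (q.2 x) x * W.lam y (q.1 y)) := by ring
        _ ≤ (W.zpe (x :: t) * W.zpe t * W.wt (un id ((x :: t) ++ [q.1 y]) q.1) *
            W.wt (un id (q.2 x :: x :: t) q.2)) *
            (W.cm ((x :: t) ++ [q.2 x]) * W.cm ((x :: t) ++ [q.1 y])) := by
            refine mul_le_mul_of_nonneg_left ?_ (by (clear * - q1 q2 q3 q4; positivity))
            exact mul_le_mul c2 c1 q5.le (W.cm_pos _).le
        _ = _ := by ring
    · intro r _
      exact mul_nonneg (W.pw_pos _).le (mul_nonneg (W.zom_nonneg _ _) (W.zom_nonneg _ _))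
  refine key.trans (le_of_eq ?_)
  rw [Finset.sum_product]
  unfold Sim.Rh Sim.Zh
  rw [sq, Finset.sum_mul_sum, Finset.mul_sum]
  refine Finset.sum_congr rfl fun e _ => ?_
  rw [Finset.mul_sum]

/-! ### Even paths -/

/-- the matching `K` outside `b`, with the two outgoing edges joined -/
def zjn (b : List V) (p q : V) (K : V → V) : V → V := fun v =>
  if v ∈ b then v else if v = p then q else if v = q then p else K v

/-- the data of a good pair with an even path -/
theorem zgood_even {W : Sim V} {J K : V → V} (hJ : IsPM J) (hK : IsPM K) {b : List V}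
    (h : Good W J K b) (he : b.length % 2 = 0) :
    ∃ x y : V, ∃ t : List V, b = x :: t ∧ b.getLast? = some y ∧ x ≠ y ∧
      (∀ v ∈ b, J v = pL b v) ∧
      ((K x = y ∧ ∀ v ∈ t ++ [x], K v = pL (t ++ [x]) v) ∨
        (K x ∉ b ∧ K y ∉ b ∧ K x ≠ K y ∧
          ∀ v ∈ K x :: b ++ [K y], K v = pL (K x :: b ++ [K y]) v)) := by
  obtain ⟨x, hx⟩ := h.walk
  obtain ⟨k, hk⟩ : ∃ k, b.length = 2 * k + 2 := by
    have : b.length ≠ 0 := fun e => h.ne (List.length_eq_zero_iff.1 e)
    exact ⟨b.length / 2 - 1, by omega⟩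
  rw [hk] at hx
  have hn := h.nd
  set y := zal J K x (2 * k + 1) with hy
  have hy' : y = J (zal J K x (2 * k)) := by rw [hy, zal_step, if_pos (by omega)]
  -- the two decompositions
  have e1 : b = x :: orb K J (J x) (2 * k + 1) := by rw [hx]; rfl
  have e2 : b = orb J K x (2 * k + 1) ++ [y] := by rw [hx, zorb_succ]
  have e3 : orb K J (J x) (2 * k + 1) = orb K J (J x) (2 * k) ++ [y] := by rw [zorb_succ]; rfl
  have hlast : b.getLast? = some y := by rw [hx]; exact zorb_getLast _ _ _ _
  have hxy : x ≠ y := by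
    intro e
    rw [e1] at hn
    refine (List.nodup_cons.1 hn).1 ?_
    rw [e3, ← e]
    simp
  have hb : ∀ v ∈ b, v ≠ x → v ≠ y → K v ∈ b ∧ K v ≠ x ∧ K v ≠ y := by
    intro v hv h1 h2
    have hv' : v ∈ orb K J (J x) (2 * k) := by
      rw [e1, e3] at hv
      simp only [List.mem_cons, List.mem_append, List.not_mem_nil, or_false] at hv
      (clear * - hv h1 h2; tauto)
    have h3 := zorb_closed hK.1 J k hv'
    rw [e1, e3] at hn
    have hn2 := List.nodup_cons.1 hn
    have hn3 := List.nodup_append.1 hn2.2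
    refine ⟨?_, ?_, ?_⟩
    · rw [e1, e3]; simp [h3]
    · intro e
      rw [e] at h3
      exact hn2.1 (List.mem_append_left _ h3)
    · intro e
      rw [e] at h3
      exact hn3.2.2 _ h3 _ (by simp) rfl
  have hxb : x ∈ b := by rw [e1]; simp
  have hyb : y ∈ b := List.mem_of_getLast? hlast
  refine ⟨x, y, orb K J (J x) (2 * k + 1), e1, hlast, hxy, ?_, ?_⟩
  · have e4 : b = orb J K x (2 * (k + 1)) := hx
    rw [e4]
    exact fun v hv => zorb_pL hJ.1 K (k + 1) x v hv
  · by_cases hc : K x = y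
    · left
      refine ⟨hc, ?_⟩
      have e5 : orb K J (J x) (2 * k + 1) ++ [x] = orb K J (J x) (2 * (k + 1)) := by
        rw [show 2 * (k + 1) = (2 * k + 1) + 1 by ring, zorb_succ (2 * k + 1) K J (J x),
          zal_step (2 * k) K J (J x), if_pos (by omega)]
        have : zal K J (J x) (2 * k) = y := rfl
        rw [this, ← hc, hK.1]
      rw [e5]
      exact fun v hv => zorb_pL hK.1 J (k + 1) (J x) v hv
    · right
      have hKx : K x ∉ b := by
        intro hm
        obtain ⟨h1, h2, h3⟩ := hb (K x) hm (hK.2 x) hc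
        exact h2 (hK.1 x)
      have hKy : K y ∉ b := by
        intro hm
        have hne : K y ≠ x := fun e => hc (by rw [← e, hK.1])
        obtain ⟨h1, h2, h3⟩ := hb (K y) hm hne (hK.2 y)
        exact h3 (hK.1 y)
      refine ⟨hKx, hKy, ?_, ?_⟩
      · intro e
        have := congrArg K e
        rw [hK.1, hK.1] at this
        exact hxy this
      · have e6 : K x :: b ++ [K y] = orb K J (K x) (2 * (k + 2)) := by
          rw [show 2 * (k + 2) = (2 * k + 2 + 1) + 1 by ring, zorb_succ, ← zorb_cons hK.1, ← hx]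
          have e7 : zal K J (K x) (2 * k + 2 + 1) = K y := by
            have e8 : zal K J (K x) (2 * k + 2 + 1) = zal J K (K (K x)) (2 * k + 1 + 1) := rfl
            rw [e8, hK.1, zal_step (2 * k + 1) J K x, if_neg (by omega)]
          rw [e7]
        rw [e6]
        exact fun v hv => zorb_pL hK.1 J (k + 2) (K x) v hv

theorem Sim.zwt_jn (W : Sim V) {b : List V} {p q : V} {K : V → V} (hp : p ∉ b) (hq : q ∉ b)
    (hpq : p ≠ q) : W.wt (zjn b p q K) = W.lam p q * W.wt (un id (p :: b ++ [q]) K) := by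
  have hn : [p, q].Nodup := by simp [hpq]
  rw [W.zwt_rem (J := zjn b p q K) hn ?_]
  · have e1 : W.zpe [p, q] = W.lam p q := by simp [Sim.zpe]
    have e2 : un id [p, q] (zjn b p q K) = un id (p :: b ++ [q]) K := by
      funext v
      unfold un zjn
      simp only [List.mem_cons, List.not_mem_nil, or_false, List.cons_append, List.mem_append]
      by_cases h1 : v = p
      · simp [h1]
      · by_cases h2 : v = q
        · simp [h2]
        · by_cases h3 : v ∈ b
          · simp [h1, h2, h3]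
          · simp [h1, h2, h3]
    rw [e1, e2]
  · intro v hv
    simp only [List.mem_cons, List.not_mem_nil, or_false] at hv
    rcases hv with rfl | rfl
    · unfold zjn
      rw [if_neg hp, if_pos rfl]
      simp [pL]
    · unfold zjn
      rw [if_neg hq, if_neg hpq.symm, if_pos rfl]
      simp [pL, hpq.symm]

theorem zlaw_even (W : Sim V) {b : List V} (hn : b.Nodup) (he : b.length % 2 = 0) (hne : b ≠ [])
    (G : Finset ((V → V) × (V → V)))
    (hG : ∀ q ∈ G, IsPM q.1 ∧ IsPM q.2 ∧ Good W q.1 q.2 b) :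
    ∑ q ∈ G, W.wt q.1 * W.wt q.2 ≤ Fintype.card V * (1 / W.ε) * W.Rh b := by
  classical
  obtain ⟨x, t, rfl⟩ := List.exists_cons_of_ne_nil hne
  set y := (x :: t).getLast hne with hy
  have hlast : (x :: t).getLast? = some y := List.getLast?_eq_getLast_of_ne_nil hne
  have htne : t ≠ [] := fun e => by rw [e] at he; simp at he
  have htlen : t.length % 2 = 1 := by simp only [List.length_cons] at he; omega
  have htlast : t.getLast? = some y := by
    obtain ⟨z, u, rfl⟩ := List.exists_cons_of_ne_nil htne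
    rwa [List.getLast?_cons_cons] at hlast
  have hyt : y ∈ t := List.mem_of_getLast? htlast
  have hxy : x ≠ y := fun e => (List.nodup_cons.1 hn).1 (e ▸ hyt)
  have hdata : ∀ q ∈ G, (∀ v ∈ x :: t, q.1 v = pL (x :: t) v) ∧
      ((q.2 x = y ∧ ∀ v ∈ t ++ [x], q.2 v = pL (t ++ [x]) v) ∨
        (q.2 x ∉ x :: t ∧ q.2 y ∉ x :: t ∧ q.2 x ≠ q.2 y ∧
          ∀ v ∈ q.2 x :: x :: t ++ [q.2 y], q.2 v = pL (q.2 x :: x :: t ++ [q.2 y]) v)) := by
    intro q hq
    obtain ⟨h1, h2, h3⟩ := hG q hq
    obtain ⟨x', y', t', e1, e2, e3, e4⟩ := zgood_even h1 h2 h3 he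
    obtain ⟨rfl, rfl⟩ := List.cons.inj e1
    rw [hlast] at e2
    simp only [Option.some.injEq] at e2
    rw [← e2] at e4
    exact e4
  -- membership in the two lists
  have hmem : ∀ v, v ∈ t ++ [x] ↔ v ∈ x :: t := by
    intro v; simp only [List.mem_append, List.mem_cons, List.not_mem_nil, or_false]; (clear * -; tauto)
  have key : ∑ q ∈ G, W.wt q.1 * W.wt q.2 ≤
      ∑ r ∈ (univ : Finset V) ×ˢ (envs (x :: t) ×ˢ envs (x :: t)),
        1 / W.ε * (W.pw (x :: t) * (W.om (x :: t) r.2.1 * W.om (x :: t) r.2.2)) := by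
    refine zsum_le_of_injOn G _ (fun q => (q.2 x, (x, zjn (x :: t) (q.2 x) (q.2 y) q.2),
      (x, un id (x :: t) q.1))) _ _ ?_ ?_ ?_ ?_
    · intro q hq
      obtain ⟨h1, h2, h3⟩ := hG q hq
      obtain ⟨d1, d2⟩ := hdata q hq
      rw [Finset.mem_product, Finset.mem_product, mem_envs, mem_envs]
      refine ⟨mem_univ _, ⟨?_, Or.inl ⟨he, rfl, ?_⟩⟩, ⟨zun_invol h1.1 d1, Or.inl ⟨he, rfl, fun v => ?_⟩⟩⟩
      · intro v
        simp only
        rcases d2 with ⟨c1, c2⟩ | ⟨c1, c2, c3, c4⟩
        · have hKy : q.2 y = x := by rw [← c1, h2.1]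
          rw [c1, hKy]
          by_cases hv : v ∈ x :: t
          · unfold zjn; simp [hv]
          · have h4 : q.2 v ∉ x :: t := by
              intro h5
              rw [← hmem] at h5
              have h6 := c2 _ h5
              rw [h2.1] at h6
              have h7 := zpL_mem _ _ h5
              rw [← h6, hmem] at h7
              exact hv h7
            have a1 : v ≠ y := fun e => hv (by rw [e]; exact List.mem_cons_of_mem _ hyt)
            have a2 : v ≠ x := fun e => hv (by rw [e]; exact List.mem_cons_self)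
            have a3 : q.2 v ≠ y := fun e => h4 (by rw [e]; exact List.mem_cons_of_mem _ hyt)
            have a4 : q.2 v ≠ x := fun e => h4 (by rw [e]; exact List.mem_cons_self)
            have b1 : zjn (x :: t) y x q.2 v = q.2 v := by
              unfold zjn; rw [if_neg hv, if_neg a1, if_neg a2]
            rw [b1]
            unfold zjn
            rw [if_neg h4, if_neg a3, if_neg a4, h2.1]
        · by_cases hv : v ∈ x :: t
          · have b1 : zjn (x :: t) (q.2 x) (q.2 y) q.2 v = v := by unfold zjn; rw [if_pos hv]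
            rw [b1, b1]
          · by_cases hp : v = q.2 x
            · have b1 : zjn (x :: t) (q.2 x) (q.2 y) q.2 v = q.2 y := by
                unfold zjn; rw [if_neg hv, if_pos hp]
              rw [b1]
              unfold zjn
              rw [if_neg c2, if_neg c3.symm, if_pos rfl, hp]
            · by_cases hq' : v = q.2 y
              · have b1 : zjn (x :: t) (q.2 x) (q.2 y) q.2 v = q.2 x := by
                  unfold zjn; rw [if_neg hv, if_neg hp, if_pos hq']
                rw [b1]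
                unfold zjn
                rw [if_neg c1, if_pos rfl, hq']
              · have b1 : zjn (x :: t) (q.2 x) (q.2 y) q.2 v = q.2 v := by
                  unfold zjn; rw [if_neg hv, if_neg hp, if_neg hq']
                have h4 : q.2 v ∉ q.2 x :: x :: t ++ [q.2 y] := by
                  intro h5
                  have h6 := c4 _ h5
                  rw [h2.1] at h6
                  have h7 := zpL_mem _ _ h5
                  rw [← h6] at h7
                  simp only [List.cons_append, List.mem_cons, List.mem_append, List.not_mem_nil,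
                    or_false] at h7
                  simp only [List.mem_cons] at hv
                  (clear * - h7 hv hp hq'; tauto)
                simp only [List.cons_append, List.mem_cons, List.mem_append, List.not_mem_nil,
                    or_false, not_or] at h4
                rw [b1]
                unfold zjn
                rw [if_neg (by simp only [List.mem_cons]; (clear * - h4; tauto)), if_neg h4.1, if_neg (by (clear * - h4; tauto)),
                  h2.1]
      · intro v
        simp only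
        constructor
        · intro h4
          by_contra hv
          unfold zjn at h4
          rw [if_neg hv] at h4
          rcases d2 with ⟨c1, c2⟩ | ⟨c1, c2, c3, c4⟩
          · rw [if_neg, if_neg] at h4
            · exact h2.2 v h4
            · intro e
              have hKy : q.2 y = x := by rw [← c1, h2.1]
              exact hv (by rw [e, hKy]; exact List.mem_cons_self)
            · intro e
              exact hv (by rw [e, c1]; exact List.mem_cons_of_mem _ hyt)
          · split_ifs at h4 with g1 g2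
            · exact c3 (g1.symm.trans h4.symm)
            · exact c3 (h4.trans g2)
            · exact h2.2 v h4
        · intro hv
          unfold zjn
          rw [if_pos hv]
      · exact zun_fix h1.2 v
    · intro q hq q' hq' hE
      obtain ⟨h1, h2, h3⟩ := hG q hq
      obtain ⟨h1', h2', h3'⟩ := hG q' hq'
      obtain ⟨d1, d2⟩ := hdata q hq
      obtain ⟨d1', d2'⟩ := hdata q' hq'
      simp only [Prod.mk.injEq, true_and] at hE
      obtain ⟨e1, e2, e3⟩ := hE
      have a1 : q.1 = q'.1 := by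
        funext v
        by_cases hv : v ∈ x :: t
        · rw [d1 v hv, d1' v hv]
        · have := congrFun e3 v
          unfold un at this
          rwa [if_neg hv, if_neg hv] at this
      have a2 : q.2 = q'.2 := by
        rcases d2 with ⟨c1, c2⟩ | ⟨c1, c2, c3, c4⟩
        · rcases d2' with ⟨c1', c2'⟩ | ⟨c1', c2', c3', c4'⟩
          · funext v
            by_cases hv : v ∈ x :: t
            · rw [← hmem] at hv
              rw [c2 v hv, c2' v hv]
            · have := congrFun e2 v
              have hKy : q.2 y = x := by rw [← c1, h2.1]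
              have hKy' : q'.2 y = x := by rw [← c1', h2'.1]
              unfold zjn at this
              rw [if_neg hv, if_neg hv, c1, c1', hKy, hKy'] at this
              have g1 : v ≠ y := fun e => hv (by rw [e]; exact List.mem_cons_of_mem _ hyt)
              have g2 : v ≠ x := fun e => hv (by rw [e]; exact List.mem_cons_self)
              rwa [if_neg g1, if_neg g2, if_neg g1, if_neg g2] at this
          · exact absurd (by rw [← e1, c1]; exact List.mem_cons_of_mem _ hyt) c1'
        · rcases d2' with ⟨c1', c2'⟩ | ⟨c1', c2', c3', c4'⟩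
          · exact absurd (by rw [e1, c1']; exact List.mem_cons_of_mem _ hyt) c1
          · have e4 : q.2 y = q'.2 y := by
              have := congrFun e2 (q.2 x)
              unfold zjn at this
              rw [if_neg c1, if_pos rfl, if_neg c1, if_pos e1] at this
              exact this
            rw [← e1, ← e4] at c4'
            funext v
            by_cases hv : v ∈ q.2 x :: x :: t ++ [q.2 y]
            · rw [c4 v hv, c4' v hv]
            · have := congrFun e2 v
              simp only [List.cons_append, List.mem_cons, List.mem_append, List.not_mem_nil,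
                    or_false, not_or] at hv
              unfold zjn at this
              rw [if_neg (by simp only [List.mem_cons]; (clear * - hv; tauto)), if_neg hv.1, if_neg (by (clear * - hv; tauto)),
                if_neg (by simp only [List.mem_cons]; (clear * - hv; tauto)), ← e1, ← e4, if_neg hv.1,
                if_neg (by (clear * - hv; tauto))] at this
              exact this
      exact Prod.ext a1 a2
    · intro q hq
      obtain ⟨h1, h2, h3⟩ := hG q hq
      obtain ⟨d1, d2⟩ := hdata q hq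
      have w1 := W.zwt_rem hn d1
      have p3 := W.zpw_eq x t
      have hl : W.c x (q.2 x) ≤ W.cm (x :: t) := by rw [W.c_symm]; exact h3.left x rfl
      have hr : W.c y (q.2 y) ≤ W.cm (x :: t) := by
        have := h3.right y hlast
        rwa [if_pos he] at this
      have hxyc : W.cm (x :: t) ≤ W.c x y := W.zcm_le t x y (List.mem_of_getLast? hlast)
      have hε := W.ε_pos
      -- the main inequality for the second matching
      have main : W.wt q.2 ≤ 1 / W.ε * (W.zpe t * W.cm (x :: t)) *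
          W.wt (zjn (x :: t) (q.2 x) (q.2 y) q.2) := by
        rcases d2 with ⟨c1, c2⟩ | ⟨c1, c2, c3, c4⟩
        · have hKy : q.2 y = x := by rw [← c1, h2.1]
          have n2 : (t ++ [x]).Nodup := by
            rw [List.nodup_append]
            have := List.nodup_cons.1 hn
            refine ⟨this.2, by simp, ?_⟩
            intro a ha b hb
            rw [List.mem_singleton] at hb
            subst hb
            exact fun e => this.1 (e ▸ ha)
          have e5 : un id (t ++ [x]) q.2 = zjn (x :: t) (q.2 x) (q.2 y) q.2 := by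
            funext v
            unfold un zjn
            rw [c1, hKy]
            by_cases hv : v ∈ x :: t
            · rw [if_pos ((hmem v).2 hv), if_pos hv]; rfl
            · rw [if_neg (fun h => hv ((hmem v).1 h)), if_neg hv, if_neg, if_neg]
              · exact fun e => hv (by rw [e]; exact List.mem_cons_self)
              · exact fun e => hv (by rw [e]; exact List.mem_cons_of_mem _ hyt)
          rw [W.zwt_rem n2 c2, W.zpe_append x t y htlen htlast, e5]
          have h5 : W.lam y x ≤ W.cm (x :: t) := by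
            have : W.lam x y ≤ W.c x y := W.up x y hxy
            rw [W.lam_symm]
            rw [c1] at hl
            exact this.trans hl
          have h6 : 1 ≤ 1 / W.ε := by
            rw [le_div_iff₀ hε, one_mul]; exact W.ε_le
          have q2 := W.zpe_pos t
          have q4 := W.wt_pos (zjn (x :: t) (q.2 x) (q.2 y) q.2)
          have q5 := W.cm_pos (x :: t)
          calc W.zpe t * W.lam y x * W.wt (zjn (x :: t) (q.2 x) (q.2 y) q.2)
              ≤ W.zpe t * W.cm (x :: t) * W.wt (zjn (x :: t) (q.2 x) (q.2 y) q.2) := by (clear * - h5 q2 q4; gcongr)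
            _ = 1 * (W.zpe t * W.cm (x :: t)) * W.wt (zjn (x :: t) (q.2 x) (q.2 y) q.2) := by ring
            _ ≤ _ := by (clear * - h6 q2 q5 q4; gcongr)
        · have n2 : (q.2 x :: x :: t ++ [q.2 y]).Nodup := by
            rw [List.cons_append, List.nodup_cons, List.nodup_append]
            refine ⟨?_, hn, by simp, ?_⟩
            · rw [List.mem_append, List.mem_singleton]
              (clear * - c1 c3; tauto)
            · intro a ha b hb
              rw [List.mem_singleton] at hb
              subst hb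
              exact fun e => c2 (e ▸ ha)
          rw [W.zwt_rem n2 c4, W.zwt_jn c1 c2 c3]
          have e6 : W.zpe (q.2 x :: x :: t ++ [q.2 y]) =
              W.lam (q.2 x) x * (W.zpe t * W.lam y (q.2 y)) := by
            rw [← W.zpe_append (q.2 y) t y htlen htlast]; rfl
          rw [e6]
          have h5 : W.lam (q.2 x) x ≤ W.c x (q.2 x) := by
            rw [W.lam_symm]; exact W.up _ _ (h2.2 x).symm
          have h6 : W.lam y (q.2 y) ≤ W.c y (q.2 y) := W.up _ _ (h2.2 y).symm
          have h7 : W.ε * W.c (q.2 x) (q.2 y) ≤ W.lam (q.2 x) (q.2 y) := W.low _ _ c3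
          have h8 : min (W.c x (q.2 x)) (W.c y (q.2 y)) ≤ W.c (q.2 x) (q.2 y) := by
            have g1 := W.c_ultra x y (q.2 y)
            have g2 := W.c_ultra (q.2 x) x (q.2 y)
            rw [W.c_symm (q.2 x) x] at g2
            refine le_trans (le_min (min_le_left _ _) ?_) g2
            refine le_trans (le_min ?_ (min_le_right _ _)) g1
            exact ((min_le_left _ _).trans hl).trans hxyc
          have h9 : W.c x (q.2 x) * W.c y (q.2 y) ≤ W.cm (x :: t) * W.c (q.2 x) (q.2 y) := by
            have q1 := W.c_pos x (q.2 x)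
            have q2 := W.c_pos y (q.2 y)
            rcases le_total (W.c x (q.2 x)) (W.c y (q.2 y)) with g | g
            · rw [min_eq_left g] at h8
              rw [mul_comm]
              exact mul_le_mul hr h8 q1.le (W.cm_pos _).le
            · rw [min_eq_right g] at h8
              exact mul_le_mul hl h8 q2.le (W.cm_pos _).le
          have q1 := W.lam_pos (q.2 x) x
          have q2 := W.lam_pos y (q.2 y)
          have q3 := W.cm_pos (x :: t)
          have q4 := W.c_pos (q.2 x) (q.2 y)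
          have q5 := W.wt_pos (un id (q.2 x :: x :: t ++ [q.2 y]) q.2)
          have q6 := W.zpe_pos t
          have q7 := W.c_pos x (q.2 x)
          have h10 : W.lam (q.2 x) x * W.lam y (q.2 y) ≤
              1 / W.ε * (W.cm (x :: t) * W.lam (q.2 x) (q.2 y)) := by
            calc W.lam (q.2 x) x * W.lam y (q.2 y) ≤ W.c x (q.2 x) * W.c y (q.2 y) := by (clear * - h5 h6 q2 q7; gcongr)
              _ ≤ W.cm (x :: t) * W.c (q.2 x) (q.2 y) := h9
              _ = 1 / W.ε * (W.cm (x :: t) * (W.ε * W.c (q.2 x) (q.2 y))) := by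
                (clear * - hε q4 q3; field_simp)
              _ ≤ _ := by (clear * - h7 q3 hε; gcongr)
          calc W.lam (q.2 x) x * (W.zpe t * W.lam y (q.2 y)) *
                W.wt (un id (q.2 x :: x :: t ++ [q.2 y]) q.2)
              = W.lam (q.2 x) x * W.lam y (q.2 y) * (W.zpe t *
                W.wt (un id (q.2 x :: x :: t ++ [q.2 y]) q.2)) := by ring
            _ ≤ 1 / W.ε * (W.cm (x :: t) * W.lam (q.2 x) (q.2 y)) * (W.zpe t *
                W.wt (un id (q.2 x :: x :: t ++ [q.2 y]) q.2)) := by (clear * - h10 q6 q5; gcongr)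
            _ = _ := by ring
      simp only
      unfold Sim.om
      simp only [if_pos he]
      rw [w1, p3]
      have q1 := W.zpe_pos (x :: t)
      have q3 := W.wt_pos (un id (x :: t) q.1)
      have hs : Real.sqrt (W.cm (x :: t)) * Real.sqrt (W.cm (x :: t)) = W.cm (x :: t) :=
        Real.mul_self_sqrt (W.cm_pos _).le
      calc W.zpe (x :: t) * W.wt (un id (x :: t) q.1) * W.wt q.2
          ≤ W.zpe (x :: t) * W.wt (un id (x :: t) q.1) * (1 / W.ε * (W.zpe t * W.cm (x :: t)) *
            W.wt (zjn (x :: t) (q.2 x) (q.2 y) q.2)) := by (clear * - main q1 q3; gcongr)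
        _ = 1 / W.ε * (W.zpe (x :: t) * W.zpe t *
            (W.wt (zjn (x :: t) (q.2 x) (q.2 y) q.2) *
              (W.wt (un id (x :: t) q.1)) *
                (Real.sqrt (W.cm (x :: t)) * Real.sqrt (W.cm (x :: t))))) := by rw [hs]; ring
        _ = _ := by ring
    · intro r _
      have hε := W.ε_pos
      exact mul_nonneg (by (clear * - hε; positivity))
        (mul_nonneg (W.pw_pos _).le (mul_nonneg (W.zom_nonneg _ _) (W.zom_nonneg _ _)))
  refine key.trans (le_of_eq ?_)
  rw [Finset.sum_product]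
  simp only [sum_const]
  rw [Finset.card_univ, nsmul_eq_mul, Finset.sum_product]
  unfold Sim.Rh Sim.Zh
  rw [sq, Finset.sum_mul_sum, Finset.mul_sum, Finset.mul_sum, Finset.mul_sum]
  refine Finset.sum_congr rfl fun e _ => ?_
  rw [Finset.mul_sum, Finset.mul_sum, Finset.mul_sum]
  refine Finset.sum_congr rfl fun e' _ => ?_
  ring

/-- **Law bound.** -/
theorem law (W : Sim V) {b : List V} (G : Finset ((V → V) × (V → V)))
    (hG : ∀ q ∈ G, IsPM q.1 ∧ IsPM q.2 ∧ Good W q.1 q.2 b) :
    ∑ q ∈ G, W.wt q.1 * W.wt q.2 ≤ Fintype.card V * (1 / W.ε) * W.Rh b := by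
  classical
  have hRh : 0 ≤ W.Rh b := by
    unfold Sim.Rh
    exact mul_nonneg (W.pw_pos _).le (sq_nonneg _)
  have hε := W.ε_pos
  rcases G.eq_empty_or_nonempty with h0 | ⟨q, hq⟩
  · rw [h0, Finset.sum_empty]
    (clear * - hε hRh; positivity)
  · obtain ⟨h1, h2, h3⟩ := hG q hq
    rcases Nat.mod_two_eq_zero_or_one b.length with he | ho
    · exact zlaw_even W h3.nd he h3.ne G hG
    · refine (zlaw_odd W h3.nd ho G hG).trans ?_
      have h4 : (1 : ℝ) ≤ Fintype.card V * (1 / W.ε) := by
        have h5 : (1 : ℝ) ≤ Fintype.card V := by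
          obtain ⟨x, -⟩ := List.exists_mem_of_ne_nil b h3.ne
          have : Nonempty V := ⟨x⟩
          exact_mod_cast Fintype.card_pos
        have h6 : 1 ≤ 1 / W.ε := by rw [le_div_iff₀ hε, one_mul]; exact W.ε_le
        nlinarith
      nlinarith only [hRh, h4]

/-- Step (C). -/
theorem law_st (V : Type*) [Fintype V] [DecidableEq V] : LawSt V 1 1 := by
  classical
  intro W b
  have h := law W (b := b) ((pms V ×ˢ pms V).filter fun q => Good W q.1 q.2 b) (by
    intro q hq
    rw [Finset.mem_filter, Finset.mem_product, mem_pms, mem_pms] at hq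
    exact ⟨hq.1.1, hq.1.2, hq.2⟩)
  rw [Finset.sum_filter, Finset.sum_product] at h
  have hRh : 0 ≤ W.Rh b := by
    unfold Sim.Rh
    exact mul_nonneg (W.pw_pos _).le (sq_nonneg _)
  have hε := W.ε_pos
  refine le_trans (le_of_eq ?_) (h.trans ?_)
  · refine Finset.sum_congr rfl fun N _ => Finset.sum_congr rfl fun Y _ => ?_
    split_ifs <;> rfl
  · unfold Sim.K
    rw [pow_one, pow_one]
    gcongr
    exact_mod_cast Nat.le_add_right _ 2

end Vale.Agent.P308.Lin

end

section

/-!
# From the linearised gap for `Sim` to the linearised gap `Poly.Gap`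
-/

namespace Vale.Agent.P308.Lin

open Finset Vale.Agent.P308.Alg Vale.Agent.P308.Poly

variable {n : ℕ}

/-! ### The data without the gauge -/

/-- a similarity with a dominating diagonal -/
noncomputable def tpC (c : Fin n → Fin n → ℝ) (x y : Fin n) : ℝ :=
  if x = y then 1 + ∑ a, ∑ b, c a b else c x y

theorem tpC_le {c : Fin n → Fin n → ℝ} (hc : ∀ x y, 0 < c x y) (x y z : Fin n) :
    tpC c x y ≤ tpC c z z := by
  have h1 : c x y ≤ ∑ b, c x b :=
    Finset.single_le_sum (f := fun b => c x b) (fun b _ => (hc x b).le) (mem_univ y)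
  have h2 : ∑ b, c x b ≤ ∑ a, ∑ b, c a b :=
    Finset.single_le_sum (f := fun a => ∑ b, c a b)
      (fun a _ => Finset.sum_nonneg fun b _ => (hc a b).le) (mem_univ x)
  unfold tpC
  rw [if_pos rfl]
  split_ifs
  · exact le_rfl
  · linarith

/-- the data for `Theorem1` -/
noncomputable def tpSim (lam c : Fin n → Fin n → ℝ) (g : Fin n → ℝ) (ε : ℝ)
    (hl : ∀ x y, lam x y = lam y x) (hg : ∀ x, 0 < g x) (hc : ∀ x y, 0 < c x y)
    (hcs : ∀ x y, c x y = c y x)
    (hu : ∀ x y z, x ≠ y → y ≠ z → x ≠ z → min (c x y) (c y z) ≤ c x z)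
    (hε : 0 < ε) (hε1 : ε ≤ 1)
    (hb : ∀ x y, x ≠ y → ε * (g x * g y * c x y) ≤ lam x y ∧ lam x y ≤ g x * g y * c x y) :
    Sim (Fin n) where
  s x y := if x = y then 1 else Real.sqrt (lam x y / (g x * g y))
  c := tpC c
  ε := ε
  s_pos x y := by
    by_cases h : x = y
    · rw [if_pos h]; exact one_pos
    · rw [if_neg h]
      have h1 : 0 < lam x y :=
        lt_of_lt_of_le (mul_pos hε (mul_pos (mul_pos (hg x) (hg y)) (hc x y))) (hb x y h).1
      exact Real.sqrt_pos.2 (div_pos h1 (mul_pos (hg x) (hg y)))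
  s_symm x y := by
    by_cases h : x = y
    · rw [h]
    · rw [if_neg h, if_neg (Ne.symm h), hl x y, mul_comm (g x) (g y)]
  s_diag x := if_pos rfl
  c_pos x y := by
    unfold tpC
    split_ifs
    · have : 0 ≤ ∑ a, ∑ b, c a b :=
        Finset.sum_nonneg fun a _ => Finset.sum_nonneg fun b _ => (hc a b).le
      linarith
    · exact hc x y
  c_symm x y := by
    unfold tpC
    by_cases h : x = y
    · rw [if_pos h, if_pos h.symm]
    · rw [if_neg h, if_neg (Ne.symm h), hcs]
  c_ultra x y z := by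
    by_cases h1 : x = z
    · rw [h1]
      exact (min_le_left _ _).trans (tpC_le hc _ _ _)
    · by_cases h2 : x = y
      · rw [h2]; exact min_le_right _ _
      · by_cases h3 : y = z
        · rw [h3]; exact min_le_left _ _
        · unfold tpC
          rw [if_neg h1, if_neg h2, if_neg h3]
          exact hu x y z h2 h3 h1
  ε_pos := hε
  ε_le := hε1
  low x y h := by
    have hgg := mul_pos (hg x) (hg y)
    have h1 : 0 < lam x y :=
      lt_of_lt_of_le (mul_pos hε (mul_pos hgg (hc x y))) (hb x y h).1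
    unfold tpC
    rw [if_neg h, if_neg h, Real.sq_sqrt (div_pos h1 hgg).le, le_div_iff₀ hgg]
    have := (hb x y h).1
    nlinarith
  up x y h := by
    have hgg := mul_pos (hg x) (hg y)
    have h1 : 0 < lam x y :=
      lt_of_lt_of_le (mul_pos hε (mul_pos hgg (hc x y))) (hb x y h).1
    unfold tpC
    rw [if_neg h, if_neg h, Real.sq_sqrt (div_pos h1 hgg).le, div_le_iff₀ hgg]
    have := (hb x y h).2
    linarith

/-- reindexing by the matching -/
theorem tp_prod_comp (M : PM n) (F : Fin n → ℝ) : ∏ x, F (M.1 x) = ∏ x, F x :=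
  Equiv.prod_comp (⟨M.1, M.1, M.2.1, M.2.1⟩ : Fin n ≃ Fin n) F

theorem tp_wt_sq {lam : Fin n → Fin n → ℝ} (hl : ∀ x y, lam x y = lam y x) (M : PM n) :
    wt lam M ^ 2 = ∏ x, lam x (M.1 x) := by
  have h1 : wt lam M = ∏ x, if M.1 x < x then lam x (M.1 x) else 1 := by
    unfold wt
    rw [← tp_prod_comp M]
    refine Finset.prod_congr rfl fun x _ => ?_
    rw [M.2.1 x, hl (M.1 x) x]
  rw [sq]
  nth_rewrite 2 [h1]
  unfold wt
  rw [← Finset.prod_mul_distrib]
  refine Finset.prod_congr rfl fun x _ => ?_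
  rcases lt_or_gt_of_ne (M.2.2 x) with h | h
  · rw [if_pos h, if_neg (not_lt.2 h.le), one_mul]
  · rw [if_pos h, if_neg (not_lt.2 h.le), mul_one]

/-- the weights differ by a constant factor -/
theorem tp_wt {lam c : Fin n → Fin n → ℝ} {g : Fin n → ℝ} {ε : ℝ}
    (hl : ∀ x y, lam x y = lam y x) (hg : ∀ x, 0 < g x) (hc : ∀ x y, 0 < c x y)
    (hcs : ∀ x y, c x y = c y x)
    (hu : ∀ x y z, x ≠ y → y ≠ z → x ≠ z → min (c x y) (c y z) ≤ c x z)
    (hε : 0 < ε) (hε1 : ε ≤ 1)
    (hb : ∀ x y, x ≠ y → ε * (g x * g y * c x y) ≤ lam x y ∧ lam x y ≤ g x * g y * c x y)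
    (M : PM n) : (tpSim lam c g ε hl hg hc hcs hu hε hε1 hb).wt M.1 * ∏ x, g x = wt lam M := by
  have hG : 0 < ∏ x, g x := Finset.prod_pos fun x _ => hg x
  have hlam : ∀ x y, x ≠ y → 0 < lam x y := fun x y h =>
    lt_of_lt_of_le (mul_pos hε (mul_pos (mul_pos (hg x) (hg y)) (hc x y))) (hb x y h).1
  have hW : 0 < (tpSim lam c g ε hl hg hc hcs hu hε hε1 hb).wt M.1 :=
    Finset.prod_pos fun x _ => Sim.s_pos _ _ _
  have hw : 0 < wt lam M := by
    unfold wt
    refine Finset.prod_pos fun x _ => ?_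
    split_ifs with h
    · exact hlam x _ (ne_of_lt h)
    · exact one_pos
  refine (pow_left_inj₀ (mul_pos hW hG).le hw.le two_ne_zero).1 ?_
  rw [mul_pow, tp_wt_sq hl]
  have h1 : (tpSim lam c g ε hl hg hc hcs hu hε hε1 hb).wt M.1 ^ 2 =
      ∏ x, (lam x (M.1 x) / (g x * g (M.1 x))) := by
    unfold Sim.wt
    rw [← Finset.prod_pow]
    refine Finset.prod_congr rfl fun x _ => ?_
    have hx : x ≠ M.1 x := (M.2.2 x).symm
    change (if x = M.1 x then (1 : ℝ) else Real.sqrt (lam x (M.1 x) / (g x * g (M.1 x)))) ^ 2 = _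
    rw [if_neg hx, Real.sq_sqrt (div_pos (hlam x _ hx) (mul_pos (hg x) (hg _))).le]
  rw [h1, Finset.prod_div_distrib, Finset.prod_mul_distrib, tp_prod_comp M g, ← sq,
    div_mul_cancel₀ _ (pow_pos hG 2).ne']

/-! ### Sums over matchings -/

theorem tp_sum (F : (Fin n → Fin n) → ℝ) : ∑ g ∈ pms (Fin n), F g = ∑ M : PM n, F M.1 :=
  Finset.sum_subtype (pms (Fin n)) (fun _ => mem_pms) F

/-- a function of perfect matchings as a function of all maps -/
noncomputable def tpF (f : PM n → ℝ) (g : Fin n → Fin n) : ℝ :=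
  if h : IsPM g then f ⟨g, h⟩ else 0

theorem tpF_val (f : PM n → ℝ) (M : PM n) : tpF f M.1 = f M := dif_pos M.2

theorem tp_toPM (M : PM n) {g : Fin n → Fin n} (h : IsPM g) : toPM M g = (⟨g, h⟩ : PM n) :=
  dif_pos h

theorem tp_toPM_val (M : PM n) {g : Fin n → Fin n} (h : IsPM g) : (toPM M g).1 = g := by
  rw [tp_toPM M h]

theorem tpF_toPM (f : PM n → ℝ) (M : PM n) {g : Fin n → Fin n} (h : IsPM g) :
    tpF f g = f (toPM M g) := by
  rw [tp_toPM M h]
  exact dif_pos h

theorem tp_toPM_self (M : PM n) : toPM M M.1 = M := tp_toPM M M.2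

/-! ### The alternating walk -/

theorem tp_walk_zero (N Y : Fin n → Fin n) (v : Fin n) : walk N Y v 0 = v := rfl

theorem tp_walk_succ (N Y : Fin n → Fin n) (v : Fin n) (k : ℕ) :
    walk N Y v (k + 1) = if k % 2 = 0 then Y (walk N Y v k) else N (walk N Y v k) := rfl

theorem tp_walk_shift (N Y : Fin n → Fin n) (x : Fin n) (k : ℕ) :
    walk Y N x (k + 1) = walk N Y (N x) k := by
  induction k with
  | zero => rfl
  | succ k ih =>
    rw [tp_walk_succ, tp_walk_succ N Y (N x) k, ih]
    by_cases h : k % 2 = 0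
    · rw [if_pos h, if_neg (by omega)]
    · rw [if_neg h, if_pos (by omega)]

theorem tp_orb (m : ℕ) : ∀ (N Y : Fin n → Fin n) (x : Fin n),
    orb N Y x m = (List.range m).map (walk Y N x) := by
  induction m with
  | zero => intro N Y x; rfl
  | succ m ih =>
    intro N Y x
    rw [orb, ih, List.range_succ_eq_map, List.map_cons, List.map_map]
    congr 1
    refine List.map_congr_left fun k _ => ?_
    rw [Function.comp_apply, Nat.succ_eq_add_one, tp_walk_shift]

/-- two involutions exchange neighbours on the walk -/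
theorem tp_walk_even {N Y : Fin n → Fin n} (hN : ∀ v, N (N v) = v) (x : Fin n) {k : ℕ} :
    N (walk Y N x k) = if k % 2 = 0 then walk Y N x (k + 1) else walk Y N x (k - 1) := by
  by_cases h : k % 2 = 0
  · rw [if_pos h, tp_walk_succ, if_pos h]
  · rw [if_neg h]
    obtain ⟨j, rfl⟩ : ∃ j, k = j + 1 := ⟨k - 1, by omega⟩
    rw [tp_walk_succ, if_pos (by omega), hN, Nat.add_sub_cancel]

theorem tp_walk_odd {N Y : Fin n → Fin n} (hY : ∀ v, Y (Y v) = v) (x : Fin n) {k : ℕ}
    (hk : 0 < k) :
    Y (walk Y N x k) = if k % 2 = 0 then walk Y N x (k - 1) else walk Y N x (k + 1) := by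
  by_cases h : k % 2 = 0
  · rw [if_pos h]
    obtain ⟨j, rfl⟩ : ∃ j, k = j + 1 := ⟨k - 1, by omega⟩
    rw [tp_walk_succ, if_neg (by omega), hY, Nat.add_sub_cancel]
  · rw [if_neg h, tp_walk_succ, if_neg h]

/-! ### The three kinds of moves -/

theorem tp_sw_isPM {N : Fin n → Fin n} (hN : IsPM N) {x y : Fin n} (h1 : x ≠ y) (h2 : N x ≠ y) :
    IsPM (sw N x y) := by
  obtain ⟨hi, hf⟩ := hN
  have h3 : N y ≠ x := fun h => h2 (by rw [← h, hi])
  constructor
  · intro v
    unfold sw
    grind
  · intro v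
    unfold sw
    grind

/-- the new matchings on an invariant set -/
theorem tp_un_isPM {N Y : Fin n → Fin n} (hN : IsPM N) (hY : IsPM Y) {b : List (Fin n)}
    (h1 : ∀ v ∈ b, N v ∈ b) (h2 : ∀ v ∈ b, Y v ∈ b) : IsPM (un N b Y) := by
  obtain ⟨hi, hf⟩ := hN
  obtain ⟨hi', hf'⟩ := hY
  constructor
  · intro v
    unfold un
    by_cases h : v ∈ b
    · rw [if_pos h, if_pos (h1 v h), hi]
    · have h3 : Y v ∉ b := fun h4 => h (by rw [← hi' v]; exact h2 _ h4)
      rw [if_neg h, if_neg h3, hi']
  · intro v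
    unfold un
    split_ifs
    · exact hf v
    · exact hf' v

/-! ### Closed cycles -/

/-- the condition of `Ex0` -/
def TpCyc (N Y : Fin n → Fin n) (x : Fin n) (m : ℕ) : Prop :=
  (orb N Y x m).Nodup ∧ m % 2 = 0 ∧ 0 < m ∧ (orb N Y x m).getLast? = some (Y x)

theorem tp_mem_orb {N Y : Fin n → Fin n} {x : Fin n} {m : ℕ} {z : Fin n} :
    z ∈ orb N Y x m ↔ ∃ i < m, walk Y N x i = z := by
  rw [tp_orb, List.mem_map]
  simp only [List.mem_range]

theorem tp_last {N Y : Fin n → Fin n} {x : Fin n} {m : ℕ} (hm : 0 < m) :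
    (orb N Y x m).getLast? = some (walk Y N x (m - 1)) := by
  obtain ⟨j, rfl⟩ : ∃ j, m = j + 1 := ⟨m - 1, by omega⟩
  rw [tp_orb, List.range_succ, List.map_append, List.map_singleton, List.getLast?_append,
    List.getLast?_singleton, Option.some_or, Nat.add_sub_cancel]

theorem TpCyc.len {N Y : Fin n → Fin n} {x : Fin n} {m : ℕ} (h : TpCyc N Y x m) : m ≤ n := by
  have h1 := h.1.length_le_card
  rwa [tp_orb, List.length_map, List.length_range, Fintype.card_fin] at h1

theorem TpCyc.last {N Y : Fin n → Fin n} {x : Fin n} {m : ℕ} (h : TpCyc N Y x m) :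
    walk Y N x (m - 1) = Y x := by
  have h1 := h.2.2.2
  rw [tp_last h.2.2.1] at h1
  exact Option.some.inj h1

theorem TpCyc.per {N Y : Fin n → Fin n} (hY : ∀ v, Y (Y v) = v) {x : Fin n} {m : ℕ}
    (h : TpCyc N Y x m) (k : ℕ) : walk Y N x (k + m) = walk Y N x k := by
  have hl := h.last
  obtain ⟨-, h2, h3, -⟩ := h
  induction k with
  | zero =>
    have e : (0 + m : ℕ) = (m - 1) + 1 := by omega
    rw [e, tp_walk_succ, if_neg (by omega), hl, hY, tp_walk_zero]
  | succ k ih =>
    have e : k + 1 + m = (k + m) + 1 := by ring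
    rw [e, tp_walk_succ, ih, tp_walk_succ]
    have e2 : (k + m) % 2 = k % 2 := by omega
    rw [e2]

theorem TpCyc.mod {N Y : Fin n → Fin n} (hY : ∀ v, Y (Y v) = v) {x : Fin n} {m : ℕ}
    (h : TpCyc N Y x m) (k : ℕ) : walk Y N x k ∈ orb N Y x m := by
  rw [tp_mem_orb]
  refine ⟨k % m, Nat.mod_lt _ h.2.2.1, ?_⟩
  have key : ∀ q r, walk Y N x (r + q * m) = walk Y N x r := by
    intro q
    induction q with
    | zero => intro r; simp
    | succ q ih =>
      intro r
      have e : r + (q + 1) * m = (r + q * m) + m := by ring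
      rw [e, h.per hY, ih]
  have e := Nat.mod_add_div k m
  nth_rewrite 2 [← e]
  rw [mul_comm, key]

theorem TpCyc.closedN {N Y : Fin n → Fin n} (hN : ∀ v, N (N v) = v) (hY : ∀ v, Y (Y v) = v)
    {x : Fin n} {m : ℕ} (h : TpCyc N Y x m) : ∀ v ∈ orb N Y x m, N v ∈ orb N Y x m := by
  intro v hv
  obtain ⟨i, -, rfl⟩ := tp_mem_orb.1 hv
  rw [tp_walk_even hN]
  split_ifs
  · exact h.mod hY _
  · exact h.mod hY _

theorem TpCyc.closedY {N Y : Fin n → Fin n} (hY : ∀ v, Y (Y v) = v)
    {x : Fin n} {m : ℕ} (h : TpCyc N Y x m) : ∀ v ∈ orb N Y x m, Y v ∈ orb N Y x m := by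
  intro v hv
  obtain ⟨i, -, rfl⟩ := tp_mem_orb.1 hv
  rcases Nat.eq_zero_or_pos i with hi | hi
  · subst hi
    rw [tp_walk_zero, ← h.last]
    exact h.mod hY _
  · rw [tp_walk_odd hY x hi]
    split_ifs
    · exact h.mod hY _
    · exact h.mod hY _

theorem TpCyc.mem {N Y : Fin n → Fin n} (hY : ∀ v, Y (Y v) = v)
    {x : Fin n} {m : ℕ} (h : TpCyc N Y x m) (z : Fin n) :
    (∃ i < n, walk Y N x i = z) ↔ z ∈ orb N Y x m := by
  constructor
  · rintro ⟨i, -, rfl⟩
    exact h.mod hY i
  · intro hz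
    obtain ⟨i, hi, rfl⟩ := tp_mem_orb.1 hz
    exact ⟨i, lt_of_lt_of_le hi h.len, rfl⟩

/-- the exchange of the cycle is the move `x0` -/
theorem TpCyc.x0 {N Y : Fin n → Fin n} (hY : ∀ v, Y (Y v) = v)
    {x : Fin n} {m : ℕ} (h : TpCyc N Y x m) :
    Poly.x0 Y N x = (un N (orb N Y x m) Y, un Y (orb N Y x m) N) := by
  unfold Poly.x0 un
  simp only [h.mem hY]

/-- the product weight is unchanged -/
theorem tp_un_wt (W : Sim (Fin n)) (N Y : Fin n → Fin n) (b : List (Fin n)) :
    W.wt (un N b Y) * W.wt (un Y b N) = W.wt N * W.wt Y := by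
  unfold Sim.wt
  rw [← Finset.prod_mul_distrib, ← Finset.prod_mul_distrib]
  refine Finset.prod_congr rfl fun v _ => ?_
  unfold un
  split_ifs
  · rfl
  · ring

/-! ### Odd segments -/

/-- the condition of `Ex1` -/
def TpSeg (N Y : Fin n → Fin n) (x : Fin n) (m : ℕ) (s : Fin n) : Prop :=
  (orb N Y x m ++ [s]).Nodup ∧ m % 2 = 1 ∧ (orb N Y x m).getLast? = some (N s) ∧
    Y x ∉ orb N Y x m

theorem TpSeg.last {N Y : Fin n → Fin n} {x s : Fin n} {m : ℕ} (h : TpSeg N Y x m s) :
    walk Y N x (m - 1) = N s := by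
  have h1 := h.2.2.1
  rw [tp_last (by have := h.2.1; omega)] at h1
  exact Option.some.inj h1

/-- the first pairing -/
theorem tp_pL1 (k : ℕ) : ∀ (N Y : Fin n → Fin n) (x t : Fin n), (∀ v, N (N v) = v) →
    (orb N Y x (2 * k + 1) ++ [t]).Nodup → ∀ v ∈ orb N Y x (2 * k + 1) ++ [t],
    pL (orb N Y x (2 * k + 1) ++ [t]) v =
      if v = walk Y N x (2 * k) then t else if v = t then walk Y N x (2 * k) else N v := by
  induction k with
  | zero =>
    intro N Y x t hN hnd v hv
    change pL [x, t] v = if v = x then t else if v = t then x else N v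
    have hv' : v = x ∨ v = t := by simpa [orb] using hv
    unfold pL
    rcases hv' with h | h
    · rw [if_pos h, if_pos h]
    · by_cases h1 : v = x
      · rw [if_pos h1, if_pos h1]
      · rw [if_neg h1, if_pos h, if_neg h1, if_pos h]
  | succ k ih =>
    intro N Y x t hN hnd v hv
    have e : orb N Y x (2 * (k + 1) + 1) = x :: N x :: orb N Y (Y (N x)) (2 * k + 1) := by
      rw [show 2 * (k + 1) + 1 = (2 * k + 1) + 1 + 1 by ring]
      rfl
    have e2 : walk Y N x (2 * (k + 1)) = walk Y N (Y (N x)) (2 * k) := by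
      rw [show 2 * (k + 1) = 2 * k + 1 + 1 by ring, tp_walk_shift, tp_walk_shift]
    rw [e] at hnd hv ⊢
    rw [e2]
    rw [List.cons_append, List.cons_append] at hnd hv ⊢
    rw [List.nodup_cons, List.nodup_cons, List.mem_cons, not_or] at hnd
    obtain ⟨⟨hxN, hx⟩, hNx, hnd'⟩ := hnd
    have hl : walk Y N (Y (N x)) (2 * k) ∈ orb N Y (Y (N x)) (2 * k + 1) ++ [t] :=
      List.mem_append_left _ (tp_mem_orb.2 ⟨2 * k, by omega, rfl⟩)
    have ht : t ∈ orb N Y (Y (N x)) (2 * k + 1) ++ [t] :=
      List.mem_append_right _ (List.mem_singleton.2 rfl)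
    have hxl : x ≠ walk Y N (Y (N x)) (2 * k) := fun h => hx (by
      have h3 := hl
      rwa [← h] at h3)
    have hNl : N x ≠ walk Y N (Y (N x)) (2 * k) := fun h => hNx (by
      have h3 := hl
      rwa [← h] at h3)
    unfold pL
    by_cases h1 : v = x
    · rw [if_pos h1, if_neg, if_neg, h1]
      · rintro rfl; exact hx (h1 ▸ ht)
      · intro h2; exact hxl (h1.symm.trans h2)
    · rw [if_neg h1]
      by_cases h2 : v = N x
      · rw [if_pos h2, if_neg, if_neg, h2, hN]
        · rintro rfl; exact hNx (h2 ▸ ht)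
        · intro h3; exact hNl (h2.symm.trans h3)
      · rw [if_neg h2]
        refine ih N Y _ t hN hnd' v ?_
        rcases List.mem_cons.1 hv with h | h
        · exact absurd h h1
        · rcases List.mem_cons.1 h with h | h
          · exact absurd h h2
          · exact h

/-- the second pairing -/
theorem tp_pL2 (k : ℕ) : ∀ (N Y : Fin n → Fin n) (x' s x : Fin n), (∀ v, N (N v) = v) →
    (orb N Y x' (2 * k) ++ [s, x]).Nodup → ∀ v ∈ orb N Y x' (2 * k) ++ [s, x],
    pL (orb N Y x' (2 * k) ++ [s, x]) v =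
      if v = s then x else if v = x then s else N v := by
  induction k with
  | zero =>
    intro N Y x' s x hN hnd v hv
    change pL [s, x] v = if v = s then x else if v = x then s else N v
    have hv' : v = s ∨ v = x := by simpa [orb] using hv
    unfold pL
    rcases hv' with h | h
    · rw [if_pos h, if_pos h]
    · by_cases h1 : v = s
      · rw [if_pos h1, if_pos h1]
      · rw [if_neg h1, if_pos h, if_neg h1, if_pos h]
  | succ k ih =>
    intro N Y x' s x hN hnd v hv
    have e : orb N Y x' (2 * (k + 1)) = x' :: N x' :: orb N Y (Y (N x')) (2 * k) := by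
      rw [show 2 * (k + 1) = (2 * k) + 1 + 1 by ring]
      rfl
    rw [e] at hnd hv ⊢
    rw [List.cons_append, List.cons_append] at hnd hv ⊢
    rw [List.nodup_cons, List.nodup_cons, List.mem_cons, not_or] at hnd
    obtain ⟨⟨hxN, hx⟩, hNx, hnd'⟩ := hnd
    have hs : s ∈ orb N Y (Y (N x')) (2 * k) ++ [s, x] := by simp
    have ht : x ∈ orb N Y (Y (N x')) (2 * k) ++ [s, x] := by simp
    unfold pL
    by_cases h1 : v = x'
    · rw [if_pos h1, if_neg, if_neg, h1]
      · rintro rfl; exact hx (h1 ▸ ht)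
      · rintro rfl; exact hx (h1 ▸ hs)
    · rw [if_neg h1]
      by_cases h2 : v = N x'
      · rw [if_pos h2, if_neg, if_neg, h2, hN]
        · rintro rfl; exact hNx (h2 ▸ ht)
        · rintro rfl; exact hNx (h2 ▸ hs)
      · rw [if_neg h2]
        refine ih N Y _ s x hN hnd' v ?_
        rcases List.mem_cons.1 hv with h | h
        · exact absurd h h1
        · rcases List.mem_cons.1 h with h | h
          · exact absurd h h2
          · exact h

/-- the pairing of an even list is a fixed point free involution -/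
theorem tp_pL_inv : ∀ b : List (Fin n), b.Nodup → b.length % 2 = 0 →
    ∀ v ∈ b, pL b v ∈ b ∧ pL b (pL b v) = v ∧ pL b v ≠ v
  | [], _, _ => fun v hv => by simp at hv
  | [_], _, h => by simp at h
  | x :: y :: l, hnd, hl => by
    intro v hv
    rw [List.nodup_cons, List.nodup_cons, List.mem_cons, not_or] at hnd
    obtain ⟨⟨hxy, hx⟩, hy, hnd'⟩ := hnd
    have hl' : l.length % 2 = 0 := by
      rw [List.length_cons, List.length_cons] at hl
      omega
    have ih := tp_pL_inv l hnd' hl'
    have e : ∀ u, pL (x :: y :: l) u = if u = x then y else if u = y then x else pL l u :=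
      fun u => rfl
    by_cases h1 : v = x
    · subst h1
      rw [e v, if_pos rfl, e y, if_neg (Ne.symm hxy), if_pos rfl]
      exact ⟨by simp, rfl, Ne.symm hxy⟩
    · by_cases h2 : v = y
      · subst h2
        rw [e v, if_neg h1, if_pos rfl, e x, if_pos rfl]
        exact ⟨by simp, rfl, Ne.symm h1⟩
      · have hv' : v ∈ l := by
          rcases List.mem_cons.1 hv with h | h
          · exact absurd h h1
          · rcases List.mem_cons.1 h with h | h
            · exact absurd h h2
            · exact h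
        obtain ⟨i1, i2, i3⟩ := ih v hv'
        have h3 : pL l v ≠ x := fun h => hx (h ▸ i1)
        have h4 : pL l v ≠ y := fun h => hy (h ▸ i1)
        rw [e v, if_neg h1, if_neg h2, e (pL l v), if_neg h3, if_neg h4]
        exact ⟨List.mem_cons_of_mem _ (List.mem_cons_of_mem _ i1), i2, i3⟩

/-- a new pairing on an invariant set -/
theorem tp_un_isPM' {P E : Fin n → Fin n} (hE : IsPM E) {b : List (Fin n)}
    (h1 : ∀ v ∈ b, P v ∈ b ∧ P (P v) = v ∧ P v ≠ v) (h2 : ∀ v ∈ b, E v ∈ b) :
    IsPM (un P b E) := by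
  obtain ⟨hi', hf'⟩ := hE
  constructor
  · intro v
    unfold un
    by_cases h : v ∈ b
    · rw [if_pos h, if_pos (h1 v h).1, (h1 v h).2.1]
    · have h3 : E v ∉ b := fun h4 => h (by rw [← hi' v]; exact h2 _ h4)
      rw [if_neg h, if_neg h3, hi']
  · intro v
    unfold un
    split_ifs with h
    · exact (h1 v h).2.2
    · exact hf' v

theorem TpSeg.len {N Y : Fin n → Fin n} {x s : Fin n} {m : ℕ} (h : TpSeg N Y x m s) : m < n := by
  have h1 := h.1.length_le_card
  rw [tp_orb, List.length_append, List.length_map, List.length_range, Fintype.card_fin,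
    List.length_singleton] at h1
  omega

theorem TpSeg.seg {N Y : Fin n → Fin n} {x s : Fin n} {k : ℕ} (h : TpSeg N Y x (2 * k + 1) s) :
    Seg Y N x k := by
  have h1 := (List.nodup_append.1 h.1).1
  rw [tp_orb] at h1
  intro i hi j hj hij
  exact List.inj_on_of_nodup_map h1 (List.mem_range.2 (by omega)) (List.mem_range.2 (by omega)) hij

theorem tp_mem_orb' {N Y : Fin n → Fin n} {x : Fin n} {k : ℕ} {z : Fin n} :
    z ∈ orb N Y x (2 * k + 1) ↔ ∃ i ≤ 2 * k, walk Y N x i = z := by
  rw [tp_mem_orb]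
  constructor
  · rintro ⟨i, hi, h⟩; exact ⟨i, by omega, h⟩
  · rintro ⟨i, hi, h⟩; exact ⟨i, by omega, h⟩

theorem TpSeg.s_eq {N Y : Fin n → Fin n} (hN : ∀ v, N (N v) = v) {x s : Fin n} {k : ℕ}
    (h : TpSeg N Y x (2 * k + 1) s) : s = N (walk Y N x (2 * k)) := by
  have h1 := h.last
  rw [Nat.add_sub_cancel] at h1
  rw [h1, hN]

theorem tp_x1_fst (N Y : Fin n → Fin n) (x : Fin n) (k : ℕ) (z : Fin n) :
    (Poly.x1 Y N x k).1 z = if z = walk Y N x (2 * k) then Y x else
      if z = Y x then walk Y N x (2 * k) else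
        if ∃ i ≤ 2 * k, walk Y N x i = z then N z else Y z := rfl

theorem TpSeg.x1fst {N Y : Fin n → Fin n} (hN : ∀ v, N (N v) = v) {x s : Fin n} {k : ℕ}
    (h : TpSeg N Y x (2 * k + 1) s) :
    (Poly.x1 Y N x k).1 = M1 (orb N Y x (2 * k + 1) ++ [Y x]) Y := by
  have hnd : (orb N Y x (2 * k + 1) ++ [Y x]).Nodup := by
    rw [List.nodup_append]
    refine ⟨(List.nodup_append.1 h.1).1, List.nodup_singleton _, ?_⟩
    intro a ha b hb hab
    rw [List.mem_singleton] at hb
    exact h.2.2.2 (by rw [← hb, ← hab]; exact ha)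
  funext z
  unfold M1 un
  by_cases hz : z ∈ orb N Y x (2 * k + 1) ++ [Y x]
  · rw [if_pos hz, tp_pL1 k N Y x (Y x) hN hnd z hz]
    rw [tp_x1_fst]
    by_cases h1 : z = walk Y N x (2 * k)
    · rw [if_pos h1, if_pos h1]
    · by_cases h2 : z = Y x
      · rw [if_neg h1, if_pos h2, if_neg h1, if_pos h2]
      · have h3 : ∃ i ≤ 2 * k, walk Y N x i = z := by
          rw [← tp_mem_orb']
          rcases List.mem_append.1 hz with h | h
          · exact h
          · exact absurd (List.mem_singleton.1 h) h2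
        rw [if_neg h1, if_neg h2, if_neg h1, if_neg h2, if_pos h3]
  · rw [if_neg hz]
    have h0 : z ∉ orb N Y x (2 * k + 1) := fun h => hz (List.mem_append_left _ h)
    have h1 : z ≠ walk Y N x (2 * k) := by
      rintro rfl
      exact h0 (tp_mem_orb'.2 ⟨2 * k, le_rfl, rfl⟩)
    have h2 : z ≠ Y x := by
      rintro rfl
      exact hz (List.mem_append_right _ (List.mem_singleton.2 rfl))
    rw [tp_x1_fst]
    rw [if_neg h1, if_neg h2, if_neg]
    rw [← tp_mem_orb']
    exact h0

theorem TpSeg.x1snd {N Y : Fin n → Fin n} (hN : ∀ v, N (N v) = v) (hY : ∀ v, Y (Y v) = v)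
    {x s : Fin n} {k : ℕ}
    (h : TpSeg N Y x (2 * k + 1) s) :
    (Poly.x1 Y N x k).2 = M0 (orb N Y x (2 * k + 1) ++ [s]) N := by
  have hs := h.s_eq hN
  have e : (orb N Y x (2 * k + 1) ++ [s]).rotate 1 = orb Y N (N x) (2 * k) ++ [s, x] := by
    have e1 : orb N Y x (2 * k + 1) = x :: orb Y N (N x) (2 * k) := rfl
    rw [e1, List.cons_append, List.rotate_cons_succ, List.rotate_zero, List.append_assoc]
    rfl
  have hnd : (orb Y N (N x) (2 * k) ++ [s, x]).Nodup := by
    rw [← e]
    exact List.nodup_rotate.2 h.1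
  have hmem : ∀ z, z ∈ orb N Y x (2 * k + 1) ++ [s] ↔ z ∈ orb Y N (N x) (2 * k) ++ [s, x] := by
    intro z
    rw [← e, List.mem_rotate]
  have hsx : s ≠ x := by
    intro h1
    have h2 := (List.nodup_append.1 hnd).2.1
    rw [List.nodup_cons] at h2
    exact h2.1 (by rw [h1]; exact List.mem_singleton.2 rfl)
  funext z
  unfold M0 un
  by_cases hz : z ∈ orb N Y x (2 * k + 1) ++ [s]
  · rw [if_pos hz, e, tp_pL2 k Y N (N x) s x hY hnd z ((hmem z).1 hz)]
    unfold Poly.x1
    by_cases h1 : z = s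
    · have h2 : z ≠ x := fun h => hsx (h1.symm.trans h)
      rw [if_pos h1]
      change (if z = x then N (walk Y N x (2 * k)) else
        if z = N (walk Y N x (2 * k)) then x else _) = x
      rw [if_neg h2, if_pos (h1.trans hs)]
    · by_cases h2 : z = x
      · rw [if_neg h1, if_pos h2]
        change (if z = x then N (walk Y N x (2 * k)) else _) = s
        rw [if_pos h2, ← hs]
      · have h3 : ∃ i ≤ 2 * k, walk Y N x i = z := by
          rw [← tp_mem_orb']
          rcases List.mem_append.1 hz with h | h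
          · exact h
          · exact absurd (List.mem_singleton.1 h) h1
        rw [if_neg h1, if_neg h2]
        change (if z = x then N (walk Y N x (2 * k)) else
          if z = N (walk Y N x (2 * k)) then x else
            if ∃ i ≤ 2 * k, walk Y N x i = z then Y z else N z) = Y z
        rw [if_neg h2, if_neg (by rw [← hs]; exact h1), if_pos h3]
  · rw [if_neg hz]
    have h0 : z ∉ orb N Y x (2 * k + 1) := fun h => hz (List.mem_append_left _ h)
    have h1 : z ≠ x := by
      rintro rfl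
      exact h0 (tp_mem_orb'.2 ⟨0, by omega, rfl⟩)
    have h2 : z ≠ s := by
      rintro rfl
      exact hz (List.mem_append_right _ (List.mem_singleton.2 rfl))
    change (if z = x then N (walk Y N x (2 * k)) else
      if z = N (walk Y N x (2 * k)) then x else
        if ∃ i ≤ 2 * k, walk Y N x i = z then Y z else N z) = N z
    rw [if_neg h1, if_neg (by rw [← hs]; exact h2), if_neg]
    rw [← tp_mem_orb']
    exact h0

theorem tp_orb_length (N Y : Fin n → Fin n) (x : Fin n) (m : ℕ) : (orb N Y x m).length = m := by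
  rw [tp_orb, List.length_map, List.length_range]

theorem TpSeg.pm1 {N Y : Fin n → Fin n} (hY : IsPM Y) {x s : Fin n} {k : ℕ}
    (h : TpSeg N Y x (2 * k + 1) s) : IsPM (M1 (orb N Y x (2 * k + 1) ++ [Y x]) Y) := by
  have hnd : (orb N Y x (2 * k + 1) ++ [Y x]).Nodup := by
    rw [List.nodup_append]
    refine ⟨(List.nodup_append.1 h.1).1, List.nodup_singleton _, ?_⟩
    intro a ha b hb hab
    rw [List.mem_singleton] at hb
    exact h.2.2.2 (by rw [← hb, ← hab]; exact ha)
  refine tp_un_isPM' hY (tp_pL_inv _ hnd ?_) ?_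
  · rw [List.length_append, tp_orb_length, List.length_singleton]
    omega
  · intro v hv
    rcases List.mem_append.1 hv with h1 | h1
    · obtain ⟨i, hi, rfl⟩ := tp_mem_orb'.1 h1
      rcases Nat.eq_zero_or_pos i with h0 | h0
      · subst h0
        exact List.mem_append_right _ (List.mem_singleton.2 rfl)
      · rw [tp_walk_odd hY.1 x h0]
        refine List.mem_append_left _ ?_
        split_ifs
        · exact tp_mem_orb'.2 ⟨i - 1, by omega, rfl⟩
        · exact tp_mem_orb'.2 ⟨i + 1, by omega, rfl⟩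
    · rw [List.mem_singleton.1 h1, hY.1]
      exact List.mem_append_left _ (tp_mem_orb'.2 ⟨0, by omega, rfl⟩)

theorem TpSeg.pm2 {N Y : Fin n → Fin n} (hN : IsPM N) {x s : Fin n} {k : ℕ}
    (h : TpSeg N Y x (2 * k + 1) s) : IsPM (M0 (orb N Y x (2 * k + 1) ++ [s]) N) := by
  have hs := h.s_eq hN.1
  have hr : ((orb N Y x (2 * k + 1) ++ [s]).rotate 1).Nodup := List.nodup_rotate.2 h.1
  have hinv := tp_pL_inv _ hr (by
    rw [List.length_rotate, List.length_append, tp_orb_length, List.length_singleton]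
    omega)
  refine tp_un_isPM' hN (fun v hv => ?_) ?_
  · have h1 := hinv v (List.mem_rotate.2 hv)
    exact ⟨List.mem_rotate.1 h1.1, h1.2⟩
  · intro v hv
    rcases List.mem_append.1 hv with h1 | h1
    · obtain ⟨i, hi, rfl⟩ := tp_mem_orb'.1 h1
      rw [tp_walk_even hN.1]
      split_ifs with h2
      · by_cases h3 : i = 2 * k
        · subst h3
          refine List.mem_append_right _ (List.mem_singleton.2 ?_)
          rw [hs, tp_walk_even hN.1, if_pos h2]
        · exact List.mem_append_left _ (tp_mem_orb'.2 ⟨i + 1, by omega, rfl⟩)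
      · exact List.mem_append_left _ (tp_mem_orb'.2 ⟨i - 1, by omega, rfl⟩)
    · rw [List.mem_singleton.1 h1]
      refine List.mem_append_left _ (tp_mem_orb'.2 ⟨2 * k, le_rfl, ?_⟩)
      rw [hs, hN.1]

/-! ### Comparison of the energies -/

/-- product weight of a pair -/
noncomputable def tpA (W : Sim (Fin n)) (z : PM n × PM n) : ℝ := W.wt z.1.1 * W.wt z.2.1

/-- energy of one labelled move -/
noncomputable def tpE (W : Sim (Fin n)) (f : PM n → ℝ) (l : Lab n) (z : PM n × PM n) : ℝ :=
  min (tpA W z) (tpA W (mv l z)) * (f z.1 + f z.2 - f (mv l z).1 - f (mv l z).2) ^ 2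

theorem tp_wt_pos (W : Sim (Fin n)) (g : Fin n → Fin n) : 0 < W.wt g :=
  Finset.prod_pos fun _ _ => W.s_pos _ _

theorem tpA_pos (W : Sim (Fin n)) (z : PM n × PM n) : 0 < tpA W z :=
  mul_pos (tp_wt_pos W _) (tp_wt_pos W _)

theorem tpE_nonneg (W : Sim (Fin n)) (f : PM n → ℝ) (l : Lab n) (z : PM n × PM n) :
    0 ≤ tpE W f l z :=
  mul_nonneg (le_min (tpA_pos W _).le (tpA_pos W _).le) (sq_nonneg _)

theorem tp_loc (W : Sim (Fin n)) (f : PM n → ℝ) (N Y : PM n) (x y : Fin n) :
    W.wt Y.1 * (if x ≠ y ∧ N.1 x ≠ y then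
      min (W.wt N.1) (W.wt (sw N.1 x y)) * (tpF f (sw N.1 x y) - tpF f N.1) ^ 2 else 0) ≤
      tpE W f (0, x, y) (N, Y) := by
  by_cases h : x ≠ y ∧ N.1 x ≠ y
  · rw [if_pos h]
    have hpm : IsPM (sw N.1 x y) := tp_sw_isPM N.2 h.1 h.2
    have e1 : mv (0, x, y) (N, Y) = (toPM N (sw N.1 x y), Y) := by
      unfold mv mvF
      rw [if_pos rfl]
      simp only [h, if_true, ne_eq, not_false_eq_true, and_self]
      rw [tp_toPM_self]
      rfl
    unfold tpE
    rw [e1, tpF_toPM f N hpm, tpF_val]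
    unfold tpA
    simp only
    rw [tp_toPM_val N hpm]
    refine le_of_eq ?_
    rw [← min_mul_of_nonneg _ _ (tp_wt_pos W Y.1).le]
    ring
  · rw [if_neg h, mul_zero]
    exact tpE_nonneg _ _ _ _

theorem tp_cyc (W : Sim (Fin n)) (f : PM n → ℝ) (N Y : PM n) (x : Fin n) (m : ℕ) :
    (if (orb N.1 Y.1 x m).Nodup ∧ m % 2 = 0 ∧ 0 < m ∧
        (orb N.1 Y.1 x m).getLast? = some (Y.1 x) then
      W.wt N.1 * W.wt Y.1 * (tpF f (un Y.1 (orb N.1 Y.1 x m) N.1) +
        tpF f (un N.1 (orb N.1 Y.1 x m) Y.1) - tpF f N.1 - tpF f Y.1) ^ 2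
    else 0) ≤ tpE W f (1, x, x) (Y, N) := by
  split_ifs with h0
  · have h : TpCyc N.1 Y.1 x m := h0
    have c1 := h.closedN N.2.1 Y.2.1
    have c2 := h.closedY Y.2.1
    have p1 : IsPM (un N.1 (orb N.1 Y.1 x m) Y.1) := tp_un_isPM N.2 Y.2 c1 c2
    have p2 : IsPM (un Y.1 (orb N.1 Y.1 x m) N.1) := tp_un_isPM Y.2 N.2 c2 c1
    have e1 : mv (1, x, x) (Y, N) = (toPM Y (un N.1 (orb N.1 Y.1 x m) Y.1),
        toPM N (un Y.1 (orb N.1 Y.1 x m) N.1)) := by
      unfold mv mvF
      have h1 : ¬ ((1 : Fin 3) = 0) := by decide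
      rw [if_neg h1, if_pos rfl]
      simp only
      rw [h.x0 Y.2.1]
    unfold tpE
    rw [e1, tpF_toPM f Y p1, tpF_toPM f N p2, tpF_val, tpF_val]
    unfold tpA
    simp only
    rw [tp_toPM_val Y p1, tp_toPM_val N p2, tp_un_wt, mul_comm (W.wt Y.1), min_self]
    refine le_of_eq ?_
    ring
  · exact tpE_nonneg _ _ _ _

theorem tp_seg (W : Sim (Fin n)) (f : PM n → ℝ) (N Y : PM n) (x : Fin n) (m : ℕ) :
    (∑ s, if (orb N.1 Y.1 x m ++ [s]).Nodup ∧ m % 2 = 1 ∧
        (orb N.1 Y.1 x m).getLast? = some (N.1 s) ∧ Y.1 x ∉ orb N.1 Y.1 x m then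
      min (W.wt N.1 * W.wt Y.1)
        (W.wt (M0 (orb N.1 Y.1 x m ++ [s]) N.1) * W.wt (M1 (orb N.1 Y.1 x m ++ [Y.1 x]) Y.1)) *
      (tpF f (M0 (orb N.1 Y.1 x m ++ [s]) N.1) + tpF f (M1 (orb N.1 Y.1 x m ++ [Y.1 x]) Y.1) -
        tpF f N.1 - tpF f Y.1) ^ 2
    else 0) ≤ ∑ k, tpE W f (2, x, k) (Y, N) := by
  by_cases hex : ∃ s, TpSeg N.1 Y.1 x m s
  · obtain ⟨s, hs⟩ := hex
    obtain ⟨k, rfl⟩ : ∃ k, m = 2 * k + 1 := ⟨m / 2, by have := hs.2.1; omega⟩
    have hk : k < n := by have := hs.len; omega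
    rw [Finset.sum_eq_single s]
    · refine le_trans (le_of_eq (if_pos hs)) ?_
      refine le_trans ?_ (Finset.single_le_sum (f := fun k => tpE W f (2, x, k) (Y, N))
        (fun k _ => tpE_nonneg _ _ _ _) (mem_univ ⟨k, hk⟩))
      have p1 := hs.pm1 Y.2
      have p2 := hs.pm2 N.2
      have e1 : mv (2, x, ⟨k, hk⟩) (Y, N) = (toPM Y (M1 (orb N.1 Y.1 x (2 * k + 1) ++ [Y.1 x]) Y.1),
          toPM N (M0 (orb N.1 Y.1 x (2 * k + 1) ++ [s]) N.1)) := by
        unfold mv mvF
        have h1 : ¬ ((2 : Fin 3) = 0) := by decide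
        have h2 : ¬ ((2 : Fin 3) = 1) := by decide
        rw [if_neg h1, if_neg h2, if_pos hs.seg]
        simp only
        rw [hs.x1fst N.2.1, hs.x1snd N.2.1 Y.2.1]
      unfold tpE
      simp only
      rw [e1, tpF_toPM f Y p1, tpF_toPM f N p2, tpF_val, tpF_val]
      unfold tpA
      simp only
      rw [tp_toPM_val Y p1, tp_toPM_val N p2, mul_comm (W.wt Y.1),
        mul_comm (W.wt (M1 _ Y.1))]
      refine le_of_eq ?_
      ring
    · intro b _ hb
      rw [if_neg]
      intro h
      have h' : TpSeg N.1 Y.1 x (2 * k + 1) b := h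
      exact hb (by rw [h'.s_eq N.2.1, hs.s_eq N.2.1])
    · intro h
      exact absurd (mem_univ s) h
  · rw [Finset.sum_eq_zero]
    · exact Finset.sum_nonneg fun k _ => tpE_nonneg _ _ _ _
    · intro s _
      rw [if_neg]
      intro h
      exact hex ⟨s, h⟩

theorem tp_Eloc (W : Sim (Fin n)) (f : PM n → ℝ) :
    W.Z * W.Eloc (tpF f) ≤ ∑ z : PM n × PM n, ∑ x, ∑ y, tpE W f (0, x, y) z := by
  have e : ∑ z : PM n × PM n, ∑ x, ∑ y, tpE W f (0, x, y) z =
      ∑ Y : PM n, ∑ N : PM n, ∑ x, ∑ y, tpE W f (0, x, y) (N, Y) := by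
    rw [Fintype.sum_prod_type, Finset.sum_comm]
  rw [e]
  unfold Sim.Z Sim.Eloc
  rw [tp_sum, tp_sum, Finset.sum_mul]
  refine Finset.sum_le_sum fun Y _ => ?_
  rw [Finset.mul_sum]
  refine Finset.sum_le_sum fun N _ => ?_
  rw [Finset.mul_sum]
  refine Finset.sum_le_sum fun x _ => ?_
  rw [Finset.mul_sum]
  exact Finset.sum_le_sum fun y _ => tp_loc W f N Y x y

theorem tp_Ex0 (W : Sim (Fin n)) (f : PM n → ℝ) :
    W.Ex0 (tpF f) ≤ (n + 1) * ∑ z : PM n × PM n, ∑ x, ∑ y, tpE W f (1, x, y) z := by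
  unfold Sim.Ex0
  rw [tp_sum]
  have h1 : ∀ N : PM n, (∑ Y ∈ pms (Fin n), ∑ x, ∑ m ∈ range (Fintype.card (Fin n) + 1),
      if (orb N.1 Y x m).Nodup ∧ m % 2 = 0 ∧ 0 < m ∧ (orb N.1 Y x m).getLast? = some (Y x) then
        W.wt N.1 * W.wt Y * (tpF f (un Y (orb N.1 Y x m) N.1) +
          tpF f (un N.1 (orb N.1 Y x m) Y) - tpF f N.1 - tpF f Y) ^ 2
      else 0) ≤ ∑ Y : PM n, ∑ x, (n + 1) * ∑ y, tpE W f (1, x, y) (Y, N) := by
    intro N
    rw [tp_sum]
    refine Finset.sum_le_sum fun Y _ => Finset.sum_le_sum fun x _ => ?_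
    have h2 : ∀ m ∈ range (Fintype.card (Fin n) + 1), (if (orb N.1 Y.1 x m).Nodup ∧ m % 2 = 0 ∧
        0 < m ∧ (orb N.1 Y.1 x m).getLast? = some (Y.1 x) then
        W.wt N.1 * W.wt Y.1 * (tpF f (un Y.1 (orb N.1 Y.1 x m) N.1) +
          tpF f (un N.1 (orb N.1 Y.1 x m) Y.1) - tpF f N.1 - tpF f Y.1) ^ 2
      else 0) ≤ ∑ y, tpE W f (1, x, y) (Y, N) := fun m _ =>
      (tp_cyc W f N Y x m).trans (Finset.single_le_sum (f := fun y => tpE W f (1, x, y) (Y, N))
        (fun y _ => tpE_nonneg _ _ _ _) (mem_univ x))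
    refine (Finset.sum_le_sum h2).trans (le_of_eq ?_)
    rw [Finset.sum_const, card_range, Fintype.card_fin, nsmul_eq_mul]
    push_cast
    ring
  refine (Finset.sum_le_sum fun N _ => h1 N).trans (le_of_eq ?_)
  rw [Finset.sum_comm, Fintype.sum_prod_type, Finset.mul_sum]
  refine Finset.sum_congr rfl fun Y _ => ?_
  rw [Finset.mul_sum]
  refine Finset.sum_congr rfl fun N _ => ?_
  rw [Finset.mul_sum]

theorem tp_Ex1 (W : Sim (Fin n)) (f : PM n → ℝ) :
    W.Ex1 (tpF f) ≤ (n + 1) * ∑ z : PM n × PM n, ∑ x, ∑ y, tpE W f (2, x, y) z := by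
  unfold Sim.Ex1
  rw [tp_sum]
  have h1 : ∀ N : PM n, (∑ Y ∈ pms (Fin n), ∑ x, ∑ m ∈ range (Fintype.card (Fin n) + 1), ∑ s,
      if (orb N.1 Y x m ++ [s]).Nodup ∧ m % 2 = 1 ∧ (orb N.1 Y x m).getLast? = some (N.1 s) ∧
          Y x ∉ orb N.1 Y x m then
        min (W.wt N.1 * W.wt Y)
          (W.wt (M0 (orb N.1 Y x m ++ [s]) N.1) * W.wt (M1 (orb N.1 Y x m ++ [Y x]) Y)) *
        (tpF f (M0 (orb N.1 Y x m ++ [s]) N.1) + tpF f (M1 (orb N.1 Y x m ++ [Y x]) Y) -
          tpF f N.1 - tpF f Y) ^ 2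
      else 0) ≤ ∑ Y : PM n, ∑ x, (n + 1) * ∑ y, tpE W f (2, x, y) (Y, N) := by
    intro N
    rw [tp_sum]
    refine Finset.sum_le_sum fun Y _ => Finset.sum_le_sum fun x _ => ?_
    refine (Finset.sum_le_sum fun m _ => tp_seg W f N Y x m).trans (le_of_eq ?_)
    rw [Finset.sum_const, card_range, Fintype.card_fin, nsmul_eq_mul]
    push_cast
    ring
  refine (Finset.sum_le_sum fun N _ => h1 N).trans (le_of_eq ?_)
  rw [Finset.sum_comm, Fintype.sum_prod_type, Finset.mul_sum]
  refine Finset.sum_congr rfl fun Y _ => ?_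
  rw [Finset.mul_sum]
  refine Finset.sum_congr rfl fun N _ => ?_
  rw [Finset.mul_sum]

theorem tp_total (W : Sim (Fin n)) (f : PM n → ℝ) :
    W.Z * W.Eloc (tpF f) + W.Ex0 (tpF f) + W.Ex1 (tpF f) ≤
      (n + 1) * ∑ z : PM n × PM n, ∑ l, tpE W f l z := by
  have h0 := tp_Eloc W f
  have h1 := tp_Ex0 W f
  have h2 := tp_Ex1 W f
  have e : ∑ z : PM n × PM n, ∑ l, tpE W f l z =
      ∑ z : PM n × PM n, ∑ x, ∑ y, tpE W f (0, x, y) z +
      ∑ z : PM n × PM n, ∑ x, ∑ y, tpE W f (1, x, y) z +
      ∑ z : PM n × PM n, ∑ x, ∑ y, tpE W f (2, x, y) z := by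
    rw [← Finset.sum_add_distrib, ← Finset.sum_add_distrib]
    refine Finset.sum_congr rfl fun z _ => ?_
    rw [Fintype.sum_prod_type, Fin.sum_univ_three, Fintype.sum_prod_type, Fintype.sum_prod_type,
      Fintype.sum_prod_type]
  have h3 : 0 ≤ ∑ z : PM n × PM n, ∑ x, ∑ y, tpE W f (0, x, y) z :=
    Finset.sum_nonneg fun z _ => Finset.sum_nonneg fun x _ => Finset.sum_nonneg fun y _ =>
      tpE_nonneg _ _ _ _
  have hn : (0 : ℝ) ≤ n := Nat.cast_nonneg n
  rw [e]
  nlinarith only [h0, h1, h2, h3]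

/-! ### The gap -/

theorem tp_Var2 (W : Sim (Fin n)) (f : PM n → ℝ) (hf : ∑ M : PM n, W.wt M.1 * f M = 0) :
    W.Var2 (tpF f) = 2 * (W.Z * ∑ M : PM n, W.wt M.1 * f M ^ 2) := by
  have e1 : ∀ N Y : PM n, W.wt N.1 * W.wt Y.1 * (tpF f N.1 - tpF f Y.1) ^ 2 =
      W.wt Y.1 * (W.wt N.1 * f N ^ 2) + W.wt N.1 * (W.wt Y.1 * f Y ^ 2) -
        2 * ((W.wt N.1 * f N) * (W.wt Y.1 * f Y)) := by
    intro N Y
    rw [tpF_val, tpF_val]
    ring
  unfold Sim.Var2 Sim.Z
  rw [tp_sum, tp_sum]
  have e2 : ∀ N : PM n, ∑ Y ∈ pms (Fin n), W.wt N.1 * W.wt Y * (tpF f N.1 - tpF f Y) ^ 2 =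
      (∑ Y : PM n, W.wt Y.1) * (W.wt N.1 * f N ^ 2) +
        W.wt N.1 * ∑ Y : PM n, W.wt Y.1 * f Y ^ 2 := by
    intro N
    rw [tp_sum, Finset.sum_congr rfl fun Y _ => e1 N Y, Finset.sum_sub_distrib,
      Finset.sum_add_distrib, ← Finset.sum_mul, ← Finset.mul_sum, ← Finset.mul_sum,
      ← Finset.mul_sum, hf]
    ring
  rw [Finset.sum_congr rfl fun N _ => e2 N, Finset.sum_add_distrib, ← Finset.mul_sum,
    ← Finset.sum_mul]
  ring

theorem tp_num {n A B C : ℕ} {ε E : ℝ} (hn : 1 ≤ n) (hC : 2 * A + 1 ≤ C) (hC' : B ≤ C)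
    (hε : 0 < ε) (hε1 : ε ≤ 1) (hE : 0 ≤ E) :
    ((n + 2 : ℕ) : ℝ) ^ A * (1 / ε) ^ B * ((n + 1) * E) ≤ (n + 1 : ℝ) ^ C / ε ^ C * E := by
  have hn1 : (1 : ℝ) ≤ n := by exact_mod_cast hn
  have h5 : ((n + 2 : ℕ) : ℝ) ≤ (n + 1 : ℝ) ^ 2 := by
    push_cast
    nlinarith only [hn1]
  have h6 : ((n + 2 : ℕ) : ℝ) ^ A ≤ (n + 1 : ℝ) ^ (2 * A) := by
    rw [pow_mul]
    exact pow_le_pow_left₀ (by positivity) h5 A
  have h7 : (1 / ε) ^ B ≤ 1 / ε ^ C := by
    rw [one_div, inv_pow, one_div]
    refine inv_anti₀ (by positivity) ?_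
    exact pow_le_pow_of_le_one hε.le hε1 hC'
  have h8 : (n + 1 : ℝ) ^ (2 * A) * (n + 1) ≤ (n + 1 : ℝ) ^ C := by
    rw [← pow_succ]
    exact pow_le_pow_right₀ (by linarith only []) hC
  calc ((n + 2 : ℕ) : ℝ) ^ A * (1 / ε) ^ B * ((n + 1) * E)
      ≤ (n + 1 : ℝ) ^ (2 * A) * (1 / ε ^ C) * ((n + 1) * E) := by
        refine mul_le_mul_of_nonneg_right ?_ (by positivity)
        exact mul_le_mul h6 h7 (by positivity) (by positivity)
    _ = ((n + 1 : ℝ) ^ (2 * A) * (n + 1)) * (1 / ε ^ C * E) := by ring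
    _ ≤ (n + 1 : ℝ) ^ C * (1 / ε ^ C * E) :=
        mul_le_mul_of_nonneg_right h8 (by positivity)
    _ = _ := by ring

/-- relations between the normalised and the weighted sums -/
theorem tp_rel (W : Sim (Fin n)) {lam : Fin n → Fin n → ℝ} {G : ℝ} (hG : 0 < G)
    (hrel : ∀ M : PM n, W.wt M.1 * G = wt lam M) (M : PM n) : mu lam M = W.wt M.1 / W.Z := by
  have hZt : Zt lam = W.Z * G := by
    unfold Zt Sim.Z
    rw [tp_sum, Finset.sum_mul]
    exact Finset.sum_congr rfl fun M _ => (hrel M).symm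
  unfold mu
  rw [hZt, ← hrel M, mul_div_mul_right _ _ hG.ne']

theorem tp_En (W : Sim (Fin n)) {lam : Fin n → Fin n → ℝ}
    (hmu : ∀ M : PM n, mu lam M = W.wt M.1 / W.Z) (f : PM n → ℝ) :
    En lam f = (∑ z : PM n × PM n, ∑ l, tpE W f l z) / W.Z ^ 2 := by
  have hmu2 : ∀ z : PM n × PM n, mu2 lam z = tpA W z / W.Z ^ 2 := by
    intro z
    unfold mu2 tpA
    rw [hmu, hmu, div_mul_div_comm, sq]
  unfold En
  rw [Finset.sum_div]
  refine Finset.sum_congr rfl fun z _ => ?_
  rw [Finset.sum_div]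
  refine Finset.sum_congr rfl fun l _ => ?_
  unfold tpE
  rw [hmu2, hmu2, min_div_div_right (sq_nonneg _), div_mul_eq_mul_div]

theorem tp_core (W : Sim (Fin n)) {A B C : ℕ} (hC : 2 * A + 1 ≤ C) (hC' : B ≤ C)
    (hT : Theorem1 (Fin n) A B) (f : PM n → ℝ) (hf : ∑ M : PM n, W.wt M.1 * f M = 0) :
    W.Z * ∑ M : PM n, W.wt M.1 * f M ^ 2 ≤
      (n + 1 : ℝ) ^ C / W.ε ^ C * ∑ z : PM n × PM n, ∑ l, tpE W f l z := by
  have hE0 : 0 ≤ ∑ z : PM n × PM n, ∑ l, tpE W f l z :=
    Finset.sum_nonneg fun z _ => Finset.sum_nonneg fun l _ => tpE_nonneg _ _ _ _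
  have hZ0 : 0 ≤ W.Z := by
    unfold Sim.Z
    exact Finset.sum_nonneg fun M _ => (tp_wt_pos W _).le
  have hε := W.ε_pos
  rcases Nat.eq_zero_or_pos n with h0 | hpos
  · have hsub : ∀ M M' : PM n, M = M' := by
      intro M M'
      subst h0
      exact Subtype.ext (funext fun x => x.elim0)
    have hS0 : ∑ M : PM n, W.wt M.1 * f M ^ 2 = 0 := by
      refine Finset.sum_eq_zero fun M _ => ?_
      have h5 : ∑ M' : PM n, W.wt M'.1 * f M' = W.wt M.1 * f M :=
        Fintype.sum_eq_single M fun M' h => absurd (hsub M' M) h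
      rw [h5] at hf
      have h6 : f M = 0 := by
        rcases mul_eq_zero.1 hf with h | h
        · exact absurd h (tp_wt_pos W _).ne'
        · exact h
      rw [h6]
      ring
    rw [hS0, mul_zero]
    exact mul_nonneg (div_nonneg (by (clear * -; positivity)) (by (clear * - hε; positivity))) hE0
  · have h1 := hT W (tpF f)
    rw [tp_Var2 W f hf, Fintype.card_fin] at h1
    have h3 := h1.trans (mul_le_mul_of_nonneg_left (tp_total W f) (by (clear * - hpos hε; positivity)))
    have h4 := h3.trans (tp_num hpos hC hC' hε W.ε_le hE0)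
    have h10 : 0 ≤ W.Z * ∑ M : PM n, W.wt M.1 * f M ^ 2 :=
      mul_nonneg hZ0 (Finset.sum_nonneg fun M _ =>
        mul_nonneg (tp_wt_pos W _).le (sq_nonneg _))
    linarith only [h4, h10]

/-- **From `Theorem1` to `Gap`.** -/
theorem gap_of_theorem1 {A B C : ℕ} (hC : 2 * A + 1 ≤ C) (hC' : B ≤ C)
    (hT : ∀ n, Theorem1 (Fin n) A B) : Gap C := by
  intro n lam ε hn hε hε1 hU f hf
  obtain ⟨hl, g, c, hg, hc, hcs, hu, hb⟩ := hU
  obtain ⟨W, hWε, hW⟩ : ∃ W : Sim (Fin n), W.ε = ε ∧ ∀ M : PM n, W.wt M.1 * ∏ x, g x = wt lam M :=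
    ⟨tpSim lam c g ε hl hg hc hcs hu hε hε1 hb, rfl, tp_wt hl hg hc hcs hu hε hε1 hb⟩
  have hG : 0 < ∏ x, g x := Finset.prod_pos fun x _ => hg x
  have hmu := tp_rel W hG hW
  have hEn := tp_En W hmu f
  have hE0 : 0 ≤ ∑ z : PM n × PM n, ∑ l, tpE W f l z :=
    Finset.sum_nonneg fun z _ => Finset.sum_nonneg fun l _ => tpE_nonneg _ _ _ _
  rcases isEmpty_or_nonempty (PM n) with hemp | hne
  · rw [Fintype.sum_empty, hEn]
    exact mul_nonneg (div_nonneg (by (clear * -; positivity)) (by positivity))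
      (div_nonneg hE0 (sq_nonneg _))
  have hZ : 0 < W.Z := by
    unfold Sim.Z
    rw [tp_sum]
    exact Finset.sum_pos (fun M _ => tp_wt_pos W _) univ_nonempty
  have hf0 : ∑ M : PM n, W.wt M.1 * f M = 0 := by
    have h1 : ∑ M : PM n, mu lam M * f M = (∑ M : PM n, W.wt M.1 * f M) / W.Z := by
      rw [Finset.sum_div]
      refine Finset.sum_congr rfl fun M _ => ?_
      rw [hmu M]
      ring
    rw [h1] at hf
    rcases div_eq_zero_iff.1 hf with h | h
    · exact h
    · exact absurd h hZ.ne'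
  have hLHS : ∑ M : PM n, mu lam M * f M ^ 2 = (∑ M : PM n, W.wt M.1 * f M ^ 2) / W.Z := by
    rw [Finset.sum_div]
    refine Finset.sum_congr rfl fun M _ => ?_
    rw [hmu M]
    ring
  have key := tp_core W hC hC' (hT n) f hf0
  rw [hWε] at key
  rw [hLHS, hEn, div_le_iff₀ hZ]
  generalize (∑ z : PM n × PM n, ∑ l, tpE W f l z) = E at *
  generalize (∑ M : PM n, W.wt M.1 * f M ^ 2) = S at *
  generalize (n + 1 : ℝ) ^ C / ε ^ C = K at *
  have h5 : K * (E / W.Z ^ 2) * W.Z = K * E / W.Z := by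
    (clear * - hZ; field_simp)
  rw [h5, le_div_iff₀ hZ]
  linarith only [key]

end Vale.Agent.P308.Lin

end
end

section

end

section

/-!
# One level of the recursion (P308, Part 1b)
-/

set_option linter.unusedSectionVars false

namespace Vale.Agent.P308.Lin

open Finset

variable {V : Type*} [Fintype V] [DecidableEq V]

theorem Sim.om_pos (W : Sim V) (a : List V) (e : V × (V → V)) : 0 < W.om a e := by
  unfold Sim.om
  split_ifs
  · exact mul_pos (Real.sqrt_pos.2 (W.cm_pos a)) (W.wt_pos _)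
  · exact mul_pos (W.cm_pos _) (W.wt_pos _)

theorem Sim.Zh_nonneg (W : Sim V) (a : List V) : 0 ≤ W.Zh a :=
  sum_nonneg fun e _ => (W.om_pos a e).le

theorem Sim.Rh_nonneg (W : Sim V) (a : List V) : 0 ≤ W.Rh a :=
  mul_nonneg (W.pw_pos a).le (sq_nonneg _)

theorem Sim.Z_nonneg (W : Sim V) : 0 ≤ W.Z := sum_nonneg fun g _ => (W.wt_pos g).le

theorem Sim.Eloc_nonneg (W : Sim V) (f : (V → V) → ℝ) : 0 ≤ W.Eloc f := by
  unfold Sim.Eloc
  refine sum_nonneg fun N _ => sum_nonneg fun x _ => sum_nonneg fun y _ => ?_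
  split_ifs
  · exact mul_nonneg (le_min (W.wt_pos _).le (W.wt_pos _).le) (sq_nonneg _)
  · exact le_rfl

theorem Sim.Ex0_nonneg (W : Sim V) (f : (V → V) → ℝ) : 0 ≤ W.Ex0 f := by
  unfold Sim.Ex0
  refine sum_nonneg fun N _ => sum_nonneg fun Y _ => sum_nonneg fun x _ => sum_nonneg fun m _ => ?_
  split_ifs
  · exact mul_nonneg (mul_pos (W.wt_pos _) (W.wt_pos _)).le (sq_nonneg _)
  · exact le_rfl

theorem Sim.Ex1_nonneg (W : Sim V) (f : (V → V) → ℝ) : 0 ≤ W.Ex1 f := by
  unfold Sim.Ex1
  refine sum_nonneg fun N _ => sum_nonneg fun Y _ => sum_nonneg fun x _ => sum_nonneg fun m _ =>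
    sum_nonneg fun s _ => ?_
  split_ifs
  · exact mul_nonneg (le_min (mul_pos (W.wt_pos _) (W.wt_pos _)).le
      (mul_pos (W.wt_pos _) (W.wt_pos _)).le) (sq_nonneg _)
  · exact le_rfl

theorem Sim.sum_Wc (W : Sim V) (a : List V) (t : V × (V → V) → ℝ) :
    ∑ e ∈ envs a, ∑ e' ∈ envs a, W.Wc a e e' * t e =
      W.pw a * W.Zh a * ∑ e ∈ envs a, W.om a e * t e := by
  have h1 : ∀ e ∈ envs a, ∑ e' ∈ envs a, W.Wc a e e' * t e =
      W.pw a * W.Zh a * (W.om a e * t e) := by
    intro e _
    unfold Sim.Wc Sim.Zh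
    rw [mul_assoc, sum_mul, mul_sum]
    refine sum_congr rfl fun e' _ => ?_
    ring
  rw [sum_congr rfl h1, mul_sum]

theorem Sim.sum_Wc_RV (W : Sim V) (f : (V → V) → ℝ) (a : List V) :
    ∑ e ∈ envs a, ∑ e' ∈ envs a, W.Wc a e e' * (Dl f a e - W.g f a) ^ 2 = W.RV f a :=
  W.sum_Wc a _

/-- **One level of the recursion.** -/
theorem stXi_of (h0 : StT0 V) (hL : StTL V) (hR : StTR V) (hS : StTS V) (hB : StB V) : StXi V := by
  intro W f
  have key : ∀ a ∈ paths2 V, W.Rh a.1 * W.xi f a.1 ^ 2 ≤
      3 * (∑ e ∈ envs a.1, ∑ e' ∈ envs a.1, W.Wc a.1 e e' *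
          (Dl f (W.spl a.1).1 (eL1 (W.spl a.1).1 (W.spl a.1).2 e) - W.g f (W.spl a.1).1) ^ 2) +
      3 * (∑ e ∈ envs a.1, ∑ e' ∈ envs a.1, W.Wc a.1 e e' *
          (Dl f (W.spl a.1).2 (eR1 (W.spl a.1).1 (W.spl a.1).2 e) - W.g f (W.spl a.1).2) ^ 2) +
      3 * (∑ e ∈ envs a.1, ∑ e' ∈ envs a.1, W.Wc a.1 e e' *
          (f (S1 (W.spl a.1).1 (W.spl a.1).2 e) - f (S2 (W.spl a.1).1 (W.spl a.1).2 e)) ^ 2) := by
    intro a ha
    have ha2 : 2 ≤ a.1.length := (mem_filter.1 ha).2
    have happ := Dec.spl_append W a.1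
    obtain ⟨hne1, hne2⟩ := Dec.spl_ne W a.1 ha2
    have hT : ∀ e ∈ envs a.1, Dl f a.1 e =
        Dl f (W.spl a.1).1 (eL1 (W.spl a.1).1 (W.spl a.1).2 e) +
        sg (W.spl a.1).1 * Dl f (W.spl a.1).2 (eR1 (W.spl a.1).1 (W.spl a.1).2 e) +
        (f (S1 (W.spl a.1).1 (W.spl a.1).2 e) - f (S2 (W.spl a.1).1 (W.spl a.1).2 e)) := by
      intro e he
      have := h0 f (W.spl a.1).1 (W.spl a.1).2 e (by rw [happ]; exact a.2) hne1 hne2
        (by rw [happ]; exact mem_envs.1 he)
      rwa [happ] at this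
    set p := (W.spl a.1).1
    set q := (W.spl a.1).2
    rw [W.sum_Wc, W.sum_Wc, W.sum_Wc]
    have hsg : sg p ^ 2 = 1 := by
      unfold sg
      split_ifs <;> norm_num
    -- the mean of the three errors
    set t : V × (V → V) → ℝ := fun e => (Dl f p (eL1 p q e) - W.g f p) +
      sg p * (Dl f q (eR1 p q e) - W.g f q) + (f (S1 p q e) - f (S2 p q e)) with ht
    have hxi : W.Zh a.1 * W.xi f a.1 = ∑ e ∈ envs a.1, W.om a.1 e * t e := by
      rcases eq_or_ne (W.Zh a.1) 0 with hz | hz
      · rw [hz, zero_mul]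
        symm
        refine sum_eq_zero fun e he => ?_
        exfalso
        have h1 : W.om a.1 e ≤ W.Zh a.1 :=
          single_le_sum (f := fun e => W.om a.1 e) (fun e _ => (W.om_pos a.1 e).le) he
        have h2 := W.om_pos a.1 e
        rw [hz] at h1
        linarith only [h1, h2]
      · have h1 : W.Zh a.1 * W.g f a.1 = ∑ e ∈ envs a.1, W.om a.1 e * Dl f a.1 e := by
          unfold Sim.g
          (clear * - hz; field_simp)
        have h2 : ∑ e ∈ envs a.1, W.om a.1 e * t e = ∑ e ∈ envs a.1, W.om a.1 e * Dl f a.1 e -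
            W.Zh a.1 * (W.g f p + sg p * W.g f q) := by
          have h3 : W.Zh a.1 * (W.g f p + sg p * W.g f q) =
              ∑ e ∈ envs a.1, W.om a.1 e * (W.g f p + sg p * W.g f q) := by
            rw [← sum_mul]
            rfl
          rw [h3, ← sum_sub_distrib]
          refine sum_congr rfl fun e he => ?_
          rw [hT e he, ht]
          ring
        rw [h2, ← h1]
        unfold Sim.xi
        ring
    have hcs : (∑ e ∈ envs a.1, W.om a.1 e * t e) ^ 2 ≤
        W.Zh a.1 * ∑ e ∈ envs a.1, W.om a.1 e * t e ^ 2 := by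
      have := sum_sq_le_sum_mul_sum_of_sq_le_mul (envs a.1) (r := fun e => W.om a.1 e * t e)
        (f := fun e => W.om a.1 e) (g := fun e => W.om a.1 e * t e ^ 2)
        (fun e _ => (W.om_pos a.1 e).le)
        (fun e _ => mul_nonneg (W.om_pos a.1 e).le (sq_nonneg _)) (fun e _ => le_of_eq (by ring))
      exact this
    have ht3 : ∑ e ∈ envs a.1, W.om a.1 e * t e ^ 2 ≤
        3 * (∑ e ∈ envs a.1, W.om a.1 e * (Dl f p (eL1 p q e) - W.g f p) ^ 2) +
        3 * (∑ e ∈ envs a.1, W.om a.1 e * (Dl f q (eR1 p q e) - W.g f q) ^ 2) +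
        3 * (∑ e ∈ envs a.1, W.om a.1 e * (f (S1 p q e) - f (S2 p q e)) ^ 2) := by
      rw [mul_sum, mul_sum, mul_sum, ← sum_add_distrib, ← sum_add_distrib]
      refine sum_le_sum fun e _ => ?_
      have h1 := (W.om_pos a.1 e).le
      have h2 : t e ^ 2 ≤ 3 * (Dl f p (eL1 p q e) - W.g f p) ^ 2 +
          3 * (Dl f q (eR1 p q e) - W.g f q) ^ 2 + 3 * (f (S1 p q e) - f (S2 p q e)) ^ 2 := by
        rw [ht]
        simp only []
        set A := Dl f p (eL1 p q e) - W.g f p
        set B := Dl f q (eR1 p q e) - W.g f q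
        set C := f (S1 p q e) - f (S2 p q e)
        have h3 : (sg p * B) ^ 2 = B ^ 2 := by rw [mul_pow, hsg, one_mul]
        nlinarith only [h3, sq_nonneg (A - C), sq_nonneg (sg p * B - C)]
      calc W.om a.1 e * t e ^ 2 ≤ W.om a.1 e * (3 * (Dl f p (eL1 p q e) - W.g f p) ^ 2 +
          3 * (Dl f q (eR1 p q e) - W.g f q) ^ 2 + 3 * (f (S1 p q e) - f (S2 p q e)) ^ 2) :=
            mul_le_mul_of_nonneg_left h2 h1
        _ = _ := by ring
    have hpz : 0 ≤ W.pw a.1 * W.Zh a.1 := mul_nonneg (W.pw_pos _).le (W.Zh_nonneg _)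
    calc W.Rh a.1 * W.xi f a.1 ^ 2 = W.pw a.1 * (W.Zh a.1 * W.xi f a.1) ^ 2 := by
          unfold Sim.Rh
          ring
      _ = W.pw a.1 * (∑ e ∈ envs a.1, W.om a.1 e * t e) ^ 2 := by rw [hxi]
      _ ≤ W.pw a.1 * (W.Zh a.1 * ∑ e ∈ envs a.1, W.om a.1 e * t e ^ 2) :=
          mul_le_mul_of_nonneg_left hcs (W.pw_pos _).le
      _ = W.pw a.1 * W.Zh a.1 * ∑ e ∈ envs a.1, W.om a.1 e * t e ^ 2 := by ring
      _ ≤ W.pw a.1 * W.Zh a.1 *
          (3 * (∑ e ∈ envs a.1, W.om a.1 e * (Dl f p (eL1 p q e) - W.g f p) ^ 2) +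
          3 * (∑ e ∈ envs a.1, W.om a.1 e * (Dl f q (eR1 p q e) - W.g f q) ^ 2) +
          3 * (∑ e ∈ envs a.1, W.om a.1 e * (f (S1 p q e) - f (S2 p q e)) ^ 2)) :=
          mul_le_mul_of_nonneg_left ht3 hpz
      _ = _ := by ring
  have hsum := sum_le_sum key
  rw [sum_add_distrib, sum_add_distrib, ← mul_sum, ← mul_sum, ← mul_sum] at hsum
  have e1 := hL W (fun b e => (Dl f b e - W.g f b) ^ 2) (fun _ _ => sq_nonneg _)
  have e2 := hR W (fun b e => (Dl f b e - W.g f b) ^ 2) (fun _ _ => sq_nonneg _)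
  have e3 := hS W f
  have e4 := hB W f
  simp only [W.sum_Wc_RV] at e1 e2
  have hN1 : (1 : ℝ) ≤ ((Fintype.card V + 2 : ℕ) : ℝ) := by
    push_cast
    linarith only []
  have hI1 : (1 : ℝ) ≤ 1 / W.ε := by
    rw [le_div_iff₀ W.ε_pos]
    linarith only [W.ε_le]
  set N : ℝ := ((Fintype.card V + 2 : ℕ) : ℝ)
  set I : ℝ := 1 / W.ε
  have hX : 0 ≤ W.Ex0 f + W.Ex1 f := add_nonneg (W.Ex0_nonneg f) (W.Ex1_nonneg f)
  have hE : 0 ≤ W.Z * W.Eloc f := mul_nonneg W.Z_nonneg (W.Eloc_nonneg f)
  have c1 : N ^ 2 * I ^ 2 * ∑ a : NL V, W.RV f a.1 ≤ N ^ 8 * I ^ 4 * (W.Ex0 f + W.Ex1 f) := by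
    calc N ^ 2 * I ^ 2 * ∑ a : NL V, W.RV f a.1 ≤ N ^ 2 * I ^ 2 * (I ^ 2 * (W.Ex0 f + W.Ex1 f)) :=
          mul_le_mul_of_nonneg_left e4 (by (clear * - hI1; positivity))
      _ = N ^ 2 * I ^ 4 * (W.Ex0 f + W.Ex1 f) := by ring
      _ ≤ N ^ 8 * I ^ 4 * (W.Ex0 f + W.Ex1 f) := by
          gcongr
          norm_num
  have c2 : N ^ 8 * I ^ 3 * (W.Z * W.Eloc f) ≤ N ^ 8 * I ^ 4 * (W.Z * W.Eloc f) := by
    gcongr
    norm_num
  have d1 := le_trans e1 c1
  have d2 := le_trans e2 c1
  have d3 := le_trans e3 c2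
  have hM : 0 ≤ N ^ 8 * I ^ 4 := by (clear * - hI1; positivity)
  have hM1 := mul_nonneg hM hX
  have hM2 := mul_nonneg hM hE
  calc ∑ a ∈ paths2 V, W.Rh a.1 * W.xi f a.1 ^ 2 ≤ _ := hsum
    _ ≤ 3 * (N ^ 8 * I ^ 4 * (W.Ex0 f + W.Ex1 f)) + 3 * (N ^ 8 * I ^ 4 * (W.Ex0 f + W.Ex1 f)) +
        3 * (N ^ 8 * I ^ 4 * (W.Z * W.Eloc f)) := by linarith only [e3, e1, e2, c1, c2]
    _ ≤ 9 * N ^ 8 * I ^ 4 * (W.Z * W.Eloc f + W.Ex0 f + W.Ex1 f) := by nlinarith only [hM1, hM2]

end Vale.Agent.P308.Lin
end

section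

end

section

end

section

/-!
# Theorem 1 from its four parts (P308, Part 1b)
-/

set_option linter.unusedSectionVars false

namespace Vale.Agent.P308.Lin

open Finset
open Vale.Agent.P308.Soft (Cp mem_Cp self_mem_Cp Cp_left Cp_right Cp_trans Cp_symm)

variable {V : Type*} [Fintype V] [DecidableEq V]

namespace Mn

/-- an even walk pairs its vertices by its first matching -/
theorem pL_orb {J K : V → V} (hJ : ∀ v, J (J v) = v) : ∀ (m : ℕ) (x : V), m % 2 = 0 →
    ∀ v ∈ orb J K x m, pL (orb J K x m) v = J v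
  | 0, x, _, v, hv => by simp at hv
  | 1, x, h, _, _ => by simp at h
  | m + 2, x, h, v, hv => by
    have e : orb J K x (m + 2) = x :: J x :: orb J K (K (J x)) m := rfl
    rw [e] at hv ⊢
    rw [pL_cons2]
    by_cases h1 : v = x
    · rw [if_pos h1, h1]
    by_cases h2 : v = J x
    · rw [if_neg h1, if_pos h2, h2, hJ]
    · rw [if_neg h1, if_neg h2]
      refine pL_orb hJ m _ (by omega) v ?_
      simp only [List.mem_cons] at hv
      (clear * - hv h1 h2; tauto)

theorem orb_succ_last (J K : V → V) : ∀ (m : ℕ) (x : V),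
    orb J K x (m + 1) = orb J K x m ++ [Wk.pos J K m x]
  | 0, x => rfl
  | m + 1, x => by
    show x :: orb K J (J x) (m + 1) = x :: orb K J (J x) m ++ [Wk.pos J K (m + 1) x]
    rw [orb_succ_last K J m (J x)]
    rfl

/-- the rotated closed walk -/
theorem rotate_orb {J K : V → V} {m : ℕ} {x : V} (hm : 0 < m) (hc : Wk.pos J K m x = x) :
    (orb J K x m).rotate 1 = orb K J (J x) m := by
  obtain ⟨k, rfl⟩ : ∃ k, m = k + 1 := ⟨m - 1, by omega⟩
  rw [orb_succ_last K J k (J x)]
  have : Wk.pos K J k (J x) = x := hc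
  rw [this]
  show (x :: orb K J (J x) k).rotate 1 = _
  rw [List.rotate_cons_succ, List.rotate_zero]

/-- `a` is the component of `t` in the superposition of `J` and `K`, cut at a weakest edge, which
belongs to `K`. -/
structure Top (W : Sim V) (J K : V → V) (t : V) (a : List V) : Prop where
  ne : a ≠ []
  nd : a.Nodup
  even : a.length % 2 = 0
  walk : ∃ x, a = orb J K x a.length ∧ Wk.pos J K a.length x = x
  set_eq : a.toFinset = Cp J K t
  weak : ∀ x y, a.head? = some x → a.getLast? = some y → W.c y x ≤ W.cm a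

theorem exists_min_edge (W : Sim V) (J K : V → V) (t : V) :
    ∃ w ∈ Cp J K t, (∀ v ∈ Cp J K t, W.c w (K w) ≤ W.c v (K v) ∧ W.c w (K w) ≤ W.c v (J v)) ∨
      (∀ v ∈ Cp J K t, W.c w (J w) ≤ W.c v (K v) ∧ W.c w (J w) ≤ W.c v (J v)) := by
  have hne : (Cp J K t).Nonempty := ⟨t, self_mem_Cp _ _ _⟩
  obtain ⟨w1, h1, h1'⟩ := exists_min_image (Cp J K t) (fun v => W.c v (K v)) hne
  obtain ⟨w2, h2, h2'⟩ := exists_min_image (Cp J K t) (fun v => W.c v (J v)) hne
  rcases le_total (W.c w1 (K w1)) (W.c w2 (J w2)) with h | h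
  · exact ⟨w1, h1, Or.inl fun v hv => ⟨h1' v hv, le_trans h (h2' v hv)⟩⟩
  · exact ⟨w2, h2, Or.inr fun v hv => ⟨le_trans h (h1' v hv), h2' v hv⟩⟩

theorem le_cm_orb (W : Sim V) {b : ℝ} : ∀ (J K : V → V) (m : ℕ) (x : V),
    (∀ i < m, b ≤ W.c (Wk.pos J K i x) (Wk.sg J K i (Wk.pos J K i x))) →
    0 < m → b ≤ W.cm (orb J K x m)
  | J, K, 0, x, _, h => absurd h (lt_irrefl _)
  | J, K, 1, x, h, _ => by
    show b ≤ W.c x x
    exact le_trans (h 0 one_pos) (W.c_diag _ _)
  | J, K, m + 2, x, h, _ => by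
    show b ≤ min (W.c x (J x)) (W.cm (orb K J (J x) (m + 1)))
    refine le_min ?_ ?_
    · have := h 0 (by omega)
      simpa only [ge_iff_le, Wk.pos_zero, Wk.sg, Even.zero, ↓reduceIte] using this
    · refine le_cm_orb W K J (m + 1) (J x) (fun i hi => ?_) (by omega)
      have := h (i + 1) (by omega)
      have e : Wk.sg J K (i + 1) = Wk.sg K J i := by
        unfold Wk.sg
        by_cases h : Even i
        · simp only [Nat.even_add_one, h, not_true_eq_false, ↓reduceIte]
        · simp only [Nat.even_add_one, h, not_false_eq_true, ↓reduceIte]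
      rw [e] at this
      exact this

theorem Cp_eq_of_mem {I F : V → V} (hI : ∀ v, I (I v) = v) (hF : ∀ v, F (F v) = v) {v x : V}
    (h : x ∈ Cp I F v) : Cp I F x = Cp I F v := by
  ext y
  exact ⟨fun hy => Cp_trans h hy, fun hy => Cp_trans (Cp_symm hI hF h) hy⟩

theorem Cp_comm' (f g : V → V) (a : V) : Cp f g a = Cp g f a := by
  ext v
  rw [mem_Cp, mem_Cp]
  constructor <;>
  · intro h
    exact Relation.ReflTransGen.mono (fun x y hxy => hxy.symm) _ _ h

theorem sg_cases (J K : V → V) (i : ℕ) : Wk.sg J K i = J ∨ Wk.sg J K i = K := by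
  unfold Wk.sg
  split_ifs
  · exact Or.inl rfl
  · exact Or.inr rfl

theorem top_of (W : Sim V) {J K : V → V} (hJ : IsPM J) (hK : IsPM K) {t w : V}
    (hw : w ∈ Cp J K t)
    (hmin : ∀ v ∈ Cp J K t, W.c w (K w) ≤ W.c v (K v) ∧ W.c w (K w) ≤ W.c v (J v)) :
    ∃ a, Top W J K t a := by
  obtain ⟨m, hm, hm0, hnd, hcl, hset⟩ := Wk.exists_closed_orb hJ.1 hK.1 hJ.2 hK.2 w
  rw [Cp_eq_of_mem hJ.1 hK.1 hw] at hset
  have hlen : (orb J K w m).length = m := Wk.length_orb _ _ _ _
  have hmem : ∀ i < m, Wk.pos J K i w ∈ Cp J K t := fun i hi => by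
    rw [← hset, List.mem_toFinset]
    exact Wk.mem_orb.2 ⟨i, hi, rfl⟩
  have hcm : W.c w (K w) ≤ W.cm (orb J K w m) := by
    refine le_cm_orb W J K m w (fun i hi => ?_) hm0
    rcases sg_cases J K i with h | h
    · rw [h]; exact (hmin _ (hmem i hi)).2
    · rw [h]; exact (hmin _ (hmem i hi)).1
  refine ⟨orb J K w m, ?_, hnd, ?_, ⟨w, by rw [hlen], by rw [hlen]; exact hcl⟩, hset, ?_⟩
  · intro h
    rw [h] at hlen
    simp at hlen
    omega
  · rw [hlen]
    exact Nat.even_iff.1 hm
  · intro x y hx hy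
    obtain ⟨k, rfl⟩ : ∃ k, m = k + 1 := ⟨m - 1, by omega⟩
    have hx' : x = w := by
      have : (orb J K w (k + 1)).head? = some w := rfl
      rw [this] at hx
      exact (Option.some.inj hx).symm
    have hy' : y = Wk.pos J K k w := by
      rw [orb_succ_last, List.getLast?_append] at hy
      simpa using hy.symm
    have h3 := Wk.sg_pos hJ.1 hK.1 k w
    rw [hcl] at h3
    have h4 : Wk.sg J K k = K := by
      unfold Wk.sg
      rw [if_neg]
      rw [Nat.even_iff] at hm ⊢
      omega
    rw [h4] at h3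
    rw [hx', hy', ← h3, W.c_symm]
    exact hcm

theorem exists_top (W : Sim V) {J K : V → V} (hJ : IsPM J) (hK : IsPM K) (t : V) :
    ∃ a, Top W J K t a ∨ Top W K J t a := by
  obtain ⟨w, hw, h | h⟩ := exists_min_edge W J K t
  · obtain ⟨a, ha⟩ := top_of W hJ hK hw h
    exact ⟨a, Or.inl ha⟩
  · rw [Cp_comm'] at hw h
    obtain ⟨a, ha⟩ := top_of W hK hJ hw (fun v hv => ⟨(h v hv).2, (h v hv).1⟩)
    exact ⟨a, Or.inr ha⟩

variable {W : Sim V} {J K : V → V} {t : V} {a : List V}

theorem Top.pL_eq (h : Top W J K t a) (hJ : IsPM J) {v : V} (hv : v ∈ a) : pL a v = J v := by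
  obtain ⟨x, hx, _⟩ := h.walk
  rw [hx] at hv ⊢
  exact pL_orb hJ.1 _ _ h.even v hv

theorem Top.pL_rot (h : Top W J K t a) (hK : IsPM K) {v : V} (hv : v ∈ a) :
    pL (a.rotate 1) v = K v := by
  obtain ⟨x, hx, hc⟩ := h.walk
  have hr : a.rotate 1 = orb K J (J x) a.length := by
    conv_lhs => rw [hx]
    exact rotate_orb (List.length_pos_iff.2 h.ne) hc
  have hv' : v ∈ a.rotate 1 := by rwa [List.mem_rotate]
  rw [hr] at hv' ⊢
  exact pL_orb hK.1 _ _ h.even v hv'

/-- the environment: `J` outside `a`, the identity on `a` -/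
def out (a : List V) (J : V → V) : V → V := fun v => if v ∈ a then v else J v

theorem Top.J_mem (h : Top W J K t a) {v : V} (hv : v ∈ a) : J v ∈ a := by
  rw [← List.mem_toFinset, h.set_eq] at hv ⊢
  exact Cp_left hv

theorem Top.K_mem (h : Top W J K t a) {v : V} (hv : v ∈ a) : K v ∈ a := by
  rw [← List.mem_toFinset, h.set_eq] at hv ⊢
  exact Cp_right hv

theorem isEnv_out (ne : a ≠ []) (even : a.length % 2 = 0) (hJ : IsPM J)
    (hm : ∀ v ∈ a, J v ∈ a) : IsEnv a (hd a t, out a J) := by
  refine ⟨fun v => ?_, Or.inl ⟨even, ?_, fun v => ?_⟩⟩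
  · unfold out
    by_cases hv : v ∈ a
    · simp [hv]
    · have hv' : J v ∉ a := fun h' => hv (by have := hm _ h'; rwa [hJ.1] at this)
      simp [hv, hv', hJ.1]
  · unfold hd
    rw [List.head?_eq_some_head ne]
    rfl
  · unfold out
    by_cases hv : v ∈ a
    · simp [hv]
    · simp only [hv, if_false, iff_false]
      exact hJ.2 v

theorem Top.M1_J (h : Top W J K t a) (hJ : IsPM J) : M1 a (out a J) = J := by
  funext v
  by_cases hv : v ∈ a
  · rw [M1_mem hv, h.pL_eq hJ hv]
  · rw [M1_notMem hv]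
    simp [out, hv]

theorem Top.M0_K (h : Top W J K t a) (hK : IsPM K) : M0 a (out a K) = K := by
  funext v
  unfold M0 un
  by_cases hv : v ∈ a
  · rw [if_pos hv, h.pL_rot hK hv]
  · rw [if_neg hv]
    simp [out, hv]

theorem Top.M0_J (h : Top W J K t a) (hK : IsPM K) :
    M0 a (out a J) = fun v => if v ∈ Cp J K t then K v else J v := by
  funext v
  unfold M0 un
  rw [← h.set_eq]
  simp only [List.mem_toFinset]
  by_cases hv : v ∈ a
  · rw [if_pos hv, if_pos hv, h.pL_rot hK hv]
  · rw [if_neg hv, if_neg hv]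
    simp [out, hv]

theorem Top.M1_K (h : Top W J K t a) (hJ : IsPM J) :
    M1 a (out a K) = fun v => if v ∈ Cp K J t then J v else K v := by
  funext v
  rw [Cp_comm', ← h.set_eq]
  simp only [List.mem_toFinset]
  by_cases hv : v ∈ a
  · rw [M1_mem hv, if_pos hv, h.pL_eq hJ hv]
  · rw [M1_notMem hv, if_neg hv]
    simp [out, hv]

theorem out_fix (a : List V) (J : V → V) : ∀ v ∈ a, out a J v = v := fun v hv => by
  simp [out, hv]

theorem pr_rotate (W : Sim V) {a : List V} {x y : V} (even : a.length % 2 = 0)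
    (hx : a.head? = some x) (hy : a.getLast? = some y) :
    W.pr (a.rotate 1) = W.pr a.tail * W.lam y x := by
  cases a with
  | nil => simp at hx
  | cons z l =>
    have hzx : z = x := by simpa using hx
    subst hzx
    rw [List.rotate_cons_succ, List.rotate_zero, List.tail_cons]
    have hl : l.length % 2 = 1 := by
      simp at even
      omega
    have hne : l ≠ [] := by
      rintro rfl
      simp only [List.length_nil, Nat.zero_mod, zero_ne_one] at hl
    obtain ⟨l', y', rfl⟩ : ∃ l' y', l = l' ++ [y'] :=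
      ⟨l.dropLast, l.getLast hne, (List.dropLast_append_getLast hne).symm⟩
    have hy' : y' = y := by
      have : (z :: (l' ++ [y'])).getLast? = some y' := by
        rw [show z :: (l' ++ [y']) = (z :: l') ++ [y'] from rfl, List.getLast?_append]
        rfl
      rw [this] at hy
      exact Option.some.inj hy
    subst hy'
    have hl' : l'.length % 2 = 0 := by
      simp at hl
      omega
    rw [List.append_assoc, W.pr_append_even hl', W.pr_append_even hl']
    show W.pr l' * (W.lam y' z * W.pr []) = W.pr l' * 1 * W.lam y' z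
    simp [Sim.pr]

/-- the weight of the pair is at most the weight of the configuration -/
theorem Top.wt_le (h : Top W J K t a) (hJ : IsPM J) (hK : IsPM K) :
    W.wt J * W.wt K ≤ W.Wc a (hd a t, out a J) (hd a t, out a K) := by
  obtain ⟨x, hx⟩ : ∃ x, a.head? = some x := ⟨_, List.head?_eq_some_head h.ne⟩
  obtain ⟨y, hy⟩ : ∃ y, a.getLast? = some y := ⟨_, List.getLast?_eq_some_getLast h.ne⟩
  have hrot : (a.rotate 1).Nodup := List.nodup_rotate.2 h.nd
  have e1 : W.wt J = W.pr a * W.wt (out a J) := by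
    conv_lhs => rw [← h.M1_J hJ]
    exact W.wt_M1 h.nd (out_fix a J)
  have e2 : W.wt K = W.pr a.tail * W.lam y x * W.wt (out a K) := by
    conv_lhs => rw [← h.M0_K hK, M0_eq]
    rw [W.wt_M1 hrot (fun v hv => out_fix a K v (by rwa [List.mem_rotate] at hv)),
      pr_rotate W h.even hx hy]
  have hyx : y ≠ x := by
    intro hyx
    subst hyx
    have hlen : 2 ≤ a.length := by
      have := List.length_pos_iff.2 h.ne
      have := h.even
      omega
    rw [List.head?_eq_getElem?] at hx
    rw [List.getLast?_eq_getElem?] at hy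
    have := (List.getElem?_inj (by omega) h.nd).1 (hx.trans hy.symm)
    omega
  have h3 : W.lam y x ≤ W.cm a := le_trans (W.lam_le hyx) (h.weak x y hx hy)
  have h4 : Real.sqrt (W.cm a) * Real.sqrt (W.cm a) = W.cm a :=
    Real.mul_self_sqrt (W.cm_pos a).le
  have e3 : W.Wc a (hd a t, out a J) (hd a t, out a K) =
      W.pw a * (W.cm a * (W.wt (out a J) * W.wt (out a K))) := by
    unfold Sim.Wc Sim.om
    rw [if_pos h.even]
    calc W.pw a * (Real.sqrt (W.cm a) * W.wt (out a J) * (Real.sqrt (W.cm a) * W.wt (out a K)))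
        = W.pw a * ((Real.sqrt (W.cm a) * Real.sqrt (W.cm a)) *
            (W.wt (out a J) * W.wt (out a K))) := by ring
      _ = _ := by rw [h4]
  rw [e1, e2, e3, ← W.pr_mul_tail a]
  have p1 := W.pr_pos a
  have p2 := W.pr_pos a.tail
  have p3 := W.wt_pos (out a J)
  have p4 := W.wt_pos (out a K)
  calc W.pr a * W.wt (out a J) * (W.pr a.tail * W.lam y x * W.wt (out a K))
      = W.pr a * W.pr a.tail * (W.lam y x * (W.wt (out a J) * W.wt (out a K))) := by ring
    _ ≤ W.pr a * W.pr a.tail * (W.cm a * (W.wt (out a J) * W.wt (out a K))) := by (clear * - h3 p3 p4 p1 p2; gcongr)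

theorem Top.good (h : Top W J K t a) (hJ : IsPM J) (hK : IsPM K) : Good W J K a := by
  obtain ⟨x, hx, hc⟩ := h.walk
  have hpos : 0 < a.length := List.length_pos_iff.2 h.ne
  have hx0 : ∀ z, a.head? = some z → z = x := by
    intro z hz
    rw [hx] at hz
    obtain ⟨k, hk⟩ : ∃ k, a.length = k + 1 := ⟨a.length - 1, by omega⟩
    rw [hk] at hz
    exact (Option.some.inj hz).symm
  have hsg : Wk.sg J K (a.length - 1) = K := by
    have := h.even
    unfold Wk.sg
    rw [if_neg]
    rw [Nat.even_iff]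
    omega
  have hlast : ∀ y, a.getLast? = some y → y = K x ∧ K y = x := by
    intro y hy
    have h1 : y = Wk.pos J K (a.length - 1) x := by
      rw [List.getLast?_eq_getElem?, List.getElem?_eq_some_iff] at hy
      obtain ⟨h2, hy⟩ := hy
      rw [← hy]
      have : a[a.length - 1] = (orb J K x a.length)[a.length - 1]'(by
          rw [Wk.length_orb]; omega) := by
        congr 1
      rw [this, Wk.getElem_orb]
    have h2 := Wk.sg_pos hJ.1 hK.1 (a.length - 1) x
    rw [Nat.sub_add_cancel hpos, hc, hsg, ← h1] at h2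
    exact ⟨h2.symm, by rw [← h2, hK.1]⟩
  refine ⟨h.ne, h.nd, ⟨x, hx⟩, ?_, ?_⟩
  · intro z hz
    obtain ⟨y, hy⟩ : ∃ y, a.getLast? = some y := ⟨_, List.getLast?_eq_some_getLast h.ne⟩
    have := h.weak z y hz hy
    rw [(hlast y hy).1, ← hx0 z hz] at this
    exact this
  · intro y hy
    rw [if_pos h.even, (hlast y hy).2]
    have hz : a.head? = some x := by
      rw [List.head?_eq_some_head h.ne]
      congr 1
      exact hx0 _ (List.head?_eq_some_head h.ne)
    exact h.weak x y hz hy

end Mn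

end Vale.Agent.P308.Lin
end

section

/-!
# Theorem 1: assembly (P308, Part 1b)
-/

set_option linter.unusedSectionVars false

namespace Vale.Agent.P308.Lin

open Finset
open Vale.Agent.P308.Soft (Cp mem_Cp self_mem_Cp Cp_left Cp_right Cp_trans Cp_symm)

variable {V : Type*} [Fintype V] [DecidableEq V]

namespace Mn

/-- the effect of a path with one vertex -/
theorem Dl_one (f : (V → V) → ℝ) (x : V) (e : V × (V → V)) : Dl f [x] e = 0 := by
  unfold Dl
  have h1 : cmp [x] e.1 = [x, e.1] := by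
    unfold cmp
    simp only [List.length_cons, List.length_nil, zero_add, Nat.mod_succ, one_ne_zero, ↓reduceIte, List.cons_append, List.nil_append]
  have h2 : M0 [x, e.1] e.2 = M1 [x, e.1] e.2 := by
    funext v
    unfold M0 M1 un
    have h3 : ([x, e.1] : List V).rotate 1 = [e.1, x] := rfl
    rw [h3, pL_cons2, pL_cons2]
    by_cases hx : v = x
    · subst hx
      by_cases he : v = e.1
      · simp [← he]
      · simp [he]
    · by_cases he : v = e.1
      · simp only [he, if_true]
        split_ifs with h5 <;> simp_all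
      · simp [hx, he]
  rw [h1, h2, sub_self]

theorem g_one (W : Sim V) (f : (V → V) → ℝ) (x : V) : W.g f [x] = 0 := by
  unfold Sim.g
  rw [sum_eq_zero, zero_div]
  intro e _
  rw [Dl_one, mul_zero]

/-- the decomposition of a path -/
theorem exists_dec (W : Sim V) (f : (V → V) → ℝ) : ∀ (n : ℕ) (b : List V), b.length ≤ n →
    b.Nodup → b ≠ [] → ∃ L : List (List V), L.length + 1 ≤ 2 * b.length ∧
      |W.g f b| ≤ (L.map fun c => |W.xi f c|).sum ∧ (∀ c ∈ L, c.Nodup ∧ 2 ≤ c.length) ∧
      ∀ J K : V → V, (∀ v, J (J v) = v) → (∀ v, K (K v) = v) → Good W J K b →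
        ∀ c ∈ L, Good W J K c ∨ Good W K J c
  | 0, b, hb, _, hne => absurd (List.length_eq_zero_iff.1 (Nat.le_zero.1 hb)) hne
  | n + 1, b, hb, hnd, hne => by
    have hpos : 0 < b.length := List.length_pos_iff.2 hne
    by_cases h2 : 2 ≤ b.length
    · have hc := Dec.spl_cut W hnd h2
      have happ := Dec.spl_append W b
      have hlen : (W.spl b).1.length + (W.spl b).2.length = b.length := by
        rw [← List.length_append, happ]
      have hp0 : 0 < (W.spl b).1.length := List.length_pos_iff.2 hc.ne'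
      have hq0 : 0 < (W.spl b).2.length := List.length_pos_iff.2 hc.ne''
      have hnd' := List.nodup_append.1 hc.nd
      obtain ⟨L1, l1, g1, n1, i1⟩ := exists_dec W f n (W.spl b).1 (by omega) hnd'.1 hc.ne'
      obtain ⟨L2, l2, g2, n2, i2⟩ := exists_dec W f n (W.spl b).2 (by omega) hnd'.2.1 hc.ne''
      refine ⟨b :: (L1 ++ L2), ?_, ?_, ?_, ?_⟩
      · simp only [List.length_cons, List.length_append]
        omega
      · rw [List.map_cons, List.sum_cons, List.map_append, List.sum_append]
        have hx : W.g f b = W.xi f b + W.g f (W.spl b).1 + sg (W.spl b).1 * W.g f (W.spl b).2 := by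
          unfold Sim.xi
          ring
        have hs : |sg (W.spl b).1 * W.g f (W.spl b).2| = |W.g f (W.spl b).2| := by
          unfold sg
          split_ifs <;> simp
        rw [hx]
        refine le_trans (abs_add_le _ _) ?_
        rw [hs]
        have := abs_add_le (W.xi f b) (W.g f (W.spl b).1)
        linarith only [g1, g2, this]
      · intro c hcL
        rw [List.mem_cons, List.mem_append] at hcL
        rcases hcL with rfl | h | h
        · exact ⟨hnd, h2⟩
        · exact n1 c h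
        · exact n2 c h
      · intro J K hJ hK hg c hcL
        rw [List.mem_cons, List.mem_append] at hcL
        rw [← happ] at hg
        obtain ⟨hg1, hg2⟩ := Dec.Good.cut hJ hK hg hc
        rcases hcL with rfl | h | h
        · rw [happ] at hg
          exact Or.inl hg
        · exact i1 J K hJ hK hg1 c h
        · split_ifs at hg2
          · exact i2 J K hJ hK hg2 c h
          · exact (i2 K J hK hJ hg2 c h).symm
    · refine ⟨[], by simp only [List.length_nil]; omega, ?_, by simp only [List.not_mem_nil, IsEmpty.forall_iff, implies_true], by simp only [List.not_mem_nil, IsEmpty.forall_iff, implies_true]⟩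
      obtain ⟨x, rfl⟩ : ∃ x, b = [x] := List.length_eq_one_iff.1 (by omega)
      rw [g_one]
      simp only [abs_zero, List.map_nil, List.sum_nil, Std.le_refl]

theorem sq_sum_le (L : List (List V)) (t : List V → ℝ) :
    (L.map fun c => |t c|).sum ^ 2 ≤ L.length * (L.map fun c => t c ^ 2).sum := by
  induction L with
  | nil => simp
  | cons c L ih =>
    simp only [List.map_cons, List.sum_cons, List.length_cons]
    push_cast
    set S := (L.map fun c => |t c|).sum
    set Q := (L.map fun c => t c ^ 2).sum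
    have hc : |t c| ^ 2 = t c ^ 2 := sq_abs _
    rcases Nat.eq_zero_or_pos L.length with h0 | h0
    · have hL : L = [] := List.length_eq_zero_iff.1 h0
      have hS : S = 0 := by simp [S, hL]
      have hQ : Q = 0 := by simp [Q, hL]
      rw [hS, hQ, h0]
      simp
    · have hl : (0 : ℝ) < L.length := by exact_mod_cast h0
      set l : ℝ := (L.length : ℝ)
      -- 2 |t| S ≤ l t² + S² / l ≤ l t² + Q
      have h1 : S ^ 2 / l ≤ Q := by
        rw [div_le_iff₀ hl]
        linarith only [ih]
      have h2 : 2 * |t c| * S ≤ l * t c ^ 2 + S ^ 2 / l := by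
        rw [← hc]
        have h3 : 0 ≤ (l * |t c| - S) ^ 2 / l := by (clear * - h0; positivity)
        have h4 : (l * |t c| - S) ^ 2 / l = l * |t c| ^ 2 - 2 * |t c| * S + S ^ 2 / l := by
          field_simp
          ring
        linarith
      linarith

theorem sum_le_card_mul (L : List (List V)) (t : List V → ℝ) (P : List V → Prop)
    [DecidablePred P] (ht : ∀ c, 0 ≤ t c) (hL : ∀ c ∈ L, (c.Nodup ∧ 2 ≤ c.length) ∧ P c) :
    (L.map t).sum ≤ L.length * ∑ c ∈ paths2 V, if P c.1 then t c.1 else 0 := by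
  have h : ∀ x ∈ L.map t, x ≤ ∑ c ∈ paths2 V, if P c.1 then t c.1 else 0 := by
    intro x hx
    obtain ⟨c, hc, rfl⟩ := List.mem_map.1 hx
    obtain ⟨⟨h1, h2⟩, h3⟩ := hL c hc
    have h4 : (⟨c, h1⟩ : NL V) ∈ paths2 V := by
      unfold paths2
      rw [mem_filter]
      exact ⟨mem_univ _, h2⟩
    have h5 := single_le_sum (f := fun c : NL V => if P c.1 then t c.1 else 0)
      (fun c _ => by
        show 0 ≤ if P c.1 then t c.1 else 0
        split_ifs
        · exact ht _
        · exact le_rfl) h4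
    simp only [if_pos h3] at h5
    exact h5
  have := List.sum_le_card_nsmul (L.map t) _ h
  rw [List.length_map, nsmul_eq_mul] at this
  exact this

open Classical in
/-- the square of the mean effect of the component of `t` -/
theorem g_sq_le (W : Sim V) (f : (V → V) → ℝ) {J K : V → V} (hJ : IsPM J) (hK : IsPM K)
    {b : List V} (hg : Good W J K b) :
    W.g f b ^ 2 ≤ (2 * Fintype.card V) ^ 2 *
      ∑ c ∈ paths2 V, if Good W J K c.1 ∨ Good W K J c.1 then W.xi f c.1 ^ 2 else 0 := by
  obtain ⟨L, h1, h2, h3, h4⟩ := exists_dec W f b.length b le_rfl hg.nd hg.ne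
  have hb : b.length ≤ Fintype.card V := hg.nd.length_le_card
  have hLn : (L.length : ℝ) ≤ 2 * Fintype.card V := by
    have : L.length ≤ 2 * Fintype.card V := by omega
    exact_mod_cast this
  have e1 : W.g f b ^ 2 ≤ (L.map fun c => |W.xi f c|).sum ^ 2 := by
    rw [← sq_abs]
    exact pow_le_pow_left₀ (abs_nonneg _) h2 2
  have e2 := sq_sum_le L (W.xi f)
  have e3 := sum_le_card_mul L (fun c => W.xi f c ^ 2) (fun c => Good W J K c ∨ Good W K J c)
    (fun c => sq_nonneg _) (fun c hc => ⟨h3 c hc, h4 J K hJ.1 hK.1 hg c hc⟩)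
  have hS : 0 ≤ ∑ c ∈ paths2 V, if Good W J K c.1 ∨ Good W K J c.1 then W.xi f c.1 ^ 2 else 0 :=
    sum_nonneg fun c _ => by split_ifs <;> positivity
  have hl0 : (0 : ℝ) ≤ L.length := Nat.cast_nonneg _
  calc W.g f b ^ 2 ≤ L.length * (L.length * ∑ c ∈ paths2 V,
        if Good W J K c.1 ∨ Good W K J c.1 then W.xi f c.1 ^ 2 else 0) :=
        le_trans e1 (le_trans e2 (mul_le_mul_of_nonneg_left e3 hl0))
    _ ≤ (2 * Fintype.card V) * ((2 * Fintype.card V) * ∑ c ∈ paths2 V,
        if Good W J K c.1 ∨ Good W K J c.1 then W.xi f c.1 ^ 2 else 0) := by (clear * - hLn; gcongr)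
    _ = _ := by ring

/-- the chosen top path and its orientation -/
theorem exists_choice (W : Sim V) (t : V) : ∃ T : (V → V) → (V → V) → List V × Bool,
    ∀ J K, IsPM J → IsPM K → ((T J K).2 = true ∧ Top W J K t (T J K).1) ∨
      ((T J K).2 = false ∧ Top W K J t (T J K).1) := by
  classical
  have : ∀ J K : V → V, ∃ T : List V × Bool, IsPM J → IsPM K →
      (T.2 = true ∧ Top W J K t T.1) ∨ (T.2 = false ∧ Top W K J t T.1) := by
    intro J K
    by_cases h : IsPM J ∧ IsPM K
    · obtain ⟨a, ha | ha⟩ := exists_top W h.1 h.2 t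
      · exact ⟨(a, true), fun _ _ => Or.inl ⟨rfl, ha⟩⟩
      · exact ⟨(a, false), fun _ _ => Or.inr ⟨rfl, ha⟩⟩
    · exact ⟨([], true), fun h1 h2 => absurd ⟨h1, h2⟩ h⟩
  choose T hT using this
  exact ⟨T, hT⟩

end Mn

open Mn

open Classical in
/-- one component -/
theorem flip_le (W : Sim V) (f : (V → V) → ℝ) {A B : ℕ} (hlaw : LawSt V A B) (t : V) :
    ∑ J ∈ pms V, ∑ K ∈ pms V, W.wt J * W.wt K *
      (f J - f (fun v => if v ∈ Cp J K t then K v else J v)) ^ 2 ≤
    4 * ∑ a : NL V, W.RV f a.1 + 4 * ((2 * Fintype.card V) ^ 2 *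
      (W.K A B * ∑ c ∈ paths2 V, W.Rh c.1 * W.xi f c.1 ^ 2)) := by
  obtain ⟨T, hT⟩ := exists_choice W t
  -- the environments
  set e1 : (V → V) → (V → V) → V × (V → V) := fun J K => (hd (T J K).1 t, out (T J K).1 J) with he1
  set e2 : (V → V) → (V → V) → V × (V → V) := fun J K => (hd (T J K).1 t, out (T J K).1 K) with he2
  -- pointwise bound
  have hpt : ∀ J ∈ pms V, ∀ K ∈ pms V, W.wt J * W.wt K *
      (f J - f (fun v => if v ∈ Cp J K t then K v else J v)) ^ 2 ≤
      2 * (W.Wc (T J K).1 (e1 J K) (e2 J K) *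
        (Dl f (T J K).1 (e1 J K) - W.g f (T J K).1) ^ 2) +
      2 * (W.wt J * W.wt K * W.g f (T J K).1 ^ 2) := by
    intro J hJ K hK
    rw [mem_pms] at hJ hK
    have hD : (f J - f (fun v => if v ∈ Cp J K t then K v else J v)) ^ 2 =
        Dl f (T J K).1 (e1 J K) ^ 2 := by
      rcases hT J K hJ hK with ⟨_, h⟩ | ⟨_, h⟩
      · have hcmp : cmp (T J K).1 (e1 J K).1 = (T J K).1 := by
          unfold cmp
          rw [if_pos h.even]
        unfold Dl
        rw [hcmp, he1]
        simp only []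
        rw [h.M1_J hJ, h.M0_J hK]
        ring
      · have hcmp : cmp (T J K).1 (e1 J K).1 = (T J K).1 := by
          unfold cmp
          rw [if_pos h.even]
        unfold Dl
        rw [hcmp, he1]
        simp only []
        rw [h.M0_K hJ, h.M1_K hK]
    have hw : W.wt J * W.wt K ≤ W.Wc (T J K).1 (e1 J K) (e2 J K) := by
      rcases hT J K hJ hK with ⟨_, h⟩ | ⟨_, h⟩
      · exact h.wt_le hJ hK
      · have := h.wt_le hK hJ
        rw [mul_comm] at this
        refine le_trans this (le_of_eq ?_)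
        unfold Sim.Wc
        rw [he1, he2]
        simp only []
        ring
    rw [hD]
    have h0 : 0 ≤ W.wt J * W.wt K := (mul_pos (W.wt_pos _) (W.wt_pos _)).le
    have h1 : Dl f (T J K).1 (e1 J K) ^ 2 ≤
        2 * (Dl f (T J K).1 (e1 J K) - W.g f (T J K).1) ^ 2 + 2 * W.g f (T J K).1 ^ 2 := by
      nlinarith only [sq_nonneg (Dl f (T J K).1 (e1 J K) - 2 * W.g f (T J K).1)]
    calc W.wt J * W.wt K * Dl f (T J K).1 (e1 J K) ^ 2
        ≤ W.wt J * W.wt K * (2 * (Dl f (T J K).1 (e1 J K) - W.g f (T J K).1) ^ 2 +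
          2 * W.g f (T J K).1 ^ 2) := mul_le_mul_of_nonneg_left h1 h0
      _ = 2 * (W.wt J * W.wt K * (Dl f (T J K).1 (e1 J K) - W.g f (T J K).1) ^ 2) +
          2 * (W.wt J * W.wt K * W.g f (T J K).1 ^ 2) := by ring
      _ ≤ _ := by
        have := mul_le_mul_of_nonneg_right hw
          (sq_nonneg (Dl f (T J K).1 (e1 J K) - W.g f (T J K).1))
        linarith
  -- the part with the variances
  have hA : ∑ J ∈ pms V, ∑ K ∈ pms V, W.Wc (T J K).1 (e1 J K) (e2 J K) *
      (Dl f (T J K).1 (e1 J K) - W.g f (T J K).1) ^ 2 ≤ 2 * ∑ a : NL V, W.RV f a.1 := by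
    set S : Finset ((V → V) × (V → V)) := pms V ×ˢ pms V with hS
    set Tt : Finset (List V × (V × (V → V)) × (V × (V → V))) :=
      (univ : Finset (NL V)).biUnion fun a =>
        (envs a.1 ×ˢ envs a.1).image fun p => (a.1, p.1, p.2) with hTt
    set Φ : (V → V) × (V → V) → List V × (V × (V → V)) × (V × (V → V)) :=
      fun p => ((T p.1 p.2).1, e1 p.1 p.2, e2 p.1 p.2) with hΦ
    set w' : List V × (V × (V → V)) × (V × (V → V)) → ℝ :=
      fun q => W.Wc q.1 q.2.1 q.2.2 * (Dl f q.1 q.2.1 - W.g f q.1) ^ 2 with hw'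
    have htr := transfer S Tt Φ (fun p => (T p.1 p.2).2) (fun p => w' (Φ p)) w' 1 zero_le_one
      (by
        rintro ⟨J, K⟩ hp
        rw [hS, mem_product, mem_pms, mem_pms] at hp
        obtain ⟨hJ, hK⟩ := hp
        simp only [] at hJ hK
        rw [hTt, mem_biUnion]
        have henv : (T J K).1.Nodup ∧ IsEnv (T J K).1 (e1 J K) ∧ IsEnv (T J K).1 (e2 J K) := by
          rcases hT J K hJ hK with ⟨_, h⟩ | ⟨_, h⟩
          · exact ⟨h.nd, isEnv_out h.ne h.even hJ (fun v hv => h.J_mem hv),
              isEnv_out h.ne h.even hK (fun v hv => h.K_mem hv)⟩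
          · exact ⟨h.nd, isEnv_out h.ne h.even hJ (fun v hv => h.K_mem hv),
              isEnv_out h.ne h.even hK (fun v hv => h.J_mem hv)⟩
        refine ⟨⟨(T J K).1, henv.1⟩, mem_univ _, mem_image.2 ⟨(e1 J K, e2 J K), ?_, rfl⟩⟩
        rw [mem_product, mem_envs, mem_envs]
        exact henv.2)
      (by
        rintro ⟨J, K⟩ hp ⟨J', K'⟩ hp' hΦe hm
        rw [hS, mem_product, mem_pms, mem_pms] at hp hp'
        obtain ⟨hJ, hK⟩ := hp
        obtain ⟨hJ', hK'⟩ := hp'
        simp only [] at hJ hK hJ' hK' hm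
        rw [hΦ] at hΦe
        simp only [he1, he2, Prod.mk.injEq] at hΦe
        obtain ⟨ha, ⟨_, hE⟩, ⟨_, hE'⟩⟩ := hΦe
        rcases hT J K hJ hK with ⟨ho, h⟩ | ⟨ho, h⟩
        · rcases hT J' K' hJ' hK' with ⟨ho', h'⟩ | ⟨ho', h'⟩
          · have r1 : J = J' := by
              rw [← h.M1_J hJ, ← h'.M1_J hJ', hE, ha]
            have r2 : K = K' := by
              rw [← h.M0_K hK, ← h'.M0_K hK', hE', ha]
            rw [r1, r2]
          · rw [ho, ho'] at hm
            exact absurd hm (by simp)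
        · rcases hT J' K' hJ' hK' with ⟨ho', h'⟩ | ⟨ho', h'⟩
          · rw [ho, ho'] at hm
            exact absurd hm (by simp)
          · have r1 : J = J' := by
              rw [← h.M0_K hJ, ← h'.M0_K hJ', hE, ha]
            have r2 : K = K' := by
              rw [← h.M1_J hK, ← h'.M1_J hK', hE', ha]
            rw [r1, r2])
      (fun p _ => by rw [one_mul])
      (fun q _ => mul_nonneg (mul_pos (W.pw_pos _) (mul_pos (W.om_pos _ _) (W.om_pos _ _))).le
        (sq_nonneg _))
    have hTsum : ∑ q ∈ Tt, w' q = ∑ a : NL V, W.RV f a.1 := by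
      rw [hTt, sum_biUnion]
      · refine sum_congr rfl fun a _ => ?_
        rw [sum_image, sum_product]
        · rw [← W.sum_Wc_RV]
        · rintro ⟨p, q⟩ _ ⟨p', q'⟩ _ h
          simp only [Prod.mk.injEq] at h
          rw [h.2.1, h.2.2]
      · intro a _ b _ hab
        rw [Function.onFun, disjoint_left]
        intro x hx hx'
        obtain ⟨p, _, hp⟩ := mem_image.1 hx
        obtain ⟨q, _, hq⟩ := mem_image.1 hx'
        apply hab
        apply Subtype.ext
        have := hp.trans hq.symm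
        simp only [Prod.mk.injEq] at this
        exact this.1
    rw [hTsum, Fintype.card_bool, mul_one] at htr
    rw [hS, sum_product] at htr
    exact_mod_cast htr
  -- the part with the means
  have hB : ∑ J ∈ pms V, ∑ K ∈ pms V, W.wt J * W.wt K * W.g f (T J K).1 ^ 2 ≤
      (2 * Fintype.card V) ^ 2 *
        (2 * (W.K A B * ∑ c ∈ paths2 V, W.Rh c.1 * W.xi f c.1 ^ 2)) := by
    have h1 : ∀ J ∈ pms V, ∀ K ∈ pms V, W.wt J * W.wt K * W.g f (T J K).1 ^ 2 ≤
        (2 * Fintype.card V) ^ 2 * ∑ c ∈ paths2 V, W.xi f c.1 ^ 2 *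
          ((if Good W J K c.1 then W.wt J * W.wt K else 0) +
            (if Good W K J c.1 then W.wt K * W.wt J else 0)) := by
      intro J hJ K hK
      rw [mem_pms] at hJ hK
      have hg : W.g f (T J K).1 ^ 2 ≤ (2 * Fintype.card V) ^ 2 *
          ∑ c ∈ paths2 V, if Good W J K c.1 ∨ Good W K J c.1 then W.xi f c.1 ^ 2 else 0 := by
        rcases hT J K hJ hK with ⟨_, h⟩ | ⟨_, h⟩
        · exact g_sq_le W f hJ hK (h.good hJ hK)
        · refine le_trans (g_sq_le W f hK hJ (h.good hK hJ)) (le_of_eq ?_)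
          congr 1
          refine sum_congr rfl fun c _ => ?_
          congr 1
          exact propext ⟨Or.symm, Or.symm⟩
      have h0 : 0 ≤ W.wt J * W.wt K := (mul_pos (W.wt_pos _) (W.wt_pos _)).le
      calc W.wt J * W.wt K * W.g f (T J K).1 ^ 2 ≤ W.wt J * W.wt K * ((2 * Fintype.card V) ^ 2 *
          ∑ c ∈ paths2 V, if Good W J K c.1 ∨ Good W K J c.1 then W.xi f c.1 ^ 2 else 0) :=
            mul_le_mul_of_nonneg_left hg h0
        _ = (2 * Fintype.card V) ^ 2 * ∑ c ∈ paths2 V, W.wt J * W.wt K *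
          (if Good W J K c.1 ∨ Good W K J c.1 then W.xi f c.1 ^ 2 else 0) := by
            rw [← mul_sum]
            ring
        _ ≤ _ := by
            refine mul_le_mul_of_nonneg_left (sum_le_sum fun c _ => ?_) (by (clear * -; positivity))
            have hx := sq_nonneg (W.xi f c.1)
            by_cases g1 : Good W J K c.1 <;> by_cases g2 : Good W K J c.1 <;>
              simp only [g1, g2, if_true, if_false, or_true, or_self, or_false, mul_zero,
                add_zero, zero_add]
            · nlinarith only [h0]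
            · nlinarith only []
            · nlinarith only []
            · exact le_rfl
    refine le_trans (sum_le_sum fun J hJ => sum_le_sum fun K hK => h1 J hJ K hK) ?_
    simp only [← mul_sum]
    refine mul_le_mul_of_nonneg_left ?_ (by (clear * -; positivity))
    have h2 : ∑ J ∈ pms V, ∑ K ∈ pms V, ∑ c ∈ paths2 V, W.xi f c.1 ^ 2 *
          ((if Good W J K c.1 then W.wt J * W.wt K else 0) +
            (if Good W K J c.1 then W.wt K * W.wt J else 0)) =
        ∑ c ∈ paths2 V, W.xi f c.1 ^ 2 *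
          (2 * ∑ J ∈ pms V, ∑ K ∈ pms V, (if Good W J K c.1 then W.wt J * W.wt K else 0)) := by
      have h3 : ∀ J ∈ pms V, ∑ K ∈ pms V, ∑ c ∈ paths2 V, W.xi f c.1 ^ 2 *
          ((if Good W J K c.1 then W.wt J * W.wt K else 0) +
            (if Good W K J c.1 then W.wt K * W.wt J else 0)) =
          ∑ c ∈ paths2 V, ∑ K ∈ pms V, W.xi f c.1 ^ 2 *
          ((if Good W J K c.1 then W.wt J * W.wt K else 0) +
            (if Good W K J c.1 then W.wt K * W.wt J else 0)) := fun J _ => sum_comm
      rw [sum_congr rfl h3, sum_comm]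
      refine sum_congr rfl fun c _ => ?_
      simp only [← mul_sum, sum_add_distrib]
      rw [two_mul]
      congr 2
      exact sum_comm
    rw [h2, mul_sum, mul_sum]
    refine sum_le_sum fun c _ => ?_
    have h4 := hlaw W c.1
    have hx := sq_nonneg (W.xi f c.1)
    calc W.xi f c.1 ^ 2 *
          (2 * ∑ J ∈ pms V, ∑ K ∈ pms V, (if Good W J K c.1 then W.wt J * W.wt K else 0))
        ≤ W.xi f c.1 ^ 2 * (2 * (W.K A B * W.Rh c.1)) := by
          refine mul_le_mul_of_nonneg_left ?_ hx
          linarith only [h4]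
      _ = _ := by ring
  calc ∑ J ∈ pms V, ∑ K ∈ pms V, W.wt J * W.wt K *
      (f J - f (fun v => if v ∈ Cp J K t then K v else J v)) ^ 2
      ≤ ∑ J ∈ pms V, ∑ K ∈ pms V, (2 * (W.Wc (T J K).1 (e1 J K) (e2 J K) *
        (Dl f (T J K).1 (e1 J K) - W.g f (T J K).1) ^ 2) +
      2 * (W.wt J * W.wt K * W.g f (T J K).1 ^ 2)) :=
        sum_le_sum fun J hJ => sum_le_sum fun K hK => hpt J hJ K hK
    _ = 2 * (∑ J ∈ pms V, ∑ K ∈ pms V, W.Wc (T J K).1 (e1 J K) (e2 J K) *
        (Dl f (T J K).1 (e1 J K) - W.g f (T J K).1) ^ 2) +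
        2 * (∑ J ∈ pms V, ∑ K ∈ pms V, W.wt J * W.wt K * W.g f (T J K).1 ^ 2) := by
        simp only [sum_add_distrib, mul_sum]
    _ ≤ _ := by linarith only [hA, hB]

theorem fin_arith {n N I X G R L : ℝ} (hn0 : 0 ≤ n) (hnN : n ≤ N) (hN2 : 2 ≤ N) (hI : 1 ≤ I)
    (hX : 0 ≤ X) (hG : 1 ≤ G) (hL0 : 0 ≤ L) (hR : R ≤ I ^ 2 * X)
    (hL : L ≤ 9 * N ^ 8 * I ^ 4 * X) :
    n * (n * (4 * R + 4 * ((2 * n) ^ 2 * (G * L)))) ≤ N * (N * (G * (N ^ 18 * I ^ 4 * X))) := by
  have hN0 : 0 ≤ N := by linarith only [hN2]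
  have hI0 : 0 ≤ I := by linarith
  have hG0 : 0 ≤ G := by linarith
  have e1 : I ^ 2 * X ≤ I ^ 4 * X :=
    mul_le_mul_of_nonneg_right (pow_le_pow_right₀ hI (by norm_num)) hX
  have hY : 0 ≤ I ^ 4 * X := by positivity
  set Y : ℝ := I ^ 4 * X with hYd
  have hY' : Y ≤ G * Y := by nlinarith only [hG, hY]
  have a1 : 4 * R ≤ N ^ 10 * (G * Y) := by
    have e2 : (4 : ℝ) ≤ N ^ 2 := by nlinarith only [hN2]
    have e3 : N ^ 2 ≤ N ^ 10 := pow_le_pow_right₀ (by linarith only [hN2]) (by norm_num)
    have e4 : 4 * (G * Y) ≤ N ^ 10 * (G * Y) :=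
      mul_le_mul_of_nonneg_right (by linarith only [e2, e3]) (by (clear * - hG hI hX; positivity))
    linarith
  have a2 : 4 * ((2 * n) ^ 2 * (G * L)) ≤ 144 * (N ^ 10 * (G * Y)) := by
    have e2 : (2 * n) ^ 2 ≤ (2 * N) ^ 2 := by (clear * - hn0 hnN; gcongr)
    have e3 : G * L ≤ G * (9 * N ^ 8 * Y) := by
      refine mul_le_mul_of_nonneg_left (le_trans hL (le_of_eq ?_)) hG0
      rw [hYd]
      ring
    have e4 : (2 * n) ^ 2 * (G * L) ≤ (2 * N) ^ 2 * (G * (9 * N ^ 8 * Y)) :=
      mul_le_mul e2 e3 (mul_nonneg hG0 hL0) (by positivity)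
    have e5 : (2 * N) ^ 2 * (G * (9 * N ^ 8 * Y)) = 36 * (N ^ 10 * (G * Y)) := by ring
    linarith only [e4]
  have a3 : 145 * (N ^ 10 * (G * Y)) ≤ N ^ 18 * (G * Y) := by
    have e2 : (256 : ℝ) ≤ N ^ 8 := by
      calc (256 : ℝ) = 2 ^ 8 := by norm_num
        _ ≤ N ^ 8 := by (clear * - hN2; gcongr)
    have e3 : 0 ≤ N ^ 10 * (G * Y) := by (clear * - hN2 hG hI hX; positivity)
    have e4 : N ^ 18 * (G * Y) = N ^ 8 * (N ^ 10 * (G * Y)) := by ring
    rw [e4]
    nlinarith only [e3, e2]
  have a4 : 4 * R + 4 * ((2 * n) ^ 2 * (G * L)) ≤ N ^ 18 * (G * Y) := by linarith only [a1, a2, a3]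
  have a5 : 0 ≤ N ^ 18 * (G * Y) := by (clear * - hN2 hG hI hX; positivity)
  calc n * (n * (4 * R + 4 * ((2 * n) ^ 2 * (G * L)))) ≤ n * (n * (N ^ 18 * (G * Y))) := by (clear * - a4 hn0; gcongr)
    _ ≤ N * (N * (N ^ 18 * (G * Y))) := by (clear * - hnN hN2 hG hI hX hn0; gcongr)
    _ = _ := by
      rw [hYd]
      ring

/-- **Theorem 1** from its parts. -/
theorem theorem1_of {A B : ℕ} (hflip : FlipSt V) (hB : StB V) (hXi : StXi V)
    (hlaw : LawSt V A B) : Theorem1 V (A + 20) (B + 4) := by
  intro W f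
  have h1 := hflip W f
  have h2 : ∀ t ∈ (univ : Finset V), _ := fun t _ => flip_le W f hlaw t
  have h3 := sum_le_sum h2
  rw [sum_const, card_univ, nsmul_eq_mul] at h3
  have h4 := hB W f
  have h5 := hXi W f
  have hn0 : (0 : ℝ) ≤ Fintype.card V := Nat.cast_nonneg _
  have hN2 : (2 : ℝ) ≤ ((Fintype.card V + 2 : ℕ) : ℝ) := by push_cast; linarith only []
  have hnN : (Fintype.card V : ℝ) ≤ ((Fintype.card V + 2 : ℕ) : ℝ) := by push_cast; linarith only []
  have hI1 : (1 : ℝ) ≤ 1 / W.ε := by
    rw [le_div_iff₀ W.ε_pos]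
    linarith only [W.ε_le]
  have hX0 := W.Ex0_nonneg f
  have hX1 := W.Ex1_nonneg f
  have hE : 0 ≤ W.Z * W.Eloc f := mul_nonneg W.Z_nonneg (W.Eloc_nonneg f)
  have hX : 0 ≤ W.Z * W.Eloc f + W.Ex0 f + W.Ex1 f := by linarith only [hX0, hX1, hE]
  have h4' : ∑ a : NL V, W.RV f a.1 ≤
      (1 / W.ε) ^ 2 * (W.Z * W.Eloc f + W.Ex0 f + W.Ex1 f) :=
    le_trans h4 (mul_le_mul_of_nonneg_left (by linarith only [hE]) (by (clear * - hI1; positivity)))
  have hone : (1 : ℝ) ≤ W.K A B := by
    have e1 : (1 : ℝ) ≤ ((Fintype.card V + 2 : ℕ) : ℝ) ^ A := one_le_pow₀ (by linarith only [hN2])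
    have e2 : (1 : ℝ) ≤ (1 / W.ε) ^ B := one_le_pow₀ hI1
    unfold Sim.K
    nlinarith only [e1, e2]
  have hL0 : 0 ≤ ∑ c ∈ paths2 V, W.Rh c.1 * W.xi f c.1 ^ 2 :=
    sum_nonneg fun c _ => mul_nonneg (W.Rh_nonneg _) (sq_nonneg _)
  have h6 := fin_arith hn0 hnN hN2 hI1 hX hone hL0 h4' h5
  have h7 := mul_le_mul_of_nonneg_left h3 hn0
  refine le_trans h1 (le_trans h7 (le_trans h6 (le_of_eq ?_)))
  unfold Sim.K
  ring

end Vale.Agent.P308.Lin
end

section

/-! # Step (A): reduction of the variance to flips of one component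

`mix C J K` is `K` on `C` and `J` elsewhere. For perfect matchings `I`, `F` the components are
flipped in the order of their least elements; for a fixed time the pair (current matching,
complementary matching) is the image of `(I, F)` under a mass preserving involution. -/

set_option linter.unusedSectionVars false

namespace Vale.Agent.P308.Lin

open Finset
open Vale.Agent.P308.Soft (Cp mem_Cp self_mem_Cp Cp_left Cp_right Cp_trans Cp_symm)

variable {n : ℕ} {V : Type*} [Fintype V] [DecidableEq V]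

/-- `K` on `C`, `J` outside -/
def mix (C : Finset V) (J K : V → V) : V → V := fun v => if v ∈ C then K v else J v

/-- fixed point free involutions -/
abbrev FPM (V : Type*) := {f : V → V // (∀ v, f (f v) = v) ∧ ∀ v, f v ≠ v}

theorem Cp_comm (f g : V → V) (a : V) : Cp f g a = Cp g f a := by
  have : (fun x y : V => y = f x ∨ y = g x) = fun x y => y = g x ∨ y = f x := by
    funext x y
    exact propext or_comm
  unfold Cp
  rw [this]

theorem Cp_congr {f g f' g' : V → V}
    (h : ∀ v, (f' v = f v ∧ g' v = g v) ∨ (f' v = g v ∧ g' v = f v)) (a : V) :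
    Cp f' g' a = Cp f g a := by
  have : (fun x y : V => y = f' x ∨ y = g' x) = fun x y => y = f x ∨ y = g x := by
    funext x y
    rcases h x with ⟨h1, h2⟩ | ⟨h1, h2⟩
    · rw [h1, h2]
    · rw [h1, h2]
      exact propext or_comm
  unfold Cp
  rw [this]

/-- the flip of the component of `t` is a perfect matching -/
theorem isPM_mix {J K : V → V} (hJ : IsPM J) (hK : IsPM K) (t : V) :
    IsPM (mix (Cp J K t) J K) := by
  have key : ∀ v, mix (Cp J K t) J K (mix (Cp J K t) J K v) = v ∧
      mix (Cp J K t) J K v ≠ v := by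
    intro v
    by_cases hv : v ∈ Cp J K t
    · have h1 : mix (Cp J K t) J K v = K v := if_pos hv
      have h2 : K v ∈ Cp J K t := Cp_right hv
      have h3 : mix (Cp J K t) J K (K v) = K (K v) := if_pos h2
      rw [h1, h3]
      exact ⟨hK.1 v, hK.2 v⟩
    · have h1 : mix (Cp J K t) J K v = J v := if_neg hv
      have h2 : J v ∉ Cp J K t := fun h => hv (by
        have := Cp_left h
        rwa [hJ.1] at this)
      have h3 : mix (Cp J K t) J K (J v) = J (J v) := if_neg h2
      rw [h1, h3]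
      exact ⟨hJ.1 v, hJ.2 v⟩
  exact ⟨fun v => (key v).1, fun v => (key v).2⟩

/-- the flip of the component of `t` -/
noncomputable def flip (t : V) (J K : FPM V) : FPM V :=
  ⟨mix (Cp J.1 K.1 t) J.1 K.1, isPM_mix J.2 K.2 t⟩

/-- the least label of the component of `v` -/
noncomputable def mnC (e : V ≃ Fin n) (I F : V → V) (v : V) : Fin n :=
  ((Cp I F v).image e).min' ⟨e v, mem_image_of_mem _ (self_mem_Cp _ _ _)⟩

theorem mnC_congr (e : V ≃ Fin n) {f g f' g' : V → V} {a b : V} (h : Cp f' g' a = Cp f g b) :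
    mnC e f' g' a = mnC e f g b := by
  unfold mnC
  congr 2

theorem mnC_mem (e : V ≃ Fin n) (f g : V → V) (a : V) : e.symm (mnC e f g a) ∈ Cp f g a := by
  obtain ⟨x, hx, h⟩ := mem_image.1
    (Finset.min'_mem ((Cp f g a).image e) ⟨e a, mem_image_of_mem _ (self_mem_Cp _ _ _)⟩)
  have : e.symm (mnC e f g a) = x := by
    rw [Equiv.symm_apply_eq]
    exact h.symm
  rw [this]
  exact hx

theorem Cp_eq {I F : V → V} (hI : ∀ v, I (I v) = v) (hF : ∀ v, F (F v) = v) {v x : V}
    (h : x ∈ Cp I F v) : Cp I F x = Cp I F v := by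
  ext y
  exact ⟨fun hy => Cp_trans h hy, fun hy => Cp_trans (Cp_symm hI hF h) hy⟩

theorem mnC_left (e : V ≃ Fin n) (I F : FPM V) (x : V) :
    mnC e I.1 F.1 (I.1 x) = mnC e I.1 F.1 x :=
  mnC_congr e (Cp_eq I.2.1 F.2.1 (Cp_left (self_mem_Cp _ _ x)))

theorem mnC_right (e : V ≃ Fin n) (I F : FPM V) (x : V) :
    mnC e I.1 F.1 (F.1 x) = mnC e I.1 F.1 x :=
  mnC_congr e (Cp_eq I.2.1 F.2.1 (Cp_right (self_mem_Cp _ _ x)))

/-- the flips of all components with least label `< t` -/
noncomputable def Hf (e : V ≃ Fin n) (t : ℕ) (I F : FPM V) : V → V :=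
  fun x => if (mnC e I.1 F.1 x : ℕ) < t then F.1 x else I.1 x

theorem Hf_pm (e : V ≃ Fin n) (t : ℕ) (I F : FPM V) :
    (∀ v, Hf e t I F (Hf e t I F v) = v) ∧ ∀ v, Hf e t I F v ≠ v := by
  have key : ∀ v, Hf e t I F (Hf e t I F v) = v ∧ Hf e t I F v ≠ v := by
    intro v
    by_cases hv : (mnC e I.1 F.1 v : ℕ) < t
    · have h1 : Hf e t I F v = F.1 v := if_pos hv
      have h3 : Hf e t I F (F.1 v) = F.1 (F.1 v) := if_pos (by rw [mnC_right]; exact hv)
      rw [h1, h3]
      exact ⟨F.2.1 v, F.2.2 v⟩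
    · have h1 : Hf e t I F v = I.1 v := if_neg hv
      have h3 : Hf e t I F (I.1 v) = I.1 (I.1 v) := if_neg (by rw [mnC_left]; exact hv)
      rw [h1, h3]
      exact ⟨I.2.1 v, I.2.2 v⟩
  exact ⟨fun v => (key v).1, fun v => (key v).2⟩

/-- the flips of all components with least label `< t` -/
noncomputable def H (e : V ≃ Fin n) (t : ℕ) (I F : FPM V) : FPM V := ⟨Hf e t I F, Hf_pm e t I F⟩

theorem H_apply (e : V ≃ Fin n) (t : ℕ) (I F : FPM V) (x : V) :
    (H e t I F).1 x = if (mnC e I.1 F.1 x : ℕ) < t then F.1 x else I.1 x := rfl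

theorem mnC_comm (e : V ≃ Fin n) (f g : V → V) (x : V) : mnC e f g x = mnC e g f x :=
  mnC_congr e (Cp_comm f g x)

theorem H_pair (e : V ≃ Fin n) (t : ℕ) (I F : FPM V) (v : V) :
    ((H e t I F).1 v = I.1 v ∧ (H e t F I).1 v = F.1 v) ∨
      ((H e t I F).1 v = F.1 v ∧ (H e t F I).1 v = I.1 v) := by
  rw [H_apply, H_apply, mnC_comm e F.1 I.1]
  by_cases h : (mnC e I.1 F.1 v : ℕ) < t
  · right; rw [if_pos h, if_pos h]; exact ⟨rfl, rfl⟩
  · left; rw [if_neg h, if_neg h]; exact ⟨rfl, rfl⟩

theorem Cp_H (e : V ≃ Fin n) (t : ℕ) (I F : FPM V) (a : V) :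
    Cp (H e t I F).1 (H e t F I).1 a = Cp I.1 F.1 a :=
  Cp_congr (H_pair e t I F) a

theorem mnC_H (e : V ≃ Fin n) (t : ℕ) (I F : FPM V) (a : V) :
    mnC e (H e t I F).1 (H e t F I).1 a = mnC e I.1 F.1 a := mnC_congr e (Cp_H e t I F a)

theorem H_H (e : V ≃ Fin n) (t : ℕ) (I F : FPM V) : H e t (H e t I F) (H e t F I) = I := by
  refine Subtype.ext (funext fun x => ?_)
  rw [H_apply, mnC_H]
  by_cases h : (mnC e I.1 F.1 x : ℕ) < t
  · rw [if_pos h, H_apply, mnC_comm, if_pos h]
  · rw [if_neg h, H_apply, if_neg h]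

theorem H_zero (e : V ≃ Fin n) (I F : FPM V) : H e 0 I F = I := by
  refine Subtype.ext (funext fun x => ?_)
  rw [H_apply, if_neg (Nat.not_lt_zero _)]

theorem H_last (e : V ≃ Fin n) (I F : FPM V) : H e n I F = F := by
  refine Subtype.ext (funext fun x => ?_)
  rw [H_apply, if_pos (mnC e I.1 F.1 x).2]

/-- one more component -/
theorem H_succ (e : V ≃ Fin n) (t : Fin n) (I F : FPM V) :
    H e (t + 1) I F = H e t I F ∨ H e (t + 1) I F = flip (e.symm t) (H e t I F) (H e t F I) := by
  by_cases h : ∃ y, mnC e I.1 F.1 y = t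
  · right
    obtain ⟨y, hy⟩ := h
    have hty : e.symm t ∈ Cp I.1 F.1 y := by rw [← hy]; exact mnC_mem e _ _ _
    have hC : ∀ x, x ∈ Cp I.1 F.1 (e.symm t) ↔ mnC e I.1 F.1 x = t := by
      intro x
      constructor
      · intro hx
        rw [← hy]
        exact mnC_congr e ((Cp_eq I.2.1 F.2.1 hx).trans (Cp_eq I.2.1 F.2.1 hty))
      · intro hx
        have h1 : e.symm t ∈ Cp I.1 F.1 x := by rw [← hx]; exact mnC_mem e _ _ _
        exact Cp_symm I.2.1 F.2.1 h1
    refine Subtype.ext (funext fun x => ?_)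
    change _ = mix (Cp (H e t I F).1 (H e t F I).1 (e.symm t)) (H e t I F).1 (H e t F I).1 x
    unfold mix
    rw [Cp_H, H_apply]
    by_cases hx : mnC e I.1 F.1 x = t
    · rw [if_pos (by rw [hx]; exact Nat.lt_succ_self _), if_pos ((hC x).2 hx), H_apply,
        mnC_comm, if_neg (by rw [hx]; exact lt_irrefl _)]
    · rw [if_neg fun h => hx ((hC x).1 h), H_apply]
      by_cases h2 : (mnC e I.1 F.1 x : ℕ) < t
      · rw [if_pos (h2.trans (Nat.lt_succ_self _)), if_pos h2]
      · have h3 : (mnC e I.1 F.1 x : ℕ) ≠ t := fun h => hx (Fin.ext h)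
        rw [if_neg (by omega), if_neg h2]
  · left
    push Not at h
    refine Subtype.ext (funext fun x => ?_)
    rw [H_apply, H_apply]
    have h3 : (mnC e I.1 F.1 x : ℕ) ≠ t := fun h' => h x (Fin.ext h')
    by_cases h2 : (mnC e I.1 F.1 x : ℕ) < t
    · rw [if_pos (h2.trans (Nat.lt_succ_self _)), if_pos h2]
    · rw [if_neg (by omega), if_neg h2]

/-- the involution of pairs -/
noncomputable def Hp (e : V ≃ Fin n) (t : ℕ) : FPM V × FPM V ≃ FPM V × FPM V where
  toFun p := (H e t p.1 p.2, H e t p.2 p.1)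
  invFun p := (H e t p.1 p.2, H e t p.2 p.1)
  left_inv p := Prod.ext (H_H e t p.1 p.2) (H_H e t p.2 p.1)
  right_inv p := Prod.ext (H_H e t p.1 p.2) (H_H e t p.2 p.1)

/-- **(A)** the variance is bounded by the flips of one component -/
theorem sum_sq_le_flip (mu : FPM V → ℝ) (h0 : ∀ M, 0 ≤ mu M)
    (hmu : ∀ J K J' K' : FPM V, (∀ v, (J'.1 v = J.1 v ∧ K'.1 v = K.1 v) ∨
      (J'.1 v = K.1 v ∧ K'.1 v = J.1 v)) → mu J' * mu K' = mu J * mu K) (f : FPM V → ℝ) :
    ∑ I, ∑ F, mu I * mu F * (f I - f F) ^ 2 ≤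
      Fintype.card V * ∑ t : V, ∑ J, ∑ K, mu J * mu K * (f J - f (flip t J K)) ^ 2 := by
  classical
  obtain ⟨n, hn⟩ : ∃ n, n = Fintype.card V := ⟨_, rfl⟩
  let e : V ≃ Fin n := (Fintype.equivFin V).trans (finCongr hn.symm)
  rw [← hn]
  have hsum : ∀ I F : FPM V, f I - f F = ∑ t : Fin n, (f (H e t I F) - f (H e (t + 1) I F)) := by
    intro I F
    have h1 := Finset.sum_range_sub' (fun t => f (H e t I F)) n
    rw [Finset.sum_range] at h1
    rw [h1, H_zero, H_last]
  have hsq : ∀ I F : FPM V, (f I - f F) ^ 2 ≤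
      n * ∑ t : Fin n, (f (H e t I F) - f (flip (e.symm t) (H e t I F) (H e t F I))) ^ 2 := by
    intro I F
    rw [hsum I F]
    have h1 := sq_sum_le_card_mul_sum_sq (s := (univ : Finset (Fin n)))
      (f := fun t : Fin n => f (H e t I F) - f (H e (t + 1) I F))
    rw [Finset.card_univ, Fintype.card_fin] at h1
    refine h1.trans (mul_le_mul_of_nonneg_left (Finset.sum_le_sum fun t _ => ?_)
      (Nat.cast_nonneg n))
    rcases H_succ e t I F with h | h
    · rw [h, sub_self, zero_pow two_ne_zero]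
      exact sq_nonneg _
    · rw [h]
  calc ∑ I, ∑ F, mu I * mu F * (f I - f F) ^ 2
      ≤ ∑ I, ∑ F, mu I * mu F * (n * ∑ t : Fin n,
          (f (H e t I F) - f (flip (e.symm t) (H e t I F) (H e t F I))) ^ 2) :=
        Finset.sum_le_sum fun I _ => Finset.sum_le_sum fun F _ =>
          mul_le_mul_of_nonneg_left (hsq I F) (mul_nonneg (h0 I) (h0 F))
    _ = n * ∑ t : Fin n, ∑ I, ∑ F, mu I * mu F *
          (f (H e t I F) - f (flip (e.symm t) (H e t I F) (H e t F I))) ^ 2 := by
        have e1 : ∀ I F : FPM V, mu I * mu F * (n * ∑ t : Fin n,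
            (f (H e t I F) - f (flip (e.symm t) (H e t I F) (H e t F I))) ^ 2) =
            n * ∑ t : Fin n, mu I * mu F *
              (f (H e t I F) - f (flip (e.symm t) (H e t I F) (H e t F I))) ^ 2 := by
          intro I F
          rw [mul_left_comm, Finset.mul_sum]
        have e0 : ∀ I : FPM V, ∑ F : FPM V, mu I * mu F * (n * ∑ t : Fin n,
            (f (H e t I F) - f (flip (e.symm t) (H e t I F) (H e t F I))) ^ 2) =
            n * ∑ F : FPM V, ∑ t : Fin n, mu I * mu F *
              (f (H e t I F) - f (flip (e.symm t) (H e t I F) (H e t F I))) ^ 2 := by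
          intro I
          rw [Finset.mul_sum]
          exact Finset.sum_congr rfl fun F _ => e1 I F
        rw [Finset.sum_congr rfl fun I _ => e0 I, ← Finset.mul_sum]
        congr 1
        have e2 : ∀ I : FPM V, ∑ F : FPM V, ∑ t : Fin n, mu I * mu F *
            (f (H e t I F) - f (flip (e.symm t) (H e t I F) (H e t F I))) ^ 2 =
            ∑ t : Fin n, ∑ F : FPM V, mu I * mu F *
            (f (H e t I F) - f (flip (e.symm t) (H e t I F) (H e t F I))) ^ 2 :=
          fun I => Finset.sum_comm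
        simp_rw [e2]
        exact Finset.sum_comm
    _ = n * ∑ t : Fin n, ∑ J, ∑ K, mu J * mu K * (f J - f (flip (e.symm t) J K)) ^ 2 := by
        congr 1
        refine Finset.sum_congr rfl fun t _ => ?_
        rw [← Fintype.sum_prod_type', ← Fintype.sum_prod_type'
          (f := fun J K => mu J * mu K * (f J - f (flip (e.symm t) J K)) ^ 2)]
        rw [← Equiv.sum_comp (Hp e (t : ℕ)) fun p : FPM V × FPM V =>
          mu p.1 * mu p.2 * (f p.1 - f (flip (e.symm t) p.1 p.2)) ^ 2]
        refine Finset.sum_congr rfl fun p _ => ?_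
        change mu p.1 * mu p.2 * _ = mu (H e t p.1 p.2) * mu (H e t p.2 p.1) * _
        rw [hmu p.1 p.2 _ _ (H_pair e t p.1 p.2)]
        rfl
    _ = n * ∑ t : V, ∑ J, ∑ K, mu J * mu K * (f J - f (flip t J K)) ^ 2 := by
        congr 1
        exact Equiv.sum_comp e.symm fun t : V =>
          ∑ J, ∑ K, mu J * mu K * (f J - f (flip t J K)) ^ 2

/-- sums over perfect matchings -/
theorem sum_pms (F : (V → V) → ℝ) : ∑ N ∈ pms V, F N = ∑ N : FPM V, F N.1 := by
  rw [← Finset.sum_coe_sort (pms V)]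
  exact Fintype.sum_equiv (Equiv.subtypeEquivRight fun g => mem_pms) _ _ fun _ => rfl

/-- the product of the weights of two matchings only depends on the unordered pairs -/
theorem Sim.wt_mul_wt (W : Sim V) {J K J' K' : V → V}
    (h : ∀ v, (J' v = J v ∧ K' v = K v) ∨ (J' v = K v ∧ K' v = J v)) :
    W.wt J' * W.wt K' = W.wt J * W.wt K := by
  unfold Sim.wt
  rw [← Finset.prod_mul_distrib, ← Finset.prod_mul_distrib]
  refine Finset.prod_congr rfl fun v _ => ?_
  rcases h v with ⟨h1, h2⟩ | ⟨h1, h2⟩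
  · rw [h1, h2]
  · rw [h1, h2, mul_comm]

/-- **(A)** in terms of weights -/
theorem Sim.Var2_le_flip (W : Sim V) (f : (V → V) → ℝ) :
    W.Var2 f ≤ Fintype.card V * ∑ t : V, ∑ J ∈ pms V, ∑ K ∈ pms V,
      W.wt J * W.wt K * (f J - f (mix (Cp J K t) J K)) ^ 2 := by
  have h := sum_sq_le_flip (fun M : FPM V => W.wt M.1)
    (fun M => Finset.prod_nonneg fun v _ => (W.s_pos v _).le)
    (fun J K J' K' h => W.wt_mul_wt h) (fun M => f M.1)
  unfold Sim.Var2
  simp_rw [sum_pms]
  exact h

end Vale.Agent.P308.Lin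
end

section

/-! # Step (A) in the form of `Lin/Goals.lean` -/

namespace Vale.Agent.P308.Lin

variable {V : Type*} [Fintype V] [DecidableEq V]

theorem flip_st : FlipSt V := fun W f => W.Var2_le_flip f

end Vale.Agent.P308.Lin
end

section

end

section

/-!
# (T0) Telescoping identities for the effect of a flip

`a = a' ++ a''`. The effect `Dl f a` of the flip of the completed path is the sum of the effects of
`a'` and `a''` and of the difference of `f` over one 2-switch.
-/

set_option linter.unusedSectionVars false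

namespace Vale.Agent.P308.Lin

open Finset

variable {V : Type*} [Fintype V] [DecidableEq V]

namespace T0

/-- pairing of an append, first part of even length -/
theorem pL_append : ∀ (a b : List V) (_ : a.length % 2 = 0) (v : V),
    pL (a ++ b) v = if v ∈ a then pL a v else pL b v
  | [], b, _, v => by simp
  | [_], b, h, v => by simp only [List.length_cons, List.length_nil, zero_add, Nat.mod_succ, one_ne_zero] at h
  | x :: y :: l, b, h, v => by
    have hl : l.length % 2 = 0 := by simp only [List.length_cons] at h; omega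
    have ih := pL_append l b hl v
    simp only [List.cons_append, pL_cons2, List.mem_cons]
    by_cases h1 : v = x
    · simp [h1]
    · by_cases h2 : v = y
      · simp [h2]
      · simp only [h1, h2, if_false, false_or]
        exact ih

theorem pL_single (x v : V) : pL [x] v = v := rfl

theorem pL_pair (x y v : V) : pL [x, y] v = if v = x then y else if v = y then x else v := rfl

/-- pairing of an odd list with one more vertex -/
theorem pL_concat (a : List V) (y : V) (h : a.length % 2 = 0) (v : V) :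
    pL (a ++ [y]) v = pL a v := by
  rw [pL_append a [y] h v]
  split_ifs with h1
  · rfl
  · rw [pL_single, pL_of_notMem h1]

theorem un_mem {g : V → V} {b : List V} {E : V → V} {v : V} (h : v ∈ b) : un g b E v = g v :=
  if_pos h

theorem un_notMem {g : V → V} {b : List V} {E : V → V} {v : V} (h : v ∉ b) : un g b E v = E v :=
  if_neg h

theorem un_comm (g h : V → V) (a b : List V) (E : V → V) (hd : ∀ v ∈ a, v ∉ b) :
    un g a (un h b E) = un h b (un g a E) := by
  funext v
  by_cases h1 : v ∈ a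
  · rw [un_mem h1, un_notMem (hd v h1), un_mem h1]
  · rw [un_notMem h1]
    by_cases h2 : v ∈ b
    · rw [un_mem h2, un_mem h2]
    · rw [un_notMem h2, un_notMem h2, un_notMem h1]

theorem cmp_even {a : List V} (h : a.length % 2 = 0) (s : V) : cmp a s = a := if_pos h

theorem cmp_odd {a : List V} (h : a.length % 2 = 1) (s : V) : cmp a s = a ++ [s] :=
  if_neg (by omega)

theorem cmp_append (a b : List V) (h : a.length % 2 = 0) (s : V) :
    cmp (a ++ b) s = a ++ cmp b s := by
  rcases Nat.mod_two_eq_zero_or_one b.length with hb | hb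
  · rw [cmp_even hb, cmp_even (by rw [List.length_append]; omega)]
  · rw [cmp_odd hb, cmp_odd (by rw [List.length_append]; omega), List.append_assoc]

theorem M1_append (a b : List V) (h : a.length % 2 = 0) (hd : ∀ v ∈ a, v ∉ b) (E : V → V) :
    M1 (a ++ b) E = M1 b (M1 a E) := by
  funext v
  unfold M1
  by_cases h1 : v ∈ a
  · rw [un_mem (List.mem_append_left b h1), un_notMem (hd v h1), un_mem h1, pL_append a b h,
      if_pos h1]
  · by_cases h2 : v ∈ b
    · rw [un_mem (List.mem_append_right a h2), un_mem h2, pL_append a b h, if_neg h1]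
    · rw [un_notMem (by simp [h1, h2]), un_notMem h2, un_notMem h1]

/-- **Splitting, first part even.** -/
theorem Dl_even (f : (V → V) → ℝ) (a b : List V) (s t : V) (E : V → V) (ha : a.length % 2 = 0)
    (hd : ∀ v ∈ a, v ∉ cmp b s) :
    Dl f (a ++ b) (s, E) =
      (f (M0 (cmp (a ++ b) s) E) - f (M0 a (M0 (cmp b s) E))) +
        Dl f a (t, M0 (cmp b s) E) + Dl f b (s, M1 a E) := by
  have h1 : M1 a (M0 (cmp b s) E) = M0 (cmp b s) (M1 a E) := un_comm _ _ _ _ _ hd
  have h2 : M1 (cmp (a ++ b) s) E = M1 (cmp b s) (M1 a E) := by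
    rw [cmp_append a b ha, M1_append a _ ha hd]
  unfold Dl
  simp only [cmp_even ha]
  rw [h1, h2]
  ring

/-! ### Odd parts -/

theorem rot1 (x : V) (l : List V) : (x :: l).rotate 1 = l ++ [x] := by simp

theorem Dl_odd_odd (f : (V → V) → ℝ) (t p q r : List V) (x y' x'' y s : V) (E : V → V)
    (ha1 : x :: t = p ++ [y']) (hb1 : x'' :: r = q ++ [y])
    (ha : t.length % 2 = 0) (hb : r.length % 2 = 0)
    (hn : (x :: t ++ x'' :: r).Nodup) :
    Dl f ((x :: t) ++ (x'' :: r)) (s, E) =
      Dl f (x :: t) (y, un (pL (x'' :: r)) (x'' :: r) E) -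
        Dl f (x'' :: r) (y', un (pL (x :: t)) (x :: t) E) := by
  have hp : p.length % 2 = 0 := by
    have h := congrArg List.length ha1
    simp only [List.length_cons, List.length_append, List.length_nil] at h
    omega
  have hq : q.length % 2 = 0 := by
    have h := congrArg List.length hb1
    simp only [List.length_cons, List.length_append, List.length_nil] at h
    (clear * - hb h; omega)
  have hdis : ∀ v, v ∈ x :: t → v ∉ x'' :: r := by
    intro v hv hv'
    exact (List.disjoint_of_nodup_append hn) hv hv'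
  have hnA : (x :: t).Nodup := hn.of_append_left
  have hnB : (x'' :: r).Nodup := hn.of_append_right
  have hyB : y ∈ x'' :: r := by rw [hb1]; simp
  have hyA : y' ∈ x :: t := by rw [ha1]; simp
  have e1 : M0 ((x :: t) ++ (x'' :: r)) E
      = M0 ((x :: t) ++ [y]) (un (pL (x'' :: r)) (x'' :: r) E) := by
    funext v
    unfold M0 un
    rw [List.cons_append, rot1, List.cons_append, rot1, hb1]
    have r1 : t ++ (q ++ [y]) ++ [x] = t ++ (q ++ [y, x]) := by simp
    have r2 : t ++ [y] ++ [x] = t ++ [y, x] := by simp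
    rw [r1, r2, pL_append _ _ ha, pL_append _ _ ha, pL_append _ _ hq, pL_concat _ _ hq]
    by_cases h1 : v ∈ t
    · simp [h1]
    · by_cases h2 : v = x
      · have h3 : v ∉ q := by
          intro h3
          refine hdis v (by rw [h2]; simp) ?_
          rw [hb1]; simp [h3]
        have h3' : x ∉ q := h2 ▸ h3
        simp [h2, h3']
      · by_cases h3 : v = y
        · have h4 : y ∉ q := by
            rw [hb1] at hnB
            have h5 := List.disjoint_of_nodup_append hnB
            intro h6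
            exact h5 h6 (by simp)
          simp [h3, h4]
        · by_cases h4 : v ∈ q
          · simp [h1, h2, h3, h4]
          · simp [h1, h2, h3, h4]
  have e2 : M1 ((x :: t) ++ [y]) (un (pL (x'' :: r)) (x'' :: r) E)
      = M1 ((x'' :: r) ++ [y']) (un (pL (x :: t)) (x :: t) E) := by
    have hpq : ∀ v, v ∈ p → v ∉ q := by
      intro v h3 h4
      refine hdis v ?_ ?_
      · rw [ha1]; simp [h3]
      · rw [hb1]; simp [h4]
    have hpy : y ∉ p := fun h3 => hdis y (by rw [ha1]; simp [h3]) hyB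
    have hqy : y' ∉ q := fun h3 => hdis y' hyA (by rw [hb1]; simp [h3])
    have hpy' : y' ∉ p := by
      rw [ha1] at hnA
      exact fun h6 => (List.disjoint_of_nodup_append hnA) h6 (by simp)
    have hqy' : y ∉ q := by
      rw [hb1] at hnB
      exact fun h6 => (List.disjoint_of_nodup_append hnB) h6 (by simp)
    have hyy : y' ≠ y := fun h => hdis y' hyA (h ▸ hyB)
    funext v
    unfold M1 un
    rw [hb1, ha1]
    have r1 : p ++ [y'] ++ [y] = p ++ [y', y] := by simp only [List.append_assoc, List.cons_append, List.nil_append]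
    have r2 : q ++ [y] ++ [y'] = q ++ [y, y'] := by simp
    rw [r1, r2, pL_concat _ _ hq, pL_concat _ _ hp, pL_append p _ hp, pL_append q _ hq]
    by_cases h1 : v ∈ p
    · have h2 := hpq v h1
      have h3 : v ≠ y := fun h => hpy (h ▸ h1)
      have h4 : v ≠ y' := fun h => hpy' (h ▸ h1)
      simp only [List.mem_append, h1, List.mem_cons, h4, h3, List.not_mem_nil, or_self, or_false, ↓reduceIte, h2]
    · by_cases h2 : v ∈ q
      · have h3 : v ≠ y := fun h => hqy' (h ▸ h2)
        have h4 : v ≠ y' := fun h => hqy (h ▸ h2)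
        simp [h1, h2, h3, h4]
      · by_cases h3 : v = y
        · simp [h3, hpy, hqy', pL_pair, hyy.symm]
        · by_cases h4 : v = y'
          · simp [h4, hpy', hqy, pL_pair, hyy]
          · simp only [List.mem_append, h1, List.mem_cons, h4, h3, List.not_mem_nil, or_self, ↓reduceIte, h2]
  have e3 : M0 ((x'' :: r) ++ [y']) (un (pL (x :: t)) (x :: t) E)
      = M1 ((x :: t) ++ (x'' :: r)) E := by
    funext v
    unfold M1 M0 un
    rw [List.cons_append, rot1, ha1]
    have r1 : p ++ [y'] ++ x'' :: r = p ++ (y' :: x'' :: r) := by simp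
    have r2 : r ++ [y'] ++ [x''] = r ++ [y', x''] := by simp
    rw [r1, r2, pL_concat _ _ hp, pL_append r _ hb, pL_append p _ hp]
    have hpr : ∀ v, v ∈ p → v ∉ x'' :: r := by
      intro v h3
      refine hdis v ?_
      rw [ha1]; simp [h3]
    have hyr : y' ∉ x'' :: r := hdis y' hyA
    have hpy' : y' ∉ p := by
      rw [ha1] at hnA
      exact fun h6 => (List.disjoint_of_nodup_append hnA) h6 (by simp)
    by_cases h1 : v ∈ p
    · have h2 := hpr v h1
      simp only [List.mem_cons, not_or] at h2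
      have h4 : v ≠ y' := fun h => hpy' (h ▸ h1)
      simp [h1, h2.1, h2.2, h4]
    · by_cases h4 : v = y'
      · simp only [List.mem_cons, not_or] at hyr
        simp [h4, hpy', hyr.1, hyr.2, pL_cons2]
      · by_cases h5 : v ∈ r
        · have h6 : v ≠ x'' := by
            rintro rfl
            exact (List.nodup_cons.1 hnB).1 h5
          simp only [List.mem_cons, h6, List.mem_append, h5, h4, List.not_mem_nil, or_self, or_false, or_true, ↓reduceIte, h1, pL_cons2]
        · by_cases h6 : v = x''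
          · have h7 : x'' ∉ p := h6 ▸ h1
            have h8 : x'' ∉ r := h6 ▸ h5
            have h9 : x'' ≠ y' := h6 ▸ h4
            simp only [h6, List.mem_cons, List.mem_append, h8, h9, List.not_mem_nil, or_self, or_false, ↓reduceIte, pL_cons2, h7, or_true]
          · simp only [List.mem_cons, h6, List.mem_append, h5, h4, List.not_mem_nil, or_self, ↓reduceIte, h1]
  unfold Dl
  have c1 : ((x :: t) ++ (x'' :: r)).length % 2 = 0 := by
    simp only [List.length_append, List.length_cons]; omega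
  have c2 : (x :: t).length % 2 = 1 := by simp only [List.length_cons]; (clear * - ha; omega)
  have c3 : (x'' :: r).length % 2 = 1 := by simp only [List.length_cons]; (clear * - hb; omega)
  simp only [cmp_even c1, cmp_odd c2, cmp_odd c3]
  rw [e1, e2, e3]
  ring

/-! ### First part odd, second part even -/

theorem M0_odd_even (t b : List V) (x s : V) (E : V → V) (ht : t.length % 2 = 0)
    (hb : b.length % 2 = 0) (hn : ((x :: t ++ b) ++ [s]).Nodup) :
    M0 ((x :: t ++ b) ++ [s]) E = M0 ((x :: t) ++ [s]) (M1 b E) := by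
  have r1 : (x :: t ++ b ++ [s]).rotate 1 = t ++ (b ++ [s, x]) := by
    rw [List.cons_append, List.cons_append, rot1]; simp
  have r2 : (x :: t ++ [s]).rotate 1 = t ++ [s, x] := by
    rw [List.cons_append, rot1]; simp
  funext v
  unfold M0 M1 un
  rw [r1, r2, pL_append t _ ht, pL_append t _ ht, pL_append b _ hb]
  have hn' : (t ++ (b ++ [s, x])).Nodup := by
    rw [← r1]; exact (List.nodup_rotate).2 hn
  have htb : ∀ v, v ∈ t → v ∉ b ++ [s, x] := fun v h h' =>
    (List.disjoint_of_nodup_append hn') h h'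
  have hbs : ∀ v, v ∈ b → v ∉ [s, x] := fun v h h' =>
    (List.disjoint_of_nodup_append hn'.of_append_right) h h'
  by_cases h1 : v ∈ t
  · simp [h1]
  · by_cases h2 : v ∈ b
    · have h3 := hbs v h2
      simp only [List.mem_cons, not_or, List.not_mem_nil, not_false_eq_true, and_true] at h3
      simp [h1, h2, h3.1, h3.2]
    · by_cases h3 : v = s
      · subst h3
        simp [h1, h2]
      · by_cases h4 : v = x
        · subst h4
          simp [h1, h2]
        · simp [h1, h2, h3, h4]

theorem M1_cons_eq (s x : V) (r : List V) (E : V → V) (hr : r.length % 2 = 0)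
    (hn : ((x :: r) ++ [s]).Nodup) : M0 ((x :: r) ++ [s]) E = M1 (s :: x :: r) E := by
  have r2 : (x :: r ++ [s]).rotate 1 = r ++ [s, x] := by
    rw [List.cons_append, rot1]; simp
  have hn' : (r ++ [s, x]).Nodup := by
    rw [← r2]; exact (List.nodup_rotate).2 hn
  have hbs : ∀ v, v ∈ r → v ∉ [s, x] := fun v h h' =>
    (List.disjoint_of_nodup_append hn') h h'
  funext v
  unfold M0 M1 un
  rw [r2, pL_append r _ hr]
  by_cases h1 : v ∈ r
  · have h3 := hbs v h1
    simp only [List.mem_cons, not_or, List.not_mem_nil, not_false_eq_true, and_true] at h3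
    simp [h1, h3.1, h3.2, pL_cons2]
  · by_cases h3 : v = s
    · subst h3
      simp [h1, pL_cons2]
    · by_cases h4 : v = x
      · subst h4
        simp [h1, h3, pL_cons2]
      · simp [h1, h3, h4]

theorem Dl_odd_even (f : (V → V) → ℝ) (t b : List V) (x s t' : V) (E : V → V)
    (ht : t.length % 2 = 0) (hb : b.length % 2 = 0) (hn : ((x :: t ++ b) ++ [s]).Nodup) :
    Dl f ((x :: t) ++ b) (s, E) = Dl f (x :: t) (s, M1 b E) -
      Dl f b (t', M1 ((x :: t) ++ [s]) E) +
        (f (M0 b (M1 ((x :: t) ++ [s]) E)) - f (M1 ((x :: t) ++ b ++ [s]) E)) := by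
  have c1 : ((x :: t) ++ b).length % 2 = 1 := by
    simp only [List.length_append, List.length_cons]; omega
  have c2 : (x :: t).length % 2 = 1 := by simp only [List.length_cons]; omega
  have hd : ∀ v ∈ b, v ∉ (x :: t) ++ [s] := by
    intro v h1 h2
    have hn1 := List.disjoint_of_nodup_append hn
    have hn2 := List.disjoint_of_nodup_append hn.of_append_left
    rw [List.mem_append] at h2
    rcases h2 with h2 | h2
    · exact hn2 h2 h1
    · exact hn1 (List.mem_append_right _ h1) h2
  have h1 : M1 b (M1 ((x :: t) ++ [s]) E) = M1 ((x :: t) ++ [s]) (M1 b E) :=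
    un_comm _ _ _ _ _ hd
  unfold Dl
  simp only [cmp_odd c1, cmp_odd c2, cmp_even hb]
  rw [M0_odd_even t b x s E ht hb hn, h1]
  ring

theorem ev_true {a : List V} (h : a.length % 2 = 0) : ev a = true := by simp [ev, h]

theorem ev_false {a : List V} (h : a.length % 2 = 1) : ev a = false := by simp [ev, h]

end T0

open T0 in
/-- **(T0)** -/
theorem stT0 : StT0 V := by
  intro f a b e hn ha hb he
  obtain ⟨s, E⟩ := e
  obtain ⟨x, t, rfl⟩ := List.exists_cons_of_ne_nil ha
  obtain ⟨x'', r, rfl⟩ := List.exists_cons_of_ne_nil hb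
  have hdis := List.disjoint_of_nodup_append hn
  have hs : ((x :: t) ++ (x'' :: r)).length % 2 = 1 → s ∉ (x :: t) ++ (x'' :: r) := by
    intro h
    rcases he.2 with h' | h'
    · omega
    · exact h'.2.1
  have hns : ((x :: t) ++ (x'' :: r)).length % 2 = 1 →
      (((x :: t) ++ (x'' :: r)) ++ [s]).Nodup := by
    intro h
    have h1 := hs h
    rw [List.nodup_append]
    refine ⟨hn, List.nodup_singleton s, ?_⟩
    rintro v hv w hw rfl
    rw [List.mem_singleton] at hw
    exact h1 (hw ▸ hv)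
  rcases Nat.mod_two_eq_zero_or_one (x :: t).length with h1 | h1
  · rcases Nat.mod_two_eq_zero_or_one (x'' :: r).length with h2 | h2
    · have key := Dl_even f (x :: t) (x'' :: r) s (hd (x :: t) s) E h1 (by
        intro v hv
        rw [cmp_even h2]
        exact fun h => hdis hv h)
      have c : ((x :: t) ++ (x'' :: r)).length % 2 = 0 := by
        rw [List.length_append]; omega
      rw [cmp_even c, cmp_even h2] at key
      simp only [eL1, ev_true h1, ev_true h2, sg, if_true, eR1, S1, S2]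
      have h3 : Dl f (x'' :: r) (hd (x'' :: r) s, M1 (x :: t) E)
          = Dl f (x'' :: r) (s, M1 (x :: t) E) := by
        unfold Dl; simp only [cmp_even h2]
      rw [h3, key]
      ring
    · have c : ((x :: t) ++ (x'' :: r)).length % 2 = 1 := by
        rw [List.length_append]; omega
      have hn3 := hns c
      have key := Dl_even f (x :: t) (x'' :: r) s (hd (x :: t) s) E h1 (by
        intro v hv
        rw [cmp_odd h2]
        intro h
        rw [List.append_assoc] at hn3
        exact (List.disjoint_of_nodup_append hn3) hv h)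
      have hr : r.length % 2 = 0 := by rw [List.length_cons] at h2; omega
      rw [cmp_odd c, cmp_odd h2, M1_cons_eq s x'' r E hr (by
        rw [List.append_assoc] at hn3
        exact hn3.of_append_right)] at key
      simp only [eL1, eR1, S1, S2, sg, ev_true h1, ev_false h2, if_true]
      rw [key]
      ring
  · have ht : t.length % 2 = 0 := by rw [List.length_cons] at h1; omega
    rcases Nat.mod_two_eq_zero_or_one (x'' :: r).length with h2 | h2
    · have c : ((x :: t) ++ (x'' :: r)).length % 2 = 1 := by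
        rw [List.length_append]; omega
      have key := Dl_odd_even f t (x'' :: r) x s (hd (x'' :: r) s) E ht h2 (hns c)
      simp only [eL1, eR1, S1, S2, sg, ev_false h1, ev_true h2]
      rw [key]
      simp only [Bool.false_eq_true, if_false]
      ring
    · have hr : r.length % 2 = 0 := by rw [List.length_cons] at h2; omega
      obtain ⟨p, y', hp⟩ : ∃ p y', x :: t = p ++ [y'] :=
        ⟨(x :: t).dropLast, (x :: t).getLast (by simp), (List.dropLast_append_getLast _).symm⟩
      obtain ⟨q, y, hq⟩ : ∃ q y, x'' :: r = q ++ [y] :=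
        ⟨(x'' :: r).dropLast, (x'' :: r).getLast (by simp), (List.dropLast_append_getLast _).symm⟩
      have key := Dl_odd_odd f t p q r x y' x'' y s E hp hq ht hr hn
      have l1 : lt (x'' :: r) s = y := by rw [lt, hq]; simp
      have l2 : lt (x :: t) s = y' := by rw [lt, hp]; simp
      simp only [eL1, eR1, S1, S2, sg, ev_false h1, ev_false h2, l1, l2]
      rw [key]
      simp only [Bool.false_eq_true, if_false]
      ring

end Vale.Agent.P308.Lin
end

section

/-! # The transfer to the first part of a path -/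

set_option linter.unusedSectionVars false

namespace Vale.Agent.P308.Lin

open Finset

variable {V : Type*} [Fintype V] [DecidableEq V]

/-! ### Auxiliary lemmas -/

theorem hd_of {a : List V} (ha : a ≠ []) (d : V) : a.head? = some (hd a d) := by
  cases a with
  | nil => exact absurd rfl ha
  | cons x l => simp [hd]

theorem lt_of {a : List V} (ha : a ≠ []) (d : V) : a.getLast? = some (lt a d) := by
  obtain ⟨x, hx⟩ := Option.isSome_iff_exists.1 (List.getLast?_isSome.2 ha)
  rw [hx]; simp [lt, hx]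

theorem Sim.pr_snoc_odd (W : Sim V) {l : List V} (he : l.length % 2 = 1) {y : V}
    (hy : l.getLast? = some y) (z : V) : W.pr (l ++ [z]) = W.pr l * W.lam y z := by
  revert he hy
  induction l using two_step with
  | h0 => intro h; simp only [List.length_nil, Nat.zero_mod, zero_ne_one] at h
  | h1 x =>
    intro _ h
    simp at h; subst h
    show W.lam x z * 1 = 1 * W.lam x z
    ring
  | h2 x x' l ih =>
    intro he hy
    have hne : l ≠ [] := by rintro rfl; simp at he
    have e : (x :: x' :: l).getLast? = l.getLast? := by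
      obtain ⟨z, l', rfl⟩ := List.exists_cons_of_ne_nil hne
      rw [List.getLast?_cons_cons, List.getLast?_cons_cons]
    rw [e] at hy
    show W.lam x x' * W.pr (l ++ [z]) = W.lam x x' * W.pr l * W.lam y z
    rw [ih (by simp only [List.length_cons] at he; omega) hy]; ring

/-- the matchings `12|34|…` and `23|45|…|n1` on an even list -/
theorem Sim.pr_rotate (W : Sim V) {q : List V} (he : q.length % 2 = 0) {x y : V}
    (hx : q.head? = some x) (hy : q.getLast? = some y) :
    W.pr (q.rotate 1) = W.pr q.tail * W.lam y x := by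
  cases q with
  | nil => simp at hx
  | cons z t =>
    simp at hx; subst hx
    rw [List.rotate_cons_succ, List.rotate_zero, List.tail_cons]
    have ht : t ≠ [] := by rintro rfl; simp only [List.length_cons, List.length_nil, zero_add, Nat.mod_succ, one_ne_zero] at he
    refine W.pr_snoc_odd (by simp at he; (clear * - he; omega)) ?_ z
    obtain ⟨w, t', rfl⟩ := List.exists_cons_of_ne_nil ht
    rwa [List.getLast?_cons_cons] at hy

theorem eL1_ee {a b : List V} (e : V × (V → V)) (ha : a.length % 2 = 0) (hb : b.length % 2 = 0) :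
    eL1 a b e = (hd a e.1, M1 (b.rotate 1) e.2) := by simp only [eL1, ev, ha, BEq.rfl, hb, M0_eq]

theorem eL1_oo {a b : List V} (e : V × (V → V)) (ha : a.length % 2 = 1) (hb : b.length % 2 = 1) :
    eL1 a b e = (lt b e.1, M1 b e.2) := by simp only [eL1, ev, ha, Nat.reduceBEq, hb, M1]

theorem eL1_eo {a b : List V} (e : V × (V → V)) (ha : a.length % 2 = 0) (hb : b.length % 2 = 1) :
    eL1 a b e = (hd a e.1, M1 (e.1 :: b) e.2) := by simp [eL1, ev, ha, hb]

theorem eL1_oe {a b : List V} (e : V × (V → V)) (ha : a.length % 2 = 1) (hb : b.length % 2 = 0) :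
    eL1 a b e = (e.1, M1 b e.2) := by simp [eL1, ev, ha, hb]

theorem eL2_ee {a b : List V} (e : V × (V → V)) (ha : a.length % 2 = 0) (hb : b.length % 2 = 0) :
    eL2 a b e = (hd a e.1, M1 b e.2) := by simp only [eL2, ev, ha, BEq.rfl, hb]

theorem eL2_oo {a b : List V} (e : V × (V → V)) (ha : a.length % 2 = 1) (hb : b.length % 2 = 1) :
    eL2 a b e = (hd b e.1, un (pL b.tail) b e.2) := by simp [eL2, ev, ha, hb]

theorem eL2_eo {a b : List V} (e : V × (V → V)) (ha : a.length % 2 = 0) (hb : b.length % 2 = 1) :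
    eL2 a b e = (hd a e.1, M1 (b ++ [e.1]) e.2) := by simp only [eL2, ev, ha, BEq.rfl, hb, Nat.reduceBEq]

theorem eL2_oe {a b : List V} (e : V × (V → V)) (ha : a.length % 2 = 1) (hb : b.length % 2 = 0) :
    eL2 a b e = (e.1, M1 (b.rotate 1) e.2) := by simp [eL2, ev, ha, hb, M0_eq]

theorem IsEnv.even {a : List V} {e : V × (V → V)} (h : IsEnv a e) (ha : a.length % 2 = 0) :
    a.head? = some e.1 ∧ ∀ v, e.2 v = v ↔ v ∈ a := by
  rcases h.2 with h' | h'
  · exact h'.2
  · omega

theorem IsEnv.odd {a : List V} {e : V × (V → V)} (h : IsEnv a e) (ha : a.length % 2 = 1) :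
    e.1 ∉ a ∧ ∀ v, e.2 v = v ↔ v ∈ a ∨ v = e.1 := by
  rcases h.2 with h' | h'
  · omega
  · exact h'.2

theorem isEnv_even {a : List V} {s : V} {E : V → V} (ha : a.length % 2 = 0)
    (hi : ∀ v, E (E v) = v) (hs : a.head? = some s) (h : ∀ v, E v = v ↔ v ∈ a) :
    IsEnv a (s, E) := ⟨hi, Or.inl ⟨ha, hs, h⟩⟩

theorem isEnv_odd {a : List V} {s : V} {E : V → V} (ha : a.length % 2 = 1)
    (hi : ∀ v, E (E v) = v) (hs : s ∉ a) (h : ∀ v, E v = v ↔ v ∈ a ∨ v = s) :
    IsEnv a (s, E) := ⟨hi, Or.inr ⟨ha, hs, h⟩⟩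

theorem par (a : List V) : a.length % 2 = 0 ∨ a.length % 2 = 1 := Nat.mod_two_eq_zero_or_one _

/-! ### Membership -/

section
variable {p q : List V} {e e' : V × (V → V)}

theorem envL1 (hn : (p ++ q).Nodup) (hp : p ≠ []) (hq : q ≠ []) (he : IsEnv (p ++ q) e) :
    IsEnv p (eL1 p q e) := by
  have hpn : p.Nodup := (List.nodup_append.1 hn).1
  have hqn : q.Nodup := (List.nodup_append.1 hn).2.1
  have hd' : ∀ v, v ∈ p → v ∉ q := fun v h1 h2 => (List.nodup_append.1 hn).2.2 v h1 v h2 rfl
  have hi := he.1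
  rcases par p with hpp | hpp <;> rcases par q with hqq | hqq
  · obtain ⟨-, h2⟩ := he.even (by simp; (clear * - hpp hqq; omega))
    simp only [List.mem_append] at h2
    rw [eL1_ee e hpp hqq]
    have hrn : (q.rotate 1).Nodup := List.nodup_rotate.2 hqn
    have hE : ∀ v ∈ q.rotate 1, e.2 v = v := fun v hv => (h2 v).2 (Or.inr (List.mem_rotate.1 hv))
    refine isEnv_even hpp (M1_invol hrn hE hi) (hd_of hp _) fun v => ?_
    rw [M1_fix_even hrn (by simpa using hqq), List.mem_rotate, h2]
    have := hd' v; (clear * - this; tauto)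
  · obtain ⟨h1, h2⟩ := he.odd (by simp; omega)
    simp only [List.mem_append, not_or] at h1 h2
    rw [eL1_eo e hpp hqq]
    have hrn : (e.1 :: q).Nodup := List.nodup_cons.2 ⟨h1.2, hqn⟩
    have hE : ∀ v ∈ e.1 :: q, e.2 v = v := fun v hv => (h2 v).2 (by
      rcases List.mem_cons.1 hv with h | h
      · exact Or.inr h
      · exact Or.inl (Or.inr h))
    refine isEnv_even hpp (M1_invol hrn hE hi) (hd_of hp _) fun v => ?_
    rw [M1_fix_even hrn (by simp; omega), List.mem_cons, h2]
    have := hd' v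
    have : v ∈ p → v ≠ e.1 := fun h h' => h1.1 (h' ▸ h)
    (clear hp hq he hpn hqn hi hpp hqq h2 hrn hE; tauto)
  · obtain ⟨h1, h2⟩ := he.odd (by simp; omega)
    simp only [List.mem_append, not_or] at h1 h2
    rw [eL1_oe e hpp hqq]
    have hE : ∀ v ∈ q, e.2 v = v := fun v hv => (h2 v).2 (Or.inl (Or.inr hv))
    refine isEnv_odd hpp (M1_invol hqn hE hi) h1.1 fun v => ?_
    rw [M1_fix_even hqn hqq, h2]
    have := hd' v
    have : v = e.1 → v ∉ q := fun h h' => h1.2 (h ▸ h')
    (clear hp hq he hpn hqn hi hpp hqq h2 hE; tauto)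
  · obtain ⟨-, h2⟩ := he.even (by simp; (clear * - hpp hqq; omega))
    simp only [List.mem_append] at h2
    rw [eL1_oo e hpp hqq]
    have hE : ∀ v ∈ q, e.2 v = v := fun v hv => (h2 v).2 (Or.inr hv)
    have hl := lt_of hq e.1
    refine isEnv_odd hpp (M1_invol hqn hE hi) ?_ fun v => ?_
    · exact fun h => hd' _ h (List.mem_of_getLast? hl)
    · rw [M1_fix_odd hqn hqq, h2, hl]
      have := hd' v
      have : some (lt q e.1) = some v ↔ v = lt q e.1 := by
        rw [Option.some_inj]; exact eq_comm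
      (clear hp hq he hpn hqn hi hpp hqq h2 hE hl; tauto)

theorem envL2 (hn : (p ++ q).Nodup) (hp : p ≠ []) (hq : q ≠ []) (he : IsEnv (p ++ q) e) :
    IsEnv p (eL2 p q e) := by
  have hpn : p.Nodup := (List.nodup_append.1 hn).1
  have hqn : q.Nodup := (List.nodup_append.1 hn).2.1
  have hd' : ∀ v, v ∈ p → v ∉ q := fun v h1 h2 => (List.nodup_append.1 hn).2.2 v h1 v h2 rfl
  have hi := he.1
  rcases par p with hpp | hpp <;> rcases par q with hqq | hqq
  · obtain ⟨-, h2⟩ := he.even (by simp; omega)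
    simp only [List.mem_append] at h2
    rw [eL2_ee e hpp hqq]
    have hE : ∀ v ∈ q, e.2 v = v := fun v hv => (h2 v).2 (Or.inr hv)
    refine isEnv_even hpp (M1_invol hqn hE hi) (hd_of hp _) fun v => ?_
    rw [M1_fix_even hqn hqq, h2]
    have := hd' v; (clear * - this; tauto)
  · obtain ⟨h1, h2⟩ := he.odd (by simp; omega)
    simp only [List.mem_append, not_or] at h1 h2
    rw [eL2_eo e hpp hqq]
    have hrn : (q ++ [e.1]).Nodup := by
      rw [List.nodup_append]
      refine ⟨hqn, by simp, fun x hx y hy h => ?_⟩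
      simp only [List.mem_singleton] at hy
      subst hy; exact h1.2 (h ▸ hx)
    have hE : ∀ v ∈ q ++ [e.1], e.2 v = v := fun v hv => (h2 v).2 (by
      rcases List.mem_append.1 hv with h | h
      · exact Or.inl (Or.inr h)
      · exact Or.inr (List.mem_singleton.1 h))
    refine isEnv_even hpp (M1_invol hrn hE hi) (hd_of hp _) fun v => ?_
    rw [M1_fix_even hrn (by simp only [List.length_append, List.length_cons, List.length_nil, zero_add]; omega), List.mem_append, List.mem_singleton, h2]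
    have := hd' v
    have : v ∈ p → v ≠ e.1 := fun h h' => h1.1 (h' ▸ h)
    (clear hp hq he hpn hqn hi hpp hqq h2 hrn hE; tauto)
  · obtain ⟨h1, h2⟩ := he.odd (by simp; omega)
    simp only [List.mem_append, not_or] at h1 h2
    rw [eL2_oe e hpp hqq]
    have hrn : (q.rotate 1).Nodup := List.nodup_rotate.2 hqn
    have hE : ∀ v ∈ q.rotate 1, e.2 v = v := fun v hv =>
      (h2 v).2 (Or.inl (Or.inr (List.mem_rotate.1 hv)))
    refine isEnv_odd hpp (M1_invol hrn hE hi) h1.1 fun v => ?_
    rw [M1_fix_even hrn (by simpa only [List.length_rotate] using hqq), List.mem_rotate, h2]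
    have := hd' v
    have : v = e.1 → v ∉ q := fun h h' => h1.2 (h ▸ h')
    (clear hp hq he hpn hqn hi hpp hqq h2 hrn hE; tauto)
  · obtain ⟨-, h2⟩ := he.even (by simp; omega)
    simp only [List.mem_append] at h2
    have hE : ∀ v ∈ q, e.2 v = v := fun v hv => (h2 v).2 (Or.inr hv)
    rw [eL2_oo e hpp hqq, un_tail_eq hqn hE]
    have hh := hd_of hq e.1
    have hE' : ∀ v ∈ q.tail, e.2 v = v := fun v hv => hE v (List.mem_of_mem_tail hv)
    have htn : q.tail.Nodup := hqn.tail
    refine isEnv_odd hpp (M1_invol htn hE' hi) ?_ fun v => ?_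
    · exact fun h => hd' _ h (List.mem_of_mem_head? hh)
    · rw [M1_fix_even htn (by simp only [List.length_tail]; omega), h2]
      have h3 := hd' v
      generalize hd q e.1 = x at hh
      cases q with
      | nil => exact absurd rfl hq
      | cons z t =>
        simp only [List.head?_cons, Option.some_inj] at hh
        subst hh
        rw [List.tail_cons, List.mem_cons]
        rw [List.mem_cons] at h3
        have h4 : v = z → v ∉ t := fun h h' => (List.nodup_cons.1 hqn).1 (h ▸ h')
        (clear * - h3 h4; tauto)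

/-! ### Decoding -/

theorem orbL (hn : (p ++ q).Nodup) (hp : p ≠ []) (hq : q ≠ []) (he : IsEnv (p ++ q) e)
    (he' : IsEnv (p ++ q) e') (d : V) :
    (if p.length % 2 = 0 then orb (eL2 p q e').2 (eL1 p q e).2 (hd q d) q.length
      else orb (eL1 p q e).2 (eL2 p q e').2 (hd q d) q.length) = q := by
  have hpn : p.Nodup := (List.nodup_append.1 hn).1
  have hqn : q.Nodup := (List.nodup_append.1 hn).2.1
  obtain ⟨x, t, rfl⟩ := List.exists_cons_of_ne_nil hq
  have hx : hd (x :: t) d = x := rfl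
  rw [hx]
  have hxt := (List.nodup_cons.1 hqn).1
  rcases par p with hpp | hpp <;> rcases par (x :: t) with hqq | hqq
  · rw [if_pos hpp, eL1_ee e hpp hqq, eL2_ee e' hpp hqq]
    refine orb_of_alt (alt_of hqn ?_ ?_)
    · intro v hv _; exact M1_mem hv
    · intro v hv hne
      rw [List.tail_cons] at hv hne ⊢
      rw [List.rotate_cons_succ, List.rotate_zero]
      show M1 _ _ _ = _
      rw [M1_mem (by simp [hv]), pL_append_left hv hne]
  · rw [if_pos hpp, eL1_eo e hpp hqq, eL2_eo e' hpp hqq]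
    obtain ⟨h1, h2⟩ := he.odd (by simp only [List.length_append]; omega)
    refine orb_of_alt (alt_of hqn ?_ ?_)
    · intro v hv hne
      show M1 _ _ _ = _
      rw [M1_mem (List.mem_append_left _ hv), pL_append_left hv hne]
    · intro v hv hne
      rw [List.tail_cons] at hv hne ⊢
      show M1 _ _ _ = _
      have n1 : v ≠ e.1 := fun h => h1 (by rw [← h]; simp [hv])
      have n2 : v ≠ x := fun h => hxt (h ▸ hv)
      rw [M1_mem (by simp [hv]), pL_cons2, if_neg n1, if_neg n2]
  · rw [if_neg (by (clear * - hpp; omega)), eL1_oe e hpp hqq, eL2_oe e' hpp hqq]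
    refine orb_of_alt (alt_of hqn ?_ ?_)
    · intro v hv _; exact M1_mem hv
    · intro v hv hne
      rw [List.tail_cons] at hv hne ⊢
      rw [List.rotate_cons_succ, List.rotate_zero]
      show M1 _ _ _ = _
      rw [M1_mem (by simp [hv]), pL_append_left hv hne]
  · have hE' : ∀ v ∈ x :: t, e'.2 v = v := fun v hv =>
      ((he'.even (by simp only [List.length_append]; omega)).2 v).2 (List.mem_append_right _ hv)
    rw [if_neg (by omega), eL1_oo e hpp hqq, eL2_oo e' hpp hqq, un_tail_eq hqn hE']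
    refine orb_of_alt (alt_of hqn ?_ ?_)
    · intro v hv _; exact M1_mem hv
    · intro v hv _; exact M1_mem hv

theorem injL1 (hn : (p ++ q).Nodup) (hp : p ≠ []) (hq : q ≠ []) (he : IsEnv (p ++ q) e)
    (he' : IsEnv (p ++ q) e') (h : eL1 p q e = eL1 p q e') : e = e' := by
  have hqn : q.Nodup := (List.nodup_append.1 hn).2.1
  obtain ⟨s, E⟩ := e
  obtain ⟨s', E'⟩ := e'
  rcases par p with hpp | hpp <;> rcases par q with hqq | hqq
  · rw [eL1_ee _ hpp hqq, eL1_ee _ hpp hqq] at h
    obtain ⟨h1, h2⟩ := he.even (by simp only [List.length_append]; omega)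
    obtain ⟨h1', h2'⟩ := he'.even (by simp only [List.length_append]; omega)
    have e1 : s = s' := Option.some_inj.1 (h1.symm.trans h1')
    have e2 : E = E' := M1_inj (b := q.rotate 1)
      (fun v hv => (h2 v).2 (List.mem_append_right _ (List.mem_rotate.1 hv)))
      (fun v hv => (h2' v).2 (List.mem_append_right _ (List.mem_rotate.1 hv)))
      (congrArg Prod.snd h)
    rw [e1, e2]
  · rw [eL1_eo _ hpp hqq, eL1_eo _ hpp hqq] at h
    obtain ⟨h1, h2⟩ := he.odd (by simp only [List.length_append]; omega)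
    obtain ⟨h1', h2'⟩ := he'.odd (by simp only [List.length_append]; omega)
    obtain ⟨x, t, rfl⟩ := List.exists_cons_of_ne_nil hq
    have h3 := congrArg Prod.snd h
    simp only at h3 h1 h1' h2 h2'
    have e1 : s = s' := by
      have h4 := congrFun h3 x
      have n1 : x ≠ s := fun h => h1 (by rw [← h]; simp)
      have n2 : x ≠ s' := fun h => h1' (by rw [← h]; simp)
      rw [M1_mem (by simp), M1_mem (by simp), pL_cons2, if_neg n1, if_pos rfl, pL_cons2,
        if_neg n2, if_pos rfl] at h4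
      exact h4
    subst e1
    have e2 : E = E' := M1_inj (b := s :: x :: t)
      (fun v hv => (h2 v).2 (by
        rcases List.mem_cons.1 hv with h | h
        · exact Or.inr h
        · exact Or.inl (List.mem_append_right _ h)))
      (fun v hv => (h2' v).2 (by
        rcases List.mem_cons.1 hv with h | h
        · exact Or.inr h
        · exact Or.inl (List.mem_append_right _ h))) h3
    rw [e2]
  · rw [eL1_oe _ hpp hqq, eL1_oe _ hpp hqq] at h
    obtain ⟨h1, h2⟩ := he.odd (by simp only [List.length_append]; (clear * - hpp hqq; omega))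
    obtain ⟨h1', h2'⟩ := he'.odd (by simp only [List.length_append]; (clear * - hpp hqq; omega))
    have e1 : s = s' := congrArg Prod.fst h
    have e2 : E = E' := M1_inj (b := q)
      (fun v hv => (h2 v).2 (Or.inl (List.mem_append_right _ hv)))
      (fun v hv => (h2' v).2 (Or.inl (List.mem_append_right _ hv))) (congrArg Prod.snd h)
    rw [e1, e2]
  · rw [eL1_oo _ hpp hqq, eL1_oo _ hpp hqq] at h
    obtain ⟨h1, h2⟩ := he.even (by simp only [List.length_append]; omega)
    obtain ⟨h1', h2'⟩ := he'.even (by simp only [List.length_append]; omega)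
    have e1 : s = s' := Option.some_inj.1 (h1.symm.trans h1')
    have e2 : E = E' := M1_inj (b := q)
      (fun v hv => (h2 v).2 (List.mem_append_right _ hv))
      (fun v hv => (h2' v).2 (List.mem_append_right _ hv)) (congrArg Prod.snd h)
    rw [e1, e2]

theorem pL_snoc_last {l : List V} (hl : l.Nodup) (he : l.length % 2 = 1) {y : V}
    (hy : l.getLast? = some y) (z : V) : pL (l ++ [z]) y = z := by
  revert hl he hy
  induction l using two_step with
  | h0 => intro _ h; simp at h
  | h1 x =>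
    intro _ _ h
    simp at h; subst h
    simp [pL_cons2]
  | h2 x x' l ih =>
    intro hl he hy
    have hne : l ≠ [] := by rintro rfl; simp at he
    have e : (x :: x' :: l).getLast? = l.getLast? := by
      obtain ⟨z, l', rfl⟩ := List.exists_cons_of_ne_nil hne
      rw [List.getLast?_cons_cons, List.getLast?_cons_cons]
    rw [e] at hy
    have hym := List.mem_of_getLast? hy
    simp only [List.nodup_cons, List.mem_cons, not_or] at hl
    have n1 : y ≠ x := fun h => hl.1.2 (h ▸ hym)
    have n2 : y ≠ x' := fun h => hl.2.1 (h ▸ hym)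
    rw [List.cons_append, List.cons_append, pL_cons2, if_neg n1, if_neg n2]
    exact ih hl.2.2 (by simp at he; omega) hy

theorem injL2 (hn : (p ++ q).Nodup) (hp : p ≠ []) (hq : q ≠ []) (he : IsEnv (p ++ q) e)
    (he' : IsEnv (p ++ q) e') (h : eL2 p q e = eL2 p q e') : e = e' := by
  have hqn : q.Nodup := (List.nodup_append.1 hn).2.1
  obtain ⟨s, E⟩ := e
  obtain ⟨s', E'⟩ := e'
  rcases par p with hpp | hpp <;> rcases par q with hqq | hqq
  · rw [eL2_ee _ hpp hqq, eL2_ee _ hpp hqq] at h
    obtain ⟨h1, h2⟩ := he.even (by simp only [List.length_append]; (clear * - hpp hqq; omega))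
    obtain ⟨h1', h2'⟩ := he'.even (by simp only [List.length_append]; omega)
    have e1 : s = s' := Option.some_inj.1 (h1.symm.trans h1')
    have e2 : E = E' := M1_inj (b := q)
      (fun v hv => (h2 v).2 (List.mem_append_right _ hv))
      (fun v hv => (h2' v).2 (List.mem_append_right _ hv)) (congrArg Prod.snd h)
    rw [e1, e2]
  · rw [eL2_eo _ hpp hqq, eL2_eo _ hpp hqq] at h
    obtain ⟨h1, h2⟩ := he.odd (by simp only [List.length_append]; omega)
    obtain ⟨h1', h2'⟩ := he'.odd (by simp only [List.length_append]; omega)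
    have h3 := congrArg Prod.snd h
    simp only at h3 h1 h1' h2 h2'
    have e1 : s = s' := by
      have hy := lt_of hq s
      have hym := List.mem_of_getLast? hy
      have h4 := congrFun h3 (lt q s)
      rw [M1_mem (List.mem_append_left _ hym), M1_mem (List.mem_append_left _ hym),
        pL_snoc_last hqn hqq hy, pL_snoc_last hqn hqq hy] at h4
      exact h4
    subst e1
    have e2 : E = E' := M1_inj (b := q ++ [s])
      (fun v hv => (h2 v).2 (by
        rcases List.mem_append.1 hv with h | h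
        · exact Or.inl (List.mem_append_right _ h)
        · exact Or.inr (List.mem_singleton.1 h)))
      (fun v hv => (h2' v).2 (by
        rcases List.mem_append.1 hv with h | h
        · exact Or.inl (List.mem_append_right _ h)
        · exact Or.inr (List.mem_singleton.1 h))) h3
    rw [e2]
  · rw [eL2_oe _ hpp hqq, eL2_oe _ hpp hqq] at h
    obtain ⟨h1, h2⟩ := he.odd (by simp only [List.length_append]; omega)
    obtain ⟨h1', h2'⟩ := he'.odd (by simp only [List.length_append]; omega)
    have e1 : s = s' := congrArg Prod.fst h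
    have e2 : E = E' := M1_inj (b := q.rotate 1)
      (fun v hv => (h2 v).2 (Or.inl (List.mem_append_right _ (List.mem_rotate.1 hv))))
      (fun v hv => (h2' v).2 (Or.inl (List.mem_append_right _ (List.mem_rotate.1 hv))))
      (congrArg Prod.snd h)
    rw [e1, e2]
  · obtain ⟨h1, h2⟩ := he.even (by simp only [List.length_append]; omega)
    obtain ⟨h1', h2'⟩ := he'.even (by simp only [List.length_append]; omega)
    rw [eL2_oo _ hpp hqq, eL2_oo _ hpp hqq,
      un_tail_eq hqn (fun v hv => (h2 v).2 (List.mem_append_right _ hv)),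
      un_tail_eq hqn (fun v hv => (h2' v).2 (List.mem_append_right _ hv))] at h
    have e1 : s = s' := Option.some_inj.1 (h1.symm.trans h1')
    have e2 : E = E' := M1_inj (b := q.tail)
      (fun v hv => (h2 v).2 (List.mem_append_right _ (List.mem_of_mem_tail hv)))
      (fun v hv => (h2' v).2 (List.mem_append_right _ (List.mem_of_mem_tail hv)))
      (congrArg Prod.snd h)
    rw [e1, e2]

/-! ### Weights -/

theorem Sim.Wc_even (W : Sim V) {a : List V} (ha : a.length % 2 = 0) (e e' : V × (V → V)) :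
    W.Wc a e e' = W.pw a * (W.cm a * (W.wt e.2 * W.wt e'.2)) := by
  have h := Real.mul_self_sqrt (W.cm_pos a).le
  unfold Sim.Wc Sim.om
  rw [if_pos ha, if_pos ha]
  calc _ = W.pw a * ((Real.sqrt (W.cm a) * Real.sqrt (W.cm a)) * (W.wt e.2 * W.wt e'.2)) := by ring
    _ = _ := by rw [h]

theorem Sim.Wc_odd (W : Sim V) {a : List V} (ha : a.length % 2 = 1) (e e' : V × (V → V)) :
    W.Wc a e e' = W.pw a * (W.cm (a ++ [e.1]) * W.cm (a ++ [e'.1]) * (W.wt e.2 * W.wt e'.2)) := by
  have ha' : ¬ a.length % 2 = 0 := by omega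
  unfold Sim.Wc Sim.om
  rw [if_neg ha', if_neg ha']
  ring

theorem Sim.inv_eps (W : Sim V) : 1 ≤ 1 / W.ε := by
  rw [le_div_iff₀ W.ε_pos, one_mul]; exact W.ε_le

theorem Sim.c_le_lam (W : Sim V) {x y : V} (h : x ≠ y) : W.c x y ≤ 1 / W.ε * W.lam x y := by
  have h1 := W.le_lam h
  have h2 := W.ε_pos
  rw [div_mul_eq_mul_div, one_mul, le_div_iff₀ h2]
  linarith only [h1]

theorem Sim.Wc_nonneg (W : Sim V) (a : List V) (e e' : V × (V → V)) : 0 ≤ W.Wc a e e' := by
  unfold Sim.Wc Sim.om
  have h1 := W.pw_pos a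
  have h2 := W.wt_pos e.2
  have h3 := W.wt_pos e'.2
  have h4 := W.cm_pos (a ++ [e.1])
  have h5 := W.cm_pos (a ++ [e'.1])
  have h6 := Real.sqrt_nonneg (W.cm a)
  split_ifs <;> positivity

theorem wtL (W : Sim V) (hn : (p ++ q).Nodup) (hp : p ≠ []) (hq : q ≠ [])
    (he : IsEnv (p ++ q) e) (he' : IsEnv (p ++ q) e')
    (hc : ∃ u v, p.getLast? = some u ∧ q.head? = some v ∧ W.c u v = W.cm (p ++ q)) :
    W.Wc (p ++ q) e e' ≤ (1 / W.ε) ^ 2 * W.Wc p (eL1 p q e) (eL2 p q e') := by
  have hpn : p.Nodup := (List.nodup_append.1 hn).1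
  have hqn : q.Nodup := (List.nodup_append.1 hn).2.1
  have hd' : ∀ v, v ∈ p → v ∉ q := fun v h1 h2 => (List.nodup_append.1 hn).2.2 v h1 v h2 rfl
  obtain ⟨y, x, hy, hx, hyx⟩ := hc
  have hyp := List.mem_of_getLast? hy
  have hxq := List.mem_of_mem_head? hx
  have hne : y ≠ x := fun h => hd' y hyp (h ▸ hxq)
  have hlq := lt_of hq x
  have hlqm := List.mem_of_getLast? hlq
  set z := lt q x with hz
  -- the edge at the cut
  have l0 := W.lam_pos y x
  have l1 : W.lam y x ≤ W.cm (p ++ q) := (W.lam_le hne).trans hyx.le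
  have l2 : W.cm (p ++ q) ≤ W.cm p := W.cm_mono hp fun v hv => List.mem_append_left _ hv
  have w1 := W.wt_pos e.2
  have w2 := W.wt_pos e'.2
  have p0 := W.pw_pos p
  have p1 := W.pw_pos q
  have ep := W.inv_eps
  have c0 := W.cm_pos (p ++ q)
  rw [show W.Wc (p ++ q) e e' = W.Wc (p ++ q) e e' from rfl]
  rcases par p with hpp | hpp <;> rcases par q with hqq | hqq
  · -- even, even
    obtain ⟨-, h2⟩ := he.even (by simp only [List.length_append]; omega)
    obtain ⟨-, h2'⟩ := he'.even (by simp only [List.length_append]; omega)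
    have hrn : (q.rotate 1).Nodup := List.nodup_rotate.2 hqn
    have hE : ∀ v ∈ q.rotate 1, e.2 v = v := fun v hv =>
      (h2 v).2 (List.mem_append_right _ (List.mem_rotate.1 hv))
    have hE' : ∀ v ∈ q, e'.2 v = v := fun v hv => (h2' v).2 (List.mem_append_right _ hv)
    rw [W.Wc_even (by simp only [List.length_append]; omega), W.Wc_even hpp,
      eL1_ee e hpp hqq, eL2_ee e' hpp hqq, W.wt_M1 hrn hE, W.wt_M1 hqn hE',
      W.pr_rotate hqq hx hlq, W.pw_append hy hx]
    have hzx : z ≠ x := by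
      intro h
      cases q with
      | nil => exact hq rfl
      | cons v t =>
        simp only [List.head?_cons, Option.some_inj] at hx
        subst hx
        have ht : t ≠ [] := by rintro rfl; simp only [List.length_cons, List.length_nil, zero_add, Nat.mod_succ, one_ne_zero] at hqq
        obtain ⟨w, t', rfl⟩ := List.exists_cons_of_ne_nil ht
        rw [List.getLast?_cons_cons] at hlq
        have := List.mem_of_getLast? hlq
        rw [h] at this
        exact (List.nodup_cons.1 hqn).1 this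
    have l3 : W.cm (p ++ q) ≤ 1 / W.ε * W.lam z x :=
      (W.cm_le (List.mem_append_right _ hlqm) (List.mem_append_right _ hxq)).trans
        (W.c_le_lam hzx)
    have e1 : (1 / W.ε) ^ 2 * (W.pw p * (W.cm p * (W.pr q.tail * W.lam z x * W.wt e.2 *
        (W.pr q * W.wt e'.2)))) = (W.pw p * (W.pr q * W.pr q.tail) * (W.wt e.2 * W.wt e'.2)) *
          (1 / W.ε * (W.cm p * (1 / W.ε * W.lam z x))) := by ring
    have e2 : W.pw p * W.lam y x * W.pw q * (W.cm (p ++ q) * (W.wt e.2 * W.wt e'.2)) =
        (W.pw p * W.pw q * (W.wt e.2 * W.wt e'.2)) * (1 * (W.lam y x * W.cm (p ++ q))) := by ring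
    rw [e1, e2, W.pr_mul_tail]
    refine mul_le_mul_of_nonneg_left ?_ (by (clear * - p0 p1 w1 w2; positivity))
    refine mul_le_mul ep ?_ (by (clear * - l0 c0; positivity)) (by (clear * - ep; positivity))
    exact mul_le_mul (l1.trans l2) l3 c0.le (by linarith only [l0, l1, l2])
  · -- even, odd
    obtain ⟨h1, h2⟩ := he.odd (by simp only [List.length_append]; omega)
    obtain ⟨h1', h2'⟩ := he'.odd (by simp only [List.length_append]; omega)
    have hsq : e.1 ∉ q := fun h => h1 (List.mem_append_right _ h)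
    have hsq' : e'.1 ∉ q := fun h => h1' (List.mem_append_right _ h)
    have hrn : (e.1 :: q).Nodup := List.nodup_cons.2 ⟨hsq, hqn⟩
    have hrn' : (q ++ [e'.1]).Nodup := by
      rw [List.nodup_append]
      refine ⟨hqn, by simp, fun x hx y hy h => ?_⟩
      simp only [List.mem_singleton] at hy
      subst hy; exact hsq' (h ▸ hx)
    have hE : ∀ v ∈ e.1 :: q, e.2 v = v := fun v hv => (h2 v).2 (by
      rcases List.mem_cons.1 hv with h | h
      · exact Or.inr h
      · exact Or.inl (List.mem_append_right _ h))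
    have hE' : ∀ v ∈ q ++ [e'.1], e'.2 v = v := fun v hv => (h2' v).2 (by
      rcases List.mem_append.1 hv with h | h
      · exact Or.inl (List.mem_append_right _ h)
      · exact Or.inr (List.mem_singleton.1 h))
    rw [W.Wc_odd (by simp only [List.length_append]; (clear * - hpp hqq; omega)), W.Wc_even hpp,
      eL1_eo e hpp hqq, eL2_eo e' hpp hqq, W.wt_M1 hrn hE, W.wt_M1 hrn' hE',
      W.pr_snoc_odd hqq hlq, W.pw_append hy hx]
    have e0 : W.pr (e.1 :: q) = W.lam e.1 x * W.pr q.tail := by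
      cases q with
      | nil => exact absurd rfl hq
      | cons v t =>
        simp only [List.head?_cons, Option.some_inj] at hx
        subst hx; rfl
    rw [e0]
    have l3 : W.cm (p ++ q ++ [e.1]) ≤ 1 / W.ε * W.lam e.1 x :=
      (W.cm_le (by simp) (by simp [hxq])).trans (W.c_le_lam fun h => hsq (h ▸ hxq))
    have l4 : W.cm (p ++ q ++ [e'.1]) ≤ 1 / W.ε * W.lam z e'.1 :=
      (W.cm_le (by simp [hlqm]) (by simp)).trans (W.c_le_lam fun h => hsq' (h ▸ hlqm))
    have l5 := W.lam_pos e.1 x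
    have l6 := W.lam_pos z e'.1
    have c1 := W.cm_pos (p ++ q ++ [e.1])
    have c2 := W.cm_pos (p ++ q ++ [e'.1])
    have e1 : (1 / W.ε) ^ 2 * (W.pw p * (W.cm p * (W.lam e.1 x * W.pr q.tail * W.wt e.2 *
        (W.pr q * W.lam z e'.1 * W.wt e'.2)))) =
          (W.pw p * (W.pr q * W.pr q.tail) * (W.wt e.2 * W.wt e'.2)) *
          (W.cm p * ((1 / W.ε * W.lam e.1 x) * (1 / W.ε * W.lam z e'.1))) := by ring
    have e2 : W.pw p * W.lam y x * W.pw q * (W.cm (p ++ q ++ [e.1]) * W.cm (p ++ q ++ [e'.1]) *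
        (W.wt e.2 * W.wt e'.2)) = (W.pw p * W.pw q * (W.wt e.2 * W.wt e'.2)) *
          (W.lam y x * (W.cm (p ++ q ++ [e.1]) * W.cm (p ++ q ++ [e'.1]))) := by ring
    rw [e1, e2, W.pr_mul_tail]
    refine mul_le_mul_of_nonneg_left ?_ (by (clear * - p0 p1 w1 w2; positivity))
    refine mul_le_mul (l1.trans l2) ?_ (by (clear * - c1 c2; positivity)) (by linarith only [l0, l1, l2])
    exact mul_le_mul l3 l4 c2.le (by (clear * - ep l5; positivity))
  · -- odd, even
    obtain ⟨h1, h2⟩ := he.odd (by simp only [List.length_append]; omega)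
    obtain ⟨h1', h2'⟩ := he'.odd (by simp only [List.length_append]; omega)
    have hrn : (q.rotate 1).Nodup := List.nodup_rotate.2 hqn
    have hE : ∀ v ∈ q, e.2 v = v := fun v hv => (h2 v).2 (Or.inl (List.mem_append_right _ hv))
    have hE' : ∀ v ∈ q.rotate 1, e'.2 v = v := fun v hv =>
      (h2' v).2 (Or.inl (List.mem_append_right _ (List.mem_rotate.1 hv)))
    rw [W.Wc_odd (by simp only [List.length_append]; omega), W.Wc_odd hpp,
      eL1_oe e hpp hqq, eL2_oe e' hpp hqq, W.wt_M1 hqn hE, W.wt_M1 hrn hE',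
      W.pr_rotate hqq hx hlq, W.pw_append hy hx]
    have hzx : z ≠ x := by
      intro h
      cases q with
      | nil => exact hq rfl
      | cons v t =>
        simp only [List.head?_cons, Option.some_inj] at hx
        subst hx
        have ht : t ≠ [] := by rintro rfl; simp at hqq
        obtain ⟨w, t', rfl⟩ := List.exists_cons_of_ne_nil ht
        rw [List.getLast?_cons_cons] at hlq
        have := List.mem_of_getLast? hlq
        rw [h] at this
        exact (List.nodup_cons.1 hqn).1 this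
    have l3 : W.lam y x ≤ 1 / W.ε * W.lam z x := l1.trans
      ((W.cm_le (List.mem_append_right _ hlqm) (List.mem_append_right _ hxq)).trans
        (W.c_le_lam hzx))
    have c1 := W.cm_pos (p ++ q ++ [e.1])
    have c2 := W.cm_pos (p ++ q ++ [e'.1])
    have c3 : W.cm (p ++ q ++ [e.1]) ≤ W.cm (p ++ [e.1]) :=
      W.cm_mono (by simp) fun v hv => by
        simp only [List.mem_append, List.mem_singleton] at hv ⊢; (clear * - hv; tauto)
    have c4 : W.cm (p ++ q ++ [e'.1]) ≤ W.cm (p ++ [e'.1]) :=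
      W.cm_mono (by simp) fun v hv => by
        simp only [List.mem_append, List.mem_singleton] at hv ⊢; (clear * - hv; tauto)
    have l6 := W.lam_pos z x
    have c5 := W.cm_pos (p ++ [e.1])
    have e1 : (1 / W.ε) ^ 2 * (W.pw p * (W.cm (p ++ [e.1]) * W.cm (p ++ [e'.1]) *
        (W.pr q * W.wt e.2 * (W.pr q.tail * W.lam z x * W.wt e'.2)))) =
          (W.pw p * (W.pr q * W.pr q.tail) * (W.wt e.2 * W.wt e'.2)) *
          (1 / W.ε * ((1 / W.ε * W.lam z x) * (W.cm (p ++ [e.1]) * W.cm (p ++ [e'.1])))) := by ring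
    have e2 : W.pw p * W.lam y x * W.pw q * (W.cm (p ++ q ++ [e.1]) * W.cm (p ++ q ++ [e'.1]) *
        (W.wt e.2 * W.wt e'.2)) = (W.pw p * W.pw q * (W.wt e.2 * W.wt e'.2)) *
          (1 * (W.lam y x * (W.cm (p ++ q ++ [e.1]) * W.cm (p ++ q ++ [e'.1])))) := by ring
    rw [e1, e2, W.pr_mul_tail]
    refine mul_le_mul_of_nonneg_left ?_ (by (clear * - p0 p1 w1 w2; positivity))
    refine mul_le_mul ep ?_ (by (clear * - l0 c1 c2; positivity)) (by (clear * - ep; positivity))
    refine mul_le_mul l3 ?_ (by (clear * - c1 c2; positivity)) (by (clear * - ep l6; positivity))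
    exact mul_le_mul c3 c4 c2.le c5.le
  · -- odd, odd
    obtain ⟨-, h2⟩ := he.even (by simp only [List.length_append]; omega)
    obtain ⟨-, h2'⟩ := he'.even (by simp only [List.length_append]; omega)
    have hE : ∀ v ∈ q, e.2 v = v := fun v hv => (h2 v).2 (List.mem_append_right _ hv)
    have hE' : ∀ v ∈ q, e'.2 v = v := fun v hv => (h2' v).2 (List.mem_append_right _ hv)
    rw [W.Wc_even (by simp only [List.length_append]; omega), W.Wc_odd hpp,
      eL1_oo e hpp hqq, eL2_oo e' hpp hqq, un_tail_eq hqn hE', W.wt_M1 hqn hE,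
      W.wt_M1 hqn.tail (fun v hv => hE' v (List.mem_of_mem_tail hv)), W.pw_append hy hx]
    have c3 : W.cm (p ++ q) ≤ W.cm (p ++ [lt q e.1]) :=
      W.cm_mono (by simp) fun v hv => by
        have := List.mem_of_getLast? (lt_of hq e.1)
        simp only [List.mem_append, List.mem_singleton] at hv ⊢
        rcases hv with hv | rfl <;> tauto
    have c4 : W.cm (p ++ q) ≤ W.cm (p ++ [hd q e'.1]) :=
      W.cm_mono (by simp) fun v hv => by
        have := List.mem_of_mem_head? (hd_of hq e'.1)
        simp only [List.mem_append, List.mem_singleton] at hv ⊢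
        rcases hv with hv | rfl <;> tauto
    have c5 := W.cm_pos (p ++ [lt q e.1])
    have c6 := W.cm_pos (p ++ [hd q e'.1])
    have e1 : (1 / W.ε) ^ 2 * (W.pw p * (W.cm (p ++ [lt q e.1]) * W.cm (p ++ [hd q e'.1]) *
        (W.pr q * W.wt e.2 * (W.pr q.tail * W.wt e'.2)))) =
          (W.pw p * (W.pr q * W.pr q.tail) * (W.wt e.2 * W.wt e'.2)) *
          ((1 / W.ε) ^ 2 * (W.cm (p ++ [lt q e.1]) * W.cm (p ++ [hd q e'.1]))) := by ring
    have e2 : W.pw p * W.lam y x * W.pw q * (W.cm (p ++ q) * (W.wt e.2 * W.wt e'.2)) =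
        (W.pw p * W.pw q * (W.wt e.2 * W.wt e'.2)) * (1 * (W.lam y x * W.cm (p ++ q))) := by ring
    rw [e1, e2, W.pr_mul_tail]
    refine mul_le_mul_of_nonneg_left ?_ (by (clear * - p0 p1 w1 w2; positivity))
    refine mul_le_mul (one_le_pow₀ ep) ?_ (by (clear * - l0 c0; positivity)) (by (clear * - ep; positivity))
    exact mul_le_mul (l1.trans c3) c4 c0.le c5.le

end

/-! ### The transfer -/

theorem Sim.spl_nodup (W : Sim V) {a : List V} (ha : a.Nodup) :
    ((W.spl a).1 ++ (W.spl a).2).Nodup := by rw [W.spl_append]; exact ha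

theorem Sim.spl_len (W : Sim V) {a : List V} (ha : a.Nodup) :
    (W.spl a).2.length < Fintype.card V + 1 := by
  have h := (W.spl_nodup ha)
  have := List.Nodup.length_le_card (List.nodup_append.1 h).2.1
  omega

theorem sum_paths (S : Finset (NL V)) (F : NL V → V × (V → V) → V × (V → V) → ℝ) :
    ∑ a ∈ S, ∑ e ∈ envs a.1, ∑ e' ∈ envs a.1, F a e e' =
      ∑ x ∈ S.sigma (fun a => envs a.1 ×ˢ envs a.1), F x.1 x.2.1 x.2.2 := by
  rw [Finset.sum_sigma]
  refine Finset.sum_congr rfl fun a _ => ?_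
  rw [Finset.sum_product]

theorem stTL : StTL V := by
  intro W h hh
  rw [sum_paths, sum_paths (S := univ)]
  refine (transfer (κ := V × Fin (Fintype.card V + 1))
    ((paths2 V).sigma (fun a => envs a.1 ×ˢ envs a.1))
    ((univ : Finset (NL V)).sigma (fun a => envs a.1 ×ˢ envs a.1))
    (fun x => ⟨⟨(W.spl x.1.1).1, (List.nodup_append.1 (W.spl_nodup x.1.2)).1⟩,
      (eL1 (W.spl x.1.1).1 (W.spl x.1.1).2 x.2.1, eL2 (W.spl x.1.1).1 (W.spl x.1.1).2 x.2.2)⟩)
    (fun x => (hd (W.spl x.1.1).2 x.2.1.1, ⟨(W.spl x.1.1).2.length, W.spl_len x.1.2⟩))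
    _ (fun x => W.Wc x.1.1 x.2.1 x.2.2 * h x.1.1 x.2.1) ((1 / W.ε) ^ 2) (by positivity)
    ?_ ?_ ?_ ?_).trans ?_
  · rintro ⟨⟨a, ha⟩, e, e'⟩ hx
    simp only [Finset.mem_sigma, Finset.mem_product, mem_envs, Finset.mem_univ, true_and,
      paths2, Finset.mem_filter] at hx ⊢
    obtain ⟨h2, he, he'⟩ := hx
    have hne : a ≠ [] := by rintro rfl; simp only [List.length_nil, nonpos_iff_eq_zero, OfNat.ofNat_ne_zero] at h2
    have hn := W.spl_nodup ha
    have hp := W.spl_fst_ne hne
    have hq := W.spl_snd_ne h2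
    rw [← W.spl_append a] at he he'
    exact ⟨envL1 hn hp hq he, envL2 hn hp hq he'⟩
  · rintro ⟨⟨a, ha⟩, e, e'⟩ hx ⟨⟨b, hb⟩, u, u'⟩ hy hΦ hm
    simp only [Finset.mem_sigma, Finset.mem_product, mem_envs, paths2, Finset.mem_filter,
      Finset.mem_univ, true_and] at hx hy
    obtain ⟨h2, he, he'⟩ := hx
    obtain ⟨h2', hu, hu'⟩ := hy
    have hne : a ≠ [] := by rintro rfl; simp only [List.length_nil, nonpos_iff_eq_zero, OfNat.ofNat_ne_zero] at h2
    have hne' : b ≠ [] := by rintro rfl; simp at h2'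
    have hn := W.spl_nodup ha
    have hp := W.spl_fst_ne hne
    have hq := W.spl_snd_ne h2
    have hn' := W.spl_nodup hb
    have hp' := W.spl_fst_ne hne'
    have hq' := W.spl_snd_ne h2'
    have ea := W.spl_append a
    have eb := W.spl_append b
    simp only [Prod.mk.injEq, Fin.mk.injEq] at hm
    obtain ⟨m1, m2⟩ := hm
    simp only [Sigma.mk.injEq, Subtype.mk.injEq] at hΦ
    obtain ⟨h1, h3⟩ := hΦ
    have h3 := eq_of_heq h3
    obtain ⟨h3, h4⟩ := Prod.mk.injEq .. ▸ h3
    rw [← ea] at he he'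
    rw [← eb] at hu hu'
    generalize (W.spl a).1 = p at *
    generalize (W.spl a).2 = q at *
    generalize (W.spl b).1 = p' at *
    generalize (W.spl b).2 = q' at *
    subst h1
    have k1 := orbL hn hp hq he he' e.1
    have k2 := orbL hn' hp' hq' hu hu' u.1
    rw [← h3, ← h4, ← m1, ← m2, k1] at k2
    subst k2
    have k3 := injL1 hn hp hq he hu h3
    have k4 := injL2 hn hp hq he' hu' h4
    subst k3 k4 ea eb
    rfl
  · rintro ⟨⟨a, ha⟩, e, e'⟩ hx
    simp only [Finset.mem_sigma, Finset.mem_product, mem_envs, paths2, Finset.mem_filter,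
      Finset.mem_univ, true_and] at hx
    obtain ⟨h2, he, he'⟩ := hx
    have hne : a ≠ [] := by rintro rfl; simp at h2
    have hn := W.spl_nodup ha
    have hp := W.spl_fst_ne hne
    have hq := W.spl_snd_ne h2
    have ea := W.spl_append a
    have hc := W.spl_edge h2
    have key := wtL W hn hp hq (by rw [ea]; exact he) (by rw [ea]; exact he')
      (by rw [ea]; exact hc)
    rw [ea] at key
    show W.Wc a e e' * h _ _ ≤ _ * (W.Wc _ _ _ * h _ _)
    rw [← mul_assoc]
    exact mul_le_mul_of_nonneg_right key (hh _ _)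
  · rintro ⟨a, e, e'⟩ _
    exact mul_nonneg (W.Wc_nonneg _ _ _) (hh _ _)
  · refine mul_le_mul_of_nonneg_right ?_ (Finset.sum_nonneg fun x _ =>
      mul_nonneg (W.Wc_nonneg _ _ _) (hh _ _))
    refine mul_le_mul_of_nonneg_right ?_ (by positivity)
    rw [Fintype.card_prod, Fintype.card_fin]
    push_cast
    linarith

end Vale.Agent.P308.Lin
end

section

/-! # The transfer to the second part of a path -/

set_option linter.unusedSectionVars false
set_option linter.unusedVariables false

namespace Vale.Agent.P308.Lin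

open Finset

variable {V : Type*} [Fintype V] [DecidableEq V]

theorem eR1_ee {a b : List V} (e : V × (V → V)) (ha : a.length % 2 = 0) (hb : b.length % 2 = 0) :
    eR1 a b e = (hd b e.1, M1 a e.2) := by simp only [eR1, ev, ha, BEq.rfl, hb]

theorem eR1_oo {a b : List V} (e : V × (V → V)) (ha : a.length % 2 = 1) (hb : b.length % 2 = 1) :
    eR1 a b e = (lt a e.1, M1 a e.2) := by simp only [eR1, ev, ha, Nat.reduceBEq, hb, M1]

theorem eR1_eo {a b : List V} (e : V × (V → V)) (ha : a.length % 2 = 0) (hb : b.length % 2 = 1) :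
    eR1 a b e = (e.1, M1 a e.2) := by simp [eR1, ev, ha, hb]

theorem eR1_oe {a b : List V} (e : V × (V → V)) (ha : a.length % 2 = 1) (hb : b.length % 2 = 0) :
    eR1 a b e = (hd b e.1, M1 (a ++ [e.1]) e.2) := by simp [eR1, ev, ha, hb]

theorem eR2_ee {a b : List V} (e : V × (V → V)) (ha : a.length % 2 = 0) (hb : b.length % 2 = 0) :
    eR2 a b e = (hd b e.1, M1 (a.rotate 1) e.2) := by
  have : M0 a e.2 = M1 (a.rotate 1) e.2 := M0_eq a e.2
  simp [eR2, ev, ha, hb, this]

theorem eR2_oo {a b : List V} (e : V × (V → V)) (ha : a.length % 2 = 1) (hb : b.length % 2 = 1) :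
    eR2 a b e = (hd a e.1, un (pL a.tail) a e.2) := by simp [eR2, ev, ha, hb]

theorem eR2_eo {a b : List V} (e : V × (V → V)) (ha : a.length % 2 = 0) (hb : b.length % 2 = 1) :
    eR2 a b e = (e.1, M1 (a.rotate 1) e.2) := by
  have : M0 a e.2 = M1 (a.rotate 1) e.2 := M0_eq a e.2
  simp only [eR2, ev, ha, BEq.rfl, hb, Nat.reduceBEq, this]

theorem eR2_oe {a b : List V} (e : V × (V → V)) (ha : a.length % 2 = 1) (hb : b.length % 2 = 0) :
    eR2 a b e = (hd b e.1, M1 ((a ++ [e.1]).rotate 1) e.2) := by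
  have : M0 (a ++ [e.1]) e.2 = M1 ((a ++ [e.1]).rotate 1) e.2 := M0_eq _ e.2
  simp only [eR2, ev, ha, Nat.reduceBEq, hb, BEq.rfl, this]

section
variable {p q : List V} {e e' : V × (V → V)}

theorem snoc_nodup {p : List V} {s : V} (hp : p.Nodup) (hs : s ∉ p) : (p ++ [s]).Nodup := by
  rw [List.nodup_append]
  refine ⟨hp, by simp, fun x hx y hy h => ?_⟩
  simp only [List.mem_singleton] at hy
  subst hy; exact hs (h ▸ hx)

theorem envR1 (hn : (p ++ q).Nodup) (hp : p ≠ []) (hq : q ≠ []) (he : IsEnv (p ++ q) e) :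
    IsEnv q (eR1 p q e) := by
  have hpn : p.Nodup := (List.nodup_append.1 hn).1
  have hqn : q.Nodup := (List.nodup_append.1 hn).2.1
  have hd' : ∀ v, v ∈ p → v ∉ q := fun v h1 h2 => (List.nodup_append.1 hn).2.2 v h1 v h2 rfl
  have hi := he.1
  rcases par p with hpp | hpp <;> rcases par q with hqq | hqq
  · obtain ⟨-, h2⟩ := he.even (by simp; omega)
    simp only [List.mem_append] at h2
    rw [eR1_ee e hpp hqq]
    have hE : ∀ v ∈ p, e.2 v = v := fun v hv => (h2 v).2 (Or.inl hv)
    refine isEnv_even hqq (M1_invol hpn hE hi) (hd_of hq _) fun v => ?_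
    rw [M1_fix_even hpn hpp, h2]
    have := hd' v; (clear * - this; tauto)
  · obtain ⟨h1, h2⟩ := he.odd (by simp; (clear * - hpp hqq; omega))
    simp only [List.mem_append, not_or] at h1 h2
    rw [eR1_eo e hpp hqq]
    have hE : ∀ v ∈ p, e.2 v = v := fun v hv => (h2 v).2 (Or.inl (Or.inl hv))
    refine isEnv_odd hqq (M1_invol hpn hE hi) h1.2 fun v => ?_
    rw [M1_fix_even hpn hpp, h2]
    have := hd' v
    have : v = e.1 → v ∉ p := fun h h' => h1.1 (h ▸ h')
    (clear hp hq he hpn hqn hi hpp hqq h2 hE; tauto)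
  · obtain ⟨h1, h2⟩ := he.odd (by simp; omega)
    simp only [List.mem_append, not_or] at h1 h2
    rw [eR1_oe e hpp hqq]
    have hrn := snoc_nodup hpn h1.1
    have hE : ∀ v ∈ p ++ [e.1], e.2 v = v := fun v hv => (h2 v).2 (by
      rcases List.mem_append.1 hv with h | h
      · exact Or.inl (Or.inl h)
      · exact Or.inr (List.mem_singleton.1 h))
    refine isEnv_even hqq (M1_invol hrn hE hi) (hd_of hq _) fun v => ?_
    rw [M1_fix_even hrn (by simp only [List.length_append, List.length_cons, List.length_nil, zero_add]; omega), List.mem_append, List.mem_singleton, h2]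
    have := hd' v
    have : v ∈ q → v ≠ e.1 := fun h h' => h1.2 (h' ▸ h)
    (clear hp hq he hpn hqn hi hpp hqq h2 hrn hE; tauto)
  · obtain ⟨-, h2⟩ := he.even (by simp only [List.length_append]; omega)
    simp only [List.mem_append] at h2
    rw [eR1_oo e hpp hqq]
    have hE : ∀ v ∈ p, e.2 v = v := fun v hv => (h2 v).2 (Or.inl hv)
    have hl := lt_of hp e.1
    refine isEnv_odd hqq (M1_invol hpn hE hi) ?_ fun v => ?_
    · exact fun h => hd' _ (List.mem_of_getLast? hl) h
    · rw [M1_fix_odd hpn hpp, h2, hl]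
      have := hd' v
      have : some (lt p e.1) = some v ↔ v = lt p e.1 := by
        rw [Option.some_inj]; exact eq_comm
      (clear hp hq he hpn hqn hi hpp hqq h2 hE hl; tauto)

theorem envR2 (hn : (p ++ q).Nodup) (hp : p ≠ []) (hq : q ≠ []) (he : IsEnv (p ++ q) e) :
    IsEnv q (eR2 p q e) := by
  have hpn : p.Nodup := (List.nodup_append.1 hn).1
  have hqn : q.Nodup := (List.nodup_append.1 hn).2.1
  have hd' : ∀ v, v ∈ p → v ∉ q := fun v h1 h2 => (List.nodup_append.1 hn).2.2 v h1 v h2 rfl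
  have hi := he.1
  rcases par p with hpp | hpp <;> rcases par q with hqq | hqq
  · obtain ⟨-, h2⟩ := he.even (by simp; omega)
    simp only [List.mem_append] at h2
    rw [eR2_ee e hpp hqq]
    have hrn : (p.rotate 1).Nodup := List.nodup_rotate.2 hpn
    have hE : ∀ v ∈ p.rotate 1, e.2 v = v := fun v hv => (h2 v).2 (Or.inl (List.mem_rotate.1 hv))
    refine isEnv_even hqq (M1_invol hrn hE hi) (hd_of hq _) fun v => ?_
    rw [M1_fix_even hrn (by simpa only [List.length_rotate] using hpp), List.mem_rotate, h2]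
    have := hd' v; (clear * - this; tauto)
  · obtain ⟨h1, h2⟩ := he.odd (by simp; omega)
    simp only [List.mem_append, not_or] at h1 h2
    rw [eR2_eo e hpp hqq]
    have hrn : (p.rotate 1).Nodup := List.nodup_rotate.2 hpn
    have hE : ∀ v ∈ p.rotate 1, e.2 v = v := fun v hv =>
      (h2 v).2 (Or.inl (Or.inl (List.mem_rotate.1 hv)))
    refine isEnv_odd hqq (M1_invol hrn hE hi) h1.2 fun v => ?_
    rw [M1_fix_even hrn (by simpa only [List.length_rotate] using hpp), List.mem_rotate, h2]
    have := hd' v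
    have : v = e.1 → v ∉ p := fun h h' => h1.1 (h ▸ h')
    (clear hp hq he hpn hqn hi hpp hqq h2 hrn hE; tauto)
  · obtain ⟨h1, h2⟩ := he.odd (by simp; omega)
    simp only [List.mem_append, not_or] at h1 h2
    rw [eR2_oe e hpp hqq]
    have hrn : ((p ++ [e.1]).rotate 1).Nodup := List.nodup_rotate.2 (snoc_nodup hpn h1.1)
    have hE : ∀ v ∈ (p ++ [e.1]).rotate 1, e.2 v = v := fun v hv => (h2 v).2 (by
      rcases List.mem_append.1 (List.mem_rotate.1 hv) with h | h
      · exact Or.inl (Or.inl h)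
      · exact Or.inr (List.mem_singleton.1 h))
    refine isEnv_even hqq (M1_invol hrn hE hi) (hd_of hq _) fun v => ?_
    rw [M1_fix_even hrn (by simp; omega), List.mem_rotate, List.mem_append,
      List.mem_singleton, h2]
    have := hd' v
    have : v ∈ q → v ≠ e.1 := fun h h' => h1.2 (h' ▸ h)
    (clear hp hq he hpn hqn hi hpp hqq h2 hrn hE; tauto)
  · obtain ⟨-, h2⟩ := he.even (by simp only [List.length_append]; omega)
    simp only [List.mem_append] at h2
    have hE : ∀ v ∈ p, e.2 v = v := fun v hv => (h2 v).2 (Or.inl hv)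
    rw [eR2_oo e hpp hqq, un_tail_eq hpn hE]
    have hh := hd_of hp e.1
    have hE' : ∀ v ∈ p.tail, e.2 v = v := fun v hv => hE v (List.mem_of_mem_tail hv)
    have htn : p.tail.Nodup := hpn.tail
    refine isEnv_odd hqq (M1_invol htn hE' hi) ?_ fun v => ?_
    · exact fun h => hd' _ (List.mem_of_mem_head? hh) h
    · rw [M1_fix_even htn (by simp only [List.length_tail]; omega), h2]
      have h3 := hd' v
      generalize hd p e.1 = x at hh
      cases p with
      | nil => exact absurd rfl hp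
      | cons z t =>
        simp only [List.head?_cons, Option.some_inj] at hh
        subst hh
        rw [List.tail_cons, List.mem_cons]
        rw [List.mem_cons] at h3
        have h4 : v = z → v ∉ t := fun h h' => (List.nodup_cons.1 hpn).1 (h ▸ h')
        (clear * - h3 h4; tauto)

theorem orbR (hn : (p ++ q).Nodup) (hp : p ≠ []) (hq : q ≠ []) (he : IsEnv (p ++ q) e)
    (he' : IsEnv (p ++ q) e') (d : V) :
    orb (eR1 p q e).2 (eR2 p q e').2 (hd p d) p.length = p := by
  have hpn : p.Nodup := (List.nodup_append.1 hn).1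
  have hqn : q.Nodup := (List.nodup_append.1 hn).2.1
  obtain ⟨x, t, rfl⟩ := List.exists_cons_of_ne_nil hp
  have hx : hd (x :: t) d = x := rfl
  rw [hx]
  have hxt := (List.nodup_cons.1 hpn).1
  rcases par (x :: t) with hpp | hpp <;> rcases par q with hqq | hqq
  · rw [eR1_ee e hpp hqq, eR2_ee e' hpp hqq]
    refine orb_of_alt (alt_of hpn ?_ ?_)
    · intro v hv _; exact M1_mem hv
    · intro v hv hne
      rw [List.tail_cons] at hv hne ⊢
      rw [List.rotate_cons_succ, List.rotate_zero]
      show M1 _ _ _ = _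
      rw [M1_mem (by simp [hv]), pL_append_left hv hne]
  · rw [eR1_eo e hpp hqq, eR2_eo e' hpp hqq]
    refine orb_of_alt (alt_of hpn ?_ ?_)
    · intro v hv _; exact M1_mem hv
    · intro v hv hne
      rw [List.tail_cons] at hv hne ⊢
      rw [List.rotate_cons_succ, List.rotate_zero]
      show M1 _ _ _ = _
      rw [M1_mem (by simp [hv]), pL_append_left hv hne]
  · rw [eR1_oe e hpp hqq, eR2_oe e' hpp hqq]
    refine orb_of_alt (alt_of hpn ?_ ?_)
    · intro v hv hne
      show M1 _ _ _ = _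
      rw [M1_mem (List.mem_append_left _ hv), pL_append_left hv hne]
    · intro v hv hne
      rw [List.tail_cons] at hv hne ⊢
      rw [List.cons_append, List.rotate_cons_succ, List.rotate_zero, List.append_assoc]
      show M1 _ _ _ = _
      rw [M1_mem (by simp [hv]), pL_append_left hv hne]
  · have hE' : ∀ v ∈ x :: t, e'.2 v = v := fun v hv =>
      ((he'.even (by simp only [List.length_append]; omega)).2 v).2 (List.mem_append_left _ hv)
    rw [eR1_oo e hpp hqq, eR2_oo e' hpp hqq, un_tail_eq hpn hE']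
    refine orb_of_alt (alt_of hpn ?_ ?_)
    · intro v hv _; exact M1_mem hv
    · intro v hv _; exact M1_mem hv

theorem injR1 (hn : (p ++ q).Nodup) (hp : p ≠ []) (hq : q ≠ []) (he : IsEnv (p ++ q) e)
    (he' : IsEnv (p ++ q) e') (h : eR1 p q e = eR1 p q e') : e = e' := by
  have hpn : p.Nodup := (List.nodup_append.1 hn).1
  obtain ⟨s, E⟩ := e
  obtain ⟨s', E'⟩ := e'
  rcases par p with hpp | hpp <;> rcases par q with hqq | hqq
  · rw [eR1_ee _ hpp hqq, eR1_ee _ hpp hqq] at h
    obtain ⟨h1, h2⟩ := he.even (by simp only [List.length_append]; omega)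
    obtain ⟨h1', h2'⟩ := he'.even (by simp only [List.length_append]; (clear * - hpp hqq; omega))
    have e1 : s = s' := Option.some_inj.1 (h1.symm.trans h1')
    have e2 : E = E' := M1_inj (b := p)
      (fun v hv => (h2 v).2 (List.mem_append_left _ hv))
      (fun v hv => (h2' v).2 (List.mem_append_left _ hv)) (congrArg Prod.snd h)
    rw [e1, e2]
  · rw [eR1_eo _ hpp hqq, eR1_eo _ hpp hqq] at h
    obtain ⟨h1, h2⟩ := he.odd (by simp only [List.length_append]; omega)
    obtain ⟨h1', h2'⟩ := he'.odd (by simp only [List.length_append]; omega)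
    have e1 : s = s' := congrArg Prod.fst h
    have e2 : E = E' := M1_inj (b := p)
      (fun v hv => (h2 v).2 (Or.inl (List.mem_append_left _ hv)))
      (fun v hv => (h2' v).2 (Or.inl (List.mem_append_left _ hv))) (congrArg Prod.snd h)
    rw [e1, e2]
  · rw [eR1_oe _ hpp hqq, eR1_oe _ hpp hqq] at h
    obtain ⟨h1, h2⟩ := he.odd (by simp only [List.length_append]; omega)
    obtain ⟨h1', h2'⟩ := he'.odd (by simp only [List.length_append]; omega)
    have h3 := congrArg Prod.snd h
    simp only at h3 h1 h1' h2 h2'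
    have e1 : s = s' := by
      have hy := lt_of hp s
      have hym := List.mem_of_getLast? hy
      have h4 := congrFun h3 (lt p s)
      rw [M1_mem (List.mem_append_left _ hym), M1_mem (List.mem_append_left _ hym),
        pL_snoc_last hpn hpp hy, pL_snoc_last hpn hpp hy] at h4
      exact h4
    subst e1
    have e2 : E = E' := M1_inj (b := p ++ [s])
      (fun v hv => (h2 v).2 (by
        rcases List.mem_append.1 hv with h | h
        · exact Or.inl (List.mem_append_left _ h)
        · exact Or.inr (List.mem_singleton.1 h)))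
      (fun v hv => (h2' v).2 (by
        rcases List.mem_append.1 hv with h | h
        · exact Or.inl (List.mem_append_left _ h)
        · exact Or.inr (List.mem_singleton.1 h))) h3
    rw [e2]
  · rw [eR1_oo _ hpp hqq, eR1_oo _ hpp hqq] at h
    obtain ⟨h1, h2⟩ := he.even (by simp only [List.length_append]; omega)
    obtain ⟨h1', h2'⟩ := he'.even (by simp only [List.length_append]; (clear * - hpp hqq; omega))
    have e1 : s = s' := Option.some_inj.1 (h1.symm.trans h1')
    have e2 : E = E' := M1_inj (b := p)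
      (fun v hv => (h2 v).2 (List.mem_append_left _ hv))
      (fun v hv => (h2' v).2 (List.mem_append_left _ hv)) (congrArg Prod.snd h)
    rw [e1, e2]

theorem injR2 (hn : (p ++ q).Nodup) (hp : p ≠ []) (hq : q ≠ []) (he : IsEnv (p ++ q) e)
    (he' : IsEnv (p ++ q) e') (h : eR2 p q e = eR2 p q e') : e = e' := by
  have hpn : p.Nodup := (List.nodup_append.1 hn).1
  obtain ⟨s, E⟩ := e
  obtain ⟨s', E'⟩ := e'
  rcases par p with hpp | hpp <;> rcases par q with hqq | hqq
  · rw [eR2_ee _ hpp hqq, eR2_ee _ hpp hqq] at h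
    obtain ⟨h1, h2⟩ := he.even (by simp only [List.length_append]; omega)
    obtain ⟨h1', h2'⟩ := he'.even (by simp only [List.length_append]; (clear * - hpp hqq; omega))
    have e1 : s = s' := Option.some_inj.1 (h1.symm.trans h1')
    have e2 : E = E' := M1_inj (b := p.rotate 1)
      (fun v hv => (h2 v).2 (List.mem_append_left _ (List.mem_rotate.1 hv)))
      (fun v hv => (h2' v).2 (List.mem_append_left _ (List.mem_rotate.1 hv)))
      (congrArg Prod.snd h)
    rw [e1, e2]
  · rw [eR2_eo _ hpp hqq, eR2_eo _ hpp hqq] at h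
    obtain ⟨h1, h2⟩ := he.odd (by simp only [List.length_append]; omega)
    obtain ⟨h1', h2'⟩ := he'.odd (by simp only [List.length_append]; omega)
    have e1 : s = s' := congrArg Prod.fst h
    have e2 : E = E' := M1_inj (b := p.rotate 1)
      (fun v hv => (h2 v).2 (Or.inl (List.mem_append_left _ (List.mem_rotate.1 hv))))
      (fun v hv => (h2' v).2 (Or.inl (List.mem_append_left _ (List.mem_rotate.1 hv))))
      (congrArg Prod.snd h)
    rw [e1, e2]
  · rw [eR2_oe _ hpp hqq, eR2_oe _ hpp hqq] at h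
    obtain ⟨h1, h2⟩ := he.odd (by simp only [List.length_append]; omega)
    obtain ⟨h1', h2'⟩ := he'.odd (by simp only [List.length_append]; (clear * - hpp hqq; omega))
    have h3 := congrArg Prod.snd h
    simp only at h3 h1 h1' h2 h2'
    have e1 : s = s' := by
      obtain ⟨x, t, rfl⟩ := List.exists_cons_of_ne_nil hp
      have hxt := (List.nodup_cons.1 hpn).1
      have hte : t.length % 2 = 0 := by simp at hpp; omega
      have key : ∀ (s : V) (E : V → V), s ∉ x :: t ++ q →
          M1 ((x :: t ++ [s]).rotate 1) E x = s := by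
        intro s E hs
        have hsx : x ≠ s := fun h => hs (by rw [← h]; simp)
        have hst : s ∉ t := fun h => hs (by simp [h])
        rw [List.cons_append, List.rotate_cons_succ, List.rotate_zero, List.append_assoc,
          M1_mem (by simp), pL_append_even hte, if_neg hxt]
        · show pL [s, x] x = s
          rw [pL_cons2, if_neg hsx, if_pos rfl]
        · have h5 : (s :: x :: t).Nodup := by
            rw [List.nodup_cons]
            exact ⟨by simp only [List.mem_cons, not_or]; exact ⟨Ne.symm hsx, hst⟩, hpn⟩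
          have : (t ++ ([s] ++ [x])).Perm (s :: x :: t) := by
            simpa using (List.perm_append_comm (l₁ := t) (l₂ := [s] ++ [x]))
          exact this.nodup_iff.2 h5
      have h4 := congrFun h3 x
      rw [key s E h1, key s' E' h1'] at h4
      exact h4
    subst e1
    have e2 : E = E' := M1_inj (b := (p ++ [s]).rotate 1)
      (fun v hv => (h2 v).2 (by
        rcases List.mem_append.1 (List.mem_rotate.1 hv) with h | h
        · exact Or.inl (List.mem_append_left _ h)
        · exact Or.inr (List.mem_singleton.1 h)))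
      (fun v hv => (h2' v).2 (by
        rcases List.mem_append.1 (List.mem_rotate.1 hv) with h | h
        · exact Or.inl (List.mem_append_left _ h)
        · exact Or.inr (List.mem_singleton.1 h))) h3
    rw [e2]
  · obtain ⟨h1, h2⟩ := he.even (by simp only [List.length_append]; omega)
    obtain ⟨h1', h2'⟩ := he'.even (by simp only [List.length_append]; omega)
    rw [eR2_oo _ hpp hqq, eR2_oo _ hpp hqq,
      un_tail_eq hpn (fun v hv => (h2 v).2 (List.mem_append_left _ hv)),
      un_tail_eq hpn (fun v hv => (h2' v).2 (List.mem_append_left _ hv))] at h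
    have e1 : s = s' := Option.some_inj.1 (h1.symm.trans h1')
    have e2 : E = E' := M1_inj (b := p.tail)
      (fun v hv => (h2 v).2 (List.mem_append_left _ (List.mem_of_mem_tail hv)))
      (fun v hv => (h2' v).2 (List.mem_append_left _ (List.mem_of_mem_tail hv)))
      (congrArg Prod.snd h)
    rw [e1, e2]

/-! ### Weights -/

theorem wtR (W : Sim V) (hn : (p ++ q).Nodup) (hp : p ≠ []) (hq : q ≠ [])
    (he : IsEnv (p ++ q) e) (he' : IsEnv (p ++ q) e')
    (hc : ∃ u v, p.getLast? = some u ∧ q.head? = some v ∧ W.c u v = W.cm (p ++ q)) :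
    W.Wc (p ++ q) e e' ≤ (1 / W.ε) ^ 2 * W.Wc q (eR1 p q e) (eR2 p q e') := by
  have hpn : p.Nodup := (List.nodup_append.1 hn).1
  have hqn : q.Nodup := (List.nodup_append.1 hn).2.1
  have hd' : ∀ v, v ∈ p → v ∉ q := fun v h1 h2 => (List.nodup_append.1 hn).2.2 v h1 v h2 rfl
  obtain ⟨y, x, hy, hx, hyx⟩ := hc
  have hyp := List.mem_of_getLast? hy
  have hxq := List.mem_of_mem_head? hx
  have hne : y ≠ x := fun h => hd' y hyp (h ▸ hxq)
  have hhp := hd_of hp x
  have hhpm := List.mem_of_mem_head? hhp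
  set z := hd p x with hz
  -- the edge at the cut
  have l0 := W.lam_pos y x
  have l1 : W.lam y x ≤ W.cm (p ++ q) := (W.lam_le hne).trans hyx.le
  have l2 : W.cm (p ++ q) ≤ W.cm q := W.cm_mono hq fun v hv => List.mem_append_right _ hv
  have w1 := W.wt_pos e.2
  have w2 := W.wt_pos e'.2
  have p0 := W.pw_pos p
  have p1 := W.pw_pos q
  have ep := W.inv_eps
  have c0 := W.cm_pos (p ++ q)
  have hlz : p.length % 2 = 0 → y ≠ z := by
    intro hpp h
    cases p with
    | nil => exact hp rfl
    | cons v t =>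
      simp only [List.head?_cons, Option.some_inj] at hhp
      have ht : t ≠ [] := by rintro rfl; simp only [List.length_cons, List.length_nil, zero_add, Nat.mod_succ, one_ne_zero] at hpp
      obtain ⟨w, t', rfl⟩ := List.exists_cons_of_ne_nil ht
      rw [List.getLast?_cons_cons] at hy
      have := List.mem_of_getLast? hy
      rw [h, ← hhp] at this
      exact (List.nodup_cons.1 hpn).1 this
  rcases par p with hpp | hpp <;> rcases par q with hqq | hqq
  · -- even, even
    obtain ⟨-, h2⟩ := he.even (by simp only [List.length_append]; omega)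
    obtain ⟨-, h2'⟩ := he'.even (by simp only [List.length_append]; omega)
    have hrn : (p.rotate 1).Nodup := List.nodup_rotate.2 hpn
    have hE' : ∀ v ∈ p.rotate 1, e'.2 v = v := fun v hv =>
      (h2' v).2 (List.mem_append_left _ (List.mem_rotate.1 hv))
    have hE : ∀ v ∈ p, e.2 v = v := fun v hv => (h2 v).2 (List.mem_append_left _ hv)
    rw [W.Wc_even (by simp only [List.length_append]; omega), W.Wc_even hqq,
      eR1_ee e hpp hqq, eR2_ee e' hpp hqq, W.wt_M1 hpn hE, W.wt_M1 hrn hE',
      W.pr_rotate hpp hhp hy, W.pw_append hy hx]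
    have l3 : W.cm (p ++ q) ≤ 1 / W.ε * W.lam y z :=
      (W.cm_le (List.mem_append_left _ hyp) (List.mem_append_left _ hhpm)).trans
        (W.c_le_lam (hlz hpp))
    have e1 : (1 / W.ε) ^ 2 * (W.pw q * (W.cm q * (W.pr p * W.wt e.2 *
        (W.pr p.tail * W.lam y z * W.wt e'.2)))) =
          ((W.pr p * W.pr p.tail) * W.pw q * (W.wt e.2 * W.wt e'.2)) *
          (1 / W.ε * (W.cm q * (1 / W.ε * W.lam y z))) := by ring
    have e2 : W.pw p * W.lam y x * W.pw q * (W.cm (p ++ q) * (W.wt e.2 * W.wt e'.2)) =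
        (W.pw p * W.pw q * (W.wt e.2 * W.wt e'.2)) * (1 * (W.lam y x * W.cm (p ++ q))) := by ring
    rw [e1, e2, W.pr_mul_tail]
    refine mul_le_mul_of_nonneg_left ?_ (by (clear * - p0 p1 w1 w2; positivity))
    refine mul_le_mul ep ?_ (by (clear * - l0 c0; positivity)) (by (clear * - ep; positivity))
    exact mul_le_mul (l1.trans l2) l3 c0.le (by linarith only [l0, l1, l2])
  · -- even, odd
    obtain ⟨h1, h2⟩ := he.odd (by simp only [List.length_append]; (clear * - hpp hqq; omega))
    obtain ⟨h1', h2'⟩ := he'.odd (by simp only [List.length_append]; omega)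
    have hrn : (p.rotate 1).Nodup := List.nodup_rotate.2 hpn
    have hE : ∀ v ∈ p, e.2 v = v := fun v hv => (h2 v).2 (Or.inl (List.mem_append_left _ hv))
    have hE' : ∀ v ∈ p.rotate 1, e'.2 v = v := fun v hv =>
      (h2' v).2 (Or.inl (List.mem_append_left _ (List.mem_rotate.1 hv)))
    rw [W.Wc_odd (by simp only [List.length_append]; omega), W.Wc_odd hqq,
      eR1_eo e hpp hqq, eR2_eo e' hpp hqq, W.wt_M1 hpn hE, W.wt_M1 hrn hE',
      W.pr_rotate hpp hhp hy, W.pw_append hy hx]
    have l3 : W.lam y x ≤ 1 / W.ε * W.lam y z := l1.trans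
      ((W.cm_le (List.mem_append_left _ hyp) (List.mem_append_left _ hhpm)).trans
        (W.c_le_lam (hlz hpp)))
    have c1 := W.cm_pos (p ++ q ++ [e.1])
    have c2 := W.cm_pos (p ++ q ++ [e'.1])
    have c3 : W.cm (p ++ q ++ [e.1]) ≤ W.cm (q ++ [e.1]) :=
      W.cm_mono (by simp) fun v hv => by
        simp only [List.mem_append, List.mem_singleton] at hv ⊢; (clear * - hlz hv hpp; tauto)
    have c4 : W.cm (p ++ q ++ [e'.1]) ≤ W.cm (q ++ [e'.1]) :=
      W.cm_mono (by simp) fun v hv => by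
        simp only [List.mem_append, List.mem_singleton] at hv ⊢; (clear * - hlz hv hpp; tauto)
    have l6 := W.lam_pos y z
    have c5 := W.cm_pos (q ++ [e.1])
    have e1 : (1 / W.ε) ^ 2 * (W.pw q * (W.cm (q ++ [e.1]) * W.cm (q ++ [e'.1]) *
        (W.pr p * W.wt e.2 * (W.pr p.tail * W.lam y z * W.wt e'.2)))) =
          ((W.pr p * W.pr p.tail) * W.pw q * (W.wt e.2 * W.wt e'.2)) *
          (1 / W.ε * ((1 / W.ε * W.lam y z) * (W.cm (q ++ [e.1]) * W.cm (q ++ [e'.1])))) := by ring
    have e2 : W.pw p * W.lam y x * W.pw q * (W.cm (p ++ q ++ [e.1]) * W.cm (p ++ q ++ [e'.1]) *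
        (W.wt e.2 * W.wt e'.2)) = (W.pw p * W.pw q * (W.wt e.2 * W.wt e'.2)) *
          (1 * (W.lam y x * (W.cm (p ++ q ++ [e.1]) * W.cm (p ++ q ++ [e'.1])))) := by ring
    rw [e1, e2, W.pr_mul_tail]
    refine mul_le_mul_of_nonneg_left ?_ (by (clear * - p0 p1 w1 w2; positivity))
    refine mul_le_mul ep ?_ (by (clear * - l0 c1 c2; positivity)) (by (clear * - ep; positivity))
    refine mul_le_mul l3 ?_ (by (clear * - c1 c2; positivity)) (by (clear * - ep l6; positivity))
    exact mul_le_mul c3 c4 c2.le c5.le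
  · -- odd, even
    obtain ⟨h1, h2⟩ := he.odd (by simp only [List.length_append]; omega)
    obtain ⟨h1', h2'⟩ := he'.odd (by simp only [List.length_append]; (clear * - hpp hqq; omega))
    have hsp : e.1 ∉ p := fun h => h1 (List.mem_append_left _ h)
    have hsp' : e'.1 ∉ p := fun h => h1' (List.mem_append_left _ h)
    have hrn := snoc_nodup hpn hsp
    have hrn' : ((p ++ [e'.1]).rotate 1).Nodup := List.nodup_rotate.2 (snoc_nodup hpn hsp')
    have hE : ∀ v ∈ p ++ [e.1], e.2 v = v := fun v hv => (h2 v).2 (by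
      rcases List.mem_append.1 hv with h | h
      · exact Or.inl (List.mem_append_left _ h)
      · exact Or.inr (List.mem_singleton.1 h))
    have hE' : ∀ v ∈ (p ++ [e'.1]).rotate 1, e'.2 v = v := fun v hv => (h2' v).2 (by
      rcases List.mem_append.1 (List.mem_rotate.1 hv) with h | h
      · exact Or.inl (List.mem_append_left _ h)
      · exact Or.inr (List.mem_singleton.1 h))
    have ehd : (p ++ [e'.1]).head? = some z := by
      rw [List.head?_append, hhp]; rfl
    have elt : (p ++ [e'.1]).getLast? = some e'.1 := by simp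
    have etl : W.pr (p ++ [e'.1]).tail = W.pr p.tail := by
      obtain ⟨w, t, rfl⟩ := List.exists_cons_of_ne_nil hp
      rw [List.cons_append, List.tail_cons, List.tail_cons, W.pr_append_even (by simp at hpp; (clear * - hpp; omega))]
      show W.pr t * 1 = W.pr t
      rw [mul_one]
    rw [W.Wc_odd (by simp only [List.length_append]; omega), W.Wc_even hqq,
      eR1_oe e hpp hqq, eR2_oe e' hpp hqq, W.wt_M1 hrn hE, W.wt_M1 hrn' hE',
      W.pr_snoc_odd hpp hy, W.pr_rotate (by simp only [List.length_append, List.length_cons, List.length_nil, zero_add]; omega) ehd elt, etl, W.pw_append hy hx]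
    have l3 : W.cm (p ++ q ++ [e.1]) ≤ 1 / W.ε * W.lam y e.1 :=
      (W.cm_le (by simp [hyp]) (by simp)).trans (W.c_le_lam fun h => hsp (h ▸ hyp))
    have l4 : W.cm (p ++ q ++ [e'.1]) ≤ 1 / W.ε * W.lam e'.1 z :=
      (W.cm_le (by simp) (by simp [hhpm])).trans (W.c_le_lam fun h => hsp' (h ▸ hhpm))
    have l5 := W.lam_pos y e.1
    have l6 := W.lam_pos e'.1 z
    have c1 := W.cm_pos (p ++ q ++ [e.1])
    have c2 := W.cm_pos (p ++ q ++ [e'.1])
    have e1 : (1 / W.ε) ^ 2 * (W.pw q * (W.cm q * (W.pr p * W.lam y e.1 * W.wt e.2 *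
        (W.pr p.tail * W.lam e'.1 z * W.wt e'.2)))) =
          ((W.pr p * W.pr p.tail) * W.pw q * (W.wt e.2 * W.wt e'.2)) *
          (W.cm q * ((1 / W.ε * W.lam y e.1) * (1 / W.ε * W.lam e'.1 z))) := by ring
    have e2 : W.pw p * W.lam y x * W.pw q * (W.cm (p ++ q ++ [e.1]) * W.cm (p ++ q ++ [e'.1]) *
        (W.wt e.2 * W.wt e'.2)) = (W.pw p * W.pw q * (W.wt e.2 * W.wt e'.2)) *
          (W.lam y x * (W.cm (p ++ q ++ [e.1]) * W.cm (p ++ q ++ [e'.1]))) := by ring
    rw [e1, e2, W.pr_mul_tail]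
    refine mul_le_mul_of_nonneg_left ?_ (by (clear * - p0 p1 w1 w2; positivity))
    refine mul_le_mul (l1.trans l2) ?_ (by (clear * - c1 c2; positivity)) (by linarith only [l0, l1, l2])
    exact mul_le_mul l3 l4 c2.le (by (clear * - ep l5; positivity))
  · -- odd, odd
    obtain ⟨-, h2⟩ := he.even (by simp only [List.length_append]; (clear * - hpp hqq; omega))
    obtain ⟨-, h2'⟩ := he'.even (by simp only [List.length_append]; (clear * - hpp hqq; omega))
    have hE : ∀ v ∈ p, e.2 v = v := fun v hv => (h2 v).2 (List.mem_append_left _ hv)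
    have hE' : ∀ v ∈ p, e'.2 v = v := fun v hv => (h2' v).2 (List.mem_append_left _ hv)
    rw [W.Wc_even (by simp only [List.length_append]; omega), W.Wc_odd hqq,
      eR1_oo e hpp hqq, eR2_oo e' hpp hqq, un_tail_eq hpn hE', W.wt_M1 hpn hE,
      W.wt_M1 hpn.tail (fun v hv => hE' v (List.mem_of_mem_tail hv)), W.pw_append hy hx]
    have c3 : W.cm (p ++ q) ≤ W.cm (q ++ [lt p e.1]) :=
      W.cm_mono (by simp) fun v hv => by
        have := List.mem_of_getLast? (lt_of hp e.1)
        simp only [List.mem_append, List.mem_singleton] at hv ⊢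
        rcases hv with hv | rfl <;> tauto
    have c4 : W.cm (p ++ q) ≤ W.cm (q ++ [hd p e'.1]) :=
      W.cm_mono (by simp) fun v hv => by
        have := List.mem_of_mem_head? (hd_of hp e'.1)
        simp only [List.mem_append, List.mem_singleton] at hv ⊢
        rcases hv with hv | rfl <;> tauto
    have c5 := W.cm_pos (q ++ [lt p e.1])
    have c6 := W.cm_pos (q ++ [hd p e'.1])
    have e1 : (1 / W.ε) ^ 2 * (W.pw q * (W.cm (q ++ [lt p e.1]) * W.cm (q ++ [hd p e'.1]) *
        (W.pr p * W.wt e.2 * (W.pr p.tail * W.wt e'.2)))) =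
          ((W.pr p * W.pr p.tail) * W.pw q * (W.wt e.2 * W.wt e'.2)) *
          ((1 / W.ε) ^ 2 * (W.cm (q ++ [lt p e.1]) * W.cm (q ++ [hd p e'.1]))) := by ring
    have e2 : W.pw p * W.lam y x * W.pw q * (W.cm (p ++ q) * (W.wt e.2 * W.wt e'.2)) =
        (W.pw p * W.pw q * (W.wt e.2 * W.wt e'.2)) * (1 * (W.lam y x * W.cm (p ++ q))) := by ring
    rw [e1, e2, W.pr_mul_tail]
    refine mul_le_mul_of_nonneg_left ?_ (by (clear * - p0 p1 w1 w2; positivity))
    refine mul_le_mul (one_le_pow₀ ep) ?_ (by (clear * - l0 c0; positivity)) (by (clear * - ep; positivity))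
    exact mul_le_mul (l1.trans c3) c4 c0.le c5.le

end

/-! ### The transfer -/

theorem Sim.spl_len1 (W : Sim V) {a : List V} (ha : a.Nodup) :
    (W.spl a).1.length < Fintype.card V + 1 := by
  have h := (W.spl_nodup ha)
  have := List.Nodup.length_le_card (List.nodup_append.1 h).1
  omega

theorem stTR : StTR V := by
  intro W h hh
  rw [sum_paths, sum_paths (S := univ)]
  refine (transfer (κ := V × Fin (Fintype.card V + 1))
    ((paths2 V).sigma (fun a => envs a.1 ×ˢ envs a.1))
    ((univ : Finset (NL V)).sigma (fun a => envs a.1 ×ˢ envs a.1))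
    (fun x => ⟨⟨(W.spl x.1.1).2, (List.nodup_append.1 (W.spl_nodup x.1.2)).2.1⟩,
      (eR1 (W.spl x.1.1).1 (W.spl x.1.1).2 x.2.1, eR2 (W.spl x.1.1).1 (W.spl x.1.1).2 x.2.2)⟩)
    (fun x => (hd (W.spl x.1.1).1 x.2.1.1, ⟨(W.spl x.1.1).1.length, W.spl_len1 x.1.2⟩))
    _ (fun x => W.Wc x.1.1 x.2.1 x.2.2 * h x.1.1 x.2.1) ((1 / W.ε) ^ 2) (by positivity)
    ?_ ?_ ?_ ?_).trans ?_
  · rintro ⟨⟨a, ha⟩, e, e'⟩ hx
    simp only [Finset.mem_sigma, Finset.mem_product, mem_envs, Finset.mem_univ, true_and,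
      paths2, Finset.mem_filter] at hx ⊢
    obtain ⟨h2, he, he'⟩ := hx
    have hne : a ≠ [] := by rintro rfl; simp at h2
    have hn := W.spl_nodup ha
    have hp := W.spl_fst_ne hne
    have hq := W.spl_snd_ne h2
    rw [← W.spl_append a] at he he'
    exact ⟨envR1 hn hp hq he, envR2 hn hp hq he'⟩
  · rintro ⟨⟨a, ha⟩, e, e'⟩ hx ⟨⟨b, hb⟩, u, u'⟩ hy hΦ hm
    simp only [Finset.mem_sigma, Finset.mem_product, mem_envs, paths2, Finset.mem_filter,
      Finset.mem_univ, true_and] at hx hy
    obtain ⟨h2, he, he'⟩ := hx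
    obtain ⟨h2', hu, hu'⟩ := hy
    have hne : a ≠ [] := by rintro rfl; simp at h2
    have hne' : b ≠ [] := by rintro rfl; simp at h2'
    have hn := W.spl_nodup ha
    have hp := W.spl_fst_ne hne
    have hq := W.spl_snd_ne h2
    have hn' := W.spl_nodup hb
    have hp' := W.spl_fst_ne hne'
    have hq' := W.spl_snd_ne h2'
    have ea := W.spl_append a
    have eb := W.spl_append b
    simp only [Prod.mk.injEq, Fin.mk.injEq] at hm
    obtain ⟨m1, m2⟩ := hm
    simp only [Sigma.mk.injEq, Subtype.mk.injEq] at hΦ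
    obtain ⟨h1, h3⟩ := hΦ
    have h3 := eq_of_heq h3
    obtain ⟨h3, h4⟩ := Prod.mk.injEq .. ▸ h3
    rw [← ea] at he he'
    rw [← eb] at hu hu'
    generalize (W.spl a).1 = p at *
    generalize (W.spl a).2 = q at *
    generalize (W.spl b).1 = p' at *
    generalize (W.spl b).2 = q' at *
    subst h1
    have k1 := orbR hn hp hq he he' e.1
    have k2 := orbR hn' hp' hq' hu hu' u.1
    rw [← h3, ← h4, ← m1, ← m2, k1] at k2
    subst k2
    have k3 := injR1 hn hp hq he hu h3
    have k4 := injR2 hn hp hq he' hu' h4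
    subst k3 k4 ea eb
    rfl
  · rintro ⟨⟨a, ha⟩, e, e'⟩ hx
    simp only [Finset.mem_sigma, Finset.mem_product, mem_envs, paths2, Finset.mem_filter,
      Finset.mem_univ, true_and] at hx
    obtain ⟨h2, he, he'⟩ := hx
    have hne : a ≠ [] := by rintro rfl; simp at h2
    have hn := W.spl_nodup ha
    have hp := W.spl_fst_ne hne
    have hq := W.spl_snd_ne h2
    have ea := W.spl_append a
    have hc := W.spl_edge h2
    have key := wtR W hn hp hq (by rw [ea]; exact he) (by rw [ea]; exact he')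
      (by rw [ea]; exact hc)
    rw [ea] at key
    show W.Wc a e e' * h _ _ ≤ _ * (W.Wc _ _ _ * h _ _)
    rw [← mul_assoc]
    exact mul_le_mul_of_nonneg_right key (hh _ _)
  · rintro ⟨a, e, e'⟩ _
    exact mul_nonneg (W.Wc_nonneg _ _ _) (hh _ _)
  · refine mul_le_mul_of_nonneg_right ?_ (Finset.sum_nonneg fun x _ =>
      mul_nonneg (W.Wc_nonneg _ _ _) (hh _ _))
    refine mul_le_mul_of_nonneg_right ?_ (by (clear * -; positivity))
    rw [Fintype.card_prod, Fintype.card_fin]
    push_cast
    linarith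

end Vale.Agent.P308.Lin
end

section

end

section

/-! # 2-switches: list identities, weights, decoding -/

set_option linter.unusedSectionVars false

namespace Vale.Agent.P308.Lin

open Finset

variable {V : Type*} [Fintype V] [DecidableEq V]

namespace TS

/-! ### the bottleneck -/

theorem cm_le_head (W : Sim V) : ∀ (l : List V) (x y : V), y ∈ x :: l → W.cm (x :: l) ≤ W.c x y
  | [], x, y, h => by
    rw [List.mem_singleton] at h
    rw [h]
    exact le_rfl
  | z :: l, x, y, h => by
    have e : W.cm (x :: z :: l) = min (W.c x z) (W.cm (z :: l)) := rfl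
    rw [e]
    rcases List.mem_cons.1 h with rfl | h
    · exact (min_le_left _ _).trans (W.c_diag _ _)
    · exact (min_le_min le_rfl (cm_le_head W l z y h)).trans (W.c_ultra x z y)

theorem cm_tail_le (W : Sim V) (x z : V) (l : List V) : W.cm (x :: z :: l) ≤ W.cm (z :: l) :=
  min_le_right _ _

/-- the bottleneck is at most the similarity of any two vertices of the path -/
theorem cm_le (W : Sim V) : ∀ (l : List V) {x y : V}, x ∈ l → y ∈ l → W.cm l ≤ W.c x y
  | [], x, y, h, _ => by simp at h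
  | [z], x, y, h, h' => by
    rw [List.mem_singleton] at h h'
    rw [h, h']
    exact le_rfl
  | z :: w :: l, x, y, h, h' => by
    rcases List.mem_cons.1 h with rfl | h1
    · exact cm_le_head W _ _ _ h'
    · rcases List.mem_cons.1 h' with rfl | h2
      · rw [W.c_symm]
        exact cm_le_head W _ _ _ h
      · exact (cm_tail_le W z w l).trans (cm_le W (w :: l) h1 h2)

theorem cm_le_lam (W : Sim V) {l : List V} {x y : V} (hx : x ∈ l) (hy : y ∈ l) (hxy : x ≠ y) :
    W.ε * W.cm l ≤ W.lam x y :=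
  (mul_le_mul_of_nonneg_left (cm_le W l hx hy) W.ε_pos.le).trans (W.le_lam hxy)

/-! ### pairings -/

theorem un_apply_mem {g : V → V} {b : List V} {E : V → V} {v : V} (h : v ∈ b) :
    un g b E v = g v := if_pos h

theorem un_apply_notMem {g : V → V} {b : List V} {E : V → V} {v : V} (h : v ∉ b) :
    un g b E v = E v := if_neg h

theorem un_congr {g : V → V} {b b' : List V} (h : ∀ v, v ∈ b ↔ v ∈ b') (E : V → V) :
    un g b E = un g b' E := by
  funext v
  by_cases hv : v ∈ b
  · rw [un_apply_mem hv, un_apply_mem ((h v).1 hv)]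
  · rw [un_apply_notMem hv, un_apply_notMem (fun h' => hv ((h v).2 h'))]

theorem M0_eq (b : List V) (E : V → V) : M0 b E = un (pL (b.rotate 1)) (b.rotate 1) E :=
  un_congr (fun v => by rw [List.mem_rotate]) E

/-- the matching given by a list of pairs -/
def P (L : List V) (E : V → V) : V → V := un (pL L) L E

theorem M1_eq (b : List V) (E : V → V) : M1 b E = P b E := rfl

theorem M0_cons (x : V) (b : List V) (E : V → V) : M0 (x :: b) E = P (b ++ [x]) E := by
  rw [M0_eq]
  rw [show (x :: b).rotate 1 = b ++ [x] by simp]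
  rfl

theorem P_apply_of_notMem {L : List V} {E : V → V} {v : V} (h : v ∉ L) : P L E v = E v :=
  un_apply_notMem h

theorem P_apply_of_mem {L : List V} {E : V → V} {v : V} (h : v ∈ L) : P L E v = pL L v :=
  un_apply_mem h

theorem P_append {l l' : List V} (he : l.length % 2 = 0) (hd : (l ++ l').Nodup) (E : V → V) :
    P l (P l' E) = P (l ++ l') E := by
  funext v
  by_cases h : v ∈ l
  · rw [P_apply_of_mem h, P_apply_of_mem (List.mem_append_left _ h), pL_append_even he hd,
      if_pos h]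
  · by_cases h' : v ∈ l'
    · rw [P_apply_of_notMem h, P_apply_of_mem h', P_apply_of_mem (List.mem_append_right _ h'),
        pL_append_even he hd, if_neg h]
    · rw [P_apply_of_notMem h, P_apply_of_notMem h', P_apply_of_notMem]
      simp [h, h']

theorem P_swap {l l' : List V} (he : l.length % 2 = 0) (he' : l'.length % 2 = 0)
    (hd : (l ++ l').Nodup) (E : V → V) : P (l ++ l') E = P (l' ++ l) E := by
  have hd' : (l' ++ l).Nodup := List.nodup_append_comm.1 hd
  have hdis := List.disjoint_of_nodup_append hd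
  rw [← P_append he hd, ← P_append he' hd']
  funext v
  by_cases h : v ∈ l
  · have h' : v ∉ l' := fun h' => hdis h h'
    rw [P_apply_of_mem h, P_apply_of_notMem h', P_apply_of_mem h]
  · by_cases h' : v ∈ l'
    · rw [P_apply_of_notMem h, P_apply_of_mem h', P_apply_of_mem h']
    · rw [P_apply_of_notMem h, P_apply_of_notMem h', P_apply_of_notMem h',
        P_apply_of_notMem h]

theorem P_pair {x y : V} (E : V → V) (v : V) :
    P [x, y] E v = if v = x then y else if v = y then x else E v := by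
  by_cases h1 : v = x
  · subst h1
    rw [P_apply_of_mem (by simp), pL_cons2, if_pos rfl, if_pos rfl]
  · by_cases h2 : v = y
    · subst h2
      rw [P_apply_of_mem (by simp), pL_cons2, if_neg h1, if_pos rfl, if_neg h1, if_pos rfl]
    · rw [P_apply_of_notMem (by simp [h1, h2]), if_neg h1, if_neg h2]

theorem P_pair_left {x y : V} (E : V → V) : P [x, y] E x = y := by
  rw [P_pair, if_pos rfl]

theorem P_pair_right {x y : V} (h : x ≠ y) (E : V → V) : P [x, y] E y = x := by
  rw [P_pair, if_neg (Ne.symm h), if_pos rfl]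

/-- `P L E` is a perfect matching -/
theorem isPM_P {L : List V} (hL : L.Nodup) (he : L.length % 2 = 0) {E : V → V}
    (hE : ∀ v, E (E v) = v) (hE' : ∀ v, E v = v ↔ v ∈ L) : IsPM (P L E) := by
  have key : ∀ v, P L E (P L E v) = v ∧ P L E v ≠ v := by
    intro v
    by_cases h : v ∈ L
    · rw [P_apply_of_mem h, P_apply_of_mem (pL_mem h), pL_pL hL]
      exact ⟨rfl, pL_ne_of_even hL he h⟩
    · have h2 : E v ∉ L := by
        intro h3
        have := (hE' (E v)).2 h3
        rw [hE] at this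
        exact h ((hE' v).1 this.symm)
      rw [P_apply_of_notMem h, P_apply_of_notMem h2, hE]
      exact ⟨rfl, fun h3 => h ((hE' v).1 h3)⟩
  exact ⟨fun v => (key v).1, fun v => (key v).2⟩

theorem wt_P (W : Sim V) {L : List V} (hL : L.Nodup) {E : V → V} (hE : ∀ v ∈ L, E v = v) :
    W.wt (P L E) = W.pr L * W.wt E := W.wt_un hL hE

/-! ### the switch -/

/-- the generic 2-switch on the list of pairs `p₂, yl u₀, q₂, t z` -/
theorem sw_P {p q : List V} {y u t z : V} {E : V → V} (hp : p.length % 2 = 0)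
    (hq : q.length % 2 = 0) (hd : (p ++ y :: u :: (q ++ [t, z])).Nodup) :
    sw (P (p ++ y :: u :: (q ++ [t, z])) E) y z = P (p ++ y :: z :: (q ++ [t, u])) E := by
  have hd0 := hd
  rw [List.nodup_append] at hd
  obtain ⟨hp1, h2, h3⟩ := hd
  simp only [List.nodup_cons, List.mem_cons, List.mem_append, List.not_mem_nil, or_false,
    not_or] at h2
  obtain ⟨⟨hyu, hyq, hyt, hyz⟩, ⟨huq, hut, huz⟩, h4⟩ := h2
  rw [List.nodup_append] at h4
  obtain ⟨hq1, h5, h6⟩ := h4
  have htz : t ≠ z := by simpa using h5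
  have hpy : y ∉ p := fun h => h3 y h y (by simp) rfl
  have hpu : u ∉ p := fun h => h3 u h u (by simp) rfl
  have hpt : t ∉ p := fun h => h3 t h t (by simp) rfl
  have hpz : z ∉ p := fun h => h3 z h z (by simp) rfl
  have hqt : t ∉ q := fun h => h6 t h t (by simp) rfl
  have hqz : z ∉ q := fun h => h6 z h z (by simp) rfl
  have hpq : ∀ v ∈ p, v ∉ q := fun v hv hv' => h3 v hv v (by simp [hv']) rfl
  have e0 : ([y, u] : List V).length % 2 = 0 := by simp
  have e1 : ([y, z] : List V).length % 2 = 0 := by simp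
  have hdN : (q ++ [t, z]).Nodup := by
    rw [List.nodup_append]
    exact ⟨hq1, h5, h6⟩
  have hdN2 : (q ++ [t, u]).Nodup := by
    rw [List.nodup_append]
    refine ⟨hq1, by simpa using Ne.symm hut, ?_⟩
    intro a ha b hb hab
    subst hab
    simp only [List.mem_cons, List.not_mem_nil, or_false] at hb
    rcases hb with rfl | rfl
    · exact hqt ha
    · exact huq ha
  have hdM : ([y, u] ++ (q ++ [t, z])).Nodup := by
    simpa only [List.cons_append, List.nil_append, List.nodup_cons, List.mem_cons, List.mem_append,     List.not_mem_nil, or_false, not_or] using (List.nodup_append.1 hd0).2.1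
  have hdM2 : ([y, z] ++ (q ++ [t, u])).Nodup := by
    rw [List.nodup_append]
    refine ⟨by simpa using hyz, hdN2, ?_⟩
    intro a ha b hb hab
    subst hab
    simp only [List.mem_append, List.mem_cons, List.not_mem_nil, or_false] at ha hb
    rcases ha with rfl | rfl
    · rcases hb with h | h | h
      · exact hyq h
      · exact hyt h
      · exact hyu h
    · rcases hb with h | h | h
      · exact hqz h
      · exact htz h.symm
      · exact huz h.symm
  have hdL2 : (p ++ ([y, z] ++ (q ++ [t, u]))).Nodup := by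
    rw [List.nodup_append]
    refine ⟨hp1, hdM2, ?_⟩
    intro a ha b hb hab
    subst hab
    simp only [List.mem_append, List.mem_cons, List.not_mem_nil, or_false] at hb
    rcases hb with (rfl | rfl) | h | rfl | rfl
    · exact hpy ha
    · exact hpz ha
    · exact hpq _ ha h
    · exact hpt ha
    · exact hpu ha
  have eN : P (p ++ y :: u :: (q ++ [t, z])) E = P p (P [y, u] (P q (P [t, z] E))) := by
    rw [P_append hq hdN, P_append e0 hdM, P_append hp (by simpa using hd0)]
    rfl
  have eS : P (p ++ y :: z :: (q ++ [t, u])) E = P p (P [y, z] (P q (P [t, u] E))) := by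
    rw [P_append hq hdN2, P_append e1 hdM2, P_append hp hdL2]
    rfl
  rw [eN, eS]
  set N := P p (P [y, u] (P q (P [t, z] E))) with hN
  have Ny : N y = u := by rw [hN, P_apply_of_notMem hpy, P_pair_left]
  have Nz : N z = t := by
    rw [hN, P_apply_of_notMem hpz, P_pair, if_neg (Ne.symm hyz), if_neg (Ne.symm huz),
      P_apply_of_notMem hqz, P_pair_right htz]
  funext v
  unfold sw
  rw [Ny, Nz]
  by_cases v1 : v = y
  · subst v1
    rw [if_pos rfl, P_apply_of_notMem hpy, P_pair_left]
  rw [if_neg v1]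
  by_cases v2 : v = z
  · subst v2
    rw [if_pos rfl, P_apply_of_notMem hpz, P_pair, if_neg (Ne.symm hyz), if_pos rfl]
  rw [if_neg v2]
  by_cases v3 : v = u
  · subst v3
    rw [if_pos rfl, P_apply_of_notMem hpu, P_pair, if_neg v1, if_neg v2,
      P_apply_of_notMem huq, P_pair_right (Ne.symm hut)]
  rw [if_neg v3]
  by_cases v4 : v = t
  · subst v4
    rw [if_pos rfl, P_apply_of_notMem hpt, P_pair, if_neg v1, if_neg v2,
      P_apply_of_notMem hqt, P_pair_left]
  rw [if_neg v4, hN]
  by_cases v5 : v ∈ p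
  · rw [P_apply_of_mem v5, P_apply_of_mem v5]
  rw [P_apply_of_notMem v5, P_apply_of_notMem v5, P_pair, P_pair, if_neg v1, if_neg v3,
    if_neg v1, if_neg v2]
  by_cases v6 : v ∈ q
  · rw [P_apply_of_mem v6, P_apply_of_mem v6]
  rw [P_apply_of_notMem v6, P_apply_of_notMem v6, P_pair, P_pair, if_neg v4, if_neg v2,
    if_neg v4, if_neg v3]

theorem pr_L (W : Sim V) {p q : List V} {y u t z : V} (hp : p.length % 2 = 0)
    (hq : q.length % 2 = 0) :
    W.pr (p ++ y :: u :: (q ++ [t, z])) = W.pr p * W.lam y u * W.pr q * W.lam t z := by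
  rw [W.pr_append_even hp]
  show W.pr p * (W.lam y u * W.pr (q ++ [t, z])) = _
  rw [W.pr_append_even hq]
  show W.pr p * (W.lam y u * (W.pr q * (W.lam t z * 1))) = _
  ring

end TS

end Vale.Agent.P308.Lin
end

section

/-! # 2-switches: the three parity cases -/

set_option linter.unusedSectionVars false

namespace Vale.Agent.P308.Lin

open Finset

variable {V : Type*} [Fintype V] [DecidableEq V]

namespace TS

theorem numcore {ε L κ c l1 l2 l3 D R Y : ℝ} (hε : 0 < ε) (hL : 0 ≤ L)
    (hκ : 0 ≤ κ) (hc : L ≤ c) (h2 : ε * c ≤ l2) (h3 : ε * κ ≤ l3) (h1 : ε * κ ≤ l1)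
    (hD : 0 ≤ D) (hR : ε * R ≤ Y) (hR0 : 0 ≤ R) (hε1 : ε ≤ 1) :
    D * L * κ * R ≤ (1 / ε) ^ 3 * (min (D * L * l1) (D * l2 * l3) * Y) := by
  have hc0 : 0 ≤ c := hL.trans hc
  have hl1 : 0 ≤ l1 := (mul_nonneg hε.le hκ).trans h1
  have hl2 : 0 ≤ l2 := (mul_nonneg hε.le hc0).trans h2
  have hl3 : 0 ≤ l3 := (mul_nonneg hε.le hκ).trans h3
  have hY : 0 ≤ Y := (mul_nonneg hε.le hR0).trans hR
  have key : ε ^ 3 * (D * L * κ * R) ≤ min (D * L * l1) (D * l2 * l3) * Y := by
    have e1 : ε ^ 3 * (D * L * κ * R) ≤ D * L * l1 * Y := by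
      calc ε ^ 3 * (D * L * κ * R) = ε * (D * L * (ε * κ) * (ε * R)) := by ring
        _ ≤ 1 * (D * L * (ε * κ) * (ε * R)) := by
            apply mul_le_mul_of_nonneg_right hε1
            (clear * - hD hL hε hκ hR0; positivity)
        _ = D * L * (ε * κ) * (ε * R) := one_mul _
        _ ≤ D * L * l1 * Y := by (clear * - h1 hD hL hR hε hR0 hl1; gcongr)
    have e2 : ε ^ 3 * (D * L * κ * R) ≤ D * l2 * l3 * Y := by
      calc ε ^ 3 * (D * L * κ * R) = D * (ε * L) * (ε * κ) * (ε * R) := by ring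
        _ ≤ D * (ε * c) * (ε * κ) * (ε * R) := by gcongr
        _ ≤ D * l2 * l3 * Y := by (clear * - h2 hD h3 hε hκ hl2 hR hR0 hl3; gcongr)
    rw [min_mul_of_nonneg _ _ hY]
    exact le_min e1 e2
  rw [one_div, inv_pow, ← div_eq_inv_mul, le_div_iff₀ (by positivity), mul_comm]
  exact key

theorem getLast?_getD_append (p : List V) (y d : V) : lt (p ++ [y]) d = y := by
  simp [lt]

/-- the shape of the environments -/
theorem env_even {a : List V} {e : V × (V → V)} (he : IsEnv a e) (h : a.length % 2 = 0) :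
    (∀ v, e.2 (e.2 v) = v) ∧ a.head? = some e.1 ∧ ∀ v, e.2 v = v ↔ v ∈ a := by
  obtain ⟨h1, h2 | h2⟩ := he
  · exact ⟨h1, h2.2.1, h2.2.2⟩
  · omega

theorem env_odd {a : List V} {e : V × (V → V)} (he : IsEnv a e) (h : a.length % 2 = 1) :
    (∀ v, e.2 (e.2 v) = v) ∧ e.1 ∉ a ∧ ∀ v, e.2 v = v ↔ v ∈ a ∨ v = e.1 := by
  obtain ⟨h1, h2 | h2⟩ := he
  · omega
  · exact ⟨h1, h2.2.1, h2.2.2⟩

/-- the result of one case -/
structure Core (W : Sim V) (p q : List V) (e e' : V × (V → V)) (N Y : V → V) (x y : V) :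
    Prop where
  hN : IsPM N
  hY : IsPM Y
  hxy : x ≠ y
  hNx : N x ≠ y
  sws : (S1 p q e = N ∧ S2 p q e = sw N x y) ∨ (S2 p q e = N ∧ S1 p q e = sw N x y)
  wt : W.Wc (p ++ q) e e' ≤ (1 / W.ε) ^ 3 * (min (W.wt N) (W.wt (sw N x y)) * W.wt Y)

/-- permutations of explicit lists -/
theorem perm_L2 (p q : List V) (y u t z : V) :
    (p ++ y :: z :: (q ++ [t, u])).Perm (p ++ y :: u :: (q ++ [t, z])) := by
  rw [List.perm_iff_count]
  intro v
  simp only [List.count_append, List.count_cons, List.count_nil]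
  ring

/-- the master lemma of the three cases -/
theorem core_master (W : Sim V) {p q : List V} {e e' : V × (V → V)} {p2 q2 : List V}
    {y u t z : V} {E N Y : V → V} (hp : p2.length % 2 = 0) (hq : q2.length % 2 = 0)
    (hd : (p2 ++ y :: u :: (q2 ++ [t, z])).Nodup) (hE : ∀ v, E (E v) = v)
    (hE' : ∀ v, E v = v ↔ v ∈ p2 ++ y :: u :: (q2 ++ [t, z]))
    (hN : N = P (p2 ++ y :: u :: (q2 ++ [t, z])) E)
    (hS : (S1 p q e = N ∧ S2 p q e = P (p2 ++ y :: z :: (q2 ++ [t, u])) E) ∨
      (S2 p q e = N ∧ S1 p q e = P (p2 ++ y :: z :: (q2 ++ [t, u])) E))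
    (hY : IsPM Y) {κ c R : ℝ}
    (hWc : W.Wc (p ++ q) e e' = (W.pr p2 * W.pr q2 * W.wt E) * W.lam y u * κ * R)
    (hκ : 0 ≤ κ) (hc : W.lam y u ≤ c)
    (h23 : (W.ε * c ≤ W.lam y z ∧ W.ε * κ ≤ W.lam t u) ∨
      (W.ε * κ ≤ W.lam y z ∧ W.ε * c ≤ W.lam t u))
    (h1 : W.ε * κ ≤ W.lam t z) (hR : W.ε * R ≤ W.wt Y) (hR0 : 0 ≤ R) :
    Core W p q e e' N Y y z := by
  have hd2 : (p2 ++ y :: z :: (q2 ++ [t, u])).Nodup :=
    (perm_L2 p2 q2 y u t z).nodup_iff.2 hd
  have hlen : (p2 ++ y :: u :: (q2 ++ [t, z])).length % 2 = 0 := by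
    simp only [List.length_append, List.length_cons, List.length_nil]; omega
  have hsw : sw N y z = P (p2 ++ y :: z :: (q2 ++ [t, u])) E := by
    rw [hN]; exact sw_P hp hq hd
  have hwN : W.wt N = W.pr p2 * W.lam y u * W.pr q2 * W.lam t z * W.wt E := by
    rw [hN, wt_P W hd (fun v hv => (hE' v).2 hv), pr_L W hp hq]
  have hwS : W.wt (sw N y z) = W.pr p2 * W.lam y z * W.pr q2 * W.lam t u * W.wt E := by
    rw [hsw, wt_P W hd2 (fun v hv => (hE' v).2
      ((perm_L2 p2 q2 y u t z).mem_iff.1 hv)), pr_L W hp hq]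
  have hy : y ∈ p2 ++ y :: u :: (q2 ++ [t, z]) := by simp only [List.mem_append, List.mem_cons, List.not_mem_nil, or_false, true_or, or_true]
  have hyz : y ≠ z := by
    rintro rfl
    rw [List.nodup_append] at hd
    simp only [List.nodup_cons, List.mem_cons, List.mem_append, List.not_mem_nil, or_false, or_true, not_true_eq_false, not_or, false_and, ne_eq, forall_eq_or_imp, and_false] at hd
  have huz : u ≠ z := by
    rintro rfl
    rw [List.nodup_append] at hd
    simp only [List.nodup_cons, List.mem_cons, List.mem_append, List.not_mem_nil, or_false, not_or, or_true, not_true_eq_false, false_and, and_false, ne_eq, forall_eq_or_imp] at hd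
  have hyp : y ∉ p2 := by
    intro h
    rw [List.nodup_append] at hd
    exact hd.2.2 y h y (by simp) rfl
  refine ⟨?_, hY, hyz, ?_, ?_, ?_⟩
  · rw [hN]; exact isPM_P hd hlen hE hE'
  · rw [hN, P_apply_of_mem hy, pL_append_even hp hd, if_neg hyp, pL_cons2, if_pos rfl]
    exact huz
  · rw [hsw]; exact hS
  · rw [hWc, hwN, hwS]
    set D := W.pr p2 * W.pr q2 * W.wt E with hD
    have hD0 : 0 ≤ D := by
      have h1 := W.pr_pos p2
      have h2 := W.pr_pos q2
      have h3 := W.wt_pos E
      (clear * - h1 h2 h3; positivity)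
    have e1 : W.pr p2 * W.lam y u * W.pr q2 * W.lam t z * W.wt E =
        D * W.lam y u * W.lam t z := by rw [hD]; ring
    have e2 : W.pr p2 * W.lam y z * W.pr q2 * W.lam t u * W.wt E =
        D * W.lam y z * W.lam t u := by rw [hD]; ring
    rw [e1, e2]
    rcases h23 with ⟨h2, h3⟩ | ⟨h2, h3⟩
    · exact numcore W.ε_pos (W.lam_pos _ _).le hκ hc h2 h3 h1 hD0 hR hR0 W.ε_le
    · have e3 : D * W.lam y z * W.lam t u = D * W.lam t u * W.lam y z := by ring
      rw [e3]
      exact numcore W.ε_pos (W.lam_pos _ _).le hκ hc h3 h2 h1 hD0 hR hR0 W.ε_le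

/-- the weight of a path is the product of the two pairings -/
theorem pw_eq (W : Sim V) (x : V) (l : List V) : W.pw (x :: l) = W.pr (x :: l) * W.pr l := by
  rw [← W.pr_mul_tail]; rfl

/-- both parts even -/
theorem core_ee (W : Sim V) {x0 yl u0 ul : V} {p2 q2 : List V} {e e' : V × (V → V)}
    (hp : p2.length % 2 = 0) (hq : q2.length % 2 = 0)
    (hd : ((x0 :: (p2 ++ [yl])) ++ (u0 :: (q2 ++ [ul]))).Nodup)
    (he : IsEnv ((x0 :: (p2 ++ [yl])) ++ (u0 :: (q2 ++ [ul]))) e)
    (he' : IsEnv ((x0 :: (p2 ++ [yl])) ++ (u0 :: (q2 ++ [ul]))) e')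
    (hc : W.c yl u0 ≤ W.cm ((x0 :: (p2 ++ [yl])) ++ (u0 :: (q2 ++ [ul])))) :
    Core W (x0 :: (p2 ++ [yl])) (u0 :: (q2 ++ [ul])) e e'
      (M0 (cmp ((x0 :: (p2 ++ [yl])) ++ (u0 :: (q2 ++ [ul]))) e.1) e.2)
      (M1 (cmp ((x0 :: (p2 ++ [yl])) ++ (u0 :: (q2 ++ [ul]))) e'.1) e'.2) yl x0 := by
  have hpl : (x0 :: (p2 ++ [yl])).length % 2 = 0 := by
    simp only [List.length_append, List.length_cons, List.length_nil]; omega
  have hql : (u0 :: (q2 ++ [ul])).length % 2 = 0 := by
    simp only [List.length_append, List.length_cons, List.length_nil]; (clear * - hq; omega)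
  set a := (x0 :: (p2 ++ [yl])) ++ (u0 :: (q2 ++ [ul])) with hadef
  have hal : a.length % 2 = 0 := by rw [hadef, List.length_append]; (clear * - hpl hql; omega)
  have hcmp : ∀ s, cmp a s = a := fun s => by unfold cmp; rw [if_pos hal]
  rw [hcmp, hcmp]
  obtain ⟨E1, E2, E3⟩ := env_even he hal
  obtain ⟨E1', E2', E3'⟩ := env_even he' hal
  have evp : ev (x0 :: (p2 ++ [yl])) = true := by simp only [ev, hpl]; rfl
  have evq : ev (u0 :: (q2 ++ [ul])) = true := by simp only [ev, hql]; rfl
  have ha1 : a = x0 :: (p2 ++ yl :: u0 :: (q2 ++ [ul])) := by rw [hadef]; simp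
  have hM0 : M0 a e.2 = P (p2 ++ yl :: u0 :: (q2 ++ [ul, x0])) e.2 := by
    rw [ha1, M0_cons]
    congr 1
    simp
  have hperm : (p2 ++ yl :: u0 :: (q2 ++ [ul, x0])).Perm a := by
    rw [ha1, List.perm_iff_count]
    intro v
    simp only [List.count_append, List.count_cons, List.count_nil]
    ring
  have hL : (p2 ++ yl :: u0 :: (q2 ++ [ul, x0])).Nodup := hperm.nodup_iff.2 hd
  have hdp : ((p2 ++ [yl, x0]) ++ (q2 ++ [ul, u0])).Nodup := by
    have h := (perm_L2 p2 q2 yl u0 ul x0).nodup_iff.2 hL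
    simpa using h
  have hS2 : S2 (x0 :: (p2 ++ [yl])) (u0 :: (q2 ++ [ul])) e =
      P (p2 ++ yl :: x0 :: (q2 ++ [ul, u0])) e.2 := by
    unfold S2
    rw [evp, evq]
    show M0 (x0 :: (p2 ++ [yl])) (M0 (u0 :: (q2 ++ [ul])) e.2) = _
    rw [M0_cons, M0_cons]
    have e1 : p2 ++ [yl] ++ [x0] = p2 ++ [yl, x0] := by simp
    have e2 : q2 ++ [ul] ++ [u0] = q2 ++ [ul, u0] := by simp
    rw [e1, e2, P_append (by simp only [List.length_append, List.length_cons, List.length_nil, zero_add, Nat.reduceAdd, Nat.add_mod_right]; omega) hdp]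
    congr 1
    simp
  have hS1 : S1 (x0 :: (p2 ++ [yl])) (u0 :: (q2 ++ [ul])) e = M0 a e.2 := by
    unfold S1
    rw [evp, evq]
  have hx0 : x0 ∈ a := by rw [ha1]; simp
  have hyl : yl ∈ a := by rw [ha1]; simp
  have hu0 : u0 ∈ a := by rw [ha1]; simp
  have hul : ul ∈ a := by rw [ha1]; simp
  have hdd := hL
  rw [List.nodup_append] at hdd
  simp only [List.nodup_cons, List.mem_cons, List.mem_append, List.not_mem_nil, or_false,
    not_or, List.nodup_append] at hdd
  obtain ⟨_, ⟨⟨hyu, _, hyu', hyx⟩, ⟨_, huu, hux⟩, _, hux', _⟩, _⟩ := hdd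
  refine core_master W (t := ul) (z := x0) (E := e.2) (κ := W.cm a) (c := W.cm a)
    (R := W.pr a * W.wt e'.2) hp hq hL E1 (fun v => (E3 v).trans hperm.mem_iff.symm) hM0
    (Or.inl ⟨hS1, hS2⟩) (isPM_P hd hal E1' E3') ?_ (W.cm_pos a).le
    ((W.lam_le hyu).trans hc) (Or.inl ⟨cm_le_lam W hyl hx0 hyx, cm_le_lam W hul hu0 ?_⟩)
    (cm_le_lam W hul hx0 ?_) ?_ ?_
  · show W.pw a * (W.om a e * W.om a e') = _
    unfold Sim.om
    rw [if_pos hal, if_pos hal]
    have hsq : Real.sqrt (W.cm a) * Real.sqrt (W.cm a) = W.cm a :=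
      Real.mul_self_sqrt (W.cm_pos a).le
    have hpw : W.pw a = W.pr a * (W.pr p2 * W.lam yl u0 * W.pr q2) := by
      rw [ha1, pw_eq, W.pr_append_even hp]
      show _ * (W.pr p2 * (W.lam yl u0 * W.pr (q2 ++ [ul]))) = _
      rw [W.pr_append_even hq]
      show _ * (W.pr p2 * (W.lam yl u0 * (W.pr q2 * 1))) = _
      ring
    rw [hpw]
    linear_combination (W.pr a * (W.pr p2 * W.lam yl u0 * W.pr q2) * W.wt e.2 * W.wt e'.2) * hsq
  · exact Ne.symm huu
  · exact hux'.1
  · rw [M1_eq, wt_P W hd (fun v hv => (E3' v).2 hv)]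
    have : 0 ≤ W.pr a * W.wt e'.2 := mul_nonneg (W.pr_pos a).le (W.wt_pos _).le
    nlinarith only [this, W.ε_le]
  · exact mul_nonneg (W.pr_pos a).le (W.wt_pos _).le

/-- first part even, second part odd -/
theorem core_eo (W : Sim V) {x0 yl u0 : V} {p2 q2 : List V} {e e' : V × (V → V)}
    (hp : p2.length % 2 = 0) (hq : q2.length % 2 = 0)
    (hd : ((x0 :: (p2 ++ [yl])) ++ (u0 :: q2)).Nodup)
    (he : IsEnv ((x0 :: (p2 ++ [yl])) ++ (u0 :: q2)) e)
    (he' : IsEnv ((x0 :: (p2 ++ [yl])) ++ (u0 :: q2)) e')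
    (hc : W.c yl u0 ≤ W.cm ((x0 :: (p2 ++ [yl])) ++ (u0 :: q2))) :
    Core W (x0 :: (p2 ++ [yl])) (u0 :: q2) e e'
      (M0 (cmp ((x0 :: (p2 ++ [yl])) ++ (u0 :: q2)) e.1) e.2)
      (M1 (cmp ((x0 :: (p2 ++ [yl])) ++ (u0 :: q2)) e'.1) e'.2) yl x0 := by
  obtain ⟨s, E⟩ := e
  obtain ⟨s', E'⟩ := e'
  have hpl : (x0 :: (p2 ++ [yl])).length % 2 = 0 := by
    simp only [List.length_append, List.length_cons, List.length_nil]; (clear * - hp; omega)
  have hql : (u0 :: q2).length % 2 = 1 := by
    simp only [List.length_cons]; omega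
  set a := (x0 :: (p2 ++ [yl])) ++ (u0 :: q2) with hadef
  have hal : a.length % 2 = 1 := by rw [hadef, List.length_append]; omega
  have hcmp : ∀ s, cmp a s = a ++ [s] := fun s => by
    unfold cmp; rw [if_neg (by omega)]
  rw [hcmp, hcmp]
  obtain ⟨E1, E2, E3⟩ := env_odd he hal
  obtain ⟨E1', E2', E3'⟩ := env_odd he' hal
  simp only at E1 E2 E3 E1' E2' E3' ⊢
  have evp : ev (x0 :: (p2 ++ [yl])) = true := by simp only [ev, hpl]; rfl
  have evq : ev (u0 :: q2) = false := by simp only [ev, hql]; rfl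
  have ha1 : a = x0 :: (p2 ++ yl :: u0 :: q2) := by rw [hadef]; simp
  have hM0 : M0 (a ++ [s]) E = P (p2 ++ yl :: u0 :: (q2 ++ [s, x0])) E := by
    rw [ha1, List.cons_append, M0_cons]
    congr 1
    simp
  have hperm : (p2 ++ yl :: u0 :: (q2 ++ [s, x0])).Perm (a ++ [s]) := by
    rw [ha1, List.perm_iff_count]
    intro v
    simp only [List.count_append, List.count_cons, List.count_nil]
    ring
  have hds : (a ++ [s]).Nodup := by
    rw [List.nodup_append]
    refine ⟨hd, by simp, ?_⟩
    intro v hv w hw hvw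
    rw [List.mem_singleton] at hw
    exact E2 (by rw [← hw, ← hvw]; exact hv)
  have hds' : (a ++ [s']).Nodup := by
    rw [List.nodup_append]
    refine ⟨hd, by simp, ?_⟩
    intro v hv w hw hvw
    rw [List.mem_singleton] at hw
    exact E2' (by rw [← hw, ← hvw]; exact hv)
  have hals : (a ++ [s]).length % 2 = 0 := by
    simp only [List.length_append, List.length_cons, List.length_nil]; (clear * - hal; omega)
  have hals' : (a ++ [s']).length % 2 = 0 := by
    simp only [List.length_append, List.length_cons, List.length_nil]; omega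
  have hL : (p2 ++ yl :: u0 :: (q2 ++ [s, x0])).Nodup := hperm.nodup_iff.2 hds
  have hdp : ((p2 ++ [yl, x0]) ++ (q2 ++ [s, u0])).Nodup := by
    have h := (perm_L2 p2 q2 yl u0 s x0).nodup_iff.2 hL
    simpa using h
  have hS2 : S2 (x0 :: (p2 ++ [yl])) (u0 :: q2) (s, E) =
      P (p2 ++ yl :: x0 :: (q2 ++ [s, u0])) E := by
    unfold S2
    rw [evp, evq]
    show M0 (x0 :: (p2 ++ [yl])) (M1 (s :: u0 :: q2) E) = _
    rw [M0_cons, M1_eq]
    have e1 : p2 ++ [yl] ++ [x0] = p2 ++ [yl, x0] := by simp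
    have e2 : s :: u0 :: q2 = [s, u0] ++ q2 := rfl
    have hq' : ([s, u0] ++ q2).Nodup :=
      (List.nodup_append_comm.1 (List.nodup_append.1 hdp).2.1)
    rw [e1, e2, P_swap (by simp) hq hq', P_append (by simp only [List.length_append, List.length_cons, List.length_nil, zero_add, Nat.reduceAdd, Nat.add_mod_right]; omega) hdp]
    congr 1
    simp
  have hS1 : S1 (x0 :: (p2 ++ [yl])) (u0 :: q2) (s, E) = M0 (a ++ [s]) E := by
    unfold S1
    rw [evp, evq]
  have hx0 : x0 ∈ a := by rw [ha1]; simp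
  have hyl : yl ∈ a := by rw [ha1]; simp
  have hu0 : u0 ∈ a := by rw [ha1]; simp
  have hsa : s ∈ a ++ [s] := by simp
  have hdd := hL
  rw [List.nodup_append] at hdd
  simp only [List.nodup_cons, List.mem_cons, List.mem_append, List.not_mem_nil, or_false,
    not_or, List.nodup_append] at hdd
  obtain ⟨_, ⟨⟨hyu, _, hys, hyx⟩, ⟨_, hus, hux⟩, _, hsx, _⟩, _⟩ := hdd
  -- the last vertex
  obtain ⟨b, l, hbl⟩ : ∃ b l, a = b ++ [l] :=
    ⟨a.dropLast, a.getLast (by rw [ha1]; simp),
      (List.dropLast_append_getLast (by rw [ha1]; simp)).symm⟩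
  have hbe : b.length % 2 = 0 := by
    have h9 : a.length = b.length + 1 := by
      rw [hbl, List.length_append, List.length_singleton]
    omega
  have hla : l ∈ a := by rw [hbl]; simp
  have hls : l ≠ s' := fun h => E2' (h ▸ hla)
  have hprY : W.pr (a ++ [s']) = W.pr a * W.lam l s' := by
    rw [hbl, List.append_assoc, W.pr_append_even hbe, W.pr_append_even hbe]
    show W.pr b * (W.lam l s' * 1) = W.pr b * 1 * W.lam l s'
    ring
  refine core_master W (t := s) (z := x0) (E := E) (κ := W.cm (a ++ [s])) (c := W.cm a)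
    (R := W.pr a * W.cm (a ++ [s']) * W.wt E') hp hq hL E1
    (fun v => (E3 v).trans ?_) hM0
    (Or.inl ⟨hS1, hS2⟩) (isPM_P hds' hals' E1' (fun v => (E3' v).trans (by simp)))
    ?_ (W.cm_pos _).le
    ((W.lam_le hyu).trans hc) (Or.inl ⟨cm_le_lam W hyl hx0 hyx,
      cm_le_lam W hsa (List.mem_append_left _ hu0) (Ne.symm hus)⟩)
    (cm_le_lam W hsa (List.mem_append_left _ hx0) hsx.1) ?_ ?_
  · rw [hperm.mem_iff]; simp
  · show W.pw a * (W.om a (s, E) * W.om a (s', E')) = _
    unfold Sim.om
    rw [if_neg (by (clear * - hal; omega)), if_neg (by omega)]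
    have hpw : W.pw a = W.pr a * (W.pr p2 * W.lam yl u0 * W.pr q2) := by
      rw [ha1, pw_eq, W.pr_append_even hp]
      show _ * (W.pr p2 * (W.lam yl u0 * W.pr q2)) = _
      ring
    rw [hpw]
    ring
  · rw [M1_eq, wt_P W hds' (fun v hv => (E3' v).2 (by simpa using hv)), hprY]
    have h1 := cm_le_lam W (l := a ++ [s']) (x := l) (y := s') (by simp [hla]) (by simp) hls
    have h2 : 0 ≤ W.pr a * W.wt E' := mul_nonneg (W.pr_pos a).le (W.wt_pos _).le
    calc W.ε * (W.pr a * W.cm (a ++ [s']) * W.wt E') =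
        (W.pr a * W.wt E') * (W.ε * W.cm (a ++ [s'])) := by ring
      _ ≤ (W.pr a * W.wt E') * W.lam l s' := mul_le_mul_of_nonneg_left h1 h2
      _ = _ := by ring
  · exact mul_nonneg (mul_nonneg (W.pr_pos a).le (W.cm_pos _).le) (W.wt_pos _).le

/-- first part odd, second part even -/
theorem core_oe (W : Sim V) {yl u0 ul : V} {p2 q2 : List V} {e e' : V × (V → V)}
    (hp : p2.length % 2 = 0) (hq : q2.length % 2 = 0)
    (hd : ((p2 ++ [yl]) ++ (u0 :: (q2 ++ [ul]))).Nodup)
    (he : IsEnv ((p2 ++ [yl]) ++ (u0 :: (q2 ++ [ul]))) e)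
    (he' : IsEnv ((p2 ++ [yl]) ++ (u0 :: (q2 ++ [ul]))) e')
    (hc : W.c yl u0 ≤ W.cm ((p2 ++ [yl]) ++ (u0 :: (q2 ++ [ul])))) :
    Core W (p2 ++ [yl]) (u0 :: (q2 ++ [ul])) e e'
      (M1 (cmp ((p2 ++ [yl]) ++ (u0 :: (q2 ++ [ul]))) e.1) e.2)
      (M0 (cmp ((p2 ++ [yl]) ++ (u0 :: (q2 ++ [ul]))) e'.1) e'.2) yl e.1 := by
  obtain ⟨s, E⟩ := e
  obtain ⟨s', E'⟩ := e'
  have hpl : (p2 ++ [yl]).length % 2 = 1 := by
    simp only [List.length_append, List.length_cons, List.length_nil]; omega
  have hql : (u0 :: (q2 ++ [ul])).length % 2 = 0 := by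
    simp only [List.length_append, List.length_cons, List.length_nil]; (clear * - hq; omega)
  set a := (p2 ++ [yl]) ++ (u0 :: (q2 ++ [ul])) with hadef
  have hal : a.length % 2 = 1 := by rw [hadef, List.length_append]; omega
  have hcmp : ∀ s, cmp a s = a ++ [s] := fun s => by
    unfold cmp; rw [if_neg (by (clear * - hal; omega))]
  rw [hcmp, hcmp]
  obtain ⟨E1, E2, E3⟩ := env_odd he hal
  obtain ⟨E1', E2', E3'⟩ := env_odd he' hal
  simp only at E1 E2 E3 E1' E2' E3' ⊢
  have evp : ev (p2 ++ [yl]) = false := by simp only [ev, hpl]; rfl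
  have evq : ev (u0 :: (q2 ++ [ul])) = true := by simp only [ev, hql]; rfl
  have ha1 : a = p2 ++ yl :: u0 :: (q2 ++ [ul]) := by rw [hadef]; simp
  have hM1 : M1 (a ++ [s]) E = P (p2 ++ yl :: u0 :: (q2 ++ [ul, s])) E := by
    rw [ha1, M1_eq]
    congr 1
    simp
  have hperm : (p2 ++ yl :: u0 :: (q2 ++ [ul, s])).Perm (a ++ [s]) := by
    rw [ha1, List.perm_iff_count]
    intro v
    simp only [List.count_append, List.count_cons, List.count_nil]
    ring
  have hds : (a ++ [s]).Nodup := by
    rw [List.nodup_append]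
    refine ⟨hd, by simp, ?_⟩
    intro v hv w hw hvw
    rw [List.mem_singleton] at hw
    exact E2 (by rw [← hw, ← hvw]; exact hv)
  have hds' : (a ++ [s']).Nodup := by
    rw [List.nodup_append]
    refine ⟨hd, by simp, ?_⟩
    intro v hv w hw hvw
    rw [List.mem_singleton] at hw
    exact E2' (by rw [← hw, ← hvw]; exact hv)
  have hals' : (a ++ [s']).length % 2 = 0 := by
    simp only [List.length_append, List.length_cons, List.length_nil]; omega
  have hL : (p2 ++ yl :: u0 :: (q2 ++ [ul, s])).Nodup := hperm.nodup_iff.2 hds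
  have hdp : ((p2 ++ [yl, s]) ++ (q2 ++ [ul, u0])).Nodup := by
    have h := (perm_L2 p2 q2 yl u0 ul s).nodup_iff.2 hL
    simpa using h
  have hS1 : S1 (p2 ++ [yl]) (u0 :: (q2 ++ [ul])) (s, E) =
      P (p2 ++ yl :: s :: (q2 ++ [ul, u0])) E := by
    unfold S1
    rw [evp, evq]
    show M0 (u0 :: (q2 ++ [ul])) (M1 (p2 ++ [yl] ++ [s]) E) = _
    rw [M0_cons, M1_eq]
    have e1 : p2 ++ [yl] ++ [s] = p2 ++ [yl, s] := by simp
    have e2 : q2 ++ [ul] ++ [u0] = q2 ++ [ul, u0] := by simp
    have hdp' : ((q2 ++ [ul, u0]) ++ (p2 ++ [yl, s])).Nodup := List.nodup_append_comm.1 hdp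
    rw [e1, e2, P_append (by simp; omega) hdp', P_swap (by simp; omega) (by simp; omega) hdp']
    congr 1
    simp
  have hS2 : S2 (p2 ++ [yl]) (u0 :: (q2 ++ [ul])) (s, E) = M1 (a ++ [s]) E := by
    unfold S2
    rw [evp, evq]
  have hyl : yl ∈ a := by rw [ha1]; simp
  have hu0 : u0 ∈ a := by rw [ha1]; simp
  have hul : ul ∈ a := by rw [ha1]; simp
  have hsa : s ∈ a ++ [s] := by simp
  have hdd := hL
  rw [List.nodup_append] at hdd
  simp only [List.nodup_cons, List.mem_cons, List.mem_append, List.not_mem_nil, or_false,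
    not_or, List.nodup_append] at hdd
  obtain ⟨_, ⟨⟨hyu, _, hyu', hys⟩, ⟨_, huu, hus⟩, _, huls, _⟩, _⟩ := hdd
  -- the first vertex
  obtain ⟨h0, a1, ha2⟩ : ∃ h0 a1, a = h0 :: a1 :=
    List.exists_cons_of_ne_nil (by rw [ha1]; simp)
  have ha1e : a1.length % 2 = 0 := by
    have := congrArg List.length ha2
    rw [List.length_cons] at this
    (clear * - hal this; omega)
  have hh0 : h0 ∈ a := by rw [ha2]; simp
  have hls : s' ≠ h0 := fun h => E2' (h ▸ hh0)
  have hperm' : (a1 ++ [s', h0]).Perm (a ++ [s']) := by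
    rw [ha2, List.perm_iff_count]
    intro v
    simp only [List.cons_append, List.count_append, List.count_cons, List.count_nil]
    ring
  have hM0 : M0 (a ++ [s']) E' = P (a1 ++ [s', h0]) E' := by
    rw [ha2, List.cons_append, M0_cons]
    congr 1
    simp
  have hprY : W.pr (a1 ++ [s', h0]) = W.pr a1 * W.lam s' h0 := by
    rw [W.pr_append_even ha1e]
    show W.pr a1 * (W.lam s' h0 * 1) = _
    ring
  have hYPM : IsPM (M0 (a ++ [s']) E') := by
    rw [hM0]
    refine isPM_P (hperm'.nodup_iff.2 hds') (by rw [hperm'.length_eq]; exact hals') E1' ?_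
    intro v
    rw [hperm'.mem_iff]
    exact (E3' v).trans (by simp)
  refine core_master W (t := ul) (z := s) (E := E) (κ := W.cm (a ++ [s])) (c := W.cm a)
    (R := W.pr a1 * W.cm (a ++ [s']) * W.wt E') hp hq hL E1
    (fun v => (E3 v).trans ?_) hM1
    (Or.inr ⟨hS2, hS1⟩) hYPM
    ?_ (W.cm_pos _).le
    ((W.lam_le hyu).trans hc) (Or.inr ⟨cm_le_lam W (List.mem_append_left _ hyl) hsa hys,
      cm_le_lam W hul hu0 (Ne.symm huu)⟩)
    (cm_le_lam W (List.mem_append_left _ hul) hsa huls.1) ?_ ?_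
  · rw [hperm.mem_iff]; simp
  · show W.pw a * (W.om a (s, E) * W.om a (s', E')) = _
    unfold Sim.om
    rw [if_neg (by (clear * - hal; omega)), if_neg (by (clear * - hal; omega))]
    have hpw : W.pw a = (W.pr p2 * W.lam yl u0 * W.pr q2) * W.pr a1 := by
      have h1 : W.pr a = W.pr p2 * W.lam yl u0 * W.pr q2 := by
        rw [ha1, W.pr_append_even hp]
        show (W.pr p2 * (W.lam yl u0 * W.pr (q2 ++ [ul]))) = _
        rw [W.pr_append_even hq]
        show (W.pr p2 * (W.lam yl u0 * (W.pr q2 * 1))) = _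
        ring
      rw [← h1, ha2, pw_eq]
    rw [hpw]
    ring
  · rw [hM0, wt_P W (hperm'.nodup_iff.2 hds')
      (fun v hv => (E3' v).2 (by simpa using hperm'.mem_iff.1 hv)), hprY]
    have h1 := cm_le_lam W (l := a ++ [s']) (x := s') (y := h0) (by simp) (by simp [hh0]) hls
    have h2 : 0 ≤ W.pr a1 * W.wt E' := mul_nonneg (W.pr_pos a1).le (W.wt_pos _).le
    calc W.ε * (W.pr a1 * W.cm (a ++ [s']) * W.wt E') =
        (W.pr a1 * W.wt E') * (W.ε * W.cm (a ++ [s'])) := by ring
      _ ≤ (W.pr a1 * W.wt E') * W.lam s' h0 := mul_le_mul_of_nonneg_left h1 h2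
      _ = _ := by ring
  · exact mul_nonneg (mul_nonneg (W.pr_pos a1).le (W.cm_pos _).le) (W.wt_pos _).le

end TS

end Vale.Agent.P308.Lin
end

section

/-! # 2-switches: the bound `StTS` -/

set_option linter.unusedSectionVars false

namespace Vale.Agent.P308.Lin

open Finset

variable {V : Type*} [Fintype V] [DecidableEq V]

namespace TS

/-! ### decoding -/

theorem cmp_even {a : List V} (h : a.length % 2 = 0) (s : V) : cmp a s = a := if_pos h

theorem cmp_odd {a : List V} (h : a.length % 2 = 1) (s : V) : cmp a s = a ++ [s] :=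
  if_neg (by omega)

theorem dec_a {x : V} {t : List V} (hn : (x :: t).Nodup) (s1 s0 : V) (E1 E0 : V → V) :
    orb (M1 (cmp (x :: t) s1) E1) (M0 (cmp (x :: t) s0) E0) x (x :: t).length = x :: t := by
  refine orb_of_alt (alt_of hn ?_ ?_)
  · intro v hv hne
    rcases par (x :: t) with h | h
    · rw [cmp_even h, M1_mem hv]
    · rw [cmp_odd h, M1_mem (List.mem_append_left _ hv), pL_append_left hv hne]
  · intro v hv hne
    rw [List.tail_cons] at hv hne ⊢
    rcases par (x :: t) with h | h
    · rw [cmp_even h, M0_cons, P_apply_of_mem (List.mem_append_left _ hv),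
        pL_append_left hv hne]
    · rw [cmp_odd h, List.cons_append, M0_cons,
        P_apply_of_mem (List.mem_append_left _ (List.mem_append_left _ hv)),
        List.append_assoc, pL_append_left hv hne]

theorem inj_M1 {a : List V} (hn : a.Nodup) {e e' : V × (V → V)}
    (he : IsEnv a e) (he' : IsEnv a e') (h : M1 (cmp a e.1) e.2 = M1 (cmp a e'.1) e'.2) :
    e = e' := by
  obtain ⟨s, E⟩ := e
  obtain ⟨s', E'⟩ := e'
  rcases par a with hp | hp
  · obtain ⟨h1, h2⟩ := he.even hp
    obtain ⟨h1', h2'⟩ := he'.even hp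
    have e1 : s = s' := Option.some_inj.1 (h1.symm.trans h1')
    rw [cmp_even hp, cmp_even hp] at h
    have e2 : E = E' := M1_inj (b := a) (fun v hv => (h2 v).2 hv) (fun v hv => (h2' v).2 hv) h
    rw [e1, e2]
  · obtain ⟨h1, h2⟩ := he.odd hp
    obtain ⟨h1', h2'⟩ := he'.odd hp
    have hne : a ≠ [] := by rintro rfl; simp only [List.length_nil, Nat.zero_mod, zero_ne_one] at hp
    rw [cmp_odd hp, cmp_odd hp] at h
    have e1 : s = s' := by
      have hy := lt_of hne s
      have hym := List.mem_of_getLast? hy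
      have h4 := congrFun h (lt a s)
      rw [M1_mem (List.mem_append_left _ hym), M1_mem (List.mem_append_left _ hym),
        pL_snoc_last hn hp hy, pL_snoc_last hn hp hy] at h4
      exact h4
    subst e1
    have e2 : E = E' := M1_inj (b := a ++ [s])
      (fun v hv => (h2 v).2 (by
        rcases List.mem_append.1 hv with h | h
        · exact Or.inl h
        · exact Or.inr (List.mem_singleton.1 h)))
      (fun v hv => (h2' v).2 (by
        rcases List.mem_append.1 hv with h | h
        · exact Or.inl h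
        · exact Or.inr (List.mem_singleton.1 h))) h
    rw [e2]

theorem inj_M0 {x : V} {t : List V} (hn : (x :: t).Nodup) {e e' : V × (V → V)}
    (he : IsEnv (x :: t) e) (he' : IsEnv (x :: t) e')
    (h : M0 (cmp (x :: t) e.1) e.2 = M0 (cmp (x :: t) e'.1) e'.2) : e = e' := by
  obtain ⟨s, E⟩ := e
  obtain ⟨s', E'⟩ := e'
  rcases par (x :: t) with hp | hp
  · obtain ⟨h1, h2⟩ := he.even hp
    obtain ⟨h1', h2'⟩ := he'.even hp
    have e1 : s = s' := Option.some_inj.1 (h1.symm.trans h1')
    rw [cmp_even hp, cmp_even hp, M0_cons, M0_cons] at h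
    have hm : ∀ v, v ∈ t ++ [x] → v ∈ x :: t := fun v hv => by
      simp only [List.mem_append, List.mem_cons, List.not_mem_nil, or_false] at hv ⊢; (clear * - hv; tauto)
    have e2 : E = E' := M1_inj (b := t ++ [x]) (fun v hv => (h2 v).2 (hm v hv))
      (fun v hv => (h2' v).2 (hm v hv)) h
    rw [e1, e2]
  · obtain ⟨h1, h2⟩ := he.odd hp
    obtain ⟨h1', h2'⟩ := he'.odd hp
    have ht : t.length % 2 = 0 := by simp only [List.length_cons] at hp; omega
    have hxt := (List.nodup_cons.1 hn).1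
    rw [cmp_odd hp, cmp_odd hp, List.cons_append, List.cons_append, M0_cons, M0_cons] at h
    have hnd : ∀ s : V, s ∉ x :: t → (t ++ [s, x]).Nodup := by
      intro s hs
      simp only [List.mem_cons, not_or] at hs
      rw [List.nodup_append]
      refine ⟨(List.nodup_cons.1 hn).2, by simpa using hs.1, ?_⟩
      intro v hv w hw hvw
      subst hvw
      simp only [List.mem_cons, List.not_mem_nil, or_false] at hw
      rcases hw with rfl | rfl
      · exact hs.2 hv
      · exact hxt hv
    have hval : ∀ (s : V) (E : V → V), s ∉ x :: t → P (t ++ [s] ++ [x]) E x = s := by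
      intro s E hs
      have h9 : t ++ [s] ++ [x] = t ++ [s, x] := by simp
      rw [h9, P_apply_of_mem (by simp), pL_append_even ht (hnd s hs), if_neg hxt, pL_cons2]
      have : x ≠ s := fun h => hs (by rw [← h]; simp)
      rw [if_neg this, if_pos rfl]
    have e1 : s = s' := by
      have h4 := congrFun h x
      rwa [hval s E h1, hval s' E' h1'] at h4
    subst e1
    have hm : ∀ v, v ∈ t ++ [s] ++ [x] → v ∈ x :: t ∨ v = s := fun v hv => by
      simp only [List.mem_append, List.mem_cons, List.not_mem_nil, or_false] at hv ⊢; (clear * - hv; tauto)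
    have e2 : E = E' := M1_inj (b := t ++ [s] ++ [x]) (fun v hv => (h2 v).2 (hm v hv))
      (fun v hv => (h2' v).2 (hm v hv)) h
    rw [e2]

/-! ### the switch attached to a path -/

/-- the current matching -/
def NN (p q : List V) (e : V × (V → V)) : V → V :=
  if p.length % 2 = 0 then M0 (cmp (p ++ q) e.1) e.2 else M1 (cmp (p ++ q) e.1) e.2

/-- the complementary matching -/
def YY (p q : List V) (e : V × (V → V)) : V → V :=
  if p.length % 2 = 0 then M1 (cmp (p ++ q) e.1) e.2 else M0 (cmp (p ++ q) e.1) e.2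

/-- the second vertex of the switch -/
def yy (p : List V) (e : V × (V → V)) : V := if p.length % 2 = 0 then hd p e.1 else e.1

theorem core_all (W : Sim V) {p q : List V} {e e' : V × (V → V)} (hn : (p ++ q).Nodup)
    (hp : p ≠ []) (hq : q ≠ []) (he : IsEnv (p ++ q) e) (he' : IsEnv (p ++ q) e')
    (hc : ∃ u v, p.getLast? = some u ∧ q.head? = some v ∧ W.c u v = W.cm (p ++ q))
    (hpar : ¬ (p.length % 2 = 1 ∧ q.length % 2 = 1)) :
    Core W p q e e' (NN p q e) (YY p q e') (lt p e.1) (yy p e) := by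
  obtain ⟨u, v, hu, hv, huv⟩ := hc
  obtain ⟨u0, q1, rfl⟩ := List.exists_cons_of_ne_nil hq
  rw [List.head?_cons, Option.some_inj] at hv
  subst hv
  rcases par p with hpp | hpp
  · obtain ⟨x0, p1, rfl⟩ := List.exists_cons_of_ne_nil hp
    have hp1 : p1 ≠ [] := by rintro rfl; simp only [List.length_cons, List.length_nil, zero_add, Nat.mod_succ, one_ne_zero] at hpp
    obtain ⟨p2, yl, rfl⟩ : ∃ b l, p1 = b ++ [l] :=
      ⟨p1.dropLast, p1.getLast hp1, (List.dropLast_append_getLast hp1).symm⟩
    have hp2 : p2.length % 2 = 0 := by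
      simp only [List.length_cons, List.length_append, List.length_nil] at hpp; (clear * - hpp; omega)
    have hlt : lt (x0 :: (p2 ++ [yl])) e.1 = yl := by
      rw [← List.cons_append]; exact getLast?_getD_append _ _ _
    have huy : u = yl := by
      rw [← List.cons_append, List.getLast?_append_cons] at hu
      simpa using hu.symm
    have hyy : yy (x0 :: (p2 ++ [yl])) e = x0 := by
      unfold yy; rw [if_pos hpp]; rfl
    unfold NN YY
    rw [if_pos hpp, if_pos hpp, hlt, hyy]
    subst huy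
    rcases par (u0 :: q1) with hqq | hqq
    · have hq1 : q1 ≠ [] := by rintro rfl; simp at hqq
      obtain ⟨q2, ul, rfl⟩ : ∃ b l, q1 = b ++ [l] :=
        ⟨q1.dropLast, q1.getLast hq1, (List.dropLast_append_getLast hq1).symm⟩
      have hq2 : q2.length % 2 = 0 := by
        simp only [List.length_cons, List.length_append, List.length_nil] at hqq; omega
      exact core_ee W hp2 hq2 hn he he' huv.le
    · have hq2 : q1.length % 2 = 0 := by
        simp only [List.length_cons] at hqq; omega
      exact core_eo W hp2 hq2 hn he he' huv.le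
  · obtain ⟨p2, yl, rfl⟩ : ∃ b l, p = b ++ [l] :=
      ⟨p.dropLast, p.getLast hp, (List.dropLast_append_getLast hp).symm⟩
    have hp2 : p2.length % 2 = 0 := by
      simp only [List.length_append, List.length_cons, List.length_nil] at hpp; omega
    have hqq : (u0 :: q1).length % 2 = 0 := by
      rcases par (u0 :: q1) with h | h
      · exact h
      · exact absurd ⟨hpp, h⟩ hpar
    have hq1 : q1 ≠ [] := by rintro rfl; simp at hqq
    obtain ⟨q2, ul, rfl⟩ : ∃ b l, q1 = b ++ [l] :=
      ⟨q1.dropLast, q1.getLast hq1, (List.dropLast_append_getLast hq1).symm⟩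
    have hq2 : q2.length % 2 = 0 := by
      simp only [List.length_cons, List.length_append, List.length_nil] at hqq; omega
    have hlt : lt (p2 ++ [yl]) e.1 = yl := getLast?_getD_append _ _ _
    have huy : u = yl := by
      rw [List.getLast?_append_cons] at hu
      simpa using hu.symm
    have hyy : yy (p2 ++ [yl]) e = e.1 := by
      unfold yy; rw [if_neg (by omega)]
    unfold NN YY
    rw [if_neg (by omega), if_neg (by omega), hlt, hyy]
    subst huy
    exact core_oe W hp2 hq2 hn he he' huv.le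

theorem S_odd {p q : List V} (e : V × (V → V)) (hp : p.length % 2 = 1)
    (hq : q.length % 2 = 1) : S1 p q e = S2 p q e := by
  have evp : ev p = false := by simp only [ev, hp]; rfl
  have evq : ev q = false := by simp only [ev, hq]; rfl
  unfold S1 S2
  rw [evp, evq]

end TS

open TS

theorem stTS : StTS V := by
  classical
  intro W f
  rw [sum_paths]
  set S := ((paths2 V).sigma (fun a => envs a.1 ×ˢ envs a.1)).filter
    (fun x => ¬ ((W.spl x.1.1).1.length % 2 = 1 ∧ (W.spl x.1.1).2.length % 2 = 1)) with hS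
  have h0 : ∑ x ∈ (paths2 V).sigma (fun a => envs a.1 ×ˢ envs a.1), W.Wc x.1.1 x.2.1 x.2.2 *
      (f (S1 (W.spl x.1.1).1 (W.spl x.1.1).2 x.2.1) -
        f (S2 (W.spl x.1.1).1 (W.spl x.1.1).2 x.2.1)) ^ 2 =
      ∑ x ∈ S, W.Wc x.1.1 x.2.1 x.2.2 *
      (f (S1 (W.spl x.1.1).1 (W.spl x.1.1).2 x.2.1) -
        f (S2 (W.spl x.1.1).1 (W.spl x.1.1).2 x.2.1)) ^ 2 := by
    rw [hS, Finset.sum_filter_of_ne]
    intro x _ hne hpar
    apply hne
    rw [S_odd _ hpar.1 hpar.2, sub_self]
    simp
  rw [h0]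
  have key := transfer (κ := V × Fin (Fintype.card V + 1) × Bool) S
    (pms V ×ˢ pms V ×ˢ (univ : Finset V) ×ˢ (univ : Finset V))
    (fun x => (NN (W.spl x.1.1).1 (W.spl x.1.1).2 x.2.1,
      YY (W.spl x.1.1).1 (W.spl x.1.1).2 x.2.2, lt (W.spl x.1.1).1 x.2.1.1,
      yy (W.spl x.1.1).1 x.2.1))
    (fun x => (hd x.1.1 x.2.1.1, ⟨x.1.1.length, Nat.lt_succ_of_le x.1.2.length_le_card⟩,
      ev (W.spl x.1.1).1))
    (fun x => W.Wc x.1.1 x.2.1 x.2.2 *
      (f (S1 (W.spl x.1.1).1 (W.spl x.1.1).2 x.2.1) -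
        f (S2 (W.spl x.1.1).1 (W.spl x.1.1).2 x.2.1)) ^ 2)
    (fun z => W.wt z.2.1 * (if z.2.2.1 ≠ z.2.2.2 ∧ z.1 z.2.2.1 ≠ z.2.2.2 then
      min (W.wt z.1) (W.wt (sw z.1 z.2.2.1 z.2.2.2)) *
        (f (sw z.1 z.2.2.1 z.2.2.2) - f z.1) ^ 2 else 0))
    ((1 / W.ε) ^ 3) (by have := W.ε_pos; (clear * - this; positivity)) ?_ ?_ ?_ ?_
  · refine key.trans ?_
    have hsum : ∑ z ∈ pms V ×ˢ pms V ×ˢ (univ : Finset V) ×ˢ (univ : Finset V),
        W.wt z.2.1 * (if z.2.2.1 ≠ z.2.2.2 ∧ z.1 z.2.2.1 ≠ z.2.2.2 then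
          min (W.wt z.1) (W.wt (sw z.1 z.2.2.1 z.2.2.2)) *
            (f (sw z.1 z.2.2.1 z.2.2.2) - f z.1) ^ 2 else 0) = W.Z * W.Eloc f := by
      simp only [Finset.sum_product]
      unfold Sim.Z Sim.Eloc
      rw [Finset.sum_mul_sum, Finset.sum_comm]
      refine Finset.sum_congr rfl fun Y _ => Finset.sum_congr rfl fun N _ => ?_
      rw [Finset.mul_sum]
      refine Finset.sum_congr rfl fun x _ => ?_
      rw [Finset.mul_sum]
    rw [hsum]
    have hZE : 0 ≤ W.Z * W.Eloc f := by
      refine mul_nonneg (Finset.sum_nonneg fun g _ => (W.wt_pos g).le) ?_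
      unfold Sim.Eloc
      refine sum_nonneg fun N _ => sum_nonneg fun x _ => sum_nonneg fun y _ => ?_
      split_ifs
      · exact mul_nonneg (le_min (W.wt_pos _).le (W.wt_pos _).le) (sq_nonneg _)
      · exact le_rfl
    refine mul_le_mul_of_nonneg_right ?_ hZE
    refine mul_le_mul_of_nonneg_right ?_ (by have := W.ε_pos; (clear * - this; positivity))
    rw [Fintype.card_prod, Fintype.card_prod, Fintype.card_fin, Fintype.card_bool]
    have h3 : Fintype.card V * ((Fintype.card V + 1) * 2) ≤ (Fintype.card V + 2) ^ 8 := by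
      calc Fintype.card V * ((Fintype.card V + 1) * 2) ≤
          (Fintype.card V + 2) * ((Fintype.card V + 2) * (Fintype.card V + 2)) := by
            gcongr <;> omega
        _ = (Fintype.card V + 2) ^ 3 := by ring
        _ ≤ (Fintype.card V + 2) ^ 8 := Nat.pow_le_pow_right (by omega) (by omega)
    exact_mod_cast h3
  · rintro ⟨⟨a, ha⟩, e, e'⟩ hx
    simp only [hS, Finset.mem_filter, Finset.mem_sigma, Finset.mem_product, mem_envs,
      Finset.mem_univ, true_and, paths2] at hx
    obtain ⟨⟨h2, he, he'⟩, hpar⟩ := hx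
    have hne : a ≠ [] := by rintro rfl; simp at h2
    have hn := W.spl_nodup ha
    have hp := W.spl_fst_ne hne
    have hq := W.spl_snd_ne h2
    have hc := W.spl_edge h2
    rw [← W.spl_append a] at he he'
    have hcore := core_all W hn hp hq he he' (by rw [W.spl_append]; exact hc) hpar
    simp only [Finset.mem_product, Finset.mem_univ, and_true, mem_pms]
    exact ⟨hcore.hN, hcore.hY⟩
  · rintro ⟨⟨a, ha⟩, e, e'⟩ hx ⟨⟨b, hb⟩, u, u'⟩ hy hΦ hm
    simp only [hS, Finset.mem_filter, Finset.mem_sigma, Finset.mem_product, mem_envs,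
      Finset.mem_univ, true_and, paths2] at hx hy
    obtain ⟨⟨h2, he, he'⟩, _⟩ := hx
    obtain ⟨⟨h2', hu, hu'⟩, _⟩ := hy
    simp only [Prod.mk.injEq, Fin.mk.injEq] at hm hΦ
    obtain ⟨m1, m2, m3⟩ := hm
    obtain ⟨h3, h4, _, _⟩ := hΦ
    unfold NN at h3
    unfold YY at h4
    rw [W.spl_append, W.spl_append] at h3 h4
    obtain ⟨x, t, rfl⟩ := List.exists_cons_of_ne_nil (l := a) (by rintro rfl; simp at h2)
    obtain ⟨x', t', rfl⟩ := List.exists_cons_of_ne_nil (l := b) (by rintro rfl; simp at h2')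
    have hxx : x = x' := m1
    subst hxx
    have hev : (W.spl (x :: t)).1.length % 2 = 0 ↔ (W.spl (x :: t')).1.length % 2 = 0 := by
      unfold ev at m3
      rw [Bool.eq_iff_iff, beq_iff_eq, beq_iff_eq] at m3
      exact m3
    by_cases hpe : (W.spl (x :: t)).1.length % 2 = 0
    · rw [if_pos hpe, if_pos (hev.1 hpe)] at h3 h4
      have k1 := dec_a ha e'.1 e.1 e'.2 e.2
      have k2 := dec_a hb u'.1 u.1 u'.2 u.2
      rw [← h3, ← h4, ← m2, k1] at k2
      obtain rfl : t = t' := (List.cons.inj k2).2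
      have k3 := inj_M0 ha he hu h3
      have k4 := inj_M1 ha he' hu' h4
      subst k3 k4
      rfl
    · rw [if_neg hpe, if_neg (fun h => hpe (hev.2 h))] at h3 h4
      have k1 := dec_a ha e.1 e'.1 e.2 e'.2
      have k2 := dec_a hb u.1 u'.1 u.2 u'.2
      rw [← h3, ← h4, ← m2, k1] at k2
      obtain rfl : t = t' := (List.cons.inj k2).2
      have k3 := inj_M1 ha he hu h3
      have k4 := inj_M0 ha he' hu' h4
      subst k3 k4
      rfl
  · rintro ⟨⟨a, ha⟩, e, e'⟩ hx
    simp only [hS, Finset.mem_filter, Finset.mem_sigma, Finset.mem_product, mem_envs,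
      Finset.mem_univ, true_and, paths2] at hx
    obtain ⟨⟨h2, he, he'⟩, hpar⟩ := hx
    have hne : a ≠ [] := by rintro rfl; simp at h2
    have hn := W.spl_nodup ha
    have hp := W.spl_fst_ne hne
    have hq := W.spl_snd_ne h2
    have hc := W.spl_edge h2
    have ea := W.spl_append a
    have hcore := core_all W hn hp hq (by rw [ea]; exact he) (by rw [ea]; exact he')
      (by rw [ea]; exact hc) hpar
    have hwt := hcore.wt
    rw [ea] at hwt
    show W.Wc a e e' * _ ≤ (1 / W.ε) ^ 3 * (W.wt (YY _ _ e') * (if _ then _ else 0))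
    rw [if_pos ⟨hcore.hxy, hcore.hNx⟩]
    have hf : (f (S1 (W.spl a).1 (W.spl a).2 e) - f (S2 (W.spl a).1 (W.spl a).2 e)) ^ 2 =
        (f (sw (NN (W.spl a).1 (W.spl a).2 e) (lt (W.spl a).1 e.1) (yy (W.spl a).1 e)) -
          f (NN (W.spl a).1 (W.spl a).2 e)) ^ 2 := by
      rcases hcore.sws with ⟨h3, h4⟩ | ⟨h3, h4⟩
      · rw [h3, h4]; ring
      · rw [h3, h4]
    rw [hf]
    calc W.Wc a e e' * _ ≤ ((1 / W.ε) ^ 3 * (min (W.wt (NN (W.spl a).1 (W.spl a).2 e))
          (W.wt (sw (NN (W.spl a).1 (W.spl a).2 e) (lt (W.spl a).1 e.1) (yy (W.spl a).1 e))) *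
            W.wt (YY (W.spl a).1 (W.spl a).2 e'))) * _ :=
          mul_le_mul_of_nonneg_right hwt (sq_nonneg _)
      _ = _ := by ring
  · rintro ⟨N, Y, x, y⟩ _
    refine mul_nonneg (W.wt_pos _).le ?_
    split_ifs
    · exact mul_nonneg (le_min (W.wt_pos _).le (W.wt_pos _).le) (sq_nonneg _)
    · exact le_rfl

end Vale.Agent.P308.Lin
end

section

/-! # Step (B): the variances of the effects of paths are exchange energies -/

set_option linter.unusedSectionVars false

namespace Vale.Agent.P308.Lin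

open Finset

variable {V : Type*} [Fintype V] [DecidableEq V]

/-- weighted variance as a double sum -/
theorem var_double {ι : Type*} (s : Finset ι) (w D : ι → ℝ) (hw : ∀ i ∈ s, 0 < w i) :
    (∑ i ∈ s, w i) * ∑ i ∈ s, w i * (D i - (∑ j ∈ s, w j * D j) / ∑ j ∈ s, w j) ^ 2 =
      (1 / 2) * ∑ i ∈ s, ∑ j ∈ s, w i * w j * (D i - D j) ^ 2 := by
  rcases s.eq_empty_or_nonempty with rfl | hs
  · simp only [sum_empty, div_zero, sub_zero, mul_zero, one_div, sum_const_zero]
  have hZ : 0 < ∑ i ∈ s, w i := Finset.sum_pos hw hs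
  obtain ⟨Z, hZe⟩ : ∃ Z, Z = ∑ i ∈ s, w i := ⟨_, rfl⟩
  obtain ⟨A, hAe⟩ : ∃ A, A = ∑ i ∈ s, w i * D i := ⟨_, rfl⟩
  obtain ⟨B, hBe⟩ : ∃ B, B = ∑ i ∈ s, w i * D i ^ 2 := ⟨_, rfl⟩
  rw [← hZe] at hZ
  rw [← hZe, ← hAe]
  have h1 : ∑ i ∈ s, w i * (D i - A / Z) ^ 2 = B - 2 * (A / Z) * A + (A / Z) ^ 2 * Z := by
    have : ∀ i, w i * (D i - A / Z) ^ 2 =
        w i * D i ^ 2 - 2 * (A / Z) * (w i * D i) + (A / Z) ^ 2 * w i := fun i => by ring
    simp_rw [this]
    rw [Finset.sum_add_distrib, Finset.sum_sub_distrib, ← Finset.mul_sum, ← Finset.mul_sum,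
      ← hZe, ← hAe, ← hBe]
  have h2 : ∑ i ∈ s, ∑ j ∈ s, w i * w j * (D i - D j) ^ 2 = 2 * (Z * B - A ^ 2) := by
    have : ∀ i j, w i * w j * (D i - D j) ^ 2 =
        w i * D i ^ 2 * w j - 2 * (w i * D i) * (w j * D j) + w i * (w j * D j ^ 2) :=
      fun i j => by ring
    simp_rw [this]
    simp_rw [Finset.sum_add_distrib, Finset.sum_sub_distrib, ← Finset.mul_sum, ← Finset.sum_mul]
    rw [← hZe, ← hAe, ← hBe]
    have h3 : ∑ i ∈ s, 2 * (w i * D i) = 2 * A := by rw [← Finset.mul_sum, ← hAe]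
    rw [h3]
    ring
  rw [h1, h2]
  field_simp
  ring

theorem Sim.omB_pos (W : Sim V) (a : List V) (e : V × (V → V)) : 0 < W.om a e := by
  unfold Sim.om
  refine mul_pos ?_ (W.wt_pos _)
  split_ifs
  · exact Real.sqrt_pos.2 (W.cm_pos _)
  · exact W.cm_pos _

/-- the variance of a path is a double sum -/
theorem Sim.RV_eq (W : Sim V) (f : (V → V) → ℝ) (a : List V) :
    W.RV f a = (1 / 2) * ∑ e ∈ envs a, ∑ e' ∈ envs a, W.Wc a e e' * (Dl f a e - Dl f a e') ^ 2 := by
  have h := var_double (envs a) (W.om a) (Dl f a) fun e _ => W.omB_pos a e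
  unfold Sim.RV Sim.g Sim.Wc
  unfold Sim.Zh
  rw [mul_assoc, h]
  simp_rw [Finset.mul_sum]
  refine Finset.sum_congr rfl fun e _ => Finset.sum_congr rfl fun e' _ => ?_
  ring

theorem pL_pair {l : List V} (he : l.length % 2 = 0) {y s : V} (hd : (l ++ [y, s]).Nodup) :
    pL (l ++ [y, s]) s = y ∧ pL (l ++ [y, s]) y = s := by
  have hd' := hd
  rw [List.nodup_append] at hd'
  obtain ⟨-, h2, h3⟩ := hd'
  have hys : y ≠ s := by simpa using h2
  have hs : s ∉ l := fun h => h3 s h s (by simp) rfl
  have hy : y ∉ l := fun h => h3 y h y (by simp) rfl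
  constructor
  · rw [pL_append_even he hd, if_neg hs, pL_cons2, if_neg (Ne.symm hys), if_pos rfl]
  · rw [pL_append_even he hd, if_neg hy, pL_cons2, if_pos rfl]

theorem Sim.pr_pair (W : Sim V) {l : List V} (he : l.length % 2 = 0) (y s : V) :
    W.pr (l ++ [y, s]) = W.pr l * W.lam y s := by
  rw [W.pr_append_even he]
  show _ * (W.lam y s * 1) = _
  rw [mul_one]

theorem Sim.pr_one (W : Sim V) {l : List V} (he : l.length % 2 = 0) (y : V) :
    W.pr (l ++ [y]) = W.pr l := by
  rw [W.pr_append_even he]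
  show _ * 1 = _
  rw [mul_one]

theorem M1_pms {b : List V} (hb : b.Nodup) (he : b.length % 2 = 0) {E : V → V}
    (hi : ∀ v, E (E v) = v) (hE : ∀ v, E v = v ↔ v ∈ b) : M1 b E ∈ pms V := by
  rw [mem_pms]
  refine ⟨M1_invol hb (fun v hv => (hE v).2 hv) hi, fun v h => ?_⟩
  rw [M1_fix_even hb he, hE] at h
  exact h.2 h.1

theorem M0_pms {b : List V} (hb : b.Nodup) (he : b.length % 2 = 0) {E : V → V}
    (hi : ∀ v, E (E v) = v) (hE : ∀ v, E v = v ↔ v ∈ b) : M0 b E ∈ pms V := by
  rw [M0_eq]
  exact M1_pms (List.nodup_rotate.2 hb) (by rw [List.length_rotate]; exact he) hi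
    fun v => by rw [List.mem_rotate]; exact hE v

theorem M0_mem {b : List V} {E : V → V} {v : V} (h : v ∈ b) : M0 b E v = pL (b.rotate 1) v := by
  simp [M0, un, h]

theorem M0_notMem {b : List V} {E : V → V} {v : V} (h : v ∉ b) : M0 b E v = E v := by
  simp [M0, un, h]

theorem M0_inj {b : List V} {E E' : V → V} (hE : ∀ v ∈ b, E v = v) (hE' : ∀ v ∈ b, E' v = v)
    (h : M0 b E = M0 b E') : E = E' := by
  funext v
  by_cases hv : v ∈ b
  · rw [hE v hv, hE' v hv]
  · have := congrFun h v
    rwa [M0_notMem hv, M0_notMem hv] at this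

theorem Sim.wt_M0 (W : Sim V) {b : List V} (hb : b.Nodup) {E : V → V} (hE : ∀ v ∈ b, E v = v) :
    W.wt (M0 b E) = W.pr (b.rotate 1) * W.wt E := by
  rw [M0_eq]
  exact W.wt_M1 (List.nodup_rotate.2 hb) fun v hv => hE v (List.mem_rotate.1 hv)

/-! ### Even paths -/

section even

variable {a : List V} {e e' : V × (V → V)}

/-- the facts on even paths -/
structure EvF (a : List V) (e e' : V × (V → V)) : Prop where
  n1 : M1 a e.2 ∈ pms V
  n2 : M0 a e'.2 ∈ pms V
  orb : Lin.orb (M1 a e.2) (M0 a e'.2) e.1 a.length = a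
  last : a.getLast? = some (M0 a e'.2 e.1)
  pos : 0 < a.length

theorem evF (ha : a.Nodup) (hev : a.length % 2 = 0) (he : e ∈ envs a) (he' : e' ∈ envs a) :
    EvF a e e' := by
  rw [mem_envs] at he he'
  obtain ⟨hi, h⟩ := he
  obtain ⟨hi', h'⟩ := he'
  rcases h with ⟨-, hh, hE⟩ | ⟨h, -⟩
  swap
  · omega
  rcases h' with ⟨-, hh', hE'⟩ | ⟨h', -⟩
  swap
  · omega
  obtain ⟨l, hl⟩ : ∃ l, a = e.1 :: l := by
    cases a with
    | nil => simp at hh
    | cons x l => simp at hh; exact ⟨l, by rw [hh]⟩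
  have hlne : l ≠ [] := by
    rintro rfl
    rw [hl] at hev
    simp at hev
  obtain ⟨l', z, hl'⟩ : ∃ l' z, l = l' ++ [z] :=
    ⟨l.dropLast, l.getLast hlne, (List.dropLast_append_getLast hlne).symm⟩
  have hrot : a.rotate 1 = l' ++ [z, e.1] := by
    rw [hl, hl', List.rotate_cons_succ, List.rotate_zero]
    simp
  have hev' : l'.length % 2 = 0 := by
    rw [hl, hl'] at hev
    simp at hev
    omega
  have hr : (l' ++ [z, e.1]).Nodup := by rw [← hrot]; exact List.nodup_rotate.2 ha
  refine ⟨M1_pms ha hev hi hE, M0_pms ha hev hi' hE', ?_, ?_, ?_⟩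
  · have halt : Alt (M1 a e.2) (M0 a e'.2) (e.1 :: l) := by
      rw [← hl]
      refine alt_of ha (fun v hv _ => M1_mem hv) fun v hv hne => ?_
      have hv' : v ∈ l := by rw [hl] at hv; exact hv
      rw [hl, List.tail_cons] at hne ⊢
      rw [← hl, M0_mem (by rw [hl]; exact List.mem_cons_of_mem _ hv'), hl,
        List.rotate_cons_succ, List.rotate_zero]
      exact pL_append_left hv' hne
    have h1 := orb_of_alt halt
    rw [← hl] at h1
    have h2 : a.length = l.length + 1 := by
      conv_lhs => rw [hl]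
      rfl
    rw [h2]
    exact h1
  · rw [M0_mem (by rw [hl]; exact List.mem_cons_self), hrot, (pL_pair hev' hr).1, hl, hl']
    rw [← List.cons_append, List.getLast?_append]
    simp
  · rw [hl]; simp only [List.length_cons, lt_add_iff_pos_left, Order.lt_add_one_iff, zero_le]

theorem un_even (a : List V) (E E' : V → V) :
    un (M0 a E') a (M1 a E) = M0 a E ∧ un (M1 a E) a (M0 a E') = M1 a E' := by
  constructor
  · funext v
    by_cases hv : v ∈ a
    · simp [un, hv, M0]
    · simp [un, hv, M0, M1]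
  · funext v
    by_cases hv : v ∈ a
    · simp [un, hv, M1]
    · simp [un, hv, M0, M1]

/-- the weights for even paths -/
theorem Sim.even_wt (W : Sim V) (ha : a.Nodup) (hev : a.length % 2 = 0) (he : e ∈ envs a)
    (he' : e' ∈ envs a) :
    W.Wc a e e' ≤ 1 / W.ε * (W.wt (M1 a e.2) * W.wt (M0 a e'.2)) := by
  rw [mem_envs] at he he'
  obtain ⟨hi, h⟩ := he
  obtain ⟨hi', h'⟩ := he'
  rcases h with ⟨-, hh, hE⟩ | ⟨h, -⟩
  swap
  · omega
  rcases h' with ⟨-, hh', hE'⟩ | ⟨h', -⟩
  swap
  · omega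
  obtain ⟨l, hl⟩ : ∃ l, a = e.1 :: l := by
    cases a with
    | nil => simp at hh
    | cons x l => simp at hh; exact ⟨l, by rw [hh]⟩
  have hlne : l ≠ [] := by
    rintro rfl
    rw [hl] at hev
    simp at hev
  obtain ⟨l', z, hl'⟩ : ∃ l' z, l = l' ++ [z] :=
    ⟨l.dropLast, l.getLast hlne, (List.dropLast_append_getLast hlne).symm⟩
  have hrot : a.rotate 1 = l' ++ [z, e.1] := by
    rw [hl, hl', List.rotate_cons_succ, List.rotate_zero]
    simp
  have hev' : l'.length % 2 = 0 := by
    rw [hl, hl'] at hev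
    simp at hev
    omega
  have hr : (l' ++ [z, e.1]).Nodup := by rw [← hrot]; exact List.nodup_rotate.2 ha
  have hze : z ≠ e.1 := by
    rw [List.nodup_append] at hr
    simpa using hr.2.1
  have hza : z ∈ a := by rw [hl, hl']; simp
  have hea : e.1 ∈ a := by rw [hl]; simp
  have h1 : W.wt (M1 a e.2) = W.pr a * W.wt e.2 := W.wt_M1 ha fun v hv => (hE v).2 hv
  have h2 : W.wt (M0 a e'.2) = W.pr (a.rotate 1) * W.wt e'.2 := W.wt_M0 ha fun v hv => (hE' v).2 hv
  have h3 : W.pr (a.rotate 1) = W.pr a.tail * W.lam z e.1 := by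
    rw [hrot, W.pr_pair hev', hl, List.tail_cons, hl', W.pr_one hev']
  have h4 : W.ε * W.cm a ≤ W.lam z e.1 :=
    (mul_le_mul_of_nonneg_left (W.cm_le hza hea) W.ε_pos.le).trans (W.le_lam hze)
  have h5 : W.Wc a e e' = W.pw a * (W.cm a * (W.wt e.2 * W.wt e'.2)) := by
    unfold Sim.Wc Sim.om
    rw [if_pos hev, if_pos hev]
    have := Real.mul_self_sqrt (W.cm_pos a).le
    calc W.pw a * (Real.sqrt (W.cm a) * W.wt e.2 * (Real.sqrt (W.cm a) * W.wt e'.2))
        = W.pw a * ((Real.sqrt (W.cm a) * Real.sqrt (W.cm a)) * (W.wt e.2 * W.wt e'.2)) := by ring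
      _ = _ := by rw [this]
  have hp := W.pw_pos a
  have hw1 := W.wt_pos e.2
  have hw2 := W.wt_pos e'.2
  have h6 : W.cm a ≤ 1 / W.ε * W.lam z e.1 := by
    rw [one_div, ← div_eq_inv_mul, le_div_iff₀ W.ε_pos]
    linarith only [h4]
  rw [h5, h1, h2, h3]
  calc W.pw a * (W.cm a * (W.wt e.2 * W.wt e'.2))
      ≤ W.pw a * (1 / W.ε * W.lam z e.1 * (W.wt e.2 * W.wt e'.2)) := by (clear * - h6 hw1 hw2 hp; gcongr)
    _ = 1 / W.ε * ((W.pr a * W.pr a.tail) * (W.lam z e.1 * (W.wt e.2 * W.wt e'.2))) := by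
        rw [W.pr_mul_tail]; ring
    _ = _ := by ring

end even

/-! ### Odd paths -/

section odd

variable {a : List V} {e e' : V × (V → V)}

/-- the facts on one environment of an odd path -/
structure OdE (a : List V) (e : V × (V → V)) : Prop where
  nd : (a ++ [e.1]).Nodup
  ev : (a ++ [e.1]).length % 2 = 0
  fix : ∀ v, e.2 v = v ↔ v ∈ a ++ [e.1]
  inv : ∀ v, e.2 (e.2 v) = v

theorem odE (ha : a.Nodup) (hod : a.length % 2 = 1) (he : e ∈ envs a) : OdE a e := by
  rw [mem_envs] at he
  obtain ⟨hi, h⟩ := he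
  rcases h with ⟨h, -⟩ | ⟨-, hn, hE⟩
  · (clear * - hod h; omega)
  refine ⟨?_, ?_, ?_, hi⟩
  · rw [List.nodup_append]
    refine ⟨ha, by simp, fun x hx y hy => ?_⟩
    simp at hy
    rintro rfl
    exact hn (hy ▸ hx)
  · simp; omega
  · intro v
    rw [hE v]
    simp

/-- decomposition of an odd list -/
theorem odd_decomp (hod : a.length % 2 = 1) :
    ∃ x l l' y, a = x :: l ∧ a = l' ++ [y] ∧ l.length % 2 = 0 ∧ l'.length % 2 = 0 := by
  have hne : a ≠ [] := by
    rintro rfl
    simp at hod
  obtain ⟨x, l, hl⟩ := List.exists_cons_of_ne_nil hne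
  refine ⟨x, l, a.dropLast, a.getLast hne, hl, (List.dropLast_append_getLast hne).symm, ?_, ?_⟩
  · rw [hl] at hod; simp at hod; omega
  · rw [List.length_dropLast]; (clear * - hod; omega)

/-- the facts on odd paths -/
structure OdF (a : List V) (e e' : V × (V → V)) (x : V) : Prop where
  orb : Lin.orb (M1 (a ++ [e.1]) e.2) (M0 (a ++ [e'.1]) e'.2) x a.length = a
  last : a.getLast? = some (M1 (a ++ [e.1]) e.2 e.1)
  fst : M0 (a ++ [e'.1]) e'.2 x = e'.1

theorem odF (ha : a.Nodup) (hod : a.length % 2 = 1) (he : e ∈ envs a) (he' : e' ∈ envs a)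
    {x : V} (hx : a.head? = some x) : OdF a e e' x := by
  obtain ⟨x', l, l', y, hl, hl', hev, hev'⟩ := odd_decomp hod
  have hxx : x' = x := by rw [hl] at hx; simpa using hx
  subst hxx
  have h1 := odE ha hod he
  have h2 := odE ha hod he'
  have e1 : a ++ [e.1] = l' ++ [y, e.1] := by rw [hl']; simp
  have e2 : (a ++ [e'.1]).rotate 1 = l ++ [e'.1, x'] := by
    rw [hl, List.cons_append, List.rotate_cons_succ, List.rotate_zero]
    simp
  have hr1 : (l' ++ [y, e.1]).Nodup := by rw [← e1]; exact h1.nd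
  have hr2 : (l ++ [e'.1, x']).Nodup := by rw [← e2]; exact List.nodup_rotate.2 h2.nd
  have hxa : x' ∈ a := by rw [hl]; simp
  refine ⟨?_, ?_, ?_⟩
  · have halt : Alt (M1 (a ++ [e.1]) e.2) (M0 (a ++ [e'.1]) e'.2) (x' :: l) := by
      rw [← hl]
      refine alt_of ha (fun v hv hne => ?_) fun v hv hne => ?_
      · rw [M1_mem (List.mem_append_left _ hv)]
        exact pL_append_left hv hne
      · have hv' : v ∈ l := by rw [hl] at hv; exact hv
        have hva : v ∈ a := by rw [hl]; exact List.mem_cons_of_mem _ hv'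
        have hne' : pL l v ≠ v := by rw [hl, List.tail_cons] at hne; exact hne
        rw [M0_mem (List.mem_append_left _ hva), e2, pL_append_left hv' hne']
        conv_rhs => rw [hl]
        rfl
    have h3 := orb_of_alt halt
    rw [← hl] at h3
    have h4 : a.length = l.length + 1 := by
      conv_lhs => rw [hl]
      rfl
    rw [h4]
    exact h3
  · rw [M1_mem (by simp), e1, (pL_pair hev' hr1).1, hl', List.getLast?_append]
    simp
  · rw [M0_mem (List.mem_append_left _ hxa), e2, (pL_pair hev hr2).1]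

theorem M_absorb (b : List V) (E : V → V) (b' : List V) :
    M0 b (M1 b E) = M0 b E ∧ M1 b' (M0 b' E) = M1 b' E := by
  constructor
  · funext v
    by_cases hv : v ∈ b
    · rw [M0_mem hv, M0_mem hv]
    · rw [M0_notMem hv, M0_notMem hv, M1_notMem hv]
  · funext v
    by_cases hv : v ∈ b'
    · rw [M1_mem hv, M1_mem hv]
    · rw [M1_notMem hv, M1_notMem hv, M0_notMem hv]

/-- the weights for odd paths -/
theorem Sim.odd_wt (W : Sim V) (ha : a.Nodup) (hod : a.length % 2 = 1) (he : e ∈ envs a)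
    (he' : e' ∈ envs a) :
    W.Wc a e e' ≤ (1 / W.ε) ^ 2 *
      (W.wt (M1 (a ++ [e.1]) e.2) * W.wt (M0 (a ++ [e'.1]) e'.2)) := by
  obtain ⟨x, l, l', y, hl, hl', hev, hev'⟩ := odd_decomp hod
  have h1 := odE ha hod he
  have h2 := odE ha hod he'
  have e1 : a ++ [e.1] = l' ++ [y, e.1] := by rw [hl']; simp
  have e2 : (a ++ [e'.1]).rotate 1 = l ++ [e'.1, x] := by
    rw [hl, List.cons_append, List.rotate_cons_succ, List.rotate_zero]
    simp
  have hr1 : (l' ++ [y, e.1]).Nodup := by rw [← e1]; exact h1.nd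
  have hr2 : (l ++ [e'.1, x]).Nodup := by rw [← e2]; exact List.nodup_rotate.2 h2.nd
  have hye : y ≠ e.1 := by
    rw [List.nodup_append] at hr1
    simpa using hr1.2.1
  have hxe : e'.1 ≠ x := by
    rw [List.nodup_append] at hr2
    simpa using hr2.2.1
  have hya : y ∈ a ++ [e.1] := by rw [hl']; simp
  have hea : e.1 ∈ a ++ [e.1] := by simp
  have hxa : x ∈ a ++ [e'.1] := by rw [hl]; simp
  have hea' : e'.1 ∈ a ++ [e'.1] := by simp
  have w1 : W.wt (M1 (a ++ [e.1]) e.2) = W.pr a * W.lam y e.1 * W.wt e.2 := by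
    rw [W.wt_M1 h1.nd fun v hv => (h1.fix v).2 hv, e1, W.pr_pair hev', hl', W.pr_one hev']
  have w2 : W.wt (M0 (a ++ [e'.1]) e'.2) = W.pr a.tail * W.lam e'.1 x * W.wt e'.2 := by
    rw [W.wt_M0 h2.nd fun v hv => (h2.fix v).2 hv, e2, W.pr_pair hev, hl, List.tail_cons]
  have h6 : W.cm (a ++ [e.1]) ≤ 1 / W.ε * W.lam y e.1 := by
    rw [one_div, ← div_eq_inv_mul, le_div_iff₀ W.ε_pos]
    have := (mul_le_mul_of_nonneg_left (W.cm_le hya hea) W.ε_pos.le).trans (W.le_lam hye)
    linarith only [this]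
  have h7 : W.cm (a ++ [e'.1]) ≤ 1 / W.ε * W.lam e'.1 x := by
    rw [one_div, ← div_eq_inv_mul, le_div_iff₀ W.ε_pos]
    have := (mul_le_mul_of_nonneg_left (W.cm_le hea' hxa) W.ε_pos.le).trans (W.le_lam hxe)
    linarith only [this]
  have hnev : ¬ a.length % 2 = 0 := by omega
  have hp := W.pw_pos a
  have hw1 := W.wt_pos e.2
  have hw2 := W.wt_pos e'.2
  have hc1 := W.cm_pos (a ++ [e.1])
  have hc2 := W.cm_pos (a ++ [e'.1])
  have hl1 := W.lam_pos y e.1
  have hl2 := W.lam_pos e'.1 x
  have hε : 0 < 1 / W.ε := one_div_pos.2 W.ε_pos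
  unfold Sim.Wc Sim.om
  rw [if_neg hnev, if_neg hnev, w1, w2]
  calc W.pw a * (W.cm (a ++ [e.1]) * W.wt e.2 * (W.cm (a ++ [e'.1]) * W.wt e'.2))
      ≤ W.pw a * (1 / W.ε * W.lam y e.1 * W.wt e.2 * (1 / W.ε * W.lam e'.1 x * W.wt e'.2)) := by
        (clear * - h6 hw1 h7 hw2 hc2 hε hl1 hp; gcongr)
    _ = (1 / W.ε) ^ 2 * ((W.pr a * W.pr a.tail) *
          (W.lam y e.1 * W.lam e'.1 x * (W.wt e.2 * W.wt e'.2))) := by
        rw [W.pr_mul_tail]; ring
    _ = _ := by ring

end odd

/-! ### Summation -/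

/-- triples of a path and two environments -/
def trip (V : Type*) [Fintype V] [DecidableEq V] :
    Finset ((_ : NL V) × ((V × (V → V)) × (V × (V → V)))) :=
  (univ : Finset (NL V)).sigma fun a => envs a.1 ×ˢ envs a.1

theorem sum_trip (F : NL V → V × (V → V) → V × (V → V) → ℝ) :
    ∑ a : NL V, ∑ e ∈ envs a.1, ∑ e' ∈ envs a.1, F a e e' =
      ∑ t ∈ trip V, F t.1 t.2.1 t.2.2 := by
  unfold trip
  rw [Finset.sum_sigma]
  refine Finset.sum_congr rfl fun a _ => ?_
  rw [Finset.sum_product]

theorem mem_trip {t : (_ : NL V) × ((V × (V → V)) × (V × (V → V)))} :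
    t ∈ trip V ↔ t.2.1 ∈ envs t.1.1 ∧ t.2.2 ∈ envs t.1.1 := by
  simp only [trip, mem_sigma, mem_univ, mem_product, true_and]

open Classical in
/-- the term of `Ex0` -/
noncomputable def Sim.ex0 (W : Sim V) (f : (V → V) → ℝ) (q : (V → V) × (V → V) × V × ℕ) : ℝ :=
  if (orb q.1 q.2.1 q.2.2.1 q.2.2.2).Nodup ∧ q.2.2.2 % 2 = 0 ∧ 0 < q.2.2.2 ∧
      (orb q.1 q.2.1 q.2.2.1 q.2.2.2).getLast? = some (q.2.1 q.2.2.1) then
    W.wt q.1 * W.wt q.2.1 * (f (un q.2.1 (orb q.1 q.2.1 q.2.2.1 q.2.2.2) q.1) +
      f (un q.1 (orb q.1 q.2.1 q.2.2.1 q.2.2.2) q.2.1) - f q.1 - f q.2.1) ^ 2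
  else 0

/-- the index set of `Ex0` -/
def ix0 (V : Type*) [Fintype V] [DecidableEq V] : Finset ((V → V) × (V → V) × V × ℕ) :=
  pms V ×ˢ pms V ×ˢ univ ×ˢ range (Fintype.card V + 1)

theorem Sim.Ex0_eq (W : Sim V) (f : (V → V) → ℝ) : W.Ex0 f = ∑ q ∈ ix0 V, W.ex0 f q := by
  unfold Sim.Ex0 ix0 Sim.ex0
  rw [Finset.sum_product]
  refine Finset.sum_congr rfl fun N _ => ?_
  rw [Finset.sum_product]
  refine Finset.sum_congr rfl fun Y _ => ?_
  rw [Finset.sum_product]

theorem Sim.ex0_nonneg (W : Sim V) (f : (V → V) → ℝ) (q : (V → V) × (V → V) × V × ℕ) :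
    0 ≤ W.ex0 f q := by
  unfold Sim.ex0
  split_ifs
  · exact mul_nonneg (mul_nonneg (W.wt_pos _).le (W.wt_pos _).le) (sq_nonneg _)
  · exact le_rfl

theorem Dl_even {a : List V} (hev : a.length % 2 = 0) (f : (V → V) → ℝ) (e : V × (V → V)) :
    Dl f a e = f (M0 a e.2) - f (M1 a e.2) := by
  unfold Dl cmp
  rw [if_pos hev]

theorem Dl_odd {a : List V} (hod : a.length % 2 = 1) (f : (V → V) → ℝ) (e : V × (V → V)) :
    Dl f a e = f (M0 (a ++ [e.1]) e.2) - f (M1 (a ++ [e.1]) e.2) := by
  unfold Dl cmp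
  rw [if_neg (by omega)]

theorem card_bound {a : List V} (ha : a.Nodup) : a.length ∈ range (Fintype.card V + 1) := by
  rw [mem_range]
  have := List.Nodup.length_le_card ha
  omega

/-- even paths -/
theorem Sim.sum_even (W : Sim V) (f : (V → V) → ℝ) :
    ∑ t ∈ (trip V).filter (fun t => t.1.1.length % 2 = 0),
      W.Wc t.1.1 t.2.1 t.2.2 * (Dl f t.1.1 t.2.1 - Dl f t.1.1 t.2.2) ^ 2 ≤
      1 / W.ε * W.Ex0 f := by
  classical
  rw [W.Ex0_eq]
  have h := transfer (κ := Unit) ((trip V).filter (fun t => t.1.1.length % 2 = 0)) (ix0 V)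
    (fun t => (M1 t.1.1 t.2.1.2, M0 t.1.1 t.2.2.2, t.2.1.1, t.1.1.length)) (fun _ => ())
    (fun t => W.Wc t.1.1 t.2.1 t.2.2 * (Dl f t.1.1 t.2.1 - Dl f t.1.1 t.2.2) ^ 2)
    (W.ex0 f) (1 / W.ε) (one_div_pos.2 W.ε_pos).le ?_ ?_ ?_ fun q _ => W.ex0_nonneg f q
  · simpa only [one_div, ge_iff_le, Fintype.card_unique, Nat.cast_one, one_mul] using h
  · rintro ⟨⟨a, ha⟩, e, e'⟩ ht
    obtain ⟨ht, hev⟩ := mem_filter.1 ht
    obtain ⟨he, he'⟩ := mem_trip.1 ht
    have F := evF ha hev he he'
    unfold ix0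
    rw [mem_product, mem_product, mem_product]
    exact ⟨F.n1, F.n2, mem_univ _, card_bound ha⟩
  · rintro ⟨⟨a, ha⟩, e, e'⟩ ht ⟨⟨b, hb⟩, g, g'⟩ hs heq -
    obtain ⟨ht, hev⟩ := mem_filter.1 ht
    obtain ⟨he, he'⟩ := mem_trip.1 ht
    obtain ⟨hs, hev'⟩ := mem_filter.1 hs
    obtain ⟨hg, hg'⟩ := mem_trip.1 hs
    have F := evF ha hev he he'
    have G := evF hb hev' hg hg'
    simp only [Prod.mk.injEq] at heq
    obtain ⟨q1, q2, q3, q4⟩ := heq
    have hab : a = b := by rw [← F.orb, ← G.orb, q1, q2, q3, q4]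
    subst hab
    rw [mem_envs] at he he' hg hg'
    have fx : ∀ {e : V × (V → V)}, IsEnv a e → (∀ v ∈ a, e.2 v = v) ∧ a.head? = some e.1 := by
      intro e h
      rcases h.2 with ⟨-, h1, h2⟩ | ⟨h1, -⟩
      · exact ⟨fun v hv => (h2 v).2 hv, h1⟩
      · change a.length % 2 = 0 at hev
        omega
    have e1 : e.2 = g.2 := M1_inj (fx he).1 (fx hg).1 q1
    have e2 : e'.2 = g'.2 := M0_inj (fx he').1 (fx hg').1 q2
    have e3 : e.1 = g.1 := q3
    have e4 : e'.1 = g'.1 := by
      have := (fx he').2.symm.trans (fx hg').2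
      exact Option.some.inj this
    have e5 : e = g := Prod.ext e3 e1
    have e6 : e' = g' := Prod.ext e4 e2
    rw [e5, e6]
  · rintro ⟨⟨a, ha⟩, e, e'⟩ ht
    obtain ⟨ht, hev⟩ := mem_filter.1 ht
    obtain ⟨he, he'⟩ := mem_trip.1 ht
    have F := evF ha hev he he'
    change W.Wc a e e' * (Dl f a e - Dl f a e') ^ 2 ≤
      1 / W.ε * W.ex0 f (M1 a e.2, M0 a e'.2, e.1, a.length)
    have hval : W.ex0 f (M1 a e.2, M0 a e'.2, e.1, a.length) =
        W.wt (M1 a e.2) * W.wt (M0 a e'.2) * (Dl f a e - Dl f a e') ^ 2 := by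
      unfold Sim.ex0
      dsimp only
      rw [F.orb, if_pos ⟨ha, hev, F.pos, F.last⟩, (un_even a e.2 e'.2).1, (un_even a e.2 e'.2).2,
        Dl_even hev, Dl_even hev]
      ring
    rw [hval, ← mul_assoc]
    exact mul_le_mul_of_nonneg_right (W.even_wt ha hev he he') (sq_nonneg _)

open Classical in
/-- the term of `Ex1` -/
noncomputable def Sim.ex1 (W : Sim V) (f : (V → V) → ℝ)
    (q : (V → V) × (V → V) × V × ℕ × V) : ℝ :=
  if (orb q.1 q.2.1 q.2.2.1 q.2.2.2.1 ++ [q.2.2.2.2]).Nodup ∧ q.2.2.2.1 % 2 = 1 ∧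
      (orb q.1 q.2.1 q.2.2.1 q.2.2.2.1).getLast? = some (q.1 q.2.2.2.2) ∧
        q.2.1 q.2.2.1 ∉ orb q.1 q.2.1 q.2.2.1 q.2.2.2.1 then
      min (W.wt q.1 * W.wt q.2.1)
        (W.wt (M0 (orb q.1 q.2.1 q.2.2.1 q.2.2.2.1 ++ [q.2.2.2.2]) q.1) *
          W.wt (M1 (orb q.1 q.2.1 q.2.2.1 q.2.2.2.1 ++ [q.2.1 q.2.2.1]) q.2.1)) *
      (f (M0 (orb q.1 q.2.1 q.2.2.1 q.2.2.2.1 ++ [q.2.2.2.2]) q.1) +
        f (M1 (orb q.1 q.2.1 q.2.2.1 q.2.2.2.1 ++ [q.2.1 q.2.2.1]) q.2.1) - f q.1 - f q.2.1) ^ 2
    else 0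

/-- the index set of `Ex1` -/
def ix1 (V : Type*) [Fintype V] [DecidableEq V] : Finset ((V → V) × (V → V) × V × ℕ × V) :=
  pms V ×ˢ pms V ×ˢ univ ×ˢ range (Fintype.card V + 1) ×ˢ univ

theorem Sim.Ex1_eq (W : Sim V) (f : (V → V) → ℝ) : W.Ex1 f = ∑ q ∈ ix1 V, W.ex1 f q := by
  unfold Sim.Ex1 ix1 Sim.ex1
  rw [Finset.sum_product]
  refine Finset.sum_congr rfl fun N _ => ?_
  rw [Finset.sum_product]
  refine Finset.sum_congr rfl fun Y _ => ?_
  rw [Finset.sum_product]
  refine Finset.sum_congr rfl fun x _ => ?_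
  rw [Finset.sum_product]

theorem Sim.ex1_nonneg (W : Sim V) (f : (V → V) → ℝ) (q : (V → V) × (V → V) × V × ℕ × V) :
    0 ≤ W.ex1 f q := by
  unfold Sim.ex1
  split_ifs
  · exact mul_nonneg (le_min (mul_nonneg (W.wt_pos _).le (W.wt_pos _).le)
      (mul_nonneg (W.wt_pos _).le (W.wt_pos _).le)) (sq_nonneg _)
  · exact le_rfl

/-- odd paths -/
theorem Sim.sum_odd (W : Sim V) (f : (V → V) → ℝ) :
    ∑ t ∈ (trip V).filter (fun t => ¬ t.1.1.length % 2 = 0),
      W.Wc t.1.1 t.2.1 t.2.2 * (Dl f t.1.1 t.2.1 - Dl f t.1.1 t.2.2) ^ 2 ≤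
      (1 / W.ε) ^ 2 * W.Ex1 f := by
  classical
  rw [W.Ex1_eq]
  have h := transfer (κ := Unit) ((trip V).filter (fun t => ¬ t.1.1.length % 2 = 0)) (ix1 V)
    (fun t => (M1 (t.1.1 ++ [t.2.1.1]) t.2.1.2, M0 (t.1.1 ++ [t.2.2.1]) t.2.2.2,
      hd t.1.1 t.2.1.1, t.1.1.length, t.2.1.1)) (fun _ => ())
    (fun t => W.Wc t.1.1 t.2.1 t.2.2 * (Dl f t.1.1 t.2.1 - Dl f t.1.1 t.2.2) ^ 2)
    (W.ex1 f) ((1 / W.ε) ^ 2) (sq_nonneg _) ?_ ?_ ?_ fun q _ => W.ex1_nonneg f q
  · simpa only [Nat.mod_two_not_eq_zero, one_div, inv_pow, ge_iff_le, Fintype.card_unique, Nat.cast_one,     one_mul] using h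
  · rintro ⟨⟨a, ha⟩, e, e'⟩ ht
    obtain ⟨ht, hod⟩ := mem_filter.1 ht
    obtain ⟨he, he'⟩ := mem_trip.1 ht
    have hod' : a.length % 2 = 1 := by
      change ¬ a.length % 2 = 0 at hod
      (clear * - hod; omega)
    have F := odE ha hod' he
    have G := odE ha hod' he'
    unfold ix1
    rw [mem_product, mem_product, mem_product, mem_product]
    exact ⟨M1_pms F.nd F.ev F.inv F.fix, M0_pms G.nd G.ev G.inv G.fix, mem_univ _,
      card_bound ha, mem_univ _⟩
  · rintro ⟨⟨a, ha⟩, e, e'⟩ ht ⟨⟨b, hb⟩, g, g'⟩ hs heq -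
    obtain ⟨ht, hod⟩ := mem_filter.1 ht
    obtain ⟨he, he'⟩ := mem_trip.1 ht
    obtain ⟨hs, hod1⟩ := mem_filter.1 hs
    obtain ⟨hg, hg'⟩ := mem_trip.1 hs
    have hod' : a.length % 2 = 1 := by
      change ¬ a.length % 2 = 0 at hod
      (clear * - hod; omega)
    have hod1' : b.length % 2 = 1 := by
      change ¬ b.length % 2 = 0 at hod1
      (clear * - hod1; omega)
    have hane : a ≠ [] := by
      rintro rfl
      simp at hod'
    have hbne : b ≠ [] := by
      rintro rfl
      simp only [List.length_nil, Nat.zero_mod, zero_ne_one] at hod1'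
    simp only [Prod.mk.injEq] at heq
    obtain ⟨q1, q2, q3, q4, q5⟩ := heq
    have hda : a.head? = some (hd a e.1) := by
      unfold hd
      obtain ⟨x, l, rfl⟩ := List.exists_cons_of_ne_nil hane
      rfl
    have hdb : b.head? = some (hd b g.1) := by
      unfold hd
      obtain ⟨x, l, rfl⟩ := List.exists_cons_of_ne_nil hbne
      rfl
    have F := odF ha hod' he he' hda
    have G := odF hb hod1' hg hg' hdb
    have hab : a = b := by
      rw [← F.orb, ← G.orb]
      rw [q1, q2, q3, q4]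
    subst hab
    have F1 := odE ha hod' he
    have F2 := odE ha hod' he'
    have G1 := odE ha hod' hg
    have G2 := odE ha hod' hg'
    have e3 : e.1 = g.1 := q5
    have e4 : e'.1 = g'.1 := by
      rw [← F.fst, ← G.fst, q3, q2]
    rw [← e3] at q1
    rw [← e4] at q2
    have e1 : e.2 = g.2 := M1_inj (fun v hv => (F1.fix v).2 hv)
      (fun v hv => (G1.fix v).2 (by rw [← e3]; exact hv)) q1
    have e2 : e'.2 = g'.2 := M0_inj (fun v hv => (F2.fix v).2 hv)
      (fun v hv => (G2.fix v).2 (by rw [← e4]; exact hv)) q2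
    have e5 : e = g := Prod.ext e3 e1
    have e6 : e' = g' := Prod.ext e4 e2
    rw [e5, e6]
  · rintro ⟨⟨a, ha⟩, e, e'⟩ ht
    obtain ⟨ht, hod⟩ := mem_filter.1 ht
    obtain ⟨he, he'⟩ := mem_trip.1 ht
    have hod' : a.length % 2 = 1 := by
      change ¬ a.length % 2 = 0 at hod
      omega
    have hane : a ≠ [] := by
      rintro rfl
      simp only [List.length_nil, Nat.zero_mod, zero_ne_one] at hod'
    have hda : a.head? = some (hd a e.1) := by
      unfold hd
      obtain ⟨x, l, rfl⟩ := List.exists_cons_of_ne_nil hane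
      rfl
    have F := odF ha hod' he he' hda
    have F1 := odE ha hod' he
    have F2 := odE ha hod' he'
    change W.Wc a e e' * (Dl f a e - Dl f a e') ^ 2 ≤ (1 / W.ε) ^ 2 *
      W.ex1 f (M1 (a ++ [e.1]) e.2, M0 (a ++ [e'.1]) e'.2, hd a e.1, a.length, e.1)
    have hn : e'.1 ∉ a := by
      have := F2.nd
      rw [List.nodup_append] at this
      intro h
      exact this.2.2 _ h e'.1 (by simp) rfl
    have hval : W.ex1 f (M1 (a ++ [e.1]) e.2, M0 (a ++ [e'.1]) e'.2, hd a e.1, a.length, e.1) =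
        min (W.wt (M1 (a ++ [e.1]) e.2) * W.wt (M0 (a ++ [e'.1]) e'.2))
          (W.wt (M0 (a ++ [e.1]) e.2) * W.wt (M1 (a ++ [e'.1]) e'.2)) *
          (Dl f a e - Dl f a e') ^ 2 := by
      unfold Sim.ex1
      dsimp only
      rw [F.orb, if_pos ⟨F1.nd, hod', F.last, by rw [F.fst]; exact hn⟩, F.fst,
        (M_absorb (a ++ [e.1]) e.2 (a ++ [e'.1])).1, Dl_odd hod', Dl_odd hod']
      have h2 : M1 (a ++ [e'.1]) (M0 (a ++ [e'.1]) e'.2) = M1 (a ++ [e'.1]) e'.2 :=
        (M_absorb (a ++ [e'.1]) e'.2 (a ++ [e'.1])).2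
      rw [h2]
      ring
    rw [hval, ← mul_assoc]
    refine mul_le_mul_of_nonneg_right ?_ (sq_nonneg _)
    rw [mul_min_of_nonneg _ _ (sq_nonneg _)]
    refine le_min (W.odd_wt ha hod' he he') ?_
    have h3 := W.odd_wt ha hod' he' he
    have h4 : W.Wc a e e' = W.Wc a e' e := by unfold Sim.Wc; ring
    rw [h4, mul_comm (W.wt (M0 (a ++ [e.1]) e.2))]
    exact h3

/-- **(B)** -/
theorem st_B : StB V := by
  intro W f
  have h0 : ∑ a : NL V, W.RV f a.1 = (1 / 2) * ∑ t ∈ trip V,
      W.Wc t.1.1 t.2.1 t.2.2 * (Dl f t.1.1 t.2.1 - Dl f t.1.1 t.2.2) ^ 2 := by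
    rw [← sum_trip fun a e e' => W.Wc a.1 e e' * (Dl f a.1 e - Dl f a.1 e') ^ 2, Finset.mul_sum]
    exact Finset.sum_congr rfl fun a _ => W.RV_eq f a.1
  rw [h0, ← Finset.sum_filter_add_sum_filter_not (trip V) fun t => t.1.1.length % 2 = 0]
  have h1 := W.sum_even f
  have h2 := W.sum_odd f
  have hx0 : 0 ≤ W.Ex0 f := by
    rw [W.Ex0_eq]
    exact Finset.sum_nonneg fun q _ => W.ex0_nonneg f q
  have hx1 : 0 ≤ W.Ex1 f := by
    rw [W.Ex1_eq]
    exact Finset.sum_nonneg fun q _ => W.ex1_nonneg f q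
  have hε : 1 ≤ 1 / W.ε := by rw [le_div_iff₀ W.ε_pos, one_mul]; exact W.ε_le
  have h3 : 1 / W.ε * W.Ex0 f ≤ (1 / W.ε) ^ 2 * W.Ex0 f := by
    refine mul_le_mul_of_nonneg_right ?_ hx0
    nlinarith only [hε]
  have h4 : 0 ≤ (1 / W.ε) ^ 2 * W.Ex0 f := mul_nonneg (sq_nonneg _) hx0
  have h5 : 0 ≤ (1 / W.ε) ^ 2 * W.Ex1 f := mul_nonneg (sq_nonneg _) hx1
  rw [mul_add]
  linarith only [h1, h2, h3, h4, h5]

end Vale.Agent.P308.Lin
end

section

end

section

end

section

/-!
# Theorem 1: the linearised spectral gap of perfect matchings with ultrametric weights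
-/

namespace Vale.Agent.P308.Lin

/-- **Theorem 1**: the linearised gap, with numerical exponents. -/
theorem theorem1 (V : Type*) [Fintype V] [DecidableEq V] : Theorem1 V 21 5 :=
  theorem1_of flip_st st_B (stXi_of stT0 stTL stTR stTS st_B) (law_st V)

/-- the gap of the labelled exchange dynamics -/
theorem gap : Poly.Gap 43 :=
  gap_of_theorem1 (A := 21) (B := 5) (by norm_num) (by norm_num) fun n => theorem1 (Fin n)

end Vale.Agent.P308.Lin
end
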