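import Vale.Agent.P308.Bd3.B1
import Vale.Agent.P308.Bd3.B2

set_option linter.all false

section

/-!
# P308: numerical facts for the final theorem
-/

set_option linter.all false

namespace Vale.Agent.P308.Alg

open Vale.Agent.Lib.PolyTime Finset

theorem root_pow {d : ℕ} (hd : 0 < d) (q : ℕ) : root d (q ^ d) = q := by
  unfold root
  have h1 : ((List.range (q ^ d)).filter fun p => decide ((p + 1) ^ d ≤ q ^ d)).length =
      ((Finset.range (q ^ d)).filter fun p => (p + 1) ^ d ≤ q ^ d).card := rfl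
  rw [h1]
  have h2 : ((Finset.range (q ^ d)).filter fun p => (p + 1) ^ d ≤ q ^ d) = Finset.range q := by
    ext p
    simp only [Finset.mem_filter, Finset.mem_range]
    rw [Nat.pow_le_pow_iff_left hd.ne']
    constructor
    · rintro ⟨-, h⟩
      omega
    · intro h
      refine ⟨?_, h⟩
      calc p < q := h
        _ ≤ q ^ d := Nat.le_self_pow hd.ne' q
  rw [h2, Finset.card_range]

theorem ent_schM (R : List Raw) (W j : ℕ) {x y : ℕ} (hx : x < R.length) (hy : y < R.length) :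
    ent (schM R W j) x y = sch R R.length W j x y := ent_mk _ hx hy

theorem Zs_eq (R : List Raw) (n W j : ℕ) (h : R.length = n) :
    Zs R W j = Zf (fun x y : Fin n => (ent (schM R W j) x y : ℤ)) := by
  subst h
  rfl

theorem sch_zero (R : List Raw) (n W x y : ℕ) : sch R n W 0 x y = 0 := by
  unfold sch
  split_ifs
  · rfl
  · simp only [zero_tsub, zero_le, inf_of_le_right]

theorem sch_final (R : List Raw) (n W x y : ℕ) (hx : x < n) (hy : y < n) :
    sch R n W (n * (n * W)) x y = if adj R x y = true then 0 else W := by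
  unfold sch
  split_ifs
  · rfl
  · apply min_eq_left
    have h1 : n * min x y + max x y + 1 ≤ n * n := by
      have h2 : min x y ≤ n - 1 := by omega
      have h3 : max x y ≤ n - 1 := by omega
      calc n * min x y + max x y + 1 ≤ n * (n - 1) + (n - 1) + 1 := by gcongr
        _ = n * n := by
          obtain ⟨m, rfl⟩ : ∃ m, n = m + 1 := ⟨n - 1, by (clear * - hx hy; omega)⟩
          simp only [Nat.add_sub_cancel]
          ring
    have h2 : W * (n * min x y + max x y + 1) ≤ W * (n * n) := Nat.mul_le_mul_left _ h1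
    have h3 : n * (n * W) = W * (n * n) := by ring
    rw [h3]
    have h4 : W * (n * min x y + max x y + 1) = W * (n * min x y + max x y) + W := by ring
    omega

/-! ### The final rounding -/

theorem round_bounds (N z1 z2 D : ℕ) (hz2 : 0 < z2) (e : ℝ) (he : 1 ≤ e)
    (h0 : N = 0 → (D * z1 : ℝ) / z2 < 1 / 2)
    (h1 : N ≠ 0 → |(D * z1 : ℝ) / z2 - N| ≤ N / (2 * e)) :
    (1 - 1 / e) * N ≤ (((2 * (D * z1) + z2) / (2 * z2) : ℕ) : ℝ) ∧
      (((2 * (D * z1) + z2) / (2 * z2) : ℕ) : ℝ) ≤ (1 + 1 / e) * N := by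
  obtain ⟨a, ha⟩ : ∃ a, a = (2 * (D * z1) + z2) / (2 * z2) := ⟨_, rfl⟩
  rw [← ha]
  have hz : (0 : ℝ) < z2 := by exact_mod_cast hz2
  set v : ℝ := (D * z1 : ℝ) / z2 with hv
  have hvz : v * z2 = D * z1 := by rw [hv]; field_simp
  have hlo : (a : ℝ) ≤ v + 1 / 2 := by
    have h2 : a * (2 * z2) ≤ 2 * (D * z1) + z2 := ha ▸ Nat.div_mul_le_self _ _
    have h3 : (a : ℝ) * (2 * z2) ≤ 2 * (D * z1) + z2 := by exact_mod_cast h2
    rw [← hvz] at h3
    have h4 : ((a : ℝ) - (v + 1 / 2)) * (2 * z2) ≤ 0 := by nlinarith only [h3]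
    by_contra h5
    push Not at h5
    have h6 : 0 < ((a : ℝ) - (v + 1 / 2)) * (2 * z2) := by
      apply mul_pos <;> linarith only [h5, hz]
    linarith only [h3, h6]
  have hhi : v - 1 / 2 < a := by
    have h2 : 2 * (D * z1) + z2 < (a + 1) * (2 * z2) := by
      have h3 := Nat.lt_mul_div_succ (2 * (D * z1) + z2) (show 0 < 2 * z2 by omega)
      rw [← ha] at h3
      linarith only [h3]
    have h3 : (2 * (D * z1) + z2 : ℝ) < (a + 1) * (2 * z2) := by exact_mod_cast h2
    rw [← hvz] at h3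
    by_contra h5
    push Not at h5
    have h6 : 0 ≤ (v - 1 / 2 - a) * (2 * z2) := by
      apply mul_nonneg <;> linarith only [h5]
    nlinarith only [h3, h6]
  have hepos : 0 < e := by linarith only [he]
  rcases Nat.eq_zero_or_pos N with hN | hN
  · have h2 := h0 hN
    have h3 : (a : ℝ) < 1 := by linarith only [hlo, h2]
    have h4 : a = 0 := by
      have : a < 1 := by exact_mod_cast h3
      (clear * - ha this; omega)
    rw [h4, hN]
    simp
  · have h2 := h1 hN.ne'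
    have hNr : (1 : ℝ) ≤ N := by exact_mod_cast hN
    rw [abs_le] at h2
    have hNe : (N : ℝ) / (2 * e) = 1 / e * N / 2 := by field_simp
    rw [hNe] at h2
    have hpos : 0 ≤ 1 / e * (N : ℝ) := by positivity
    by_cases h3 : 1 / e * (N : ℝ) / 2 < 1 / 2
    · have h4 : a = N := by
        have h5 : (a : ℝ) < N + 1 := by linarith only [hlo, h2, h3]
        have h6 : (N : ℝ) < a + 1 := by linarith only [hhi, h2, h3]
        have h7 : a < N + 1 := by exact_mod_cast h5
        have h8 : N < a + 1 := by exact_mod_cast h6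
        omega
      rw [h4]
      constructor <;> nlinarith only [h2]
    · push Not at h3
      constructor <;> nlinarith only [hhi, h2, h3, hlo]

theorem pow_bounds {θ K' : ℝ} {K : ℕ} (h0 : 0 ≤ θ) (h1 : K * θ ≤ 1) :
    1 - K * θ ≤ (1 - θ) ^ K ∧ (1 + θ) ^ K ≤ 1 + 2 * (K * θ) := by
  constructor
  · rcases Nat.eq_zero_or_pos K with hK | hK
    · subst hK; simp
    · have hθ1 : θ ≤ 1 := by
        have : (1 : ℝ) ≤ K := by exact_mod_cast hK
        nlinarith only [h1, this]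
      have := one_add_mul_le_pow (a := -θ) (by linarith only [hθ1]) K
      have h2 : 1 + (K : ℝ) * -θ = 1 - K * θ := by ring
      rw [h2] at this
      rwa [← sub_eq_add_neg] at this
  · have h2 : (1 + θ) ^ K ≤ Real.exp (K * θ) := by
      rw [Real.exp_nat_mul]
      have := Real.add_one_le_exp θ
      gcongr
      linarith only [this]
    have h3 : Real.exp (K * θ) ≤ 1 + 2 * (K * θ) := by
      have h4 : 0 ≤ K * θ := by positivity
      have := Real.abs_exp_sub_one_sub_id_le (x := K * θ) (by rw [abs_of_nonneg h4]; exact h1)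
      have h5 := (abs_le.1 this).2
      nlinarith only [h5, h1, h4]
    linarith only [h2, h3]

end Vale.Agent.P308.Alg
end

section

/-!
# P308: the final probability bound
-/

set_option linter.all false

namespace Vale.Agent.P308.Alg

open Vale.Agent.Lib.PolyTime Finset

/-- The rows of the adjacency matrix. -/
noncomputable def rows {n : ℕ} (G : SimpleGraph (Fin n)) : List Raw := by
  classical exact List.ofFn fun i => ⟨List.ofFn fun j => decide (G.Adj i j)⟩

section Rows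

variable {n : ℕ} (G : SimpleGraph (Fin n))

theorem length_rows : (rows G).length = n := by simp only [rows, List.length_ofFn]

open Classical in
theorem adj_rows (i j : Fin n) : adj (rows G) i j = decide (G.Adj i j) := by
  simp [adj, rows, List.getD_eq_getElem?_getD, List.getElem?_ofFn]

theorem adj_rows_of_ge (i j : ℕ) (h : n ≤ i ∨ n ≤ j) : adj (rows G) i j = false := by
  by_cases hi : i < n
  · have hj : ¬ j < n := by omega
    simp [adj, rows, List.getD_eq_getElem?_getD, List.getElem?_ofFn, hi, hj]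
  · simp only [adj, rows, List.getD_eq_getElem?_getD, List.length_ofFn, hi, not_false_eq_true, getElem?_neg, Option.getD_none, List.length_nil, not_lt_zero]

theorem adj_rows_symm (x y : ℕ) : adj (rows G) x y = adj (rows G) y x := by
  classical
  by_cases h : x < n ∧ y < n
  · have h1 := adj_rows G ⟨x, h.1⟩ ⟨y, h.2⟩
    have h2 := adj_rows G ⟨y, h.2⟩ ⟨x, h.1⟩
    simp only at h1 h2
    rw [h1, h2]
    simp [G.adj_comm]
  · rw [adj_rows_of_ge G x y (by omega), adj_rows_of_ge G y x (by omega)]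

open Classical in
theorem ent_final (W : ℕ) (x y : Fin n) :
    (ent (schM (rows G) W (n * (n * W))) x y : ℤ) = if G.Adj x y then 0 else (W : ℤ) := by
  rw [ent_schM _ _ _ (by rw [length_rows]; exact x.2) (by rw [length_rows]; exact y.2),
    length_rows, sch_final _ _ _ _ _ x.2 y.2, adj_rows]
  by_cases h : G.Adj x y <;> simp [h]

theorem kZ_zero_bd881 (R : List Raw) (W : ℕ) : kZ R W 0 = fun _ _ => 0 := by
  funext x y
  unfold kZ
  rw [ent_schM _ _ _ x.2 y.2, sch_zero]
  rfl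

theorem Zs_zero (R : List Raw) (W : ℕ) (h : Even R.length) : Zs R W 0 = dfac R.length := by
  unfold Zs
  rw [kZ_zero_bd881, Zf_zero_eq h]

theorem Zs_final (W : ℕ) :
    (numPM G : ℝ) ≤ Zs (rows G) W (n * (n * W)) ∧
      Zs (rows G) W (n * (n * W)) ≤ numPM G + Fintype.card (PM n) * (2 : ℝ) ^ (-(W : ℤ)) := by
  classical
  rw [Zs_eq (rows G) n W _ (length_rows G)]
  exact Zf_final G W _ fun x y _ => ent_final G W x y

end Rows

/-- The first estimates are accurate. -/
theorem estOK_zero (R : List Raw) (W F : ℕ) (hn : Even R.length) (h2 : 2 ≤ R.length)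
    (hF : Nat.size (R.length - 1) ≤ F) : EstOK R W F 0 (A0 R.length F) := by
  intro r u hr hu
  rw [kZ_zero_bd881, alpha_zero hn hu]
  have hu0 : (u : ℕ) ≠ 0 := fun h => hu (Fin.ext (by rw [h, hr]))
  have hA : (A0 R.length F).getD (u : ℕ) 0 = F + 1 - Nat.size (R.length - 1) := by
    unfold A0
    rw [List.getD_eq_getElem?_getD]
    simp only [List.length_map, List.length_range, u.2, getElem?_pos, List.getElem_map, List.getElem_range, hu0, ↓reduceIte, Option.getD_some]
  rw [hA]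
  set s := Nat.size (R.length - 1) with hs
  have h3 : R.length - 1 < 2 ^ s := Nat.lt_size_self _
  have hs1 : 1 ≤ s := Nat.size_pos.2 (by omega)
  have h4 : 2 ^ (s - 1) ≤ R.length - 1 := by
    by_contra h
    push Not at h
    have := Nat.size_le.2 h
    omega
  have hcast : ((F + 1 - s : ℕ) : ℤ) = F + 1 - s := by
    rw [Nat.cast_sub (by omega)]
    push_cast
    ring
  rw [hcast]
  have h5 : ((R.length : ℝ) - 1) = ((R.length - 1 : ℕ) : ℝ) := by
    rw [Nat.cast_sub (by omega)]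
    simp only [Nat.cast_one]
  rw [h5]
  have h6 : (0 : ℝ) < ((R.length - 1 : ℕ) : ℝ) := by
    have : 0 < R.length - 1 := by omega
    exact_mod_cast this
  have h3' : ((R.length - 1 : ℕ) : ℝ) ≤ (2 : ℝ) ^ (s : ℤ) := by
    rw [zpow_natCast]
    exact_mod_cast h3.le
  have h4' : (2 : ℝ) ^ ((s : ℤ) - 1) ≤ ((R.length - 1 : ℕ) : ℝ) := by
    have : ((s : ℤ) - 1) = ((s - 1 : ℕ) : ℤ) := by
      rw [Nat.cast_sub hs1]
      simp only [Nat.cast_one]
    rw [this, zpow_natCast]
    exact_mod_cast h4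
  constructor
  · rw [le_div_iff₀ h6]
    calc (2 : ℝ) ^ ((F : ℤ) + 1 - s - F - 4) * ((R.length - 1 : ℕ) : ℝ)
        ≤ (2 : ℝ) ^ ((F : ℤ) + 1 - s - F - 4) * (2 : ℝ) ^ (s : ℤ) := by (clear * - h3'; gcongr)
      _ = (2 : ℝ) ^ (-3 : ℤ) := by
          rw [← zpow_add₀ (by norm_num)]
          congr 1
          ring
      _ ≤ 1 := by norm_num
  · rw [div_le_iff₀ h6]
    calc (1 : ℝ) ≤ (2 : ℝ) ^ (4 : ℤ) := by norm_num
      _ = (2 : ℝ) ^ ((F : ℤ) + 1 - s - F + 4) * (2 : ℝ) ^ ((s : ℤ) - 1) := by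
          rw [← zpow_add₀ (by norm_num)]
          congr 1
          ring
      _ ≤ (2 : ℝ) ^ ((F : ℤ) + 1 - s - F + 4) * ((R.length - 1 : ℕ) : ℝ) := by (clear * - h4'; gcongr)

end Vale.Agent.P308.Alg
end

section

/-!
# P308: the parameters
-/

set_option linter.all false

namespace Vale.Agent.P308.Alg

open Vale.Agent.Lib.PolyTime Finset

theorem size_le_self (n : ℕ) : Nat.size n ≤ n := Nat.size_le.2 Nat.lt_two_pow_self

section

variable {n p : ℕ}

theorem par_F (hp : 4 ≤ p) (hn : n ≤ p) :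
    8 * (n * p ^ 2 + n * Nat.size n + p ^ 2 + 8) ≤ p ^ 7 := by
  have h1 : n * p ^ 2 ≤ p ^ 3 := by
    calc n * p ^ 2 ≤ p * p ^ 2 := Nat.mul_le_mul_right _ hn
      _ = p ^ 3 := by ring
  have h2 : n * Nat.size n ≤ p ^ 3 := by
    calc n * Nat.size n ≤ p * p := Nat.mul_le_mul hn ((size_le_self n).trans hn)
      _ = p ^ 2 := by ring
      _ ≤ p ^ 3 := Nat.pow_le_pow_right (by omega) (by norm_num)
  have h3 : p ^ 2 ≤ p ^ 3 := Nat.pow_le_pow_right (by omega) (by norm_num)
  have h4 : 8 ≤ p ^ 3 := by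
    calc 8 ≤ 4 ^ 3 := by norm_num
      _ ≤ p ^ 3 := Nat.pow_le_pow_left hp 3
  have h5 : 32 ≤ p ^ 4 := by
    calc 32 ≤ 4 ^ 4 := by norm_num
      _ ≤ p ^ 4 := Nat.pow_le_pow_left hp 4
  calc 8 * (n * p ^ 2 + n * Nat.size n + p ^ 2 + 8) ≤ 32 * p ^ 3 := by omega
    _ ≤ p ^ 4 * p ^ 3 := Nat.mul_le_mul_right _ h5
    _ = p ^ 7 := by ring

theorem par_l (hp : 4 ≤ p) (hn : n ≤ p) :
    2 * Nat.size n + 2 * (p ^ 2 + p ^ 7) + 1 ≤ p ^ 12 := by
  have h1 : Nat.size n ≤ p ^ 7 := ((size_le_self n).trans hn).trans (Nat.le_self_pow (by norm_num) _)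
  have h2 : p ^ 2 ≤ p ^ 7 := Nat.pow_le_pow_right (by omega) (by norm_num)
  have h3 : 1 ≤ p ^ 7 := Nat.one_le_pow _ _ (by omega)
  have h5 : 7 ≤ p ^ 5 := by
    calc 7 ≤ 4 ^ 5 := by norm_num
      _ ≤ p ^ 5 := Nat.pow_le_pow_left hp 5
  calc 2 * Nat.size n + 2 * (p ^ 2 + p ^ 7) + 1 ≤ 7 * p ^ 7 := by omega
    _ ≤ p ^ 5 * p ^ 7 := Nat.mul_le_mul_right _ h5
    _ = p ^ 12 := by ring

theorem par_L (hp : 4 ≤ p) (hn : n ≤ p) :
    n * (p ^ 2 + p ^ 7) + n ≤ p ^ 12 := by
  have h2 : p ^ 2 ≤ p ^ 7 := Nat.pow_le_pow_right (by omega) (by norm_num)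
  have h3 : 1 ≤ p ^ 7 := Nat.one_le_pow _ _ (by omega)
  have h5 : 3 ≤ p ^ 4 := by
    calc 3 ≤ 4 ^ 4 := by norm_num
      _ ≤ p ^ 4 := Nat.pow_le_pow_left hp 4
  calc n * (p ^ 2 + p ^ 7) + n = n * (p ^ 2 + p ^ 7 + 1) := by ring
    _ ≤ p * (3 * p ^ 7) := Nat.mul_le_mul hn (by omega)
    _ = 3 * p ^ 8 := by ring
    _ ≤ p ^ 4 * p ^ 8 := Nat.mul_le_mul_right _ h5
    _ = p ^ 12 := by ring

end

/-- The exponent of `η`. -/
def e3 (c1 : ℕ) : ℕ := 2 * c1 + 9

/-- The exponent of the number of steps. -/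
def e2 (c1 C : ℕ) : ℕ := 9 * C + 3 * e3 c1 + 20

/-- The exponent of the number of bits. -/
def e4 (c1 C : ℕ) : ℕ := 3 * e2 c1 C + 17

/-- The accuracy of the samples. -/
noncomputable def eta (c1 n e l : ℕ) : ℝ := 1 / (pp n e l : ℝ) ^ e3 c1

variable (c1 C n e l : ℕ)

theorem pp_pos : (0 : ℝ) < pp n e l := by
  have := four_le_pp n e l
  exact_mod_cast (by omega : 0 < pp n e l)

theorem eta_pos : 0 < eta c1 n e l := by
  have := pp_pos n e l
  unfold eta
  positivity

theorem n_le_pp : n ≤ pp n e l := by have := two_mul_le_pp n e l; omega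

theorem parOK : ParOK c1 n (par c1 (e2 c1 C) n (pp n e l)) (eta c1 n e l) where
  c := rfl
  b := rfl
  F := par_F (four_le_pp n e l) (n_le_pp n e l)
  ℓ := par_l (four_le_pp n e l) (n_le_pp n e l)
  L := par_L (four_le_pp n e l) (n_le_pp n e l)
  ηpos := eta_pos c1 n e l
  ηle := by
    have h0 := pp_pos n e l
    unfold eta
    rw [div_mul_eq_mul_div, one_mul, div_le_one (by positivity)]
    have h1 : 2 ^ (c1 * (Nat.size n + 1) + 10) ≤ pp n e l ^ e3 c1 :=
      (two_pow_c_le n e l c1).trans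
        (Nat.pow_le_pow_right (by have := four_le_pp n e l; omega) (by unfold e3; omega))
    exact_mod_cast h1

theorem T_ok : (2 : ℝ) ^ (C * (Nat.size n + 1) ^ 2 + 2 * Nat.size n + 1) *
      ((4 * n * ((par c1 (e2 c1 C) n (pp n e l)).W + (par c1 (e2 c1 C) n (pp n e l)).F +
        Nat.size n) : ℕ) + 4 * Real.logb 2 (1 / eta c1 n e l)) ≤
      (par c1 (e2 c1 C) n (pp n e l)).T := by
  have hp4 := four_le_pp n e l
  have hn := n_le_pp n e l
  have hC := two_pow_C_le n e l C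
  set p := pp n e l with hp
  have hp0 : (0 : ℝ) < p := pp_pos n e l
  have h1 : (2 : ℝ) ^ (C * (Nat.size n + 1) ^ 2 + 2 * Nat.size n + 1) ≤ (p : ℝ) ^ (9 * C + 5) := by
    exact_mod_cast hC
  have hlog : Real.logb 2 (1 / eta c1 n e l) = e3 c1 * Real.logb 2 p := by
    unfold eta
    rw [one_div_one_div, Real.logb_pow]
  have hlogp : Real.logb 2 p ≤ p := by
    rw [Real.logb_le_iff_le_rpow (by norm_num) hp0, Real.rpow_natCast]
    exact_mod_cast (Nat.lt_two_pow_self (n := p)).le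
  have hc3 : (e3 c1 : ℝ) ≤ (p : ℝ) ^ e3 c1 := by
    have : e3 c1 ≤ p ^ e3 c1 := (Nat.lt_pow_self (by omega : 1 < p)).le
    exact_mod_cast this
  have h2 : 4 * n * (p ^ 2 + p ^ 7 + Nat.size n) ≤ 3 * p ^ 9 := by
    have h3 : Nat.size n ≤ p ^ 7 :=
      ((size_le_self n).trans hn).trans (Nat.le_self_pow (by norm_num) _)
    have h4 : p ^ 2 ≤ p ^ 7 := Nat.pow_le_pow_right (by omega) (by norm_num)
    calc 4 * n * (p ^ 2 + p ^ 7 + Nat.size n) ≤ p * p * (3 * p ^ 7) :=
          Nat.mul_le_mul (Nat.mul_le_mul hp4 hn) (by omega)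
      _ = 3 * p ^ 9 := by ring
  have h5 : ((4 * n * (p ^ 2 + p ^ 7 + Nat.size n) : ℕ) : ℝ) + 4 * Real.logb 2 (1 / eta c1 n e l) ≤
      (p : ℝ) ^ (e3 c1 + 10) := by
    have h6 : ((4 * n * (p ^ 2 + p ^ 7 + Nat.size n) : ℕ) : ℝ) ≤ 3 * (p : ℝ) ^ 9 := by
      exact_mod_cast h2
    have h7 : 4 * Real.logb 2 (1 / eta c1 n e l) ≤ (p : ℝ) ^ (e3 c1 + 2) := by
      rw [hlog]
      have h4p : (4 : ℝ) ≤ p := by exact_mod_cast hp4
      have hlog0 : 0 ≤ Real.logb 2 p := Real.logb_nonneg (by norm_num) (by linarith only [h4p])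
      calc 4 * (e3 c1 * Real.logb 2 p) ≤ p * ((p : ℝ) ^ e3 c1 * p) := by (clear * - h4p hc3 hlogp hlog0 hp4; gcongr)
        _ = (p : ℝ) ^ (e3 c1 + 2) := by ring
    have h8 : (p : ℝ) ^ 9 ≤ (p : ℝ) ^ (e3 c1 + 9) :=
      pow_le_pow_right₀ (by have : (4 : ℝ) ≤ p := by exact_mod_cast hp4
                            linarith only [this]) (by omega)
    have h9 : (p : ℝ) ^ (e3 c1 + 2) ≤ (p : ℝ) ^ (e3 c1 + 9) :=
      pow_le_pow_right₀ (by have : (4 : ℝ) ≤ p := by exact_mod_cast hp4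
                            linarith only [this]) (by omega)
    have h10 : 4 * (p : ℝ) ^ (e3 c1 + 9) ≤ (p : ℝ) ^ (e3 c1 + 10) := by
      have h4p : (4 : ℝ) ≤ p := by exact_mod_cast hp4
      calc 4 * (p : ℝ) ^ (e3 c1 + 9) ≤ p * (p : ℝ) ^ (e3 c1 + 9) := by (clear * - h4p hp4; gcongr)
        _ = (p : ℝ) ^ (e3 c1 + 10) := by ring
    linarith only [h6, h7, h8, h9, h10]
  have hlog0 : 0 ≤ Real.logb 2 (1 / eta c1 n e l) := by
    rw [hlog]
    have h4p : (4 : ℝ) ≤ p := by exact_mod_cast hp4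
    exact mul_nonneg (by (clear * -; positivity)) (Real.logb_nonneg (by norm_num) (by linarith only [h4p]))
  calc _ ≤ (p : ℝ) ^ (9 * C + 5) * (p : ℝ) ^ (e3 c1 + 10) := by
        apply mul_le_mul h1 h5 _ (by positivity)
        (clear * - hlog0; positivity)
    _ = (p : ℝ) ^ (9 * C + e3 c1 + 15) := by ring
    _ ≤ (p : ℝ) ^ e2 c1 C :=
        pow_le_pow_right₀ (by have : (4 : ℝ) ≤ p := by exact_mod_cast hp4
                              linarith only [this]) (by unfold e2; (clear * -; omega))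
    _ = _ := by
        show (p : ℝ) ^ e2 c1 C = ((p ^ e2 c1 C : ℕ) : ℝ)
        push_cast
        rfl

/-- The number of rounds. -/
def rds (n e l : ℕ) : ℕ := n * (n * pp n e l ^ 2)

theorem rds_le : rds n e l ≤ pp n e l ^ 4 := by
  have hn := n_le_pp n e l
  unfold rds
  calc n * (n * pp n e l ^ 2) ≤ pp n e l * (pp n e l * pp n e l ^ 2) := by gcongr
    _ = pp n e l ^ 4 := by ring

/-- Number of bits per round. -/
def blk (c1 C n e l : ℕ) : ℕ :=
  2 ^ (e2 c1 C * Nat.size (pp n e l)) * (pp n e l ^ e2 c1 C * pp n e l ^ 12 + pp n e l ^ 12)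

theorem bits_le : rds n e l * blk c1 C n e l ≤ pp n e l ^ e4 c1 C := by
  have hp4 := four_le_pp n e l
  have hr := rds_le n e l
  unfold blk
  set p := pp n e l with hp
  have h1 : 2 ^ (e2 c1 C * Nat.size p) ≤ p ^ (2 * e2 c1 C) := by
    calc 2 ^ (e2 c1 C * Nat.size p) = (2 ^ Nat.size p) ^ e2 c1 C := by rw [mul_comm, pow_mul]
      _ ≤ (2 * p) ^ e2 c1 C := Nat.pow_le_pow_left (two_pow_size_le (by omega)) _
      _ ≤ (p * p) ^ e2 c1 C := Nat.pow_le_pow_left (Nat.mul_le_mul_right _ (by omega)) _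
      _ = p ^ (2 * e2 c1 C) := by rw [pow_mul, sq]
  have h2 : p ^ e2 c1 C * p ^ 12 + p ^ 12 ≤ p ^ (e2 c1 C + 13) := by
    have h3 : p ^ 12 ≤ p ^ e2 c1 C * p ^ 12 := Nat.le_mul_of_pos_left _ (by positivity)
    calc p ^ e2 c1 C * p ^ 12 + p ^ 12 ≤ 2 * (p ^ e2 c1 C * p ^ 12) := by omega
      _ ≤ p * (p ^ e2 c1 C * p ^ 12) := Nat.mul_le_mul_right _ (by omega)
      _ = p ^ (e2 c1 C + 13) := by ring
  calc rds n e l * (2 ^ (e2 c1 C * Nat.size p) * (p ^ e2 c1 C * p ^ 12 + p ^ 12))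
      ≤ p ^ 4 * (p ^ (2 * e2 c1 C) * p ^ (e2 c1 C + 13)) := by (clear * - hr h1 h2; gcongr)
    _ = p ^ e4 c1 C := by
        unfold e4
        ring

theorem failure_le : (rds n e l : ℝ) * ((n + 2 : ℕ) * (2 * Real.exp
      (-(((2 ^ (e2 c1 C * Nat.size (pp n e l)) : ℕ) : ℝ) * eta c1 n e l ^ 2 / 4)))) ≤
      (1 / 2) ^ l := by
  have hp4 := four_le_pp n e l
  have hr := rds_le n e l
  have hn2 := two_mul_le_pp n e l
  have hel := el_le_pp n e l
  unfold eta
  set p := pp n e l with hp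
  have hp0 : (0 : ℝ) < p := pp_pos n e l
  have hp1 : (1 : ℝ) ≤ p := by exact_mod_cast (by omega : 1 ≤ p)
  have h4p : (4 : ℝ) ≤ p := by exact_mod_cast hp4
  -- the exponent
  have h1 : p ^ e2 c1 C ≤ 2 ^ (e2 c1 C * Nat.size p) := by
    rw [mul_comm, pow_mul]
    exact Nat.pow_le_pow_left (Nat.lt_size_self p).le _
  have h1' : (p : ℝ) ^ e2 c1 C ≤ ((2 ^ (e2 c1 C * Nat.size p) : ℕ) : ℝ) := by exact_mod_cast h1
  have h2 : 6 * (p : ℝ) ≤ ((2 ^ (e2 c1 C * Nat.size p) : ℕ) : ℝ) *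
      (1 / (p : ℝ) ^ e3 c1) ^ 2 / 4 := by
    have h3 : (p : ℝ) ^ e2 c1 C * (1 / (p : ℝ) ^ e3 c1) ^ 2 =
        (p : ℝ) ^ (9 * C + e3 c1 + 20) := by
      have h4 : e2 c1 C = (9 * C + e3 c1 + 20) + 2 * e3 c1 := by unfold e2; ring
      rw [h4, pow_add, pow_mul]
      field_simp
      ring
    have h5 : 24 * (p : ℝ) ≤ (p : ℝ) ^ (9 * C + e3 c1 + 20) := by
      calc 24 * (p : ℝ) ≤ (p : ℝ) ^ 3 * p := by
            have : (24 : ℝ) ≤ (p : ℝ) ^ 3 := by
              calc (24 : ℝ) ≤ 4 ^ 3 := by norm_num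
                _ ≤ (p : ℝ) ^ 3 := by (clear * - h4p; gcongr)
            gcongr
        _ = (p : ℝ) ^ 4 := by ring
        _ ≤ (p : ℝ) ^ (9 * C + e3 c1 + 20) := pow_le_pow_right₀ hp1 (by omega)
    have h6 : (p : ℝ) ^ (9 * C + e3 c1 + 20) ≤ ((2 ^ (e2 c1 C * Nat.size p) : ℕ) : ℝ) *
        (1 / (p : ℝ) ^ e3 c1) ^ 2 := by
      rw [← h3]
      (clear * - h1' hp4; gcongr)
    linarith only [h5, h6]
  have h3 : Real.exp (-(((2 ^ (e2 c1 C * Nat.size p) : ℕ) : ℝ) *
      (1 / (p : ℝ) ^ e3 c1) ^ 2 / 4)) ≤ Real.exp (-(6 * (p : ℝ))) := by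
    apply Real.exp_le_exp.2
    linarith only [h2]
  have h4 : (rds n e l : ℝ) * ((n + 2 : ℕ) * 2) ≤ (p : ℝ) ^ 5 := by
    have h5 : rds n e l * ((n + 2) * 2) ≤ p ^ 5 := by
      calc rds n e l * ((n + 2) * 2) ≤ p ^ 4 * p := Nat.mul_le_mul hr (by omega)
        _ = p ^ 5 := by ring
    exact_mod_cast h5
  have h5 : (p : ℝ) ^ 5 ≤ Real.exp (5 * p) := by
    have h6 : (p : ℝ) ≤ Real.exp p := by
      have := Real.add_one_le_exp (p : ℝ)
      linarith only [this]
    calc (p : ℝ) ^ 5 ≤ Real.exp p ^ 5 := by gcongr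
      _ = Real.exp (5 * p) := by rw [← Real.exp_nat_mul]; norm_num
  have h6 : Real.exp (-(p : ℝ)) ≤ (1 / 2) ^ l := by
    have h7 : (1 / 2 : ℝ) ^ l = Real.exp (-(l * Real.log 2)) := by
      rw [Real.exp_neg, Real.exp_nat_mul, Real.exp_log (by norm_num)]
      simp
    rw [h7]
    apply Real.exp_le_exp.2
    have h8 : Real.log 2 ≤ 1 := by
      have := Real.log_two_lt_d9
      linarith only [this]
    have h9 : (l : ℝ) ≤ p := by exact_mod_cast (by (clear * - hel; omega) : l ≤ p)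
    have h10 : (l : ℝ) * Real.log 2 ≤ l * 1 := by (clear * - h8; gcongr)
    linarith only [h9, h10]
  set E := Real.exp (-(((2 ^ (e2 c1 C * Nat.size p) : ℕ) : ℝ) *
      (1 / (p : ℝ) ^ e3 c1) ^ 2 / 4)) with hE
  calc (rds n e l : ℝ) * ((n + 2 : ℕ) * (2 * E))
      = ((rds n e l : ℝ) * ((n + 2 : ℕ) * 2)) * E := by ring
    _ ≤ Real.exp (5 * p) * Real.exp (-(6 * (p : ℝ))) := by
        apply mul_le_mul (h4.trans h5) h3 (by positivity) (by positivity)
    _ = Real.exp (-(p : ℝ)) := by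
        rw [← Real.exp_add]
        congr 1
        ring
    _ ≤ (1 / 2) ^ l := h6

theorem acc_le : (rds n e l : ℝ) * (32 * eta c1 n e l) ≤ 1 / (8 * (e : ℝ) + 8) := by
  have hp4 := four_le_pp n e l
  have hr := rds_le n e l
  have hel := el_le_pp n e l
  unfold eta
  set p := pp n e l with hp
  have hp0 : (0 : ℝ) < p := pp_pos n e l
  have h1 : rds n e l * 32 * (8 * e + 8) ≤ p ^ e3 c1 := by
    calc rds n e l * 32 * (8 * e + 8) = 256 * (rds n e l * (e + 1)) := by ring
      _ ≤ p ^ 4 * (p ^ 4 * p) := by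
          have h2 : 256 ≤ p ^ 4 := by
            calc 256 = 4 ^ 4 := by norm_num
              _ ≤ p ^ 4 := Nat.pow_le_pow_left hp4 4
          gcongr
          omega
      _ = p ^ 9 := by ring
      _ ≤ p ^ e3 c1 := Nat.pow_le_pow_right (by omega) (by unfold e3; omega)
  have h2 : (rds n e l : ℝ) * 32 * (8 * e + 8) ≤ (p : ℝ) ^ e3 c1 := by exact_mod_cast h1
  rw [le_div_iff₀ (by (clear * -; positivity))]
  have h3 : (rds n e l : ℝ) * (32 * (1 / (p : ℝ) ^ e3 c1)) * (8 * e + 8) =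
      ((rds n e l : ℝ) * 32 * (8 * e + 8)) / (p : ℝ) ^ e3 c1 := by ring
  rw [h3, div_le_one (by positivity)]
  exact h2

/-- The total weight of the matchings which are not matchings of the graph is small. -/
theorem rest_le : (Fintype.card (PM n) : ℝ) * (2 : ℝ) ^ (-((pp n e l ^ 2 : ℕ) : ℤ)) ≤
    1 / (8 * (e : ℝ) + 8) := by
  have hp4 := four_le_pp n e l
  have hn2 := two_mul_le_pp n e l
  have hel := el_le_pp n e l
  have hcard := card_PM_le n
  set p := pp n e l with hp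
  have h1 : n * Nat.size n + (p + 3) ≤ p ^ 2 := by
    have h2 : 2 * n ≤ p := by omega
    have h3 : n * Nat.size n ≤ n * n := Nat.mul_le_mul_left _ (size_le_self n)
    nlinarith only [h3, hn2]
  have h2 : 2 ^ (n * Nat.size n) * (8 * e + 8) ≤ 2 ^ (p ^ 2) := by
    calc 2 ^ (n * Nat.size n) * (8 * e + 8) ≤ 2 ^ (n * Nat.size n) * 2 ^ (p + 3) := by
          have h3 : e + 1 ≤ 2 ^ p := by
            have := Nat.lt_two_pow_self (n := p)
            omega
          have h4 : 8 * e + 8 ≤ 2 ^ (p + 3) := by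
            rw [pow_add]
            omega
          (clear * - h4; gcongr)
      _ = 2 ^ (n * Nat.size n + (p + 3)) := by rw [pow_add 2 (n * Nat.size n)]
      _ ≤ 2 ^ (p ^ 2) := Nat.pow_le_pow_right (by norm_num) h1
  have h3 : (Fintype.card (PM n) : ℝ) * (8 * e + 8) ≤ (2 : ℝ) ^ (p ^ 2) := by
    have : Fintype.card (PM n) * (8 * e + 8) ≤ 2 ^ (p ^ 2) :=
      (Nat.mul_le_mul_right _ hcard).trans h2
    exact_mod_cast this
  rw [le_div_iff₀ (by (clear * -; positivity)), zpow_neg, zpow_natCast, mul_right_comm]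
  rw [← div_eq_mul_inv, div_le_one (by positivity)]
  exact h3

end Vale.Agent.P308.Alg
end

section

/-!
# P308: the final probability bound, from the analysis of the stages
-/

set_option linter.all false

namespace Vale.Agent.P308.Alg

open Vale.Agent.Lib.PolyTime Finset

/-- Statement of the analysis of all stages. -/
def RoundsGood (c1 : ℕ) : Prop :=
  ∀ (R : List Raw), (∀ x y, adj R x y = adj R y x) → Even R.length → 2 ≤ R.length →
    ∀ (P : Par) (η : ℝ), ParOK c1 R.length P η →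
    (∀ j A, EstOK R P.W P.F j A → Mixed R P η j A) →
    ∀ (K j r : ℕ) (A : List ℕ) (x y : ℕ), EstOK R P.W P.F j A → 0 < x → 0 < y →
      prob (K * (2 ^ P.σ * (P.T * P.ℓ + P.L)) + r) (fun w => ¬ Good R P.W (32 * η) K j x y
        ((stage R P)^[K] ((A, (j, (x, y))), ⟨w⟩)).1.2.2) ≤
        K * ((R.length + 2 : ℕ) * (2 * Real.exp (-(((2 ^ P.σ : ℕ) : ℝ) * η ^ 2 / 4))))

/-- Statement of the mixing of the chain. -/
def MixedOf (c1 C : ℕ) : Prop :=
  ∀ (R : List Raw), (∀ x y, adj R x y = adj R y x) → Even R.length → 2 ≤ R.length →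
    ∀ (P : Par) (η : ℝ), ParOK c1 R.length P η →
    (2 : ℝ) ^ (C * (Nat.size R.length + 1) ^ 2 + 2 * Nat.size R.length + 1) *
      ((4 * R.length * (P.W + P.F + Nat.size R.length) : ℕ) + 4 * Real.logb 2 (1 / η)) ≤ P.T →
    ∀ (j : ℕ) (A : List ℕ), EstOK R P.W P.F j A → Mixed R P η j A

/-- The arithmetic of the final estimate. -/
theorem final_arith (N D z1 z2 K : ℕ) (Z θ t e : ℝ) (he : 1 ≤ e) (hz2 : 0 < z2) (hD : 0 < D)
    (hθ : 0 ≤ θ) (hK : K * θ ≤ 1 / (8 * e + 8)) (ht : t ≤ 1 / (8 * e + 8)) (ht0 : 0 ≤ t)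
    (hZ1 : N ≤ Z) (hZ2 : Z ≤ N + t)
    (h1 : (1 - θ) ^ K * (Z / D * (1 / 1)) ≤ (z1 : ℝ) / z2)
    (h2 : (z1 : ℝ) / z2 ≤ (1 + θ) ^ K * (Z / D * (1 / 1))) :
    (1 - 1 / e) * N ≤ (((2 * (D * z1) + z2) / (2 * z2) : ℕ) : ℝ) ∧
      (((2 * (D * z1) + z2) / (2 * z2) : ℕ) : ℝ) ≤ (1 + 1 / e) * N := by
  have hDr : (0 : ℝ) < D := by exact_mod_cast hD
  have hz2r : (0 : ℝ) < z2 := by exact_mod_cast hz2
  have hZ0 : 0 ≤ Z := le_trans (Nat.cast_nonneg N) hZ1
  have hN0 : (0 : ℝ) ≤ N := Nat.cast_nonneg N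
  set δ : ℝ := 1 / (8 * e + 8) with hδ
  have hδ0 : 0 < δ := by rw [hδ]; positivity
  have hδ16 : δ ≤ 1 / 16 := by
    rw [hδ]
    apply one_div_le_one_div_of_le <;> linarith only [he]
  have hδe : 4 * δ ≤ 1 / (2 * e) := by
    rw [hδ, le_div_iff₀ (by linarith only [he])]
    have : 4 * (1 / (8 * e + 8)) * (2 * e) = (8 * e) / (8 * e + 8) := by ring
    rw [this, div_le_one (by linarith only [he])]
    linarith only []
  have hv : (D * z1 : ℝ) / z2 = D * ((z1 : ℝ) / z2) := by ring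
  obtain ⟨p1, p2⟩ := pow_bounds (K' := 0) (K := K) hθ (hK.trans (by linarith only [hδ16]))
  have hlo : (1 - K * θ) * Z ≤ (D * z1 : ℝ) / z2 := by
    rw [hv]
    calc (1 - K * θ) * Z ≤ (1 - θ) ^ K * Z := by (clear * - p1 hZ0; gcongr)
      _ = D * ((1 - θ) ^ K * (Z / D * (1 / 1))) := by (clear * - hD; field_simp)
      _ ≤ D * ((z1 : ℝ) / z2) := by (clear * - h1 hD; gcongr)
  have hhi : (D * z1 : ℝ) / z2 ≤ (1 + 2 * (K * θ)) * Z := by
    rw [hv]
    calc D * ((z1 : ℝ) / z2) ≤ D * ((1 + θ) ^ K * (Z / D * (1 / 1))) := by (clear * - h2 hD; gcongr)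
      _ = (1 + θ) ^ K * Z := by (clear * - hD hθ; field_simp)
      _ ≤ (1 + 2 * (K * θ)) * Z := by gcongr
  have hKθ0 : 0 ≤ K * θ := by (clear * - hθ; positivity)
  apply round_bounds N z1 z2 D hz2 e he
  · intro hN
    rw [hN] at hZ2
    push_cast at hZ2
    have h3 : Z ≤ 1 / 16 := by linarith only [ht, hδ16, hZ2]
    calc (D * z1 : ℝ) / z2 ≤ (1 + 2 * (K * θ)) * Z := hhi
      _ ≤ (1 + 2 * (1 / 16)) * (1 / 16) := by gcongr; linarith only [hK, hδ16]
      _ < 1 / 2 := by norm_num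
  · intro hN
    have hN1 : (1 : ℝ) ≤ N := by exact_mod_cast Nat.one_le_iff_ne_zero.2 hN
    have h5 : 4 * δ * N ≤ N / (2 * e) := by
      calc 4 * δ * N ≤ 1 / (2 * e) * N := by (clear * - hδe hN; gcongr)
        _ = N / (2 * e) := by ring
    rw [abs_le]
    constructor
    · have h6 : (1 - δ) * N ≤ (1 - K * θ) * Z := by
        apply mul_le_mul _ hZ1 hN0 _
        · linarith only [hK]
        · linarith only [hK, hδ16]
      nlinarith only [hlo, h5, h6, ht0, ht]
    · have h6 : (1 + 2 * (K * θ)) * Z ≤ (1 + 2 * δ) * (N + δ) := by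
        apply mul_le_mul _ _ hZ0 _
        · linarith only [hK]
        · linarith only [hZ2, ht]
        · positivity
      nlinarith only [hZ2, hhi, h5, hK, ht, hN1, hZ1, hδ16]

theorem prob_false (L : ℕ) {P : List Bool → Prop} (h : ∀ w, w.length = L → ¬ P w) :
    prob L P = 0 := by
  apply le_antisymm _ (prob_nonneg _ _)
  calc prob L P ≤ prob L (fun _ => False) := prob_mono L fun w hw hP => h w hw hP
    _ = 0 := by simp [prob]

theorem alg_eq (c1 c2 d n e l : ℕ) (G : SimpleGraph (Fin n)) (hd : 0 < d) (w : List Bool)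
    (hw : w.length = pp n e l ^ d) :
    alg c1 c2 d ((rows G, (⟨e⟩, ⟨l⟩)), ⟨w⟩) =
      out (rows G) (par c1 c2 n (pp n e l)) ⟨w⟩ := by
  unfold alg
  simp only
  rw [length_rows, hw, root_pow hd]

theorem out_zero (R : List Raw) (P : Par) (w : Raw) (h : R.length = 0) : out R P w = 1 := by
  unfold out allStages
  rw [h]
  simp only [Nat.zero_mod, zero_ne_one, ↓reduceIte, dfac, Nat.zero_div, List.range_zero, List.map_nil, List.prod_nil, zero_mul, mul_zero, Function.iterate_zero, id_eq, mul_one, Nat.reduceAdd, Nat.reduceDiv]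

theorem alg_good_of (c1 C : ℕ) (hRG : RoundsGood c1) (hMO : MixedOf c1 C) :
    ∃ c2 d : ℕ, 0 < d ∧ ∀ (n : ℕ) (G : SimpleGraph (Fin n)) (e l : ℕ), 0 < e →
      prob (((n + 2) ^ Nat.log 2 (n + 2) * (e + l + 2)) ^ d) (fun w =>
        ¬ ((1 - 1 / (e : ℝ)) * numPM G ≤ (alg c1 c2 d ((rows G, (⟨e⟩, ⟨l⟩)), ⟨w⟩) : ℝ) ∧
          (alg c1 c2 d ((rows G, (⟨e⟩, ⟨l⟩)), ⟨w⟩) : ℝ) ≤ (1 + 1 / (e : ℝ)) * numPM G)) ≤
        (1 / 2) ^ l := by
  have hd : 0 < e4 c1 C := by unfold e4; omega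
  refine ⟨e2 c1 C, e4 c1 C, hd, ?_⟩
  intro n G e l he
  have he1 : (1 : ℝ) ≤ e := by exact_mod_cast he
  change prob (pp n e l ^ e4 c1 C) _ ≤ _
  rcases Nat.even_or_odd n with hn | hn
  swap
  · rw [prob_false]
    · positivity
    · intro w hw h
      apply h
      rw [alg_eq c1 _ _ n e l G hd w hw, numPM_odd hn]
      have : out (rows G) (par c1 (e2 c1 C) n (pp n e l)) ⟨w⟩ = 0 := by
        unfold out
        rw [length_rows, if_pos (Nat.odd_iff.1 hn)]
      rw [this]
      simp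
  rcases Nat.eq_zero_or_pos n with h0 | hpos
  · rw [prob_false]
    · (clear * -; positivity)
    · intro w hw h
      apply h
      rw [alg_eq c1 _ _ n e l G hd w hw]
      have h1 : out (rows G) (par c1 (e2 c1 C) n (pp n e l)) ⟨w⟩ = 1 :=
        out_zero _ _ _ (by rw [length_rows, h0])
      have h2 : numPM G = 1 := by
        subst h0
        rw [numPM_eq_natCard]
        have h3 : Nonempty {M : PM 0 // ∀ x, G.Adj x (M.1 x)} :=
          ⟨⟨⟨fun x => x.elim0, fun x => x.elim0, fun x => x.elim0⟩, fun x => x.elim0⟩⟩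
        have h4 : Subsingleton {M : PM 0 // ∀ x, G.Adj x (M.1 x)} :=
          ⟨fun a b => Subtype.ext (Subtype.ext (funext fun x => x.elim0))⟩
        exact Nat.card_unique
      rw [h1, h2]
      have : 0 ≤ 1 / (e : ℝ) := by positivity
      constructor <;> push_cast <;> linarith only [this]
  -- the main case
  have hn2 : 2 ≤ n := by
    obtain ⟨m, rfl⟩ := hn
    omega
  have hlen := length_rows G
  set p := pp n e l with hp
  set P := par c1 (e2 c1 C) n p with hP
  set η := eta c1 n e l with hη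
  have hPOK : ParOK c1 (rows G).length P η := by
    rw [hlen]
    exact parOK c1 C n e l
  have hTok : (2 : ℝ) ^ (C * (Nat.size (rows G).length + 1) ^ 2 +
      2 * Nat.size (rows G).length + 1) *
      ((4 * (rows G).length * (P.W + P.F + Nat.size (rows G).length) : ℕ) +
        4 * Real.logb 2 (1 / η)) ≤ P.T := by
    rw [hlen]
    exact T_ok c1 C n e l
  have heven : Even (rows G).length := by rwa [hlen]
  have h2' : 2 ≤ (rows G).length := by rwa [hlen]
  have hmix := hMO (rows G) (adj_rows_symm G) heven h2' P η hPOK hTok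
  have hK : rds n e l = (rows G).length * ((rows G).length * P.W) := by
    rw [hlen]
    rfl
  have hest : EstOK (rows G) P.W P.F 0 (A0 (rows G).length P.F) := by
    apply estOK_zero _ _ _ heven h2'
    have h3 := par_F (four_le_pp n e l) (n_le_pp n e l)
    have h4 : Nat.size ((rows G).length - 1) ≤ n := by
      rw [hlen]
      exact (size_le_self _).trans (by omega)
    have h5 : P.F = pp n e l ^ 7 := rfl
    rw [h5]
    have h6 : n ≤ n * pp n e l ^ 2 := Nat.le_mul_of_pos_right _ (by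
      have := four_le_pp n e l
      (clear * - this; positivity))
    (clear * - hn2 hlen h3 h4 h5 h6; omega)
  obtain ⟨r, hr⟩ : ∃ r, p ^ e4 c1 C = rds n e l * (2 ^ P.σ * (P.T * P.ℓ + P.L)) + r :=
    ⟨_, (Nat.add_sub_cancel' (bits_le c1 C n e l)).symm⟩
  have hmain := hRG (rows G) (adj_rows_symm G) heven h2' P η hPOK hmix (rds n e l) 0 r
    (A0 (rows G).length P.F) 1 1 hest one_pos one_pos
  have hfail : (rds n e l : ℝ) * (((rows G).length + 2 : ℕ) *
      (2 * Real.exp (-(((2 ^ P.σ : ℕ) : ℝ) * η ^ 2 / 4)))) ≤ (1 / 2) ^ l := by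
    rw [hlen]
    exact failure_le c1 C n e l
  rw [← hr] at hmain
  refine (prob_mono _ ?_).trans (hmain.trans hfail)
  intro w hw hbad hgood
  apply hbad
  clear hbad
  rw [alg_eq c1 _ _ n e l G hd w hw]
  obtain ⟨g1, g2, g3⟩ := hgood
  have hout : out (rows G) (par c1 (e2 c1 C) n p) ⟨w⟩ =
      (2 * (dfac n * ((stage (rows G) P)^[rds n e l]
        ((A0 (rows G).length P.F, (0, (1, 1))), ⟨w⟩)).1.2.2.1) +
        ((stage (rows G) P)^[rds n e l]
        ((A0 (rows G).length P.F, (0, (1, 1))), ⟨w⟩)).1.2.2.2) /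
      (2 * ((stage (rows G) P)^[rds n e l]
        ((A0 (rows G).length P.F, (0, (1, 1))), ⟨w⟩)).1.2.2.2) := by
    unfold out allStages
    rw [if_neg (by rw [hlen]; have := Nat.even_iff.1 hn; omega), ← hP, ← hK, hlen]
  rw [hout]
  set z := ((stage (rows G) P)^[rds n e l]
        ((A0 (rows G).length P.F, (0, (1, 1))), ⟨w⟩)).1.2.2 with hz
  have hZ0 : Zs (rows G) P.W 0 = dfac n := by
    rw [Zs_zero _ _ heven, hlen]
  have hZK := Zs_final G P.W
  have hrK : 0 + rds n e l = n * (n * P.W) := by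
    rw [zero_add]
    rfl
  rw [hrK, hZ0] at g2 g3
  push_cast at g2 g3
  exact final_arith (numPM G) (dfac n) z.1 z.2 (rds n e l) (Zs (rows G) P.W (n * (n * P.W)))
    (32 * η) (Fintype.card (PM n) * (2 : ℝ) ^ (-((pp n e l ^ 2 : ℕ) : ℤ))) e he1 g1 (dfac_pos n)
    (by have := eta_pos c1 n e l; (clear * - this; positivity)) (acc_le c1 n e l) (rest_le n e l) (by (clear * -; positivity))
    hZK.1 hZK.2 g2 g3

end Vale.Agent.P308.Alg
end

section

/-!
# P308, polynomial version: the final probability bound, from the analysis of the stages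
-/

set_option linter.all false

namespace Vale.Agent.P308.PA

open Vale.Agent.Lib.PolyTime Vale.Agent.P308.Alg Finset

theorem out_zero (run : List (List ℕ) → Raw → List ℕ) (B : ℕ) (R : List Raw) (P : Par) (w : Raw)
    (h : R.length = 0) : out run B R P w = 1 := by
  unfold out allStages
  rw [h]
  simp only [Nat.zero_mod, zero_ne_one, ↓reduceIte, dfac, Nat.zero_div, List.range_zero, List.map_nil, List.prod_nil, zero_mul, mul_zero, Function.iterate_zero, id_eq, mul_one, Nat.reduceAdd, Nat.reduceDiv]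

theorem out_odd (run : List (List ℕ) → Raw → List ℕ) (B : ℕ) (R : List Raw) (P : Par) (w : Raw)
    (h : R.length % 2 = 1) : out run B R P w = 0 := by
  unfold out
  rw [if_pos h]

theorem numPM_fin_zero (G : SimpleGraph (Fin 0)) : numPM G = 1 := by
  rw [numPM_eq_natCard]
  have h3 : Nonempty {M : PM 0 // ∀ x, G.Adj x (M.1 x)} :=
    ⟨⟨⟨fun x => x.elim0, fun x => x.elim0, fun x => x.elim0⟩, fun x => x.elim0⟩⟩
  have h4 : Subsingleton {M : PM 0 // ∀ x, G.Adj x (M.1 x)} :=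
    ⟨fun a b => Subtype.ext (Subtype.ext (funext fun x => x.elim0))⟩
  exact Nat.card_unique

/-- The final probability bound for given parameters. -/
theorem out_good (c1 C : ℕ) (hRG : RoundsGood c1) (hMO : MixedOf c1 C) (n e l N : ℕ)
    (G : SimpleGraph (Fin n)) (he : 0 < e) (hn : Even n) (hn2 : 2 ≤ n) (P : Par) (η : ℝ)
    (hP : ParOK c1 n P η) (hS : SampOK C n P η) (hWF : Nat.size (n - 1) ≤ P.F)
    (hbits : n * (n * P.W) * (2 ^ P.s * (P.B + P.L)) ≤ N)
    (hfail : ((n * (n * P.W) : ℕ) : ℝ) * ((n + 2 : ℕ) *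
      (2 * Real.exp (-(((2 ^ P.s : ℕ) : ℝ) * η ^ 2 / 4)))) ≤ (1 / 2) ^ l)
    (hacc : ((n * (n * P.W) : ℕ) : ℝ) * (32 * η) ≤ 1 / (8 * (e : ℝ) + 8))
    (hrest : (Fintype.card (PM n) : ℝ) * (2 : ℝ) ^ (-(P.W : ℤ)) ≤ 1 / (8 * (e : ℝ) + 8)) :
    prob N (fun w =>
      ¬ ((1 - 1 / (e : ℝ)) * numPM G ≤ (out (runX n P) P.B (rows G) P ⟨w⟩ : ℝ) ∧
        (out (runX n P) P.B (rows G) P ⟨w⟩ : ℝ) ≤ (1 + 1 / (e : ℝ)) * numPM G)) ≤
      (1 / 2) ^ l := by
  have he1 : (1 : ℝ) ≤ e := by exact_mod_cast he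
  have hlen := length_rows G
  have hPOK : ParOK c1 (rows G).length P η := by rwa [hlen]
  have hSOK : SampOK C (rows G).length P η := by rwa [hlen]
  have heven : Even (rows G).length := by rwa [hlen]
  have h2' : 2 ≤ (rows G).length := by rwa [hlen]
  have hmix := hMO (rows G) (adj_rows_symm G) heven h2' P η hPOK hSOK
  have hest : EstOK (rows G) P.W P.F 0 (A0 (rows G).length P.F) := by
    apply estOK_zero _ _ _ heven h2'
    rwa [hlen]
  obtain ⟨r, hr⟩ : ∃ r, N = n * (n * P.W) * (2 ^ P.s * (P.B + P.L)) + r :=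
    ⟨_, (Nat.add_sub_cancel' hbits).symm⟩
  have hmain := hRG (rows G) (adj_rows_symm G) heven h2' P η hPOK hmix (n * (n * P.W)) 0 r
    (A0 (rows G).length P.F) 1 1 hest one_pos one_pos
  rw [← hr] at hmain
  have hfail' : ((n * (n * P.W) : ℕ) : ℝ) * (((rows G).length + 2 : ℕ) *
      (2 * Real.exp (-(((2 ^ P.s : ℕ) : ℝ) * η ^ 2 / 4)))) ≤ (1 / 2) ^ l := by
    rw [hlen]
    exact hfail
  refine (prob_mono _ ?_).trans (hmain.trans hfail')
  intro w hw hbad hgood
  apply hbad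
  clear hbad
  rw [hlen] at hgood
  obtain ⟨g1, g2, g3⟩ := hgood
  obtain ⟨z, hz⟩ : ∃ z, z = ((stage (runX n P) P.B (rows G) P)^[n * (n * P.W)]
        ((A0 n P.F, (0, (1, 1))), ⟨w⟩)).1.2.2 := ⟨_, rfl⟩
  rw [← hz] at g1 g2 g3
  have hout : out (runX n P) P.B (rows G) P ⟨w⟩ = (2 * (dfac n * z.1) + z.2) / (2 * z.2) := by
    unfold out allStages
    rw [if_neg (by rw [hlen]; have := Nat.even_iff.1 hn; (clear * - hlen this; omega)), hlen, ← hz]
  rw [hout]
  have hZ0 : Zs (rows G) P.W 0 = dfac n := by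
    rw [Zs_zero _ _ heven, hlen]
  have hZK := Zs_final G P.W
  rw [zero_add, hZ0] at g2 g3
  push_cast at g2 g3
  have hη := hP.ηpos
  exact final_arith (numPM G) (dfac n) z.1 z.2 (n * (n * P.W)) (Zs (rows G) P.W (n * (n * P.W)))
    (32 * η) (Fintype.card (PM n) * (2 : ℝ) ^ (-(P.W : ℤ))) e he1 g1 (dfac_pos n)
    (by (clear * - hη; positivity)) hacc hrest (by (clear * -; positivity)) hZK.1 hZK.2 g2 g3

end Vale.Agent.P308.PA
end

section

/-!
# P308, polynomial version: the parameters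

`p = n + e + l + 2` is the size parameter; all parameters are powers of `p`, or multiples of
`Nat.size p`.
-/

set_option linter.all false

namespace Vale.Agent.P308.PA

open Vale.Agent.Lib.PolyTime Vale.Agent.P308.Alg Finset

/-- The parameters. -/
def parP (c1 C n p : ℕ) : Par :=
  par c1 (k2 c1) (k3 c1 C) (k4 c1 C) (k5 c1 C) (k6 c1 C) n p

/-- The accuracy of the samples. -/
noncomputable def eta (c1 p : ℕ) : ℝ := 1 / (p : ℝ) ^ k1 c1

/-- The number of rounds. -/
def rds (n p : ℕ) : ℕ := n * (n * p ^ 2)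

section

variable {c1 C n e l p : ℕ}

theorem pz_facts (he : 0 < e) (hn : 2 ≤ n) (hp : p = n + e + l + 2) :
    5 ≤ p ∧ n + 3 ≤ p ∧ e + 2 ≤ p ∧ l ≤ p := by omega

theorem eta_pos (hp : 0 < p) : 0 < eta c1 p := by
  have : (0 : ℝ) < p := by exact_mod_cast hp
  unfold eta
  positivity

theorem parOK (C : ℕ) (hp : 4 ≤ p) (hn : n ≤ p) :
    ParOK c1 n (parP c1 C n p) (eta c1 p) where
  c := rfl
  F := par_F hp hn
  L := par_L hp hn
  ηpos := eta_pos (by omega)
  ηle := by
    have h0 : (0 : ℝ) < p := by exact_mod_cast (by omega : 0 < p)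
    unfold eta
    rw [div_mul_eq_mul_div, one_mul, div_le_one (by positivity)]
    exact_mod_cast two_pow_c1_le hp hn c1

/-! ### The parameters of the sampler -/

/-- The basic quantity of the conditions. -/
theorem baseR_le (hp : 4 ≤ p) (hn : n + 2 ≤ p) :
    ((n : ℝ) + 2) ^ C * (((p ^ k6 c1 C : ℕ) : ℝ) + ((p ^ 8 : ℕ) : ℝ)) / eta c1 p ≤
      (p : ℝ) ^ ka c1 C := by
  unfold eta
  rw [div_div_eq_mul_div, div_one]
  exact_mod_cast base_le hp hn c1 C

theorem base_nonneg :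
    0 ≤ ((n : ℝ) + 2) ^ C * (((p ^ k6 c1 C : ℕ) : ℝ) + ((p ^ 8 : ℕ) : ℝ)) / eta c1 p := by
  unfold eta
  positivity

theorem sampOK (hp : 4 ≤ p) (hn : n + 2 ≤ p) :
    SampOK C n (parP c1 C n p) (eta c1 p) where
  b := rfl
  D := by
    show p ^ 2 + p ^ 7 + 1 ≤ p ^ 8
    have h2 : p ^ 2 ≤ p ^ 7 := Nat.pow_le_pow_right (by omega) (by norm_num)
    have h3 : 1 ≤ p ^ 7 := Nat.one_le_pow _ _ (by omega)
    calc p ^ 2 + p ^ 7 + 1 ≤ 4 * p ^ 7 := by omega
      _ ≤ p * p ^ 7 := Nat.mul_le_mul_right _ hp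
      _ = p ^ 8 := by ring
  σ := by
    show (((n : ℝ) + 2) ^ C * (((p ^ k6 c1 C : ℕ) : ℝ) + ((p ^ 8 : ℕ) : ℝ)) / eta c1 p) ^ 2 ≤
      2 ^ (k3 c1 C * Nat.size p)
    refine (pow_le_pow_left₀ base_nonneg (baseR_le hp hn) 2).trans ?_
    exact_mod_cast sq_le hp c1 C
  h := by
    show ((n : ℝ) + 2) ^ C * 2 ^ (k3 c1 C * Nat.size p) *
      (((p ^ k6 c1 C : ℕ) : ℝ) + ((p ^ 8 : ℕ) : ℝ)) / eta c1 p ≤ 2 ^ (k4 c1 C * Nat.size p)
    have h1 : (p : ℝ) ^ ka c1 C * 2 ^ (k3 c1 C * Nat.size p) ≤ 2 ^ (k4 c1 C * Nat.size p) := by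
      exact_mod_cast mesh_le hp c1 C
    refine le_trans ?_ h1
    calc ((n : ℝ) + 2) ^ C * 2 ^ (k3 c1 C * Nat.size p) *
          (((p ^ k6 c1 C : ℕ) : ℝ) + ((p ^ 8 : ℕ) : ℝ)) / eta c1 p
        = (((n : ℝ) + 2) ^ C * (((p ^ k6 c1 C : ℕ) : ℝ) + ((p ^ 8 : ℕ) : ℝ)) / eta c1 p) *
          2 ^ (k3 c1 C * Nat.size p) := by ring
      _ ≤ _ := mul_le_mul_of_nonneg_right (baseR_le hp hn) (by positivity)
  T := by
    show ((2 : ℝ) ^ (k3 c1 C * Nat.size p)) ^ 4 *
      (((n : ℝ) + 2) ^ C * (((p ^ k6 c1 C : ℕ) : ℝ) + ((p ^ 8 : ℕ) : ℝ)) / eta c1 p) ^ 2 ≤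
      ((p ^ k5 c1 C : ℕ) : ℝ)
    have h1 : ((2 : ℝ) ^ (k3 c1 C * Nat.size p)) ^ 4 * ((p : ℝ) ^ ka c1 C) ^ 2 ≤
        ((p ^ k5 c1 C : ℕ) : ℝ) := by
      have h := steps_le hp c1 C
      rw [← @Nat.cast_le ℝ] at h
      rw [Nat.cast_mul, Nat.cast_pow, Nat.cast_pow, Nat.cast_pow, Nat.cast_pow] at h
      simpa only [Nat.cast_pow, ge_iff_le, Nat.cast_ofNat] using h
    refine le_trans ?_ h1
    exact mul_le_mul_of_nonneg_left (pow_le_pow_left₀ base_nonneg (baseR_le hp hn) 2)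
      (by positivity)
  X := by
    show (n : ℝ) * Nat.size n + ((k3 c1 C * Nat.size p : ℕ) : ℝ) +
      ((k4 c1 C * Nat.size p : ℕ) : ℝ) + Real.logb 2 (1 / eta c1 p) + C ≤
      ((p ^ k6 c1 C : ℕ) : ℝ)
    have hp0 : (0 : ℝ) < p := by exact_mod_cast (by omega : 0 < p)
    have hlog : Real.logb 2 (1 / eta c1 p) = k1 c1 * Real.logb 2 p := by
      unfold eta
      rw [one_div_one_div, Real.logb_pow]
    have hlogp : Real.logb 2 p ≤ p := by
      rw [Real.logb_le_iff_le_rpow (by norm_num) hp0, Real.rpow_natCast]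
      exact_mod_cast (Nat.lt_two_pow_self (n := p)).le
    rw [hlog]
    have h1 : (k1 c1 : ℝ) * Real.logb 2 p ≤ k1 c1 * p := by (clear * - hlogp; gcongr)
    have h2 := start_num_le hp (by omega : n ≤ p) c1 C
    have h3 : (n : ℝ) * Nat.size n + ((k3 c1 C * Nat.size p : ℕ) : ℝ) +
      ((k4 c1 C * Nat.size p : ℕ) : ℝ) + k1 c1 * p + C ≤ ((p ^ k6 c1 C : ℕ) : ℝ) := by
      exact_mod_cast h2
    linarith only [h1, h3]
  ℓ := bits_step_le hp (by omega) c1 C

/-! ### The rounds -/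

theorem rds_le (hn : n ≤ p) : rds n p ≤ p ^ 4 := by
  unfold rds
  calc n * (n * p ^ 2) ≤ p * (p * p ^ 2) := by gcongr
    _ = p ^ 4 := by ring

theorem bits_le (hp : 4 ≤ p) (hn : n ≤ p) :
    rds n p * (2 ^ (parP c1 C n p).s * ((parP c1 C n p).B + (parP c1 C n p).L)) ≤
      p ^ k7 c1 C :=
  total_bits_le hp hn c1 C

theorem failure_le (hp : 5 ≤ p) (hn : n + 2 ≤ p) (hl : l ≤ p) :
    (rds n p : ℝ) * ((n + 2 : ℕ) * (2 * Real.exp
      (-(((2 ^ (parP c1 C n p).s : ℕ) : ℝ) * eta c1 p ^ 2 / 4)))) ≤ (1 / 2) ^ l := by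
  have hr := rds_le (n := n) (p := p) (by omega)
  show (rds n p : ℝ) * ((n + 2 : ℕ) * (2 * Real.exp
      (-(((2 ^ (k2 c1 * Nat.size p) : ℕ) : ℝ) * eta c1 p ^ 2 / 4)))) ≤ (1 / 2) ^ l
  unfold eta
  have hp0 : (0 : ℝ) < p := by exact_mod_cast (by omega : 0 < p)
  have hp1 : (1 : ℝ) ≤ p := by exact_mod_cast (by omega : 1 ≤ p)
  have h5p : (5 : ℝ) ≤ p := by exact_mod_cast hp
  have h1' : (p : ℝ) ^ k2 c1 ≤ ((2 ^ (k2 c1 * Nat.size p) : ℕ) : ℝ) := by
    exact_mod_cast pow_le_two_pow (k2 c1) p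
  have h2 : 7 * (p : ℝ) ≤ ((2 ^ (k2 c1 * Nat.size p) : ℕ) : ℝ) *
      (1 / (p : ℝ) ^ k1 c1) ^ 2 / 4 := by
    have h3 : (p : ℝ) ^ k2 c1 * (1 / (p : ℝ) ^ k1 c1) ^ 2 = (p : ℝ) ^ 4 := by
      have h4 : k2 c1 = 4 + k1 c1 * 2 := by unfold k2; ring
      rw [h4, pow_add, pow_mul]
      field_simp
    have h5 : 28 * (p : ℝ) ≤ (p : ℝ) ^ 4 := by
      calc 28 * (p : ℝ) ≤ (p : ℝ) ^ 3 * p := by
            have : (28 : ℝ) ≤ (p : ℝ) ^ 3 := by
              calc (28 : ℝ) ≤ 5 ^ 3 := by norm_num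
                _ ≤ (p : ℝ) ^ 3 := by gcongr
            gcongr
        _ = (p : ℝ) ^ 4 := by ring
    have h6 : (p : ℝ) ^ 4 ≤ ((2 ^ (k2 c1 * Nat.size p) : ℕ) : ℝ) *
        (1 / (p : ℝ) ^ k1 c1) ^ 2 := by
      rw [← h3]
      (clear * - h1' hp; gcongr)
    linarith only [h5, h6]
  have h3 : Real.exp (-(((2 ^ (k2 c1 * Nat.size p) : ℕ) : ℝ) *
      (1 / (p : ℝ) ^ k1 c1) ^ 2 / 4)) ≤ Real.exp (-(7 * (p : ℝ))) := by
    apply Real.exp_le_exp.2
    linarith only [h2]
  have h4 : (rds n p : ℝ) * ((n + 2 : ℕ) * 2) ≤ (p : ℝ) ^ 6 := by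
    have h5 : rds n p * ((n + 2) * 2) ≤ p ^ 6 := by
      calc rds n p * ((n + 2) * 2) ≤ p ^ 4 * (p * p) :=
            Nat.mul_le_mul hr (Nat.mul_le_mul hn (by omega))
        _ = p ^ 6 := by ring
    exact_mod_cast h5
  have h5 : (p : ℝ) ^ 6 ≤ Real.exp (6 * p) := by
    have h6 : (p : ℝ) ≤ Real.exp p := by
      have := Real.add_one_le_exp (p : ℝ)
      linarith only [this]
    calc (p : ℝ) ^ 6 ≤ Real.exp p ^ 6 := by gcongr
      _ = Real.exp (6 * p) := by rw [← Real.exp_nat_mul]; norm_num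
  have h6 : Real.exp (-(p : ℝ)) ≤ (1 / 2) ^ l := by
    have h7 : (1 / 2 : ℝ) ^ l = Real.exp (-(l * Real.log 2)) := by
      rw [Real.exp_neg, Real.exp_nat_mul, Real.exp_log (by norm_num)]
      simp
    rw [h7]
    apply Real.exp_le_exp.2
    have h8 : Real.log 2 ≤ 1 := by
      have := Real.log_two_lt_d9
      linarith only [this]
    have h9 : (l : ℝ) ≤ p := by exact_mod_cast hl
    have h10 : (l : ℝ) * Real.log 2 ≤ l * 1 := by gcongr
    linarith only [h9, h10]
  set E := Real.exp (-(((2 ^ (k2 c1 * Nat.size p) : ℕ) : ℝ) *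
      (1 / (p : ℝ) ^ k1 c1) ^ 2 / 4)) with hE
  calc (rds n p : ℝ) * ((n + 2 : ℕ) * (2 * E))
      = ((rds n p : ℝ) * ((n + 2 : ℕ) * 2)) * E := by ring
    _ ≤ Real.exp (6 * p) * Real.exp (-(7 * (p : ℝ))) := by
        apply mul_le_mul (h4.trans h5) h3 (by positivity) (by positivity)
    _ = Real.exp (-(p : ℝ)) := by
        rw [← Real.exp_add]
        congr 1
        ring
    _ ≤ (1 / 2) ^ l := h6

theorem acc_le (hp : 5 ≤ p) (hn : n ≤ p) (he : e + 1 ≤ p) :
    (rds n p : ℝ) * (32 * eta c1 p) ≤ 1 / (8 * (e : ℝ) + 8) := by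
  have hr := rds_le hn
  unfold eta
  have hp0 : (0 : ℝ) < p := by exact_mod_cast (by omega : 0 < p)
  have h1 : rds n p * 32 * (8 * e + 8) ≤ p ^ k1 c1 := by
    calc rds n p * 32 * (8 * e + 8) = 256 * (rds n p * (e + 1)) := by ring
      _ ≤ p ^ 4 * (p ^ 4 * p) := by
          have h2 : 256 ≤ p ^ 4 := by
            calc 256 ≤ 5 ^ 4 := by norm_num
              _ ≤ p ^ 4 := Nat.pow_le_pow_left hp 4
          gcongr
      _ = p ^ 9 := by ring
      _ ≤ p ^ k1 c1 := Nat.pow_le_pow_right (by omega) (by unfold k1; omega)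
  have h2 : (rds n p : ℝ) * 32 * (8 * e + 8) ≤ (p : ℝ) ^ k1 c1 := by exact_mod_cast h1
  rw [le_div_iff₀ (by positivity)]
  have h3 : (rds n p : ℝ) * (32 * (1 / (p : ℝ) ^ k1 c1)) * (8 * e + 8) =
      ((rds n p : ℝ) * 32 * (8 * e + 8)) / (p : ℝ) ^ k1 c1 := by ring
  rw [h3, div_le_one (by positivity)]
  exact h2

/-- The total weight of the matchings which are not matchings of the graph is small. -/
theorem rest_le (hp : 5 ≤ p) (hn : n + 3 ≤ p) (he : e + 2 ≤ p) :
    (Fintype.card (PM n) : ℝ) * (2 : ℝ) ^ (-((p ^ 2 : ℕ) : ℤ)) ≤ 1 / (8 * (e : ℝ) + 8) := by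
  have hcard := card_PM_le n
  have h1 : n * Nat.size n + (p + 3) ≤ p ^ 2 := by
    have h3 : n * Nat.size n ≤ n * n := Nat.mul_le_mul_left _ (size_le_self' n)
    nlinarith only [h3, hn]
  have h2 : 2 ^ (n * Nat.size n) * (8 * e + 8) ≤ 2 ^ (p ^ 2) := by
    calc 2 ^ (n * Nat.size n) * (8 * e + 8) ≤ 2 ^ (n * Nat.size n) * 2 ^ (p + 3) := by
          have h3 : e + 1 ≤ 2 ^ p := by
            have := Nat.lt_two_pow_self (n := p)
            omega
          have h4 : 8 * e + 8 ≤ 2 ^ (p + 3) := by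
            rw [pow_add]
            omega
          (clear * - h4; gcongr)
      _ = 2 ^ (n * Nat.size n + (p + 3)) := by rw [pow_add 2 (n * Nat.size n)]
      _ ≤ 2 ^ (p ^ 2) := Nat.pow_le_pow_right (by norm_num) h1
  have h3 : (Fintype.card (PM n) : ℝ) * (8 * e + 8) ≤ (2 : ℝ) ^ (p ^ 2) := by
    have : Fintype.card (PM n) * (8 * e + 8) ≤ 2 ^ (p ^ 2) :=
      (Nat.mul_le_mul_right _ hcard).trans h2
    exact_mod_cast this
  rw [le_div_iff₀ (by positivity), zpow_neg, zpow_natCast, mul_right_comm]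
  rw [← div_eq_mul_inv, div_le_one (by positivity)]
  exact h3

end

end Vale.Agent.P308.PA
end

section

/-!
# P308, module A, part 3: the comparison theorem for virtual edge weights (helper52)

If `lam` are edge weights, `r` a root, `α x = Z {x,r} / Z ∅`, and `w` are weights with
`w(x,y) α x α y ≤ δ t` whenever `x,y` are joined by a path of edges with
`α α lam ≥ t`, and `w(x,r) α x ≤ δ`, `64 n³ δ ≤ 1`, then `Z_{lam+w} ∅ ≤ 2 Z_lam ∅` and
`Z_{lam+w} {u,r} ≤ 2 Z_lam {u,r}`.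
-/

namespace Vale.Agent.P308.Soft

open Finset

variable {V : Type*} [Fintype V] [DecidableEq V]
variable {lam lam' : Sym2 V → ℝ} {Z Z' : Finset V → ℝ}

/-- The virtual weights `w` are admissible for `(lam, Z, r)` with constant `δ`. -/
structure Virt (lam : Sym2 V → ℝ) (Z : Finset V → ℝ) (r : V) (δ : ℝ) (w : Sym2 V → ℝ) :
    Prop where
  nonneg : ∀ e, 0 ≤ w e
  pair : ∀ x y, x ≠ y → x ≠ r → y ≠ r → ∃ t : ℝ, 0 < t ∧ (SG lam Z r t).Reachable x y ∧
    w s(x, y) * (Z {x, r} * Z {y, r}) ≤ δ * t * Z ∅ * Z ∅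
  root : ∀ x, x ≠ r → w s(x, r) * Z {x, r} ≤ δ * Z ∅

/-- monotonicity in the weights (abstract hole sums) -/
theorem HoleSum.mono (h : HoleSum lam Z) (h' : HoleSum lam' Z') (hl : ∀ e, 0 ≤ lam e)
    (hle : ∀ e, ¬ e.IsDiag → lam e ≤ lam' e) :
    ∀ (N : ℕ) (S : Finset V), (Sᶜ).card = N → Z S ≤ Z' S := by
  intro N
  induction N using Nat.strong_induction_on with
  | _ N ih =>
  intro S hN
  by_cases hu : S = univ
  · rw [hu, h.top, h'.top]
  · obtain ⟨a, ha⟩ : ∃ a, a ∉ S := by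
      by_contra hcon
      push Not at hcon
      exact hu (Finset.eq_univ_iff_forall.2 hcon)
    rw [h.expand S a ha, h'.expand S a ha]
    refine Finset.sum_le_sum fun y hy => ?_
    have hy' : y ≠ a ∧ y ∉ S := by simpa [not_or] using hy
    have hlt : ((insert y (insert a S))ᶜ).card < N := by
      rw [← hN]
      apply Finset.card_lt_card
      rw [Finset.ssubset_iff_of_subset]
      · exact ⟨a, by simpa using ha, by simp only [compl_insert, mem_erase, ne_eq, not_true_eq_false, mem_compl, false_and, and_false, not_false_eq_true]⟩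
      · intro z hz
        simp only [Finset.mem_compl, Finset.mem_insert, not_or] at hz ⊢
        exact hz.2.2
    exact mul_le_mul (hle _ (by simpa using hy'.1.symm)) (ih _ hlt _ rfl) (h.nonneg _)
      ((hl _).trans (hle _ (by simpa using hy'.1.symm)))

/-- uniqueness of hole sums (the diagonal values of the weights do not matter) -/
theorem HoleSum.ext_of (h : HoleSum lam Z) (h' : HoleSum lam' Z')
    (hle : ∀ e, ¬ e.IsDiag → lam' e = lam e) :
    ∀ (N : ℕ) (S : Finset V), (Sᶜ).card = N → Z' S = Z S := by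
  intro N
  induction N using Nat.strong_induction_on with
  | _ N ih =>
  intro S hN
  by_cases hu : S = univ
  · rw [hu, h.top, h'.top]
  · obtain ⟨a, ha⟩ : ∃ a, a ∉ S := by
      by_contra hcon
      push Not at hcon
      exact hu (Finset.eq_univ_iff_forall.2 hcon)
    rw [h.expand S a ha, h'.expand S a ha]
    refine Finset.sum_congr rfl fun y hy => ?_
    have hy' : y ≠ a ∧ y ∉ S := by simpa [not_or] using hy
    have hlt : ((insert y (insert a S))ᶜ).card < N := by
      rw [← hN]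
      apply Finset.card_lt_card
      rw [Finset.ssubset_iff_of_subset]
      · exact ⟨a, by simpa using ha, by simp only [compl_insert, mem_erase, ne_eq, not_true_eq_false, mem_compl, false_and, and_false, not_false_eq_true]⟩
      · intro z hz
        simp only [Finset.mem_compl, Finset.mem_insert, not_or] at hz ⊢
        exact hz.2.2
    rw [hle _ (by simpa using hy'.1.symm), ih _ hlt _ rfl]

/-- One step: adding the virtual weight of one edge multiplies `Z ∅` and all `Z {u,r}` by at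
most `1 + 32 n δ`, as long as the current sums are at most twice the original ones. -/
theorem Virt.step {r : V} {δ : ℝ} {w : Sym2 V → ℝ} (hV : Virt lam Z r δ w)
    (h : HoleSum lam Z) (hl : ∀ e, 0 ≤ lam e) (h0 : 0 < Z ∅)
    {l₁ l₂ : Sym2 V → ℝ} {Z₁ Z₂ : Finset V → ℝ} (h₁ : HoleSum l₁ Z₁) (h₂ : HoleSum l₂ Z₂)
    (hl₁ : ∀ e, ¬ e.IsDiag → lam e ≤ l₁ e) (hl₁0 : ∀ e, 0 ≤ l₁ e)
    (hb0 : Z₁ ∅ ≤ 2 * Z ∅) (hbr : ∀ x, x ≠ r → Z₁ {x, r} ≤ 2 * Z {x, r})
    {p q : V} (hpq : p ≠ q) (hlam : ∀ e, e ≠ s(p, q) → ¬ e.IsDiag → l₂ e = l₁ e)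
    (hw : l₂ s(p, q) = l₁ s(p, q) + w s(p, q)) (hδ : 0 ≤ δ) (hcard : 1 ≤ Fintype.card V) :
    Z₂ ∅ ≤ (1 + 32 * Fintype.card V * δ) * Z₁ ∅ ∧
      ∀ u, u ≠ r → Z₂ {u, r} ≤ (1 + 32 * Fintype.card V * δ) * Z₁ {u, r} := by
  classical
  set n : ℝ := (Fintype.card V : ℝ) with hn
  have hn1 : (1 : ℝ) ≤ n := by rw [hn]; exact_mod_cast hcard
  have hnδ : 0 ≤ n * δ := mul_nonneg (by linarith only [hn1]) hδ
  have hmono : ∀ S, Z S ≤ Z₁ S := fun S => h.mono h₁ hl hl₁ _ S rfl
  have h10 : 0 < Z₁ ∅ := lt_of_lt_of_le h0 (hmono _)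
  have hw0 := hV.nonneg s(p, q)
  have hself : ∀ u, Z₁ {u, r} ≤ (1 + 32 * n * δ) * Z₁ {u, r} := by
    intro u
    have := mul_nonneg hnδ (h₁.nonneg {u, r})
    nlinarith only [this]
  -- the root case, for an edge `x r`
  have rootcase : ∀ x, x ≠ r → s(p, q) = s(x, r) →
      Z₂ ∅ ≤ (1 + 32 * n * δ) * Z₁ ∅ ∧
        ∀ u, u ≠ r → Z₂ {u, r} ≤ (1 + 32 * n * δ) * Z₁ {u, r} := by
    intro x hxr hs
    rw [hs] at hlam hw
    constructor
    · have hup := h₁.update h₂ hxr hlam hw ∅ (by simp) (by simp)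
      have hset : insert r (insert x (∅ : Finset V)) = {x, r} := by ext t; simp; (clear * -; tauto)
      rw [hset] at hup
      have h3 := hV.root x hxr
      have h4 : w s(x, r) * Z₁ {x, r} ≤ w s(x, r) * (2 * Z {x, r}) :=
        mul_le_mul_of_nonneg_left (hbr x hxr) (hV.nonneg _)
      have h5 : δ * Z ∅ ≤ δ * Z₁ ∅ := mul_le_mul_of_nonneg_left (hmono _) hδ
      have h6 : δ * Z₁ ∅ ≤ n * δ * Z₁ ∅ := by
        have : 0 ≤ δ * Z₁ ∅ := mul_nonneg hδ h10.le
        nlinarith only [hn1, this]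
      rw [hup]
      have h7 : 0 ≤ n * δ * Z₁ ∅ := mul_nonneg hnδ h10.le
      linarith
    · intro u hu
      rw [h₁.congr_of_mem h₂ hlam _ {u, r} rfl (Or.inr (by simp))]
      exact hself u
  by_cases hpr : p = r
  · subst hpr
    exact rootcase q hpq.symm Sym2.eq_swap
  by_cases hqr : q = r
  · subst hqr
    exact rootcase p hpq rfl
  -- generic case
  obtain ⟨t, ht, hreach, hwt⟩ := hV.pair p q hpq hpr hqr
  -- path in the new strong graph at level t/4
  have hsub : SG lam Z r t ≤ SG l₁ Z₁ r (t / 4) := by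
    intro a b hab
    refine ⟨hab.1, hab.2.1, hab.2.2.1, ?_⟩
    have h4 := hab.2.2.2
    have e1 : t / 4 * Z₁ ∅ * Z₁ ∅ ≤ t * Z ∅ * Z ∅ := by
      have : Z₁ ∅ * Z₁ ∅ ≤ (2 * Z ∅) * (2 * Z ∅) :=
        mul_le_mul hb0 hb0 h10.le (by linarith only [h0])
      have := mul_le_mul_of_nonneg_left this (by (clear * - ht; positivity) : 0 ≤ t / 4)
      nlinarith only [this]
    have e2 : Z {a, r} * Z {b, r} * lam s(a, b) ≤ Z₁ {a, r} * Z₁ {b, r} * l₁ s(a, b) := by
      refine mul_le_mul ?_ (hl₁ _ (by simpa using hab.1)) (hl _)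
        (mul_nonneg (h₁.nonneg _) (h₁.nonneg _))
      exact mul_le_mul (hmono _) (hmono _) (h.nonneg _) (h₁.nonneg _)
    linarith only [h4, e1, e2]
  obtain ⟨pw, hpath⟩ := (hreach.mono hsub).exists_isPath
  have hlen : (pw.length : ℝ) ≤ n := by
    rw [hn]
    exact_mod_cast hpath.length_lt.le
  have ht4 : 0 < t / 4 := by (clear * - ht; positivity)
  have nqr := h₁.nonneg {q, r}
  have npr := h₁.nonneg {p, r}
  have hwt1 : w s(p, q) * (Z₁ {p, r} * Z₁ {q, r}) ≤ 4 * (δ * t * Z₁ ∅ * Z₁ ∅) := by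
    have e1 : Z₁ {p, r} * Z₁ {q, r} ≤ (2 * Z {p, r}) * (2 * Z {q, r}) :=
      mul_le_mul (hbr p hpr) (hbr q hqr) nqr (by have := h.nonneg {p, r}; linarith only [this])
    have e2 := mul_le_mul_of_nonneg_left e1 hw0
    have e3 : δ * t * Z ∅ * Z ∅ ≤ δ * t * Z₁ ∅ * Z₁ ∅ := by
      have : Z ∅ * Z ∅ ≤ Z₁ ∅ * Z₁ ∅ := mul_le_mul (hmono _) (hmono _) h0.le h10.le
      have := mul_le_mul_of_nonneg_left this (mul_nonneg hδ ht.le)
      nlinarith only [this]
    nlinarith only [hwt, e2, e3]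
  constructor
  · have hup := h₁.update h₂ hpq hlam hw ∅ (by simp) (by simp)
    have hset : insert q (insert p (∅ : Finset V)) = {q, p} := by ext t; simp
    rw [hset] at hup
    have hb := h₁.pair_walk hl₁0 h10 ht4 hqr pw hpq.symm
    have hprod : 0 ≤ Z₁ {q, r} * Z₁ {p, r} := mul_nonneg nqr npr
    have hb2 : t / 4 * Z₁ {q, p} * Z₁ ∅ ≤ 2 * n * (Z₁ {q, r} * Z₁ {p, r}) :=
      hb.trans (by nlinarith only [hlen, hprod])
    have hb3 := mul_le_mul_of_nonneg_left hb2 hw0
    have hb4 : 2 * n * (w s(p, q) * (Z₁ {p, r} * Z₁ {q, r})) ≤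
        2 * n * (4 * (δ * t * Z₁ ∅ * Z₁ ∅)) :=
      mul_le_mul_of_nonneg_left hwt1 (by linarith only [hn1])
    have hb5 : (t / 4 * Z₁ ∅) * (w s(p, q) * Z₁ {q, p}) ≤
        (t / 4 * Z₁ ∅) * (32 * n * δ * Z₁ ∅) := by
      linarith only [hb3, hb4]
    have hb6 := le_of_mul_le_mul_left hb5 (mul_pos ht4 h10)
    rw [hup]
    linarith only [hb6]
  · intro u hu
    by_cases hmem : p = u ∨ q = u
    · rw [h₁.congr_of_mem h₂ hlam _ {u, r} rfl (by
        rcases hmem with h | h
        · left; simp [h]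
        · right; simp [h])]
      exact hself u
    · push Not at hmem
      have hup := h₁.update h₂ hpq hlam hw {u, r} (by simp [hmem.1, hpr]) (by simp [hmem.2, hqr])
      have hset : insert q (insert p ({u, r} : Finset V)) = {u, r, q, p} := by
        ext t; simp; (clear * - hmem; tauto)
      rw [hset] at hup
      have hb := h₁.four_walk hl₁0 h10 ht4 (u := u) hqr hu hmem.2.symm pw hpq.symm hmem.1.symm
      have nur := h₁.nonneg {u, r}
      have hprod : 0 ≤ Z₁ {u, r} * Z₁ {q, r} * Z₁ {p, r} := mul_nonneg (mul_nonneg nur nqr) npr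
      have hb2 : t / 4 * Z₁ {u, r, q, p} * Z₁ ∅ * Z₁ ∅ ≤
          2 * n * (Z₁ {u, r} * Z₁ {q, r} * Z₁ {p, r}) :=
        hb.trans (by nlinarith only [hlen, hprod])
      have hb3 := mul_le_mul_of_nonneg_left hb2 hw0
      have hb4 : (2 * n * Z₁ {u, r}) * (w s(p, q) * (Z₁ {p, r} * Z₁ {q, r})) ≤
          (2 * n * Z₁ {u, r}) * (4 * (δ * t * Z₁ ∅ * Z₁ ∅)) :=
        mul_le_mul_of_nonneg_left hwt1 (mul_nonneg (by linarith only [hn1]) nur)
      have hb5 : (t / 4 * Z₁ ∅ * Z₁ ∅) * (w s(p, q) * Z₁ {u, r, q, p}) ≤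
          (t / 4 * Z₁ ∅ * Z₁ ∅) * (32 * n * δ * Z₁ {u, r}) := by
        (clear * - hb3 hb4; linarith)
      have hb6 := le_of_mul_le_mul_left hb5 (mul_pos (mul_pos ht4 h10) h10)
      rw [hup]
      linarith only [hb6]

/-- **Comparison theorem.** -/
theorem Virt.compare {r : V} {δ : ℝ} {w : Sym2 V → ℝ} (hV : Virt lam Z r δ w)
    (h : HoleSum lam Z) (hl : ∀ e, 0 ≤ lam e) (h0 : 0 < Z ∅)
    (Zf : (Sym2 V → ℝ) → Finset V → ℝ)
    (hZf : ∀ l : Sym2 V → ℝ, (∀ e, 0 ≤ l e) → HoleSum l (Zf l))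
    (hδ : 0 ≤ δ) (hsmall : 64 * (Fintype.card V : ℝ) ^ 3 * δ ≤ 1)
    {Z' : Finset V → ℝ} (h' : HoleSum lam' Z') (hlam' : ∀ e, ¬ e.IsDiag → lam' e = lam e + w e) :
    Z' ∅ ≤ 2 * Z ∅ ∧ ∀ u, u ≠ r → Z' {u, r} ≤ 2 * Z {u, r} := by
  classical
  have hcard : 1 ≤ Fintype.card V := Fintype.card_pos_iff.2 ⟨r⟩
  set n : ℝ := (Fintype.card V : ℝ) with hn
  have hn1 : (1 : ℝ) ≤ n := by rw [hn]; exact_mod_cast hcard
  set κ : ℝ := 1 + 32 * n * δ with hκ
  have hκ1 : 1 ≤ κ := by
    have : 0 ≤ n * δ := mul_nonneg (by linarith only [hn1]) hδ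
    rw [hκ]; nlinarith only [this]
  -- weights after adding the edges of `E`
  let lE : Finset (Sym2 V) → Sym2 V → ℝ := fun E e => lam e + if e ∈ E then w e else 0
  have hlE0 : ∀ E e, 0 ≤ lE E e := by
    intro E e
    have := hl e
    have := hV.nonneg e
    simp only [lE]
    split_ifs <;> linarith
  have hpow : ∀ k : ℕ, k ≤ (Fintype.card V) ^ 2 → κ ^ k ≤ 2 := by
    intro k hk
    have h1 : κ ≤ Real.exp (32 * n * δ) := by
      rw [hκ, add_comm]; exact Real.add_one_le_exp _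
    have h2 : κ ^ k ≤ Real.exp (32 * n * δ) ^ k := pow_le_pow_left₀ (by linarith only [hκ1]) h1 k
    rw [← Real.exp_nat_mul] at h2
    have h3 : (k : ℝ) * (32 * n * δ) ≤ 1 / 2 := by
      have hk' : (k : ℝ) ≤ n ^ 2 := by rw [hn]; exact_mod_cast hk
      have : (k : ℝ) * (32 * n * δ) ≤ n ^ 2 * (32 * n * δ) :=
        mul_le_mul_of_nonneg_right hk' (by
          have := mul_nonneg (by linarith only [hn1] : (0:ℝ) ≤ n) hδ
          nlinarith only [hκ1])
      nlinarith only [hsmall, this]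
    have h4 : Real.exp (1 / 2) ≤ 2 := by
      have h5 : Real.exp (1 / 2) ^ 2 = Real.exp 1 := by
        rw [← Real.exp_nat_mul]; norm_num
      have h6 := Real.exp_one_lt_d9
      by_contra hcon
      push Not at hcon
      nlinarith only [h5, h6, hcon]
    exact h2.trans ((Real.exp_le_exp.2 h3).trans h4)
  have main : ∀ E : Finset (Sym2 V), (∀ e ∈ E, ¬ e.IsDiag) → E.card ≤ (Fintype.card V) ^ 2 →
      Zf (lE E) ∅ ≤ κ ^ E.card * Z ∅ ∧
        ∀ u, u ≠ r → Zf (lE E) {u, r} ≤ κ ^ E.card * Z {u, r} := by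
    intro E
    induction E using Finset.induction_on with
    | empty =>
      intro _ _
      have hE := hZf (lE ∅) (hlE0 ∅)
      have he : ∀ S, Zf (lE ∅) S = Z S := fun S =>
        h.ext_of hE (by intro e _; simp [lE]) _ S rfl
      simp [he]
    | insert f E hf ih =>
      intro hdiag hcardE
      rw [Finset.card_insert_of_notMem hf] at hcardE ⊢
      obtain ⟨i0, ir⟩ := ih (fun e he => hdiag e (Finset.mem_insert_of_mem he)) (by omega)
      have hk2 := hpow E.card (by omega)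
      have hfd := hdiag f (Finset.mem_insert_self _ _)
      have hb0 : Zf (lE E) ∅ ≤ 2 * Z ∅ :=
        i0.trans (mul_le_mul_of_nonneg_right hk2 h0.le)
      have hbr : ∀ x, x ≠ r → Zf (lE E) {x, r} ≤ 2 * Z {x, r} := fun x hx =>
        (ir x hx).trans (mul_le_mul_of_nonneg_right hk2 (h.nonneg _))
      induction f using Sym2.ind with
      | _ p q =>
      have hpq : p ≠ q := by simpa using hfd
      have st := hV.step h hl h0 (hZf (lE E) (hlE0 E)) (hZf (lE (insert s(p, q) E)) (hlE0 _))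
        (by
          intro e _
          have := hV.nonneg e
          simp only [lE]
          split_ifs <;> linarith only [this]) (hlE0 E) hb0 hbr hpq
        (by
          intro e he _
          simp only [lE, Finset.mem_insert, he, false_or])
        (by
          simp only [lE, Finset.mem_insert_self, if_true, hf, if_false, add_zero])
        hδ hcard
      refine ⟨?_, fun u hu => ?_⟩
      · calc _ ≤ κ * Zf (lE E) ∅ := st.1
          _ ≤ κ * (κ ^ E.card * Z ∅) := mul_le_mul_of_nonneg_left i0 (by linarith only [hκ1])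
          _ = _ := by ring
      · calc _ ≤ κ * Zf (lE E) {u, r} := st.2 u hu
          _ ≤ κ * (κ ^ E.card * Z {u, r}) := mul_le_mul_of_nonneg_left (ir u hu) (by linarith only [hκ1])
          _ = _ := by ring
  set E : Finset (Sym2 V) := univ.filter (fun e => ¬ e.IsDiag) with hE
  have hEc : E.card ≤ (Fintype.card V) ^ 2 := by
    refine (Finset.card_le_univ E).trans ?_
    rw [Sym2.card, Nat.choose_two_right]
    have hc : 1 ≤ Fintype.card V := hcard
    apply Nat.div_le_of_le_mul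
    rw [Nat.add_sub_cancel]
    nlinarith only []
  have hm := main E (by intro e he; exact (Finset.mem_filter.1 he).2) hEc
  have hk2 := hpow E.card hEc
  have he : ∀ S, Z' S = Zf (lE E) S := fun S =>
    (hZf (lE E) (hlE0 E)).ext_of h' (by
      intro e he
      rw [hlam' e he]
      simp only [hE, mem_filter, mem_univ, he, not_false_eq_true, and_self, ↓reduceIte, lE]) _ S rfl
  refine ⟨?_, fun u hu => ?_⟩
  · rw [he]
    exact hm.1.trans (mul_le_mul_of_nonneg_right hk2 h0.le)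
  · rw [he]
    exact (hm.2 u hu).trans (mul_le_mul_of_nonneg_right hk2 (h.nonneg _))

end Vale.Agent.P308.Soft
end

section

/-!
# P308, module A, part 4: the concrete hole sums of involutions (helper52)

`Zf lam S = ∑ f, ∏_{v < f v} lam s(v, f v)`, the sum over the involutions `f` of `V` with fixed
point set exactly `S` (the matchings of the complete graph on `V` which leave exactly `S`
uncovered).
-/

namespace Vale.Agent.P308.Soft

open Finset

variable {V : Type*} [Fintype V] [LinearOrder V]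

/-- the involutions of `V` with fixed point set `S` -/
def Invs (S : Finset V) : Finset (V → V) :=
  univ.filter (fun f => (∀ v, f (f v) = v) ∧ ∀ v, f v = v ↔ v ∈ S)

theorem mem_Invs {S : Finset V} {f : V → V} :
    f ∈ Invs S ↔ (∀ v, f (f v) = v) ∧ ∀ v, f v = v ↔ v ∈ S := by
  simp only [Invs, mem_filter, mem_univ, true_and]

/-- the product of the edge weights of the matching `f` -/
def wprod (lam : Sym2 V → ℝ) (f : V → V) : ℝ :=
  ∏ v, if v < f v then lam s(v, f v) else 1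

/-- the hole sums -/
def Zf (lam : Sym2 V → ℝ) (S : Finset V) : ℝ :=
  ∑ f ∈ Invs S, wprod lam f

theorem wprod_nonneg {lam : Sym2 V → ℝ} (hl : ∀ e, 0 ≤ lam e) (f : V → V) :
    0 ≤ wprod lam f := by
  refine Finset.prod_nonneg fun v _ => ?_
  split_ifs
  · exact hl _
  · exact zero_le_one

/-- removing the edge `a y` from the matching `f` -/
theorem wprod_swap (lam : Sym2 V → ℝ) {f : V → V} (hf : ∀ v, f (f v) = v) {a y : V}
    (hay : a ≠ y) (hfa : f a = y) :
    wprod lam f = lam s(a, y) * wprod lam (f ∘ Equiv.swap a y) := by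
  have hfy : f y = a := by rw [← hfa, hf]
  have hga : (f ∘ Equiv.swap a y) a = a := by simp [hfy]
  have hgy : (f ∘ Equiv.swap a y) y = y := by simp [hfa]
  unfold wprod
  rw [← Finset.mul_prod_erase univ _ (Finset.mem_univ a),
    ← Finset.mul_prod_erase (univ.erase a) _
      (Finset.mem_erase.2 ⟨hay.symm, Finset.mem_univ y⟩),
    ← Finset.mul_prod_erase univ (fun v => if v < (f ∘ Equiv.swap a y) v then
      lam s(v, (f ∘ Equiv.swap a y) v) else 1) (Finset.mem_univ a),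
    ← Finset.mul_prod_erase (univ.erase a) (fun v => if v < (f ∘ Equiv.swap a y) v then
      lam s(v, (f ∘ Equiv.swap a y) v) else 1) (Finset.mem_erase.2 ⟨hay.symm, Finset.mem_univ y⟩)]
  rw [hga, hgy, hfa, hfy]
  simp only [lt_irrefl, if_false, one_mul]
  rw [← mul_assoc]
  congr 1
  · rcases lt_or_gt_of_ne hay with h | h
    · simp [h, h.not_gt]
    · simp [h, h.not_gt, Sym2.eq_swap]
  · refine Finset.prod_congr rfl fun v hv => ?_
    have hv' : v ≠ y ∧ v ≠ a := by simpa only [ne_eq, mem_erase, mem_univ, and_true] using hv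
    have : (f ∘ Equiv.swap a y) v = f v := by
      simp [Equiv.swap_apply_of_ne_of_ne hv'.2 hv'.1]
    rw [this]

theorem Zf_holeSum (lam : Sym2 V → ℝ) (hl : ∀ e, 0 ≤ lam e) : HoleSum lam (Zf lam) where
  nonneg S := Finset.sum_nonneg fun f _ => wprod_nonneg hl f
  top := by
    have h : Invs (univ : Finset V) = {id} := by
      ext f
      rw [mem_Invs, Finset.mem_singleton]
      constructor
      · intro h
        funext v
        exact (h.2 v).2 (Finset.mem_univ v)
      · rintro rfl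
        simp only [id_eq, implies_true, mem_univ, and_self]
    rw [Zf, h, Finset.sum_singleton]
    simp only [wprod, id_eq, lt_self_iff_false, ↓reduceIte, prod_const_one]
  expand S a ha := by
    unfold Zf
    simp_rw [Finset.mul_sum]
    rw [Finset.sum_sigma']
    symm
    refine Finset.sum_bij' (fun p _ => p.2 ∘ Equiv.swap a p.1)
      (fun f _ => ⟨f a, f ∘ Equiv.swap a (f a)⟩) ?_ ?_ ?_ ?_ ?_
    · rintro ⟨y, g⟩ hp
      simp only [Finset.mem_sigma, Finset.mem_compl, Finset.mem_insert, not_or] at hp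
      obtain ⟨⟨hya, hyS⟩, hg⟩ := hp
      obtain ⟨hg1, hg2⟩ := mem_Invs.1 hg
      have hga : g a = a := (hg2 a).2 (by simp)
      have hgy : g y = y := (hg2 y).2 (by simp)
      have hne : ∀ v, v ≠ a → v ≠ y → g v ≠ a ∧ g v ≠ y := by
        intro v hva hvy
        constructor
        · intro h
          apply hva
          rw [← hg1 v, h, hga]
        · intro h
          apply hvy
          rw [← hg1 v, h, hgy]
      rw [mem_Invs]
      constructor
      · intro v
        simp only [Function.comp_apply]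
        by_cases hva : v = a
        · subst hva
          simp [hgy, hga]
        · by_cases hvy : v = y
          · subst hvy
            simp [hgy, hga]
          · rw [Equiv.swap_apply_of_ne_of_ne hva hvy,
              Equiv.swap_apply_of_ne_of_ne (hne v hva hvy).1 (hne v hva hvy).2, hg1]
      · intro v
        simp only [Function.comp_apply]
        by_cases hva : v = a
        · subst hva
          simp [hgy, ha, hya]
        · by_cases hvy : v = y
          · subst hvy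
            simp [hga, hyS, Ne.symm hya]
          · rw [Equiv.swap_apply_of_ne_of_ne hva hvy, hg2 v]
            simp [hva, hvy]
    · intro f hf
      obtain ⟨hf1, hf2⟩ := mem_Invs.1 hf
      have hfa : f a ≠ a := fun h => ha ((hf2 a).1 h)
      have hffa : f (f a) = a := hf1 a
      have hfaS : f a ∉ S := fun h => by
        have := (hf2 (f a)).2 h
        rw [hffa] at this
        exact hfa this.symm
      have hne : ∀ v, v ≠ a → v ≠ f a → f v ≠ a ∧ f v ≠ f a := by
        intro v hva hvy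
        constructor
        · intro h
          apply hvy
          rw [← h, hf1]
        · intro h
          apply hva
          rw [← hf1 v, h, hffa]
      simp only [Finset.mem_sigma, Finset.mem_compl, Finset.mem_insert, not_or]
      refine ⟨⟨hfa, hfaS⟩, ?_⟩
      rw [mem_Invs]
      constructor
      · intro v
        simp only [Function.comp_apply]
        by_cases hva : v = a
        · subst hva
          simp [hffa]
        · by_cases hvy : v = f a
          · subst hvy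
            simp
          · rw [Equiv.swap_apply_of_ne_of_ne hva hvy,
              Equiv.swap_apply_of_ne_of_ne (hne v hva hvy).1 (hne v hva hvy).2, hf1]
      · intro v
        simp only [Function.comp_apply]
        by_cases hva : v = a
        · subst hva
          simp [hffa]
        · by_cases hvy : v = f a
          · subst hvy
            simp
          · rw [Equiv.swap_apply_of_ne_of_ne hva hvy, hf2 v]
            simp [hva, hvy]
    · rintro ⟨y, g⟩ hp
      simp only [Finset.mem_sigma, Finset.mem_compl, Finset.mem_insert, not_or] at hp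
      obtain ⟨⟨hya, hyS⟩, hg⟩ := hp
      obtain ⟨hg1, hg2⟩ := mem_Invs.1 hg
      have hgy : g y = y := (hg2 y).2 (by simp)
      have h1 : (g ∘ Equiv.swap a y) a = y := by simp [hgy]
      refine Sigma.ext h1 ?_
      simp only [h1]
      rw [Function.comp_assoc]
      have : (Equiv.swap a y : V → V) ∘ (Equiv.swap a y) = id := by
        funext v; simp
      rw [this]
      rfl
    · intro f hf
      simp only
      rw [Function.comp_assoc]
      have : (Equiv.swap a (f a) : V → V) ∘ (Equiv.swap a (f a)) = id := by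
        funext v; simp
      rw [this]
      rfl
    · rintro ⟨y, g⟩ hp
      simp only [Finset.mem_sigma, Finset.mem_compl, Finset.mem_insert, not_or] at hp
      obtain ⟨⟨hya, hyS⟩, hg⟩ := hp
      obtain ⟨hg1, hg2⟩ := mem_Invs.1 hg
      have hga : g a = a := (hg2 a).2 (by simp)
      have hgy : g y = y := (hg2 y).2 (by simp)
      have hne : ∀ v, v ≠ a → v ≠ y → g v ≠ a ∧ g v ≠ y := by
        intro v hva hvy
        constructor
        · intro h
          apply hva
          rw [← hg1 v, h, hga]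
        · intro h
          apply hvy
          rw [← hg1 v, h, hgy]
      have hf1 : ∀ v, (g ∘ Equiv.swap a y) ((g ∘ Equiv.swap a y) v) = v := by
        intro v
        simp only [Function.comp_apply]
        by_cases hva : v = a
        · subst hva
          simp [hgy, hga]
        · by_cases hvy : v = y
          · subst hvy
            simp [hgy, hga]
          · rw [Equiv.swap_apply_of_ne_of_ne hva hvy,
              Equiv.swap_apply_of_ne_of_ne (hne v hva hvy).1 (hne v hva hvy).2, hg1]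
      have h1 : (g ∘ Equiv.swap a y) a = y := by simp [hgy]
      have key := wprod_swap lam hf1 (Ne.symm hya) h1
      rw [key]
      congr 2
      rw [Function.comp_assoc]
      have : (Equiv.swap a y : V → V) ∘ (Equiv.swap a y) = id := by
        funext v; simp
      rw [this]
      rfl

end Vale.Agent.P308.Soft
end

section

/-!
# P308, (M1): comparison of the partition functions of the exponents `a` and `w'` (helper52)

`n` vertices, edge weights `2^{-a(x,y)}` on the complete graph, root `r`, estimates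
`A u` of `log₂ α(u)`, `α(u) = Z{u,r}/Z∅`, up to `c₀`; `B x y` is a bottleneck value: `x, y`
are joined by edges `uv` (off `r`) with `A u + A v - a(u,v) ≥ B x y`.
-/

namespace Vale.Agent.P308.Soft

open Finset

variable {V : Type*} [Fintype V] [LinearOrder V]

/-- the edge weights `2^{-a(x,y)}` of natural exponents, on unordered pairs -/
noncomputable def expW (a : V → V → ℕ) (ha : ∀ x y, a x y = a y x) : Sym2 V → ℝ :=
  Sym2.lift ⟨fun x y => (2 : ℝ)⁻¹ ^ a x y, fun x y => by simp only [ha x y]⟩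

omit [Fintype V] [LinearOrder V] in
@[simp] theorem expW_mk (a : V → V → ℕ) (ha : ∀ x y, a x y = a y x) (x y : V) :
    expW a ha s(x, y) = (2 : ℝ)⁻¹ ^ a x y := rfl

omit [Fintype V] [LinearOrder V] in
theorem expW_pos (a : V → V → ℕ) (ha : ∀ x y, a x y = a y x) (e : Sym2 V) :
    0 < expW a ha e := by
  induction e using Sym2.ind with
  | _ x y => simp

/-- total exponent of the matching `f` -/
def wtN (a : V → V → ℕ) (f : V → V) : ℕ := ∑ v, if v < f v then a v (f v) else 0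

/-- hole sum of natural exponents -/
noncomputable def Zn (a : V → V → ℕ) (S : Finset V) : ℝ :=
  ∑ f ∈ Invs S, (2 : ℝ)⁻¹ ^ wtN a f

theorem wprod_expW (a : V → V → ℕ) (ha : ∀ x y, a x y = a y x) (f : V → V) :
    wprod (expW a ha) f = (2 : ℝ)⁻¹ ^ wtN a f := by
  unfold wprod wtN
  rw [← Finset.prod_pow_eq_pow_sum]
  refine Finset.prod_congr rfl fun v _ => ?_
  split_ifs <;> simp

theorem Zf_expW (a : V → V → ℕ) (ha : ∀ x y, a x y = a y x) (S : Finset V) :
    Zf (expW a ha) S = Zn a S := by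
  unfold Zf Zn
  exact Finset.sum_congr rfl fun f _ => wprod_expW a ha f

/-- estimates of `log₂ (Z{u,r}/Z∅)` up to `c₀` -/
structure Est (a : V → V → ℕ) (r : V) (A : V → ℤ) (c₀ : ℕ) : Prop where
  lower : ∀ u, u ≠ r → (2 : ℝ) ^ (A u - c₀) * Zn a ∅ ≤ Zn a {u, r}
  upper : ∀ u, u ≠ r → Zn a {u, r} ≤ (2 : ℝ) ^ (A u + c₀) * Zn a ∅

/-- the level graph: `xy` with `A x + A y - a(x,y) ≥ b`, off the root -/
def LG (a : V → V → ℕ) (ha : ∀ x y, a x y = a y x) (r : V) (A : V → ℤ) (b : ℤ) :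
    SimpleGraph V where
  Adj x y := x ≠ y ∧ x ≠ r ∧ y ≠ r ∧ b ≤ A x + A y - a x y
  symm := ⟨by
    rintro x y ⟨h1, h2, h3, h4⟩
    refine ⟨h1.symm, h3, h2, ?_⟩
    rw [ha y x]
    linarith⟩
  loopless := ⟨fun x h => h.1 rfl⟩

/-- **(M1)** -/
theorem M1 (a w : V → V → ℕ) (ha : ∀ x y, a x y = a y x) (hw : ∀ x y, w x y = w y x)
    (r : V) (A : V → ℤ) (B : V → V → ℤ) (c₀ k : ℕ) (hB : ∀ x y, B x y = B y x)
    (h0 : 0 < Zn a ∅) (hA : Est a r A c₀)
    (hreach : ∀ x y, x ≠ y → x ≠ r → y ≠ r → (LG a ha r A (B x y)).Reachable x y)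
    (hk : 64 * (Fintype.card V) ^ 3 * 2 ^ (4 * c₀) ≤ 2 ^ k)
    (hle : ∀ x y, x ≠ y → w x y ≤ a x y)
    (hge : ∀ x y, x ≠ y → x ≠ r → y ≠ r →
      a x y ≤ w x y ∨ A x + A y - B x y + k ≤ (w x y : ℤ))
    (hger : ∀ x, x ≠ r → a x r ≤ w x r ∨ A x + k ≤ (w x r : ℤ)) :
    Zn a ∅ ≤ Zn w ∅ ∧ Zn w ∅ ≤ 2 * Zn a ∅ ∧
      ∀ u, u ≠ r → Zn a {u, r} ≤ Zn w {u, r} ∧ Zn w {u, r} ≤ 2 * Zn a {u, r} := by
  classical
  have two0 : (0 : ℝ) < 2 := by norm_num
  have hl0 : ∀ e, 0 ≤ expW a ha e := fun e => (expW_pos a ha e).le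
  have hw0 : ∀ e, 0 ≤ expW w hw e := fun e => (expW_pos w hw e).le
  have hHa := Zf_holeSum (expW a ha) hl0
  have hHw := Zf_holeSum (expW w hw) hw0
  -- monotonicity
  have hmono : ∀ S, Zn a S ≤ Zn w S := by
    intro S
    rw [← Zf_expW a ha, ← Zf_expW w hw]
    refine hHa.mono hHw hl0 ?_ _ S rfl
    intro e he
    induction e using Sym2.ind with
    | _ x y =>
      rw [expW_mk, expW_mk]
      exact pow_le_pow_of_le_one (by norm_num) (by norm_num) (hle x y (by simpa using he))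
  -- the virtual weights
  let vw : Sym2 V → ℝ := Sym2.lift ⟨fun x y =>
    if x = r then (2 : ℝ) ^ (-(A y + k) : ℤ) else if y = r then (2 : ℝ) ^ (-(A x + k) : ℤ)
      else (2 : ℝ) ^ (-(A x + A y - B x y + k) : ℤ), by
    intro x y
    by_cases hx : x = r <;> by_cases hy : y = r
    · subst hx; subst hy; simp
    · simp [hx, hy]
    · simp [hx, hy]
    · simp only [hx, hy, if_false]
      rw [hB x y, add_comm (A x)]⟩
  have vw_pos : ∀ e, 0 < vw e := by
    intro e
    induction e using Sym2.ind with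
    | _ x y =>
      change 0 < (if x = r then (2 : ℝ) ^ (-(A y + k) : ℤ) else if y = r then
        (2 : ℝ) ^ (-(A x + k) : ℤ) else (2 : ℝ) ^ (-(A x + A y - B x y + k) : ℤ))
      split_ifs <;> positivity
  set δ : ℝ := (2 : ℝ) ^ (4 * (c₀ : ℤ) - k) with hδ
  have hδ0 : 0 < δ := by positivity
  have hV : Virt (expW a ha) (Zf (expW a ha)) r δ vw := by
    refine ⟨fun e => (vw_pos e).le, ?_, ?_⟩
    · intro x y hxy hxr hyr
      refine ⟨(2 : ℝ) ^ (B x y - 2 * c₀ : ℤ), by positivity, ?_, ?_⟩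
      · refine (hreach x y hxy hxr hyr).mono ?_
        intro u v huv
        refine ⟨huv.1, huv.2.1, huv.2.2.1, ?_⟩
        have h4 := huv.2.2.2
        rw [Zf_expW, Zf_expW, Zf_expW, expW_mk]
        have e1 := hA.lower u huv.2.1
        have e2 := hA.lower v huv.2.2.1
        have e3 : (2 : ℝ) ^ (B x y - 2 * c₀ : ℤ) ≤
            (2 : ℝ) ^ (A u - c₀ : ℤ) * (2 : ℝ) ^ (A v - c₀ : ℤ) * (2 : ℝ)⁻¹ ^ a u v := by
          have : (2 : ℝ)⁻¹ ^ a u v = (2 : ℝ) ^ (-(a u v : ℤ)) := by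
            rw [zpow_neg, zpow_natCast, inv_pow]
          rw [this, ← zpow_add₀ (by norm_num), ← zpow_add₀ (by norm_num)]
          refine zpow_le_zpow_right₀ (by norm_num) ?_
          linarith only [h4]
        calc (2 : ℝ) ^ (B x y - 2 * c₀ : ℤ) * Zn a ∅ * Zn a ∅
            ≤ ((2 : ℝ) ^ (A u - c₀ : ℤ) * (2 : ℝ) ^ (A v - c₀ : ℤ) * (2 : ℝ)⁻¹ ^ a u v) *
              Zn a ∅ * Zn a ∅ := by (clear * - e3 h0; gcongr)
          _ = ((2 : ℝ) ^ (A u - c₀ : ℤ) * Zn a ∅) * ((2 : ℝ) ^ (A v - c₀ : ℤ) * Zn a ∅) *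
              (2 : ℝ)⁻¹ ^ a u v := by ring
          _ ≤ Zn a {u, r} * Zn a {v, r} * (2 : ℝ)⁻¹ ^ a u v := by
              refine mul_le_mul_of_nonneg_right ?_ (by positivity)
              exact mul_le_mul e1 e2 (by positivity) (e1.trans' (by positivity))
      · rw [Zf_expW, Zf_expW, Zf_expW]
        have hvw : vw s(x, y) = (2 : ℝ) ^ (-(A x + A y - B x y + k) : ℤ) := by
          change (if x = r then (2 : ℝ) ^ (-(A y + k) : ℤ) else if y = r then
            (2 : ℝ) ^ (-(A x + k) : ℤ) else (2 : ℝ) ^ (-(A x + A y - B x y + k) : ℤ)) = _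
          rw [if_neg hxr, if_neg hyr]
        rw [hvw]
        have e1 := hA.upper x hxr
        have e2 := hA.upper y hyr
        have n2 : 0 ≤ Zn a {y, r} := by rw [← Zf_expW a ha]; exact hHa.nonneg _
        calc (2 : ℝ) ^ (-(A x + A y - B x y + k) : ℤ) * (Zn a {x, r} * Zn a {y, r})
            ≤ (2 : ℝ) ^ (-(A x + A y - B x y + k) : ℤ) *
              (((2 : ℝ) ^ (A x + c₀ : ℤ) * Zn a ∅) * ((2 : ℝ) ^ (A y + c₀ : ℤ) * Zn a ∅)) := by
              refine mul_le_mul_of_nonneg_left ?_ (by positivity)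
              exact mul_le_mul e1 e2 n2 (by positivity)
          _ = ((2 : ℝ) ^ (-(A x + A y - B x y + k) : ℤ) * (2 : ℝ) ^ (A x + c₀ : ℤ) *
              (2 : ℝ) ^ (A y + c₀ : ℤ)) * Zn a ∅ * Zn a ∅ := by ring
          _ = (δ * (2 : ℝ) ^ (B x y - 2 * c₀ : ℤ)) * Zn a ∅ * Zn a ∅ := by
              congr 2
              rw [hδ, ← zpow_add₀ (by norm_num), ← zpow_add₀ (by norm_num),
                ← zpow_add₀ (by norm_num)]
              congr 1
              ring
          _ = _ := by ring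
    · intro x hxr
      rw [Zf_expW, Zf_expW]
      have hvw : vw s(x, r) = (2 : ℝ) ^ (-(A x + k) : ℤ) := by
        change (if x = r then (2 : ℝ) ^ (-(A r + k) : ℤ) else if r = r then
            (2 : ℝ) ^ (-(A x + k) : ℤ) else (2 : ℝ) ^ (-(A x + A r - B x r + k) : ℤ)) = _
        rw [if_neg hxr, if_pos rfl]
      rw [hvw]
      have e1 := hA.upper x hxr
      calc (2 : ℝ) ^ (-(A x + k) : ℤ) * Zn a {x, r}
          ≤ (2 : ℝ) ^ (-(A x + k) : ℤ) * ((2 : ℝ) ^ (A x + c₀ : ℤ) * Zn a ∅) :=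
            mul_le_mul_of_nonneg_left e1 (by positivity)
        _ = (2 : ℝ) ^ ((c₀ : ℤ) - k) * Zn a ∅ := by
            rw [← mul_assoc, ← zpow_add₀ (by norm_num)]
            congr 2
            ring
        _ ≤ δ * Zn a ∅ := by
            refine mul_le_mul_of_nonneg_right ?_ h0.le
            rw [hδ]
            refine zpow_le_zpow_right₀ (by norm_num) ?_
            have : (0 : ℤ) ≤ c₀ := Int.natCast_nonneg _
            linarith only []
  have hsmall : 64 * (Fintype.card V : ℝ) ^ 3 * δ ≤ 1 := by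
    rw [hδ, zpow_sub₀ (by norm_num)]
    have hk' : (64 * (Fintype.card V : ℝ) ^ 3 * 2 ^ (4 * c₀)) ≤ 2 ^ k := by exact_mod_cast hk
    have e4 : (2 : ℝ) ^ (4 * (c₀ : ℤ)) = 2 ^ (4 * c₀) := by
      rw [← zpow_natCast]
      congr 1
    rw [e4, zpow_natCast, ← mul_div_assoc, div_le_one (by positivity)]
    exact hk'
  -- the sum of the weights
  let lam' : Sym2 V → ℝ := fun e => expW a ha e + vw e
  have hlam'0 : ∀ e, 0 ≤ lam' e := fun e => add_nonneg (hl0 e) (vw_pos e).le
  have hH' := Zf_holeSum lam' hlam'0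
  have hcmp := hV.compare hHa hl0 (by rw [Zf_expW]; exact h0) Zf Zf_holeSum hδ0.le hsmall hH'
    (fun e _ => rfl)
  have hup : ∀ S, Zn w S ≤ Zf lam' S := by
    intro S
    rw [← Zf_expW w hw]
    refine hHw.mono hH' hw0 ?_ _ S rfl
    intro e he
    induction e using Sym2.ind with
    | _ x y =>
      have hxy : x ≠ y := by simpa using he
      have half : ∀ (m : ℕ) (z : ℤ), z ≤ (m : ℤ) → (2 : ℝ)⁻¹ ^ m ≤ (2 : ℝ) ^ (-z) := by
        intro m z hz
        have : (2 : ℝ)⁻¹ ^ m = (2 : ℝ) ^ (-(m : ℤ)) := by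
          rw [zpow_neg, zpow_natCast, inv_pow]
        rw [this]
        exact zpow_le_zpow_right₀ (by norm_num) (by linarith only [hz])
      have case1 : a x y ≤ w x y → expW w hw s(x, y) ≤ lam' s(x, y) := by
        intro h
        have : expW w hw s(x, y) ≤ expW a ha s(x, y) := by
          rw [expW_mk, expW_mk]
          exact pow_le_pow_of_le_one (by norm_num) (by norm_num) h
        have := vw_pos s(x, y)
        simp only [lam']
        (clear h0 hk hle two0 hl0 hw0 hHa hHw hmono δ hδ hδ0 hV hsmall lam' hlam'0 hH' hcmp S he hxy half; linarith)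
      have case2 : expW w hw s(x, y) ≤ vw s(x, y) → expW w hw s(x, y) ≤ lam' s(x, y) := by
        intro h
        have := hl0 s(x, y)
        simp only [lam']
        linarith only [h, this]
      by_cases hxr : x = r
      · subst hxr
        rcases hger y hxy.symm with h | h
        · exact case1 (by rw [ha x y, hw x y]; exact h)
        · apply case2
          rw [expW_mk]
          have hvw : vw s(x, y) = (2 : ℝ) ^ (-(A y + k) : ℤ) := by
            change (if x = x then (2 : ℝ) ^ (-(A y + k) : ℤ) else if y = x then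
              (2 : ℝ) ^ (-(A x + k) : ℤ) else (2 : ℝ) ^ (-(A x + A y - B x y + k) : ℤ)) = _
            rw [if_pos rfl]
          rw [hvw]
          exact half _ _ (by rw [hw x y]; exact h)
      · by_cases hyr : y = r
        · subst hyr
          rcases hger x hxy with h | h
          · exact case1 h
          · apply case2
            rw [expW_mk]
            have hvw : vw s(x, y) = (2 : ℝ) ^ (-(A x + k) : ℤ) := by
              change (if x = y then (2 : ℝ) ^ (-(A y + k) : ℤ) else if y = y then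
                (2 : ℝ) ^ (-(A x + k) : ℤ) else (2 : ℝ) ^ (-(A x + A y - B x y + k) : ℤ)) = _
              rw [if_neg hxy, if_pos rfl]
            rw [hvw]
            exact half _ _ h
        · rcases hge x y hxy hxr hyr with h | h
          · exact case1 h
          · apply case2
            rw [expW_mk]
            have hvw : vw s(x, y) = (2 : ℝ) ^ (-(A x + A y - B x y + k) : ℤ) := by
              change (if x = r then (2 : ℝ) ^ (-(A y + k) : ℤ) else if y = r then
                (2 : ℝ) ^ (-(A x + k) : ℤ) else (2 : ℝ) ^ (-(A x + A y - B x y + k) : ℤ)) = _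
              rw [if_neg hxr, if_neg hyr]
            rw [hvw]
            exact half _ _ h
  rw [Zf_expW] at hcmp
  refine ⟨hmono _, (hup _).trans hcmp.1, fun u hu => ⟨hmono _, ?_⟩⟩
  have := hcmp.2 u hu
  rw [Zf_expW] at this
  exact (hup _).trans this

end Vale.Agent.P308.Soft
end
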