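import Vale.Agent.P308.Bd3.B1
import Vale.Agent.P308.Bd3.B2

set_option linter.all false

section

/-!
# P308, polynomial version: interface between the parts [C], [D], [F] and the assembly [E]
-/

namespace Vale.Agent.P308.PA

open Finset Vale.Agent.P308.Alg
open Vale.Agent.Lib.PolyTime (Raw)

variable {n : ℕ}

/-- Real weight of a position. -/
noncomputable def wq (h q : ℕ) : ℝ := (1 / 2) ^ exq h q * (maq h q / 2 ^ (h + 1))

/-- The real weights of a matrix of positions. -/
noncomputable def lamQ (n h : ℕ) (Q : List (List ℕ)) (x y : Fin n) : ℝ := wq h (ent Q x y)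

/-- The real weights of the point `t` of the path. -/
noncomputable def lamT (n : ℕ) (P : Par) (E : List (List ℕ)) (t : ℕ) (x y : Fin n) : ℝ :=
  lamQ n P.h (pathM n P.h P.X P.D E t) x y

/-- Result of [F]: the path of weights. -/
structure PathOK (P : Par) (E : List (List ℕ)) (M₀ : PM n) (ε κ η : ℝ) : Prop where
  ultr : ∀ t ≤ P.J, Poly.Ultr (lamT n P E t) ε
  ratio : ∀ t < P.J, ∀ M : PM n,
    |Poly.mu (lamT n P E t) M - Poly.mu (lamT n P E (t + 1)) M| ≤
      κ * Poly.mu (lamT n P E (t + 1)) M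
  start : 1 - η ≤ Poly.mu (lamT n P E 0) M₀
  last : ∀ M : PM n, Poly.mu (lamT n P E P.J) M = law (toZ P.F E) M

/-- Result of [C]: the pair step `ps` with `L` bits, for the weights `lam`. -/
structure PairOK (lam : Fin n → Fin n → ℝ) (L : ℕ) (ps : List Bool → PM n × PM n → PM n × PM n)
    (c : ℝ) : Prop where
  rev : ∀ z z' : PM n × PM n, Poly.mu2 lam z * prob L (fun u => ps u z = z') =
    Poly.mu2 lam z' * prob L (fun u => ps u z' = z)
  lazy : ∀ z : PM n × PM n, 5 / 8 ≤ prob L (fun u => ps u z = z)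
  dir : ∀ f : PM n → ℝ, c * Poly.En lam f ≤ 1 / 2 * ∑ z : PM n × PM n, ∑ z' : PM n × PM n,
    Poly.mu2 lam z * prob L (fun u => ps u z = z') * ((f z.1 + f z.2) - (f z'.1 + f z'.2)) ^ 2

end Vale.Agent.P308.PA
end

section

/-!
# P308, polynomial sampler: the pair step on `PM n × PM n`
-/

namespace Vale.Agent.P308.PA

open Vale.Agent.Lib.PolyTime (val Raw)
open Vale.Agent.P308.Alg

variable {n : ℕ}

/-- The first new or old position of the label `l`: the pair `x (N x)`. -/
def oa (Q : List (List ℕ)) (l : Poly.Lab n) (z : PM n × PM n) : ℕ :=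
  ent Q l.2.1 (z.1.1 l.2.1)

/-- The second pair which is removed: `y (N y)` for type 0, `y (Y y)` for type 2, where
`y = walk N Y x (2 k)`. -/
def ob (Q : List (List ℕ)) (l : Poly.Lab n) (z : PM n × PM n) : ℕ :=
  if l.1 = 0 then ent Q l.2.2 (z.1.1 l.2.2) else
    ent Q (Poly.walk z.1.1 z.2.1 l.2.1 (2 * l.2.2)) (z.2.1 (Poly.walk z.1.1 z.2.1 l.2.1 (2 * l.2.2)))

/-- The first new pair: `x y` for type 0, `y (N x)` for type 2. -/
def na (Q : List (List ℕ)) (l : Poly.Lab n) (z : PM n × PM n) : ℕ :=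
  if l.1 = 0 then ent Q l.2.1 l.2.2 else
    ent Q (Poly.walk z.1.1 z.2.1 l.2.1 (2 * l.2.2)) (z.1.1 l.2.1)

/-- The second new pair: `(N x) (N y)` for type 0, `x (Y y)` for type 2. -/
def nb (Q : List (List ℕ)) (l : Poly.Lab n) (z : PM n × PM n) : ℕ :=
  if l.1 = 0 then ent Q (z.1.1 l.2.1) (z.1.1 l.2.2) else
    ent Q l.2.1 (z.2.1 (Poly.walk z.1.1 z.2.1 l.2.1 (2 * l.2.2)))

/-- Acceptance of the move with the label `l`, with the bits `v`. -/
def accL (h : ℕ) (Q : List (List ℕ)) (l : Poly.Lab n) (z : PM n × PM n) (v : Raw) : Bool :=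
  if l.1 = 1 then true else acc h v (oa Q l z) (ob Q l z) (na Q l z) (nb Q l z)

/-- The pair step with the label `l` and the bits `v`. -/
def goL (h : ℕ) (Q : List (List ℕ)) (l : Poly.Lab n) (v : Raw) (z : PM n × PM n) :
    PM n × PM n :=
  if accL h Q l z v = true then Poly.mv l z else z

/-- The pair step with the type `t` and the numbers `x`, `y` of the vertices. -/
def goP (h : ℕ) (Q : List (List ℕ)) (t x y : ℕ) (v : Raw) (z : PM n × PM n) : PM n × PM n :=
  if hh : t < 3 ∧ x < n ∧ y < n then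
    goL h Q (⟨t, hh.1⟩, ⟨x, hh.2.1⟩, ⟨y, hh.2.2⟩) v z
  else z

/-- The pair step: `3` bits for the type, `b` bits for each vertex, the rest for the acceptance
test. -/
def psP (b h : ℕ) (Q : List (List ℕ)) (u : List Bool) (z : PM n × PM n) : PM n × PM n :=
  goP h Q (val (u.take 3)) (val ((u.drop 3).take b)) (val ((u.drop (3 + b)).take b))
    ⟨u.drop (3 + b + b)⟩ z

end Vale.Agent.P308.PA
end

section

/-!
# Annealing: accumulation of the total variation errors

Laws are real functions on a finite type; the distance is the `ℓ¹` distance.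
-/

namespace Vale.Agent.P308.Rep

open Finset Vale.Agent.P308.Soft.MC

variable {Ω : Type*} [Fintype Ω]

/-- `ℓ¹` distance of two laws. -/
def l1 (μ ν : Ω → ℝ) : ℝ := ∑ x, |μ x - ν x|

/-- Stochastic kernels. -/
structure Kern (K : Ω → Ω → ℝ) : Prop where
  nonneg : ∀ x y, 0 ≤ K x y
  row : ∀ x, ∑ y, K x y = 1

/-- Probability laws. -/
structure Law (μ : Ω → ℝ) : Prop where
  nonneg : ∀ x, 0 ≤ μ x
  sum_one : ∑ x, μ x = 1

theorem l1_triangle (μ ν ρ : Ω → ℝ) : l1 μ ρ ≤ l1 μ ν + l1 ν ρ := by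
  unfold l1
  rw [← sum_add_distrib]
  exact sum_le_sum fun x _ => abs_sub_le _ _ _

theorem Law.push {K : Ω → Ω → ℝ} (hK : Kern K) {μ : Ω → ℝ} (hμ : Law μ) :
    Law (push K μ) where
  nonneg y := sum_nonneg fun x _ => mul_nonneg (hμ.nonneg x) (hK.nonneg x y)
  sum_one := by
    unfold Soft.MC.push
    rw [sum_comm]
    calc ∑ x, ∑ y, μ x * K x y = ∑ x, μ x := by
          refine sum_congr rfl fun x _ => ?_
          rw [← mul_sum, hK.row, mul_one]
      _ = 1 := hμ.sum_one

theorem pushIter_succ (K : Ω → Ω → ℝ) (t : ℕ) (μ : Ω → ℝ) :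
    pushIter K (t + 1) μ = push K (pushIter K t μ) := by
  unfold pushIter
  rw [Function.iterate_succ_apply']

theorem Law.pushIter {K : Ω → Ω → ℝ} (hK : Kern K) {μ : Ω → ℝ} (hμ : Law μ) (t : ℕ) :
    Law (pushIter K t μ) := by
  induction t with
  | zero => exact hμ
  | succ t ih =>
    rw [pushIter_succ]
    exact ih.push hK

/-- Kernels contract the distance. -/
theorem l1_push_le {K : Ω → Ω → ℝ} (hK : Kern K) (μ ν : Ω → ℝ) :
    l1 (push K μ) (push K ν) ≤ l1 μ ν := by
  unfold l1 Soft.MC.push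
  calc ∑ y, |∑ x, μ x * K x y - ∑ x, ν x * K x y|
      ≤ ∑ y, ∑ x, |μ x - ν x| * K x y := by
        refine sum_le_sum fun y _ => ?_
        rw [← sum_sub_distrib]
        refine (abs_sum_le_sum_abs _ _).trans (sum_le_sum fun x _ => ?_)
        rw [← sub_mul, abs_mul, abs_of_nonneg (hK.nonneg x y)]
    _ = ∑ x, |μ x - ν x| := by
        rw [sum_comm]
        refine sum_congr rfl fun x _ => ?_
        rw [← mul_sum, hK.row, mul_one]

/-- Perturbation of the kernel. -/
theorem l1_push_kernel_le {K K' : Ω → Ω → ℝ} {β : ℝ} (hβ : ∀ x, ∑ y, |K' x y - K x y| ≤ β)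
    {μ : Ω → ℝ} (hμ : Law μ) : l1 (push K' μ) (push K μ) ≤ β := by
  unfold l1 Soft.MC.push
  calc ∑ y, |∑ x, μ x * K' x y - ∑ x, μ x * K x y|
      ≤ ∑ y, ∑ x, μ x * |K' x y - K x y| := by
        refine sum_le_sum fun y _ => ?_
        rw [← sum_sub_distrib]
        refine (abs_sum_le_sum_abs _ _).trans (sum_le_sum fun x _ => ?_)
        rw [← mul_sub, abs_mul, abs_of_nonneg (hμ.nonneg x)]
    _ = ∑ x, μ x * ∑ y, |K' x y - K x y| := by
        rw [sum_comm]
        exact sum_congr rfl fun x _ => (mul_sum _ _ _).symm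
    _ ≤ ∑ x, μ x * β := sum_le_sum fun x _ => mul_le_mul_of_nonneg_left (hβ x) (hμ.nonneg x)
    _ = β := by rw [← sum_mul, hμ.sum_one, one_mul]

/-- `T` steps with a perturbed kernel. -/
theorem l1_pushIter_le {K K' : Ω → Ω → ℝ} (hK : Kern K) (hK' : Kern K') {β : ℝ}
    (hβ : ∀ x, ∑ y, |K' x y - K x y| ≤ β) {μ' μ : Ω → ℝ} (hμ : Law μ) (T : ℕ) :
    l1 (pushIter K' T μ') (pushIter K T μ) ≤ l1 μ' μ + T * β := by
  induction T with
  | zero => simp only [pushIter, Function.iterate_zero, id_eq, CharP.cast_eq_zero, zero_mul, add_zero, Std.le_refl]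
  | succ T ih =>
    rw [pushIter_succ, pushIter_succ]
    have h1 := l1_triangle (push K' (pushIter K' T μ')) (push K' (pushIter K T μ))
      (push K (pushIter K T μ))
    have h2 := l1_push_le hK' (pushIter K' T μ') (pushIter K T μ)
    have h3 := l1_push_kernel_le hβ (hμ.pushIter hK T)
    push_cast
    linarith only [ih, h1, h2, h3]

/-- **Annealing.** The machine makes `T` steps with the kernel `K' t` at stage `t`; the exact
kernels `K t` move the law `π (t - 1)` to distance at most `B` of `π t`. Then the errors add. -/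
theorem anneal {K K' : ℕ → Ω → Ω → ℝ} {π ν : ℕ → Ω → ℝ} {T J : ℕ} {β B η : ℝ}
    (hπ : ∀ t ≤ J, Law (π t)) (hK : ∀ t < J, Kern (K t)) (hK' : ∀ t < J, Kern (K' t))
    (hβ : ∀ t < J, ∀ x, ∑ y, |K' t x y - K t x y| ≤ β)
    (h0 : l1 (ν 0) (π 0) ≤ η) (hν : ∀ t < J, ν (t + 1) = pushIter (K' t) T (ν t))
    (hB : ∀ t < J, l1 (pushIter (K t) T (π t)) (π (t + 1)) ≤ B) :
    ∀ t ≤ J, l1 (ν t) (π t) ≤ η + t * (B + T * β) := by
  intro t ht
  induction t with
  | zero => simpa only [CharP.cast_eq_zero, zero_mul, add_zero] using h0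
  | succ t ih =>
    have ht' : t < J := ht
    rw [hν t ht']
    have h1 := l1_triangle (pushIter (K' t) T (ν t)) (pushIter (K t) T (π t)) (π (t + 1))
    have h2 := l1_pushIter_le (hK t ht') (hK' t ht') (hβ t ht') (μ' := ν t) (hπ t ht'.le) T
    have h3 := hB t ht'
    have h4 := ih ht'.le
    push_cast
    linarith only [h1, h2, h3, h4]

end Vale.Agent.P308.Rep
end

section

/-!
# Laws of programs which read blocks of random bits, and annealing

`pushW b f μ` is the law of `f w x` for `b` random bits `w` and `x` with law `μ`.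
-/

namespace Vale.Agent.P308.Rep

set_option linter.unusedSectionVars false

open Finset Vale.Agent.P308.Soft.MC Vale.Agent.P308.Alg

variable {Ω : Type*} [Fintype Ω] [DecidableEq Ω]

/-- The point mass. -/
def pt (x : Ω) : Ω → ℝ := fun y => if x = y then 1 else 0

theorem kern_stepKer (b : ℕ) (step : List Bool → Ω → Ω) : Kern (stepKer b step) :=
  ⟨stepKer_nonneg b step, stepKer_row b step⟩

/-- Composition of two random maps with consecutive blocks of bits. -/
theorem stepKer_comp (a b : ℕ) (f g : List Bool → Ω → Ω) (x y : Ω) :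
    stepKer (a + b) (fun w x => g (w.drop a) (f (w.take a) x)) x y =
      ∑ z, stepKer a f x z * stepKer b g z y := by
  unfold stepKer
  rw [prob_eq_sum, sum_words_add, pow_add]
  have h1 : ∀ u ∈ words a, ∑ v ∈ words b,
      (if g ((u ++ v).drop a) (f ((u ++ v).take a) x) = y then (1 : ℝ) else 0) =
      2 ^ b * ∑ z, (if f u x = z then (1 : ℝ) else 0) * prob b (fun w => g w z = y) := by
    intro u hu
    have hu' := mem_words.1 hu
    have h2 : ∑ z, (if f u x = z then (1 : ℝ) else 0) * prob b (fun w => g w z = y) =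
        prob b (fun w => g w (f u x) = y) := by simp only [ite_mul, one_mul, zero_mul, sum_ite_eq, mem_univ, ↓reduceIte]
    rw [h2, prob_eq_sum, mul_div_cancel₀ _ (by positivity)]
    refine sum_congr rfl fun v _ => ?_
    rw [List.drop_append_of_le_length (by (clear * - hu'; omega)), List.take_append_of_le_length (by omega),
      List.take_of_length_le (by omega), List.drop_eq_nil_of_le (by omega), List.nil_append]
  rw [sum_congr rfl h1, ← mul_sum, sum_comm, mul_comm (2 ^ a : ℝ), mul_div_mul_left _ _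
    (by (clear * -; positivity)), sum_div]
  refine sum_congr rfl fun z _ => ?_
  rw [← sum_mul, prob_eq_sum a, div_mul_eq_mul_div]

/-- The law of the result of a random map. -/
theorem push_comp (a b : ℕ) (f g : List Bool → Ω → Ω) (μ : Ω → ℝ) :
    push (stepKer (a + b) (fun w x => g (w.drop a) (f (w.take a) x))) μ =
      push (stepKer b g) (push (stepKer a f) μ) := by
  funext y
  unfold Soft.MC.push
  simp only [stepKer_comp, mul_sum, sum_mul]
  rw [sum_comm]
  exact sum_congr rfl fun z _ => sum_congr rfl fun x _ => by ring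

/-- Run the random maps `step k`, `step (k + 1)`, …, `step (k + t - 1)`, each with a block of `b`
bits. -/
def runV (b : ℕ) (step : ℕ → List Bool → Ω → Ω) : ℕ → ℕ → List Bool → Ω → Ω
  | 0, _, _, x => x
  | t + 1, k, w, x => runV b step t (k + 1) (w.drop b) (step k (w.take b) x)

/-- The law after `t` steps. -/
noncomputable def lawV (b : ℕ) (step : ℕ → List Bool → Ω → Ω) : ℕ → ℕ → (Ω → ℝ) → Ω → ℝ
  | 0, _, μ => μ
  | t + 1, k, μ => lawV b step t (k + 1) (push (stepKer b (step k)) μ)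

theorem stepKer_zero (f : List Bool → Ω → Ω) (x y : Ω) :
    stepKer 0 f x y = if f [] x = y then 1 else 0 := by
  unfold stepKer
  rw [prob_eq_sum, words_zero, sum_singleton, pow_zero, div_one]

theorem push_runV (b : ℕ) (step : ℕ → List Bool → Ω → Ω) (t : ℕ) : ∀ (k : ℕ) (μ : Ω → ℝ),
    push (stepKer (t * b) (runV b step t k)) μ = lawV b step t k μ := by
  induction t with
  | zero =>
    intro k μ
    funext y
    unfold Soft.MC.push
    rw [zero_mul]
    simp only [runV, stepKer_zero, mul_ite, mul_one, mul_zero, sum_ite_eq', mem_univ, ↓reduceIte, lawV]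
  | succ t ih =>
    intro k μ
    have h := push_comp b (t * b) (step k) (runV b step t (k + 1)) μ
    rw [ih] at h
    rw [show (t + 1) * b = b + t * b by ring]
    exact h

theorem lawV_add (b : ℕ) (step : ℕ → List Bool → Ω → Ω) (t u : ℕ) : ∀ (k : ℕ) (μ : Ω → ℝ),
    lawV b step (t + u) k μ = lawV b step u (k + t) (lawV b step t k μ) := by
  induction t with
  | zero => intro k μ; simp only [zero_add, add_zero, lawV]
  | succ t ih =>
    intro k μ
    rw [show t + 1 + u = t + u + 1 by ring, lawV, lawV, ih]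
    congr 1
    ring

theorem lawV_const (b : ℕ) (step : ℕ → List Bool → Ω → Ω) (f : List Bool → Ω → Ω) (T : ℕ) :
    ∀ (k : ℕ) (μ : Ω → ℝ), (∀ i < T, step (k + i) = f) →
    lawV b step T k μ = pushIter (stepKer b f) T μ := by
  induction T with
  | zero => intro k μ _; rfl
  | succ T ih =>
    intro k μ h
    rw [lawV, ih (k + 1) _ fun i hi => by rw [← h (i + 1) (by omega)]; congr 1; ring]
    have h0 : step k = f := by simpa using h 0 (by omega)
    rw [h0]
    unfold pushIter
    rw [Function.iterate_succ_apply]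

/-- **Annealing for programs.** The program makes `J * T` steps, the step number `k` is the random
map `step (k / T)` which reads `b` bits; it starts at `x₀`. -/
theorem anneal_prob {step : ℕ → List Bool → Ω → Ω} {K : ℕ → Ω → Ω → ℝ} {π : ℕ → Ω → ℝ}
    {b T J : ℕ} {β B η : ℝ} {x₀ : Ω} (hT : 0 < T)
    (hπ : ∀ t ≤ J, Law (π t)) (hK : ∀ t < J, Kern (K t))
    (hβ : ∀ t < J, ∀ x, ∑ y, |stepKer b (step t) x y - K t x y| ≤ β)
    (h0 : l1 (pt x₀) (π 0) ≤ η)
    (hB : ∀ t < J, l1 (pushIter (K t) T (π t)) (π (t + 1)) ≤ B) :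
    ∑ y, |prob (J * T * b) (fun w => runV b (fun k => step (k / T)) (J * T) 0 w x₀ = y) - π J y| ≤
      η + J * (B + T * β) := by
  set st : ℕ → List Bool → Ω → Ω := fun k => step (k / T) with hst
  have h1 := anneal (K := K) (K' := fun t => stepKer b (step t)) (π := π)
    (ν := fun t => lawV b st (t * T) 0 (pt x₀)) (T := T) (J := J) (β := β) (B := B) (η := η)
    hπ hK (fun t _ => kern_stepKer b _) hβ (by simpa only [zero_mul, lawV] using h0) ?_ hB J le_rfl
  · unfold l1 at h1
    refine le_of_eq_of_le ?_ h1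
    refine sum_congr rfl fun y _ => ?_
    congr 2
    have h2 := congrFun (push_runV b st (J * T) 0 (pt x₀)) y
    rw [← h2]
    unfold Soft.MC.push pt stepKer
    simp only [ite_mul, one_mul, zero_mul, sum_ite_eq, mem_univ, ↓reduceIte]
  · intro t _
    show lawV b st ((t + 1) * T) 0 (pt x₀) = pushIter (stepKer b (step t)) T
      (lawV b st (t * T) 0 (pt x₀))
    rw [show (t + 1) * T = t * T + T by ring, lawV_add, zero_add]
    refine lawV_const b st (step t) T _ _ fun i hi => ?_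
    simp only [hst]
    congr 1
    rw [mul_comm t T, Nat.mul_add_div hT, Nat.div_eq_of_lt hi, add_zero]

/-- The law of one coordinate (or of any function of the result). -/
theorem sum_map_le {Y : Type*} [Fintype Y] [DecidableEq Y] (g : Ω → Y) (μ ν : Ω → ℝ) :
    ∑ y, |∑ x with g x = y, μ x - ∑ x with g x = y, ν x| ≤ l1 μ ν := by
  unfold l1
  calc ∑ y, |∑ x with g x = y, μ x - ∑ x with g x = y, ν x|
      ≤ ∑ y, ∑ x with g x = y, |μ x - ν x| := by
        refine sum_le_sum fun y _ => ?_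
        rw [← sum_sub_distrib]
        exact abs_sum_le_sum_abs _ _
    _ = ∑ x, |μ x - ν x| := sum_fiberwise univ g _

end Vale.Agent.P308.Rep
end

section

/-!
# P308, polynomial sampler: the list program of the sampler is the run of the replica chain

`psP Q` is the pair step on `PM n × PM n` for the matrix `Q` of positions (a parameter here).
-/

namespace Vale.Agent.P308.PA

open Vale.Agent.Lib.PolyTime Finset
open Vale.Agent.P308.Alg (PM toL length_toL M0)
open Vale.Agent.P308.Rep (runV)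

variable {n : ℕ}

/-- A population as a list of lists. -/
def toLL {S : ℕ} (ω : Fin S → PM n) : List (List ℕ) := List.ofFn fun i => toL (ω i)

theorem length_toLL {S : ℕ} (ω : Fin S → PM n) : (toLL ω).length = S := by simp [toLL]

theorem getD_toLL {S : ℕ} (ω : Fin S → PM n) (i : Fin S) : (toLL ω).getD i [] = toL (ω i) := by
  simp [toLL, List.getD_eq_getElem?_getD]

theorem replicate_M0 (hn : Even n) (S : ℕ) :
    List.replicate S (M0 n) = toLL (fun _ : Fin S => Alg.St.M0P hn) := by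
  apply List.ext_getElem
  · simp [toLL]
  · intro i h1 h2
    simp [toLL, Alg.St.M0_eq hn]

variable (psP : List (List ℕ) → List Bool → PM n × PM n → PM n × PM n)

/-- The hypothesis on the pair step. -/
def ListPair (b h : ℕ) : Prop :=
  ∀ (Q : List (List ℕ)) (v : Raw) (z : PM n × PM n), stepQ b h Q v (toL z.1, toL z.2) =
    (toL (psP Q v.w z).1, toL (psP Q v.w z).2)

variable {psP}

/-- The list program of one step of the chain of replicas. -/
theorem stepR_toLL {b h : ℕ} (hps : ListPair psP b h) (σ : ℕ) (Q : List (List ℕ)) (u : Raw)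
    (ω : Fin (2 ^ σ) → PM n) :
    stepR σ b h Q u (toLL ω) = toLL (repStep σ (psP Q) u.w ω) := by
  have hi : val (u.w.take σ) < 2 ^ σ :=
    (val_lt _).trans_le (Nat.pow_le_pow_right (by omega) (by simp only [List.length_take, inf_le_left]))
  have hj : val ((u.w.drop σ).take σ) < 2 ^ σ :=
    (val_lt _).trans_le (Nat.pow_le_pow_right (by omega) (by simp only [List.length_take, List.length_drop, inf_le_left]))
  unfold stepR repStep repGo
  set i := val (u.w.take σ) with hid
  set j := val ((u.w.drop σ).take σ) with hjd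
  by_cases hij : i = j
  · simp only [hij, if_true]
    rw [dif_neg (by simp)]
  · rw [dif_pos ⟨hi, hj, hij⟩]
    simp only [if_neg hij]
    have e1 : (toLL ω).getD i [] = toL (ω ⟨i, hi⟩) := getD_toLL ω ⟨i, hi⟩
    have e2 : (toLL ω).getD j [] = toL (ω ⟨j, hj⟩) := getD_toLL ω ⟨j, hj⟩
    rw [e1, e2]
    have e3 := hps Q ⟨u.w.drop (σ + σ)⟩ (ω ⟨i, hi⟩, ω ⟨j, hj⟩)
    simp only at e3
    rw [e3]
    simp only
    apply List.ext_getElem
    · simp only [List.getD_eq_getElem?_getD, length_toLL, List.length_map, List.length_range]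
    · intro k h1 h2
      have hk : k < 2 ^ σ := by simpa only [length_toLL] using h2
      simp only [List.getElem_map, List.getElem_range]
      have e4 : (toLL ω).getD k [] = toL (ω ⟨k, hk⟩) := getD_toLL ω ⟨k, hk⟩
      rw [e4]
      have e5 : ∀ (η : Fin (2 ^ σ) → PM n) (hh : k < (toLL η).length),
          (toLL η)[k]'hh = toL (η ⟨k, hk⟩) := by
        intro η hh
        simp only [toLL, List.getElem_ofFn]
      rw [e5]
      unfold Poly.upd
      by_cases hkj : k = j
      · subst hkj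
        rw [if_neg (Ne.symm hij), if_pos rfl, Function.update_self]
      · rw [if_neg hkj, Function.update_of_ne (by simpa [Fin.ext_iff] using hkj)]
        by_cases hki : k = i
        · subst hki
          rw [if_pos rfl, Function.update_self]
        · rw [if_neg hki, Function.update_of_ne (by simpa [Fin.ext_iff] using hki)]

theorem runV_add {Ω : Type*} (b : ℕ) (step : ℕ → List Bool → Ω → Ω) (t u : ℕ) :
    ∀ (k : ℕ) (w : List Bool) (x : Ω), runV b step (t + u) k w x =
      runV b step u (k + t) (w.drop (t * b)) (runV b step t k w x) := by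
  induction t with
  | zero => intro k w x; simp [runV]
  | succ t ih =>
    intro k w x
    rw [show t + 1 + u = t + u + 1 by ring, runV, runV, ih, List.drop_drop,
      show k + 1 + t = k + (t + 1) by ring, show b + t * b = (t + 1) * b by ring]

/-- `m` steps with the same matrix. -/
theorem iter_stepW {b h : ℕ} (hps : ListPair psP b h) (σ ℓ : ℕ) (Q : List (List ℕ))
    (f : ℕ → List Bool → (Fin (2 ^ σ) → PM n) → (Fin (2 ^ σ) → PM n)) (m : ℕ) :
    ∀ (k : ℕ) (ω : Fin (2 ^ σ) → PM n) (u : Raw), (∀ i < m, f (k + i) = repStep σ (psP Q)) →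
      (stepW σ b h ℓ Q)^[m] (toLL ω, u) =
        (toLL (runV ℓ f m k u.w ω), ⟨u.w.drop (m * ℓ)⟩) := by
  induction m with
  | zero => intro k ω u _; simp [runV]
  | succ m ih =>
    intro k ω u hf
    rw [Function.iterate_succ_apply]
    have e : stepW σ b h ℓ Q (toLL ω, u) =
        (toLL (f k (u.w.take ℓ) ω), ⟨u.w.drop ℓ⟩) := by
      unfold stepW
      rw [stepR_toLL hps, ← hf 0 (by omega), add_zero]
    rw [e, ih (k + 1) _ _ (fun i hi => by
      rw [← hf (i + 1) (by omega)]
      congr 1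
      ring)]
    rw [runV, List.drop_drop]
    congr 3
    ring

/-- The replica step number `t` of the path. -/
def repP (psP : List (List ℕ) → List Bool → PM n × PM n → PM n × PM n) (P : Par)
    (E : List (List ℕ)) (t : ℕ) : List Bool → (Fin (2 ^ P.σ) → PM n) → (Fin (2 ^ P.σ) → PM n) :=
  repStep P.σ (psP (pathM n P.h P.X P.D E (t + 1)))

/-- `J` units of the path. -/
theorem iter_micro {P : Par} (hps : ListPair psP P.b P.h) (hT : 0 < P.T) (E : List (List ℕ))
    (J : ℕ) : ∀ (t : ℕ) (ω : Fin (2 ^ P.σ) → PM n) (u : Raw),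
      (micro n P E)^[J] (t, (toLL ω, u)) =
        (t + J, (toLL (runV P.ℓ (fun k => repP psP P E (k / P.T)) (J * P.T) (t * P.T) u.w ω),
          ⟨u.w.drop (J * P.T * P.ℓ)⟩)) := by
  induction J with
  | zero => intro t ω u; simp [runV]
  | succ J ih =>
    intro t ω u
    rw [Function.iterate_succ_apply]
    have e : micro n P E (t, (toLL ω, u)) = (t + 1,
        (toLL (runV P.ℓ (fun k => repP psP P E (k / P.T)) P.T (t * P.T) u.w ω),
          ⟨u.w.drop (P.T * P.ℓ)⟩)) := by
      unfold micro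
      simp only
      rw [iter_stepW hps P.σ P.ℓ _ (fun k => repP psP P E (k / P.T)) P.T (t * P.T) ω u]
      intro i hi
      have : (t * P.T + i) / P.T = t := by
        rw [Nat.mul_comm, Nat.mul_add_div hT, Nat.div_eq_of_lt hi, add_zero]
      simp only [this, repP]
    rw [e, ih]
    rw [show (J + 1) * P.T = P.T + J * P.T by ring, runV_add, List.drop_drop,
      show (t + 1) * P.T = t * P.T + P.T by ring, show t + 1 + J = t + (J + 1) by ring,
      show P.T * P.ℓ + J * P.T * P.ℓ = (P.T + J * P.T) * P.ℓ by ring]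

/-- **The sampler is the run of the chain of replicas.** -/
theorem runX_eq {P : Par} (hps : ListPair psP P.b P.h) (hT : 0 < P.T) (hn : Even n)
    (E : List (List ℕ)) (u : List Bool) :
    runX n P E ⟨u⟩ = toL (runV P.ℓ (fun k => repP psP P E (k / P.T)) (P.J * P.T) 0 u
      (fun _ => Alg.St.M0P hn) ⟨0, by positivity⟩) := by
  unfold runX
  rw [replicate_M0 hn, iter_micro hps hT]
  simp only [zero_mul]
  exact getD_toLL _ ⟨0, by positivity⟩

end Vale.Agent.P308.PA
end

section

section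

/-!
# P308, polynomial version: exchange of a component

`Poly.x0 N Y v` exchanges the matchings `N` and `Y` on the component of `v` in `N + Y`, which is the
set of the first `n` vertices of the alternating walk from `v`. We show that this set is the
smallest one which contains `v` and is closed under `N` and `Y`; hence the two new maps are perfect
matchings, the exchange with the same label is the reverse move, and the product weight does not
change.
-/

set_option linter.all false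

namespace Vale.Agent.P308.Xch.Comp

open Finset Vale.Agent.P308.Alg Vale.Agent.P308.Poly

variable {n : ℕ}

/-- The condition of a perfect matching. -/
abbrev PMf (g : Fin n → Fin n) : Prop := (∀ x, g (g x) = x) ∧ ∀ x, g x ≠ x

theorem walk_zero (N Y : Fin n → Fin n) (v : Fin n) : walk N Y v 0 = v := rfl

theorem walk_even (N Y : Fin n → Fin n) (v : Fin n) {i : ℕ} (h : i % 2 = 0) :
    walk N Y v (i + 1) = Y (walk N Y v i) := by
  simp [walk, h]

theorem walk_odd (N Y : Fin n → Fin n) (v : Fin n) {i : ℕ} (h : i % 2 = 1) :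
    walk N Y v (i + 1) = N (walk N Y v i) := by
  simp [walk, h]

/-- The component of `v`. -/
def Cmp (N Y : Fin n → Fin n) (v z : Fin n) : Prop := ∃ i < n, walk N Y v i = z

instance (N Y : Fin n → Fin n) (v z : Fin n) : Decidable (Cmp N Y v z) := by
  unfold Cmp; infer_instance

/-- The walk closes after an even number of at most `n` steps. -/
theorem period {N Y : Fin n → Fin n} (hN : PMf N) (hY : PMf Y) (v : Fin n) :
    ∃ k, 0 < k ∧ k ≤ n ∧ k % 2 = 0 ∧ walk N Y v k = v ∧
      ∀ i < k, ∀ j < k, walk N Y v i = walk N Y v j → i = j := by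
  classical
  have hex : ∃ k, ∃ i < k, walk N Y v i = walk N Y v k := by
    obtain ⟨i, j, hij, h⟩ := Finite.exists_ne_map_eq_of_infinite (fun i : ℕ => walk N Y v i)
    rcases lt_or_gt_of_ne hij with h1 | h1
    · exact ⟨j, i, h1, h⟩
    · exact ⟨i, j, h1, h.symm⟩
  set k := Nat.find hex with hk
  obtain ⟨i, hik, hi⟩ := Nat.find_spec hex
  rw [← hk] at hik hi
  have hmin : ∀ j < k, ∀ l < j, walk N Y v l ≠ walk N Y v j := by
    intro j hj l hl h
    exact Nat.find_min hex hj ⟨l, hl, h⟩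
  have hinj : ∀ i < k, ∀ j < k, walk N Y v i = walk N Y v j → i = j := by
    intro i hi j hj h
    rcases lt_trichotomy i j with h1 | h1 | h1
    · exact absurd h (hmin j hj i h1)
    · exact h1
    · exact absurd h.symm (hmin i hi j h1)
  have hk0 : 0 < k := by omega
  have hkn : k ≤ n := by
    have hi' : Function.Injective (fun i : Fin k => walk N Y v i.1) := by
      intro a b h
      exact Fin.ext (hinj a.1 a.2 b.1 b.2 h)
    have := Fintype.card_le_of_injective _ hi'
    simpa only [ge_iff_le, Fintype.card_fin] using this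
  obtain ⟨m, hm⟩ : ∃ m, k = m + 1 := ⟨k - 1, by omega⟩
  have hi0 : i = 0 ∧ k % 2 = 0 := by
    rcases Nat.mod_two_eq_zero_or_one k with hk2 | hk2
    · -- `k` even
      have h1 : walk N Y v k = N (walk N Y v m) := by
        rw [hm]; exact walk_odd N Y v (by (clear * - hex hm hk2; omega))
      have h2 : walk N Y v m = N (walk N Y v i) := by rw [hi, h1, hN.1]
      rcases Nat.mod_two_eq_zero_or_one i with hi2 | hi2
      · refine ⟨?_, hk2⟩
        by_contra hne
        obtain ⟨j, hj⟩ : ∃ j, i = j + 1 := ⟨i - 1, by (clear * - hex hi2 hne; omega)⟩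
        have h3 : walk N Y v i = N (walk N Y v j) := by
          rw [hj]; exact walk_odd N Y v (by (clear * - hex hi2 hj; omega))
        have h4 : walk N Y v m = walk N Y v j := by rw [h2, h3, hN.1]
        have := hinj m (by omega) j (by omega) h4
        omega
      · exfalso
        have h3 : walk N Y v (i + 1) = N (walk N Y v i) := walk_odd N Y v hi2
        have h4 : walk N Y v m = walk N Y v (i + 1) := by rw [h2, h3]
        by_cases hlt : i + 1 < k
        · have := hinj m (by (clear * - hex hm; omega)) (i + 1) hlt h4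
          omega
        · have h5 : k = i + 1 := by (clear * - hex hik hm hk2 hi2 hlt; omega)
          rw [h5, h3] at hi
          exact hN.2 _ hi.symm
    · exfalso
      have h1 : walk N Y v k = Y (walk N Y v m) := by
        rw [hm]; exact walk_even N Y v (by omega)
      have h2 : walk N Y v m = Y (walk N Y v i) := by rw [hi, h1, hY.1]
      rcases Nat.mod_two_eq_zero_or_one i with hi2 | hi2
      · have h3 : walk N Y v (i + 1) = Y (walk N Y v i) := walk_even N Y v hi2
        have h4 : walk N Y v m = walk N Y v (i + 1) := by rw [h2, h3]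
        by_cases hlt : i + 1 < k
        · have := hinj m (by omega) (i + 1) hlt h4
          (clear * - hex hm hk2 hi2 this; omega)
        · have h5 : k = i + 1 := by omega
          rw [h5, h3] at hi
          exact hY.2 _ hi.symm
      · obtain ⟨j, hj⟩ : ∃ j, i = j + 1 := ⟨i - 1, by (clear * - hex hi2; omega)⟩
        have h3 : walk N Y v i = Y (walk N Y v j) := by
          rw [hj]; exact walk_even N Y v (by omega)
        have h4 : walk N Y v m = walk N Y v j := by rw [h2, h3, hY.1]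
        have := hinj m (by omega) j (by omega) h4
        omega
  refine ⟨k, hk0, hkn, hi0.2, ?_, hinj⟩
  rw [← hi, hi0.1]
  rfl

/-- Every set which contains `v` and is closed contains the walk. -/
theorem walk_mem {N Y : Fin n → Fin n} {v : Fin n} {p : Fin n → Prop} (hv : p v)
    (h1 : ∀ z, p z → p (N z)) (h2 : ∀ z, p z → p (Y z)) (i : ℕ) : p (walk N Y v i) := by
  induction i with
  | zero => exact hv
  | succ i ih =>
    rcases Nat.mod_two_eq_zero_or_one i with h | h
    · rw [walk_even N Y v h]; exact h2 _ ih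
    · rw [walk_odd N Y v h]; exact h1 _ ih

theorem cmp_self (N Y : Fin n → Fin n) (v : Fin n) : Cmp N Y v v :=
  ⟨0, lt_of_le_of_lt (Nat.zero_le _) v.2, rfl⟩

/-- The component is contained in every closed set which contains `v`. -/
theorem cmp_le {N Y : Fin n → Fin n} {v : Fin n} {p : Fin n → Prop} (hv : p v)
    (h1 : ∀ z, p z → p (N z)) (h2 : ∀ z, p z → p (Y z)) {z : Fin n} (h : Cmp N Y v z) : p z := by
  obtain ⟨i, -, rfl⟩ := h
  exact walk_mem hv h1 h2 i

/-- The component is closed. -/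
theorem cmp_closed {N Y : Fin n → Fin n} (hN : PMf N) (hY : PMf Y) (v : Fin n) :
    (∀ z, Cmp N Y v z → Cmp N Y v (N z)) ∧ ∀ z, Cmp N Y v z → Cmp N Y v (Y z) := by
  obtain ⟨k, hk0, hkn, hk2, hkv, -⟩ := period hN hY v
  have hT1 : ∀ z, (∃ i < k, walk N Y v i = z) → ∃ i < k, walk N Y v i = N z := by
    rintro z ⟨i, hi, rfl⟩
    rcases Nat.mod_two_eq_zero_or_one i with h | h
    · rcases Nat.eq_zero_or_pos i with h0 | h0
      · refine ⟨k - 1, by omega, ?_⟩
        have h3 : walk N Y v (k - 1 + 1) = N (walk N Y v (k - 1)) := walk_odd N Y v (by omega)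
        rw [Nat.sub_add_cancel hk0, hkv] at h3
        rw [h0, walk_zero]
        conv_rhs => rw [h3]
        exact (hN.1 _).symm
      · refine ⟨i - 1, by omega, ?_⟩
        have h3 : walk N Y v (i - 1 + 1) = N (walk N Y v (i - 1)) := walk_odd N Y v (by (clear * - h h0; omega))
        rw [Nat.sub_add_cancel h0] at h3
        rw [h3, hN.1]
    · by_cases hlt : i + 1 < k
      · exact ⟨i + 1, hlt, walk_odd N Y v h⟩
      · refine ⟨0, hk0, ?_⟩
        have h5 : i + 1 = k := by omega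
        rw [← walk_odd N Y v h, h5, hkv, walk_zero]
  have hT2 : ∀ z, (∃ i < k, walk N Y v i = z) → ∃ i < k, walk N Y v i = Y z := by
    rintro z ⟨i, hi, rfl⟩
    rcases Nat.mod_two_eq_zero_or_one i with h | h
    · exact ⟨i + 1, by omega, walk_even N Y v h⟩
    · refine ⟨i - 1, by omega, ?_⟩
      have h3 : walk N Y v (i - 1 + 1) = Y (walk N Y v (i - 1)) := walk_even N Y v (by (clear * - h; omega))
      rw [Nat.sub_add_cancel (by omega)] at h3
      rw [h3, hY.1]
  have hS : ∀ z, Cmp N Y v z ↔ ∃ i < k, walk N Y v i = z := by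
    intro z
    constructor
    · exact cmp_le ⟨0, hk0, rfl⟩ hT1 hT2
    · rintro ⟨i, hi, h⟩
      exact ⟨i, by omega, h⟩
  constructor
  · intro z hz
    rw [hS] at hz ⊢
    exact hT1 z hz
  · intro z hz
    rw [hS] at hz ⊢
    exact hT2 z hz

/-- An involution which preserves the component also preserves its complement. -/
theorem not_cmp {N Y g : Fin n → Fin n} {v : Fin n} (hg : ∀ x, g (g x) = x)
    (h : ∀ z, Cmp N Y v z → Cmp N Y v (g z)) {z : Fin n} (hz : ¬ Cmp N Y v z) :
    ¬ Cmp N Y v (g z) := by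
  intro h'
  exact hz (by rw [← hg z]; exact h _ h')

theorem x0_fst (N Y : Fin n → Fin n) (v z : Fin n) :
    (x0 N Y v).1 z = if Cmp N Y v z then Y z else N z := rfl

theorem x0_snd (N Y : Fin n → Fin n) (v z : Fin n) :
    (x0 N Y v).2 z = if Cmp N Y v z then N z else Y z := rfl

/-- The mixture of two matchings on a component is a matching. -/
theorem mix_pm {N Y g h : Fin n → Fin n} {v : Fin n} (hg : PMf g) (hh : PMf h)
    (h1 : ∀ z, Cmp N Y v z → Cmp N Y v (g z)) (h2 : ∀ z, Cmp N Y v z → Cmp N Y v (h z)) :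
    PMf (fun z => if Cmp N Y v z then g z else h z) := by
  constructor
  · intro z
    by_cases hz : Cmp N Y v z
    · simp only [hz, if_true, h1 z hz, hg.1]
    · simp only [hz, if_false, not_cmp hh.1 h2 hz, hh.1]
  · intro z
    by_cases hz : Cmp N Y v z
    · simp only [hz, if_true]; exact hg.2 z
    · simp only [hz, if_false]; exact hh.2 z

/-- (a) The two new maps are perfect matchings. -/
theorem x0_pm_fst {N Y : Fin n → Fin n} (hN : PMf N) (hY : PMf Y) (v : Fin n) :
    PMf (x0 N Y v).1 := by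
  obtain ⟨h1, h2⟩ := cmp_closed hN hY v
  exact mix_pm hY hN h2 h1

theorem x0_pm_snd {N Y : Fin n → Fin n} (hN : PMf N) (hY : PMf Y) (v : Fin n) :
    PMf (x0 N Y v).2 := by
  obtain ⟨h1, h2⟩ := cmp_closed hN hY v
  exact mix_pm hN hY h1 h2

/-- The component of `v` in the new pair is the same set. -/
theorem cmp_x0 {N Y : Fin n → Fin n} (hN : PMf N) (hY : PMf Y) (v z : Fin n) :
    Cmp (x0 N Y v).1 (x0 N Y v).2 v z ↔ Cmp N Y v z := by
  obtain ⟨h1, h2⟩ := cmp_closed hN hY v
  obtain ⟨h3, h4⟩ := cmp_closed (x0_pm_fst hN hY v) (x0_pm_snd hN hY v) v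
  have hle : ∀ z, Cmp (x0 N Y v).1 (x0 N Y v).2 v z → Cmp N Y v z := by
    intro z
    refine cmp_le (p := Cmp N Y v) (cmp_self N Y v) ?_ ?_
    · intro z hz
      rw [x0_fst, if_pos hz]; exact h2 z hz
    · intro z hz
      rw [x0_snd, if_pos hz]; exact h1 z hz
  refine ⟨hle z, ?_⟩
  refine cmp_le (p := Cmp (x0 N Y v).1 (x0 N Y v).2 v) (cmp_self _ _ v) ?_ ?_
  · intro z hz
    have := h4 z hz
    rwa [x0_snd, if_pos (hle z hz)] at this
  · intro z hz
    have := h3 z hz
    rwa [x0_fst, if_pos (hle z hz)] at this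

/-- (b) The exchange with the same label is the reverse move. -/
theorem x0_x0 {N Y : Fin n → Fin n} (hN : PMf N) (hY : PMf Y) (v : Fin n) :
    x0 (x0 N Y v).1 (x0 N Y v).2 v = (N, Y) := by
  refine Prod.ext (funext fun z => ?_) (funext fun z => ?_)
  · rw [x0_fst]
    by_cases hz : Cmp N Y v z
    · rw [if_pos ((cmp_x0 hN hY v z).2 hz), x0_snd, if_pos hz]
    · rw [if_neg (fun h => hz ((cmp_x0 hN hY v z).1 h)), x0_fst, if_neg hz]
  · rw [x0_snd]
    by_cases hz : Cmp N Y v z
    · rw [if_pos ((cmp_x0 hN hY v z).2 hz), x0_fst, if_pos hz]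
    · rw [if_neg (fun h => hz ((cmp_x0 hN hY v z).1 h)), x0_snd, if_neg hz]

/-- The move as a map of pairs of perfect matchings. -/
theorem toPM_val (M : PM n) {g : Fin n → Fin n} (h : PMf g) : (toPM M g).1 = g := by
  have h1 : toPM M g = ⟨g, h⟩ := dif_pos h
  rw [h1]

theorem mv_one (a b : Fin n) (z : PM n × PM n) :
    (mv (1, a, b) z).1.1 = (x0 z.1.1 z.2.1 a).1 ∧ (mv (1, a, b) z).2.1 = (x0 z.1.1 z.2.1 a).2 := by
  have h : mvF (1, a, b) z.1.1 z.2.1 = x0 z.1.1 z.2.1 a := by
    unfold mvF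
    rw [if_neg (show ¬ ((1 : Fin 3) = 0) by decide), if_pos rfl]
  constructor
  · show (toPM z.1 (mvF (1, a, b) z.1.1 z.2.1).1).1 = _
    rw [h]
    exact toPM_val _ (x0_pm_fst z.1.2 z.2.2 a)
  · show (toPM z.2 (mvF (1, a, b) z.1.1 z.2.1).2).1 = _
    rw [h]
    exact toPM_val _ (x0_pm_snd z.1.2 z.2.2 a)

/-- (b) for `mv`: type 1 moves are involutions. -/
theorem mv_mv_one (a b : Fin n) (z : PM n × PM n) : mv (1, a, b) (mv (1, a, b) z) = z := by
  obtain ⟨h1, h2⟩ := mv_one a b z
  obtain ⟨h3, h4⟩ := mv_one a b (mv (1, a, b) z)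
  rw [h1, h2, x0_x0 z.1.2 z.2.2 a] at h3 h4
  exact Prod.ext (Subtype.ext h3) (Subtype.ext h4)

theorem rv_one (a b : Fin n) (z : PM n × PM n) : rv (1, a, b) z = (1, a, b) := by
  unfold rv
  rw [if_neg (show ¬ ((1 : Fin 3) = 0) by decide), if_pos rfl]

/-- (c) The product weight does not change. -/
theorem wt_one (lam : Fin n → Fin n → ℝ) (a b : Fin n) (z : PM n × PM n) :
    wt lam (mv (1, a, b) z).1 * wt lam (mv (1, a, b) z).2 = wt lam z.1 * wt lam z.2 := by
  obtain ⟨h1, h2⟩ := mv_one a b z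
  unfold wt
  rw [h1, h2, ← Finset.prod_mul_distrib, ← Finset.prod_mul_distrib]
  refine Finset.prod_congr rfl fun x _ => ?_
  rw [x0_fst, x0_snd]
  by_cases hx : Cmp z.1.1 z.2.1 a x
  · rw [if_pos hx, if_pos hx, mul_comm]
  · rw [if_neg hx, if_neg hx]

theorem mu2_one (lam : Fin n → Fin n → ℝ) (a b : Fin n) (z : PM n × PM n) :
    mu2 lam (mv (1, a, b) z) = mu2 lam z := by
  unfold mu2 mu
  rw [div_mul_div_comm, div_mul_div_comm, wt_one]

end Vale.Agent.P308.Xch.Comp

end

section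

/-!
# P308, polynomial version: the exchange of an odd segment (moves of type 2)
-/

namespace Vale.Agent.P308.Poly

open Finset Vale.Agent.P308.Alg

variable {n : ℕ}

/-- fixed point free involution -/
def Inv (N : Fin n → Fin n) : Prop := (∀ x, N (N x) = x) ∧ ∀ x, N x ≠ x

theorem walk_even (N Y : Fin n → Fin n) (v : Fin n) {i : ℕ} (h : i % 2 = 0) :
    walk N Y v (i + 1) = Y (walk N Y v i) := by
  rw [walk, if_pos h]

theorem walk_odd (N Y : Fin n → Fin n) (v : Fin n) {i : ℕ} (h : i % 2 = 1) :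
    walk N Y v (i + 1) = N (walk N Y v i) := by
  rw [walk, if_neg (by omega)]

section Odd

variable {N Y : Fin n → Fin n} {v : Fin n} {k : ℕ}

theorem Y_walk_even (N Y : Fin n → Fin n) (v : Fin n) {i : ℕ} (h : i % 2 = 0) :
    Y (walk N Y v i) = walk N Y v (i + 1) :=
  (walk_even N Y v h).symm

theorem N_walk_odd (N Y : Fin n → Fin n) (v : Fin n) {i : ℕ} (h : i % 2 = 1) :
    N (walk N Y v i) = walk N Y v (i + 1) :=
  (walk_odd N Y v h).symm

theorem Y_walk_odd (hY : Inv Y) {i : ℕ} (h : i % 2 = 1) :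
    Y (walk N Y v i) = walk N Y v (i - 1) := by
  obtain ⟨j, rfl⟩ : ∃ j, i = j + 1 := ⟨i - 1, by (clear * - h; omega)⟩
  rw [walk_even N Y v (by omega : j % 2 = 0), hY.1, Nat.add_sub_cancel]

theorem N_walk_even (hN : Inv N) {i : ℕ} (h : i % 2 = 0) (h0 : i ≠ 0) :
    N (walk N Y v i) = walk N Y v (i - 1) := by
  obtain ⟨j, rfl⟩ : ∃ j, i = j + 1 := ⟨i - 1, by omega⟩
  rw [walk_odd N Y v (by omega : j % 2 = 1), hN.1, Nat.add_sub_cancel]

/-- membership in the segment -/
def InS (N Y : Fin n → Fin n) (v : Fin n) (k : ℕ) (z : Fin n) : Prop := ∃ i ≤ 2 * k, walk N Y v i = z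

instance (N Y : Fin n → Fin n) (v : Fin n) (k : ℕ) (z : Fin n) : Decidable (InS N Y v k z) := by
  unfold InS; infer_instance

theorem inS_v : InS N Y v k v := ⟨0, by omega, rfl⟩

theorem inS_y : InS N Y v k (walk N Y v (2 * k)) := ⟨2 * k, le_rfl, rfl⟩

/-- the other neighbour of the first vertex is not on the segment -/
theorem not_inS_N (hN : Inv N) (hs : Seg N Y v k) : ¬ InS N Y v k (N v) := by
  rintro ⟨i, hi, h⟩
  have h1 : N (walk N Y v i) = v := by rw [h, hN.1]
  rcases Nat.mod_two_eq_zero_or_one i with h2 | h2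
  · by_cases h0 : i = 0
    · subst h0
      exact hN.2 v h1
    · rw [N_walk_even hN h2 h0] at h1
      have := hs (i - 1) (by omega) 0 (by omega) h1
      omega
  · rw [N_walk_odd N Y v h2] at h1
    have := hs (i + 1) (by (clear * - hi h2; omega)) 0 (by (clear * -; omega)) h1
    omega

/-- the walk backwards -/
theorem walk_back (hN : Inv N) (hY : Inv Y) : ∀ i ≤ 2 * k,
    walk Y N (walk N Y v (2 * k)) i = walk N Y v (2 * k - i) := by
  intro i
  induction i with
  | zero => intro _; rfl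
  | succ i ih =>
    intro hi
    have ih' := ih (by omega)
    rcases Nat.mod_two_eq_zero_or_one i with h2 | h2
    · rw [walk_even _ _ _ h2, ih', N_walk_even hN (by omega) (by omega)]
      congr 1
    · rw [walk_odd _ _ _ h2, ih', Y_walk_odd hY (by omega)]
      congr 1

theorem seg_back (hN : Inv N) (hY : Inv Y) (hs : Seg N Y v k) :
    Seg Y N (walk N Y v (2 * k)) k := by
  intro i hi j hj h
  rw [walk_back hN hY i hi, walk_back hN hY j hj] at h
  have := hs _ (by omega) _ (by omega) h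
  omega

theorem inS_back (hN : Inv N) (hY : Inv Y) (z : Fin n) :
    InS Y N (walk N Y v (2 * k)) k z ↔ InS N Y v k z := by
  constructor
  · rintro ⟨i, hi, h⟩
    rw [walk_back hN hY i hi] at h
    exact ⟨_, by omega, h⟩
  · rintro ⟨i, hi, h⟩
    refine ⟨2 * k - i, by omega, ?_⟩
    rw [walk_back hN hY _ (by omega), ← h]
    congr 1
    omega

theorem walk_back_last (hN : Inv N) (hY : Inv Y) :
    walk Y N (walk N Y v (2 * k)) (2 * k) = v := by
  rw [walk_back hN hY _ le_rfl, Nat.sub_self]; rfl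

theorem not_inS_Y (hN : Inv N) (hY : Inv Y) (hs : Seg N Y v k) :
    ¬ InS N Y v k (Y (walk N Y v (2 * k))) := by
  rw [← inS_back hN hY]
  exact not_inS_N hY (seg_back hN hY hs)

/-- the partner of a vertex of the segment, different from the last one, in `Y` -/
theorem inS_Y (hY : Inv Y) (hs : Seg N Y v k) {z : Fin n} (hz : InS N Y v k z)
    (hzy : z ≠ walk N Y v (2 * k)) : InS N Y v k (Y z) ∧ Y z ≠ walk N Y v (2 * k) := by
  obtain ⟨i, hi, rfl⟩ := hz
  have hik : i ≠ 2 * k := fun h => hzy (by rw [h])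
  rcases Nat.mod_two_eq_zero_or_one i with h2 | h2
  · rw [Y_walk_even N Y v h2]
    refine ⟨⟨i + 1, by (clear * - hi hik h2; omega), rfl⟩, fun h => ?_⟩
    have := hs _ (by omega) _ le_rfl h
    omega
  · rw [Y_walk_odd hY h2]
    refine ⟨⟨i - 1, by (clear * - hi h2; omega), rfl⟩, fun h => ?_⟩
    have := hs _ (by (clear * - hi h2; omega)) _ le_rfl h
    omega

/-- a vertex outside, different from the neighbour of the first vertex, has its `N`-partner
outside -/
theorem not_inS_N' (hN : Inv N) {z : Fin n} (hz : ¬ InS N Y v k z) (hzv : z ≠ N v) :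
    ¬ InS N Y v k (N z) := by
  rintro ⟨i, hi, h⟩
  have h1 : N (walk N Y v i) = z := by rw [h, hN.1]
  rcases Nat.mod_two_eq_zero_or_one i with h2 | h2
  · by_cases h0 : i = 0
    · subst h0
      exact hzv h1.symm
    · rw [N_walk_even hN h2 h0] at h1
      exact hz ⟨i - 1, by omega, h1⟩
  · rw [N_walk_odd N Y v h2] at h1
    exact hz ⟨i + 1, by (clear * - hi h2; omega), h1⟩

theorem x1_fst (N Y : Fin n → Fin n) (v : Fin n) (k : ℕ) (z : Fin n) :
    (x1 N Y v k).1 z = if z = walk N Y v (2 * k) then N v else if z = N v then walk N Y v (2 * k)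
      else if InS N Y v k z then Y z else N z := rfl

theorem x1_snd (N Y : Fin n → Fin n) (v : Fin n) (k : ℕ) (z : Fin n) :
    (x1 N Y v k).2 z = if z = v then Y (walk N Y v (2 * k)) else
      if z = Y (walk N Y v (2 * k)) then v else if InS N Y v k z then N z else Y z := rfl

/-- the symmetry of the move -/
theorem x1_symm (hN : Inv N) (hY : Inv Y) :
    x1 Y N (walk N Y v (2 * k)) k = ((x1 N Y v k).2, (x1 N Y v k).1) := by
  refine Prod.ext ?_ ?_
  · funext z
    change (x1 Y N (walk N Y v (2 * k)) k).1 z = (x1 N Y v k).2 z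
    rw [x1_fst, x1_snd, walk_back_last hN hY]
    simp only [inS_back hN hY]
  · funext z
    change (x1 Y N (walk N Y v (2 * k)) k).2 z = (x1 N Y v k).1 z
    rw [x1_snd]
    simp only [walk_back_last hN hY, inS_back hN hY]
    rw [x1_fst]

theorem x1_fst_y : (x1 N Y v k).1 (walk N Y v (2 * k)) = N v := by
  rw [x1_fst, if_pos rfl]

theorem x1_fst_s (hN : Inv N) (hs : Seg N Y v k) : (x1 N Y v k).1 (N v) = walk N Y v (2 * k) := by
  rw [x1_fst, if_neg, if_pos rfl]
  intro h
  exact not_inS_N hN hs (h ▸ inS_y)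

theorem x1_fst_in (hN : Inv N) (hs : Seg N Y v k) {z : Fin n} (hz : InS N Y v k z)
    (hzy : z ≠ walk N Y v (2 * k)) : (x1 N Y v k).1 z = Y z := by
  rw [x1_fst, if_neg hzy, if_neg, if_pos hz]
  rintro rfl
  exact not_inS_N hN hs hz

theorem x1_fst_out {z : Fin n} (hz : ¬ InS N Y v k z) (hzv : z ≠ N v) :
    (x1 N Y v k).1 z = N z := by
  rw [x1_fst, if_neg, if_neg hzv, if_neg hz]
  rintro rfl
  exact hz inS_y

theorem x1_snd_v : (x1 N Y v k).2 v = Y (walk N Y v (2 * k)) := by
  rw [x1_snd, if_pos rfl]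

theorem x1_snd_s (hN : Inv N) (hY : Inv Y) (hs : Seg N Y v k) :
    (x1 N Y v k).2 (Y (walk N Y v (2 * k))) = v := by
  rw [x1_snd, if_neg, if_pos rfl]
  intro h
  exact not_inS_Y hN hY hs (by rw [h]; exact inS_v)

theorem x1_snd_in (hN : Inv N) (hY : Inv Y) (hs : Seg N Y v k) {z : Fin n}
    (hz : InS N Y v k z) (hzv : z ≠ v) : (x1 N Y v k).2 z = N z := by
  rw [x1_snd, if_neg hzv, if_neg, if_pos hz]
  rintro rfl
  exact not_inS_Y hN hY hs hz

theorem x1_snd_out {z : Fin n} (hz : ¬ InS N Y v k z) (hzs : z ≠ Y (walk N Y v (2 * k))) :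
    (x1 N Y v k).2 z = Y z := by
  rw [x1_snd, if_neg, if_neg hzs, if_neg hz]
  rintro rfl
  exact hz inS_v

theorem inv_x1_fst (hN : Inv N) (hY : Inv Y) (hs : Seg N Y v k) : Inv (x1 N Y v k).1 := by
  constructor
  · intro z
    by_cases h1 : z = walk N Y v (2 * k)
    · subst h1
      rw [x1_fst_y, x1_fst_s hN hs]
    by_cases h2 : z = N v
    · subst h2
      rw [x1_fst_s hN hs, x1_fst_y]
    by_cases h3 : InS N Y v k z
    · obtain ⟨h4, h5⟩ := inS_Y hY hs h3 h1
      rw [x1_fst_in hN hs h3 h1, x1_fst_in hN hs h4 h5, hY.1]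
    · have h4 := not_inS_N' hN h3 h2
      rw [x1_fst_out h3 h2, x1_fst_out h4 ?_, hN.1]
      intro h5
      have h6 : z = v := by rw [← hN.1 z, h5, hN.1]
      exact h3 (h6 ▸ inS_v)
  · intro z
    by_cases h1 : z = walk N Y v (2 * k)
    · subst h1
      rw [x1_fst_y]
      intro h
      exact not_inS_N hN hs (h ▸ inS_y)
    by_cases h2 : z = N v
    · subst h2
      rw [x1_fst_s hN hs]
      exact fun h => h1 h.symm
    by_cases h3 : InS N Y v k z
    · rw [x1_fst_in hN hs h3 h1]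
      exact hY.2 z
    · rw [x1_fst_out h3 h2]
      exact hN.2 z

theorem inv_x1_snd (hN : Inv N) (hY : Inv Y) (hs : Seg N Y v k) : Inv (x1 N Y v k).2 := by
  have h := inv_x1_fst hY hN (seg_back hN hY hs)
  rw [x1_symm hN hY] at h
  exact h

/-- the walk after the move -/
theorem walk_x1 (hN : Inv N) (hY : Inv Y) (hs : Seg N Y v k) : ∀ i ≤ 2 * k,
    walk (x1 N Y v k).1 (x1 N Y v k).2 (walk N Y v (2 * k)) i = walk N Y v (2 * k - i) := by
  intro i
  induction i with
  | zero => intro _; rfl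
  | succ i ih =>
    intro hi
    have ih' := ih (by omega)
    rcases Nat.mod_two_eq_zero_or_one i with h2 | h2
    · rw [walk_even _ _ _ h2, ih', x1_snd_in hN hY hs ⟨_, by (clear * - hi h2; omega), rfl⟩,
        N_walk_even hN (by omega) (by omega)]
      · congr 1
      · intro h
        have := hs _ (by omega) 0 (by omega) h
        (clear * - hi h2 this; omega)
    · rw [walk_odd _ _ _ h2, ih', x1_fst_in hN hs ⟨_, by (clear * - hi h2; omega), rfl⟩, Y_walk_odd hY (by omega)]
      · congr 1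
      · intro h
        have := hs _ (by (clear * - hi h2; omega)) _ le_rfl h
        omega

theorem seg_x1 (hN : Inv N) (hY : Inv Y) (hs : Seg N Y v k) :
    Seg (x1 N Y v k).1 (x1 N Y v k).2 (walk N Y v (2 * k)) k := by
  intro i hi j hj h
  rw [walk_x1 hN hY hs i hi, walk_x1 hN hY hs j hj] at h
  have := hs _ (by omega) _ (by omega) h
  omega

theorem inS_x1 (hN : Inv N) (hY : Inv Y) (hs : Seg N Y v k) (z : Fin n) :
    InS (x1 N Y v k).1 (x1 N Y v k).2 (walk N Y v (2 * k)) k z ↔ InS N Y v k z := by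
  constructor
  · rintro ⟨i, hi, h⟩
    rw [walk_x1 hN hY hs i hi] at h
    exact ⟨_, by (clear * - hi; omega), h⟩
  · rintro ⟨i, hi, h⟩
    refine ⟨2 * k - i, by omega, ?_⟩
    rw [walk_x1 hN hY hs _ (by (clear * - hi; omega)), ← h]
    congr 1
    omega

theorem walk_x1_last (hN : Inv N) (hY : Inv Y) (hs : Seg N Y v k) :
    walk (x1 N Y v k).1 (x1 N Y v k).2 (walk N Y v (2 * k)) (2 * k) = v := by
  rw [walk_x1 hN hY hs _ le_rfl, Nat.sub_self]; rfl

/-- the move is reversed by the same move from the other end -/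
theorem x1_x1 (hN : Inv N) (hY : Inv Y) (hs : Seg N Y v k) :
    x1 (x1 N Y v k).1 (x1 N Y v k).2 (walk N Y v (2 * k)) k = (N, Y) := by
  refine Prod.ext ?_ ?_
  · funext z
    rw [x1_fst, walk_x1_last hN hY hs, x1_fst_y]
    simp only [inS_x1 hN hY hs]
    split_ifs with h1 h2 h3
    · rw [h1]
    · rw [h2, hN.1]
    · exact x1_snd_in hN hY hs h3 h1
    · exact x1_fst_out h3 h2
  · funext z
    rw [x1_snd, walk_x1_last hN hY hs, x1_snd_v]
    simp only [inS_x1 hN hY hs]
    split_ifs with h1 h2 h3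
    · rw [h1]
    · rw [h2, hY.1]
    · exact x1_fst_in hN hs h3 h1
    · exact x1_snd_out h3 h2

end Odd

/-! ### Perfect matchings -/

theorem PM_inv (M : PM n) : Inv M.1 := M.2

theorem toPM_of {M : PM n} {g : Fin n → Fin n} (h : Inv g) : toPM M g = ⟨g, h⟩ := by
  unfold toPM
  exact dif_pos h

theorem toPM_self (M M' : PM n) : toPM M M'.1 = M' := toPM_of (PM_inv M')

theorem mv_two_neg {l : Lab n} {z : PM n × PM n} (h : l.1 = 2)
    (hs : ¬ Seg z.1.1 z.2.1 l.2.1 l.2.2) : mv l z = z := by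
  have e : mvF l z.1.1 z.2.1 = (z.1.1, z.2.1) := by
    unfold mvF
    rw [if_neg (by rw [h]; decide), if_neg (by rw [h]; decide), if_neg hs]
  unfold mv
  rw [e]
  simp only [toPM_self]

theorem mv_two_pos {l : Lab n} {z : PM n × PM n} (h : l.1 = 2)
    (hs : Seg z.1.1 z.2.1 l.2.1 l.2.2) :
    mv l z = (⟨(x1 z.1.1 z.2.1 l.2.1 l.2.2).1, inv_x1_fst z.1.2 z.2.2 hs⟩,
      ⟨(x1 z.1.1 z.2.1 l.2.1 l.2.2).2, inv_x1_snd z.1.2 z.2.2 hs⟩) := by
  have e : mvF l z.1.1 z.2.1 = x1 z.1.1 z.2.1 l.2.1 l.2.2 := by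
    unfold mvF
    rw [if_neg (by rw [h]; decide), if_neg (by rw [h]; decide), if_pos hs]
  unfold mv
  rw [e, toPM_of (inv_x1_fst z.1.2 z.2.2 hs), toPM_of (inv_x1_snd z.1.2 z.2.2 hs)]

theorem rv_two_neg {l : Lab n} {z : PM n × PM n} (h : l.1 = 2)
    (hs : ¬ Seg z.1.1 z.2.1 l.2.1 l.2.2) : rv l z = l := by
  unfold rv
  rw [if_neg (by rw [h]; decide), if_neg (by rw [h]; decide), if_neg hs]

theorem rv_two_pos {l : Lab n} {z : PM n × PM n} (h : l.1 = 2)
    (hs : Seg z.1.1 z.2.1 l.2.1 l.2.2) :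
    rv l z = (l.1, walk z.1.1 z.2.1 l.2.1 (2 * l.2.2), l.2.2) := by
  unfold rv
  rw [if_neg (by rw [h]; decide), if_neg (by rw [h]; decide), if_pos hs]

/-- **The reverse move, type 2.** -/
theorem mv_rv_two {l : Lab n} {z : PM n × PM n} (h : l.1 = 2) :
    mv (rv l z) (mv l z) = z ∧ rv (rv l z) (mv l z) = l := by
  by_cases hs : Seg z.1.1 z.2.1 l.2.1 l.2.2
  · have hs' := seg_x1 z.1.2 z.2.2 hs
    have e1 := rv_two_pos h hs
    have e2 := mv_two_pos h hs
    have h' : (rv l z).1 = 2 := by rw [e1]; exact h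
    have hs2 : Seg (mv l z).1.1 (mv l z).2.1 (rv l z).2.1 (rv l z).2.2 := by
      rw [e1, e2]
      exact hs'
    constructor
    · rw [mv_two_pos h' hs2]
      have e3 : x1 (mv l z).1.1 (mv l z).2.1 (rv l z).2.1 (rv l z).2.2 = (z.1.1, z.2.1) := by
        rw [e1, e2]
        exact x1_x1 z.1.2 z.2.2 hs
      refine Prod.ext (Subtype.ext ?_) (Subtype.ext ?_)
      · exact congrArg Prod.fst e3
      · exact congrArg Prod.snd e3
    · rw [rv_two_pos h' hs2, e1, e2]
      refine Prod.ext rfl (Prod.ext ?_ rfl)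
      exact walk_x1_last z.1.2 z.2.2 hs
  · have e1 := rv_two_neg h hs
    have e2 := mv_two_neg h hs
    rw [e1, e2, e2, e1]
    exact ⟨rfl, rfl⟩

/-! ### The weights -/

theorem wt_sq {lam : Fin n → Fin n → ℝ} (hl : ∀ x y, lam x y = lam y x) (M : PM n) :
    wt lam M ^ 2 = ∏ x, lam x (M.1 x) := by
  have e1 : wt lam M = ∏ x, if M.1 x < x then lam x (M.1 x) else 1 := by
    unfold wt
    refine Fintype.prod_equiv (Function.Involutive.toPerm M.1 M.2.1) _ _ fun x => ?_
    have e2 : (Function.Involutive.toPerm M.1 M.2.1) x = M.1 x := rfl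
    rw [e2, M.2.1 x, hl x (M.1 x)]
  calc wt lam M ^ 2 = wt lam M * wt lam M := sq _
    _ = (∏ x, if x < M.1 x then lam x (M.1 x) else 1) *
        ∏ x, if M.1 x < x then lam x (M.1 x) else 1 := by
        rw [← e1]; rfl
    _ = ∏ x, lam x (M.1 x) := by
        rw [← prod_mul_distrib]
        refine prod_congr rfl fun x _ => ?_
        have h3 := M.2.2 x
        rcases lt_trichotomy x (M.1 x) with h | h | h
        · rw [if_pos h, if_neg h.asymm, mul_one]
        · exact absurd h.symm h3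
        · rw [if_neg h.asymm, if_pos h, one_mul]

theorem wt_pos {lam : Fin n → Fin n → ℝ} (hp : ∀ x y, x ≠ y → 0 < lam x y) (M : PM n) :
    0 < wt lam M := by
  unfold wt
  refine prod_pos fun x _ => ?_
  split_ifs
  · exact hp _ _ (M.2.2 x).symm
  · exact one_pos

/-- the vertices of the segment -/
def seg (N Y : Fin n → Fin n) (v : Fin n) (k : ℕ) : Finset (Fin n) := univ.filter (InS N Y v k)

theorem mem_seg {N Y : Fin n → Fin n} {v : Fin n} {k : ℕ} {z : Fin n} :
    z ∈ seg N Y v k ↔ InS N Y v k z := by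
  simp only [seg, mem_filter, mem_univ, true_and]

/-- product over all vertices, split at a vertex of a set and a vertex outside -/
theorem prod_split (A : Finset (Fin n)) {u s : Fin n} (hu : u ∈ A) (hs : s ∉ A) (f : Fin n → ℝ) :
    ∏ x, f x = (∏ x ∈ A.erase u, f x) * f u * (f s * ∏ x ∈ (Aᶜ).erase s, f x) := by
  rw [← prod_mul_prod_compl A f, ← mul_prod_erase A f hu,
    ← mul_prod_erase (Aᶜ) f (mem_compl.2 hs)]
  ring

theorem prod_x1_fst {N Y : Fin n → Fin n} {v : Fin n} {k : ℕ} (hN : Inv N)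
    (hs : Seg N Y v k) (lam : Fin n → Fin n → ℝ) :
    ∏ x, lam x ((x1 N Y v k).1 x) =
      (∏ x ∈ (seg N Y v k).erase (walk N Y v (2 * k)), lam x (Y x)) *
        lam (walk N Y v (2 * k)) (N v) *
        (lam (N v) (walk N Y v (2 * k)) * ∏ x ∈ ((seg N Y v k)ᶜ).erase (N v), lam x (N x)) := by
  rw [prod_split (seg N Y v k) (mem_seg.2 inS_y) (fun h => not_inS_N hN hs (mem_seg.1 h)),
    x1_fst_y, x1_fst_s hN hs]
  congr 1
  · congr 1
    refine prod_congr rfl fun x hx => ?_
    rw [mem_erase, mem_seg] at hx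
    rw [x1_fst_in hN hs hx.2 hx.1]
  · congr 1
    refine prod_congr rfl fun x hx => ?_
    rw [mem_erase, mem_compl, mem_seg] at hx
    rw [x1_fst_out hx.2 hx.1]

theorem prod_N {N Y : Fin n → Fin n} {v : Fin n} {k : ℕ} (hN : Inv N)
    (hs : Seg N Y v k) (lam : Fin n → Fin n → ℝ) :
    ∏ x, lam x (N x) =
      (∏ x ∈ (seg N Y v k).erase v, lam x (N x)) * lam v (N v) *
        (lam (N v) v * ∏ x ∈ ((seg N Y v k)ᶜ).erase (N v), lam x (N x)) := by
  rw [prod_split (seg N Y v k) (mem_seg.2 inS_v) (fun h => not_inS_N hN hs (mem_seg.1 h)), hN.1]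

theorem prod_x1_snd {N Y : Fin n → Fin n} {v : Fin n} {k : ℕ} (hN : Inv N) (hY : Inv Y)
    (hs : Seg N Y v k) (lam : Fin n → Fin n → ℝ) :
    ∏ x, lam x ((x1 N Y v k).2 x) =
      (∏ x ∈ (seg N Y v k).erase v, lam x (N x)) * lam v (Y (walk N Y v (2 * k))) *
        (lam (Y (walk N Y v (2 * k))) v *
          ∏ x ∈ ((seg N Y v k)ᶜ).erase (Y (walk N Y v (2 * k))), lam x (Y x)) := by
  rw [prod_split (seg N Y v k) (mem_seg.2 inS_v) (fun h => not_inS_Y hN hY hs (mem_seg.1 h)),
    x1_snd_v, x1_snd_s hN hY hs]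
  congr 1
  · congr 1
    refine prod_congr rfl fun x hx => ?_
    rw [mem_erase, mem_seg] at hx
    rw [x1_snd_in hN hY hs hx.2 hx.1]
  · congr 1
    refine prod_congr rfl fun x hx => ?_
    rw [mem_erase, mem_compl, mem_seg] at hx
    rw [x1_snd_out hx.2 hx.1]

theorem prod_Y {N Y : Fin n → Fin n} {v : Fin n} {k : ℕ} (hN : Inv N) (hY : Inv Y)
    (hs : Seg N Y v k) (lam : Fin n → Fin n → ℝ) :
    ∏ x, lam x (Y x) =
      (∏ x ∈ (seg N Y v k).erase (walk N Y v (2 * k)), lam x (Y x)) *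
        lam (walk N Y v (2 * k)) (Y (walk N Y v (2 * k))) *
        (lam (Y (walk N Y v (2 * k))) (walk N Y v (2 * k)) *
          ∏ x ∈ ((seg N Y v k)ᶜ).erase (Y (walk N Y v (2 * k))), lam x (Y x)) := by
  rw [prod_split (seg N Y v k) (mem_seg.2 inS_y) (fun h => not_inS_Y hN hY hs (mem_seg.1 h)), hY.1]

/-- **The weights of the odd move**: `y = walk (2 k)`, `s = N v`, `s' = Y y`. -/
theorem wt_x1 {lam : Fin n → Fin n → ℝ} (hl : ∀ x y, lam x y = lam y x)
    (hp : ∀ x y, x ≠ y → 0 < lam x y) (N Y : PM n) {v : Fin n} {k : ℕ} (hs : Seg N.1 Y.1 v k) :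
    wt lam ⟨(x1 N.1 Y.1 v k).1, inv_x1_fst N.2 Y.2 hs⟩ *
      wt lam ⟨(x1 N.1 Y.1 v k).2, inv_x1_snd N.2 Y.2 hs⟩ *
      (lam v (N.1 v) * lam (walk N.1 Y.1 v (2 * k)) (Y.1 (walk N.1 Y.1 v (2 * k)))) =
    wt lam N * wt lam Y *
      (lam (walk N.1 Y.1 v (2 * k)) (N.1 v) * lam v (Y.1 (walk N.1 Y.1 v (2 * k)))) := by
  have hN : Inv N.1 := N.2
  have hY : Inv Y.1 := Y.2
  set y := walk N.1 Y.1 v (2 * k) with hy
  have n1 : v ≠ N.1 v := (hN.2 v).symm
  have n2 : y ≠ Y.1 y := (hY.2 y).symm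
  have n3 : y ≠ N.1 v := fun h => not_inS_N hN hs (h ▸ inS_y)
  have n4 : v ≠ Y.1 y := fun h => not_inS_Y hN hY hs (by rw [← hy, ← h]; exact inS_v)
  have p1 := hp _ _ n1
  have p2 := hp _ _ n2
  have p3 := hp _ _ n3
  have p4 := hp _ _ n4
  have a1 := wt_sq hl ⟨(x1 N.1 Y.1 v k).1, inv_x1_fst N.2 Y.2 hs⟩
  have a2 := wt_sq hl ⟨(x1 N.1 Y.1 v k).2, inv_x1_snd N.2 Y.2 hs⟩
  have a3 := wt_sq hl N
  have a4 := wt_sq hl Y
  have b1 := wt_pos hp ⟨(x1 N.1 Y.1 v k).1, inv_x1_fst N.2 Y.2 hs⟩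
  have b2 := wt_pos hp ⟨(x1 N.1 Y.1 v k).2, inv_x1_snd N.2 Y.2 hs⟩
  have b3 := wt_pos hp N
  have b4 := wt_pos hp Y
  simp only at a1 a2
  rw [prod_x1_fst hN hs] at a1
  rw [prod_x1_snd hN hY hs] at a2
  rw [prod_N hN hs] at a3
  rw [prod_Y hN hY hs] at a4
  rw [← hy] at a1 a2 a4
  rw [hl (N.1 v) y] at a1
  rw [hl (Y.1 y) v] at a2
  rw [hl (N.1 v) v] at a3
  rw [hl (Y.1 y) y] at a4
  refine (sq_eq_sq₀ (by (clear * - hs b1 b2 p1 p2; positivity)) (by (clear * - b3 b4 p3 p4; positivity))).1 ?_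
  simp only [mul_pow, a1, a2, a3, a4]
  ring

end Vale.Agent.P308.Poly

end
end

section

end

section

/-!
# P308, polynomial version: the 2-switch (moves of type 0)
-/

namespace Vale.Agent.P308.Poly

open Finset Vale.Agent.P308.Alg

variable {n : ℕ}

theorem swf_at_x (f : Fin n → Fin n) (x y : Fin n) : swf f x y x = y := by
  unfold swf; rw [if_pos rfl]

theorem swf_at_y (f : Fin n → Fin n) {x y : Fin n} (h : x ≠ y) : swf f x y y = x := by
  unfold swf; rw [if_neg h.symm, if_pos rfl]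

theorem swf_at_fx {f : Fin n → Fin n} (hf : Inv f) {x y : Fin n} (h : f x ≠ y) :
    swf f x y (f x) = f y := by
  unfold swf; rw [if_neg (hf.2 x), if_neg h, if_pos rfl]

theorem swf_at_fy {f : Fin n → Fin n} (hf : Inv f) {x y : Fin n} (hxy : x ≠ y) (h : f x ≠ y) :
    swf f x y (f y) = f x := by
  have h1 : f y ≠ x := fun e => h (by rw [← e, hf.1])
  have h2 : f y ≠ f x := fun e => hxy (by rw [← hf.1 x, ← e, hf.1])
  unfold swf
  rw [if_neg h1, if_neg (hf.2 y), if_neg h2, if_pos rfl]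

theorem swf_at_ne {f : Fin n → Fin n} {x y z : Fin n} (h1 : z ≠ x) (h2 : z ≠ y) (h3 : z ≠ f x)
    (h4 : z ≠ f y) : swf f x y z = f z := by
  unfold swf; rw [if_neg h1, if_neg h2, if_neg h3, if_neg h4]

theorem inv_swf {f : Fin n → Fin n} (hf : Inv f) {x y : Fin n} (hxy : x ≠ y) (h : f x ≠ y) :
    Inv (swf f x y) := by
  have h1 : f y ≠ x := fun e => h (by rw [← e, hf.1])
  have h2 : f y ≠ f x := fun e => hxy (by rw [← hf.1 x, ← e, hf.1])
  constructor
  · intro z
    by_cases a : z = x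
    · subst a; rw [swf_at_x, swf_at_y f hxy]
    by_cases b : z = y
    · subst b; rw [swf_at_y f hxy, swf_at_x]
    by_cases c : z = f x
    · subst c; rw [swf_at_fx hf h, swf_at_fy hf hxy h]
    by_cases d : z = f y
    · subst d; rw [swf_at_fy hf hxy h, swf_at_fx hf h]
    rw [swf_at_ne a b c d, swf_at_ne, hf.1]
    · exact fun e => c (by rw [← e, hf.1])
    · exact fun e => d (by rw [← e, hf.1])
    · exact fun e => a (by rw [← hf.1 z, e, hf.1])
    · exact fun e => b (by rw [← hf.1 z, e, hf.1])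
  · intro z
    by_cases a : z = x
    · subst a; rw [swf_at_x]; exact hxy.symm
    by_cases b : z = y
    · subst b; rw [swf_at_y f hxy]; exact hxy
    by_cases c : z = f x
    · subst c; rw [swf_at_fx hf h]; exact h2
    by_cases d : z = f y
    · subst d; rw [swf_at_fy hf hxy h]; exact h2.symm
    rw [swf_at_ne a b c d]
    exact hf.2 z

/-- the switch back -/
theorem swf_back {f : Fin n → Fin n} (hf : Inv f) {x y : Fin n} (hxy : x ≠ y) (h : f x ≠ y) :
    swf (swf f x y) x (f x) = f := by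
  funext z
  by_cases a : z = x
  · subst a; rw [swf_at_x]
  have e1 : swf f x y x = y := swf_at_x f x y
  have e2 : swf f x y (f x) = f y := swf_at_fx hf h
  by_cases c : z = f x
  · subst c; rw [swf_at_y _ (hf.2 x).symm, hf.1]
  by_cases b : z = y
  · subst b
    have := swf_at_fx (inv_swf hf hxy h) (x := x) (y := f x) (by rw [e1]; exact h.symm)
    rw [e1, e2] at this
    exact this
  by_cases d : z = f y
  · subst d
    have := swf_at_fy (inv_swf hf hxy h) (x := x) (y := f x) (hf.2 x).symm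
      (by rw [e1]; exact h.symm)
    rw [e1, e2] at this
    rw [this, hf.1]
  rw [swf_at_ne a c (by rw [e1]; exact b) (by rw [e2]; exact d), swf_at_ne a b c d]

theorem mv_zero_neg {l : Lab n} {z : PM n × PM n} (h : l.1 = 0)
    (hs : ¬ (l.2.1 ≠ l.2.2 ∧ z.1.1 l.2.1 ≠ l.2.2)) : mv l z = z := by
  have e : mvF l z.1.1 z.2.1 = (z.1.1, z.2.1) := by
    unfold mvF
    rw [if_pos h, if_neg hs]
  unfold mv
  rw [e]
  simp only [toPM_self]

theorem mv_zero_pos {l : Lab n} {z : PM n × PM n} (h : l.1 = 0)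
    (hs : l.2.1 ≠ l.2.2 ∧ z.1.1 l.2.1 ≠ l.2.2) :
    mv l z = (⟨swf z.1.1 l.2.1 l.2.2, inv_swf z.1.2 hs.1 hs.2⟩, z.2) := by
  have e : mvF l z.1.1 z.2.1 = (swf z.1.1 l.2.1 l.2.2, z.2.1) := by
    unfold mvF
    rw [if_pos h, if_pos hs]
  unfold mv
  rw [e, toPM_of (inv_swf z.1.2 hs.1 hs.2)]
  simp only [toPM_self]

theorem rv_zero_neg {l : Lab n} {z : PM n × PM n} (h : l.1 = 0)
    (hs : ¬ (l.2.1 ≠ l.2.2 ∧ z.1.1 l.2.1 ≠ l.2.2)) : rv l z = l := by
  unfold rv
  rw [if_pos h, if_neg hs]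

theorem rv_zero_pos {l : Lab n} {z : PM n × PM n} (h : l.1 = 0)
    (hs : l.2.1 ≠ l.2.2 ∧ z.1.1 l.2.1 ≠ l.2.2) : rv l z = (0, l.2.1, z.1.1 l.2.1) := by
  unfold rv
  rw [if_pos h, if_pos hs]

/-- **The reverse move, type 0.** -/
theorem mv_rv_zero {l : Lab n} {z : PM n × PM n} (h : l.1 = 0) :
    mv (rv l z) (mv l z) = z ∧ rv (rv l z) (mv l z) = l := by
  by_cases hs : l.2.1 ≠ l.2.2 ∧ z.1.1 l.2.1 ≠ l.2.2
  · have e1 := rv_zero_pos h hs
    have e2 := mv_zero_pos h hs
    have h' : (rv l z).1 = 0 := by rw [e1]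
    have hs2 : (rv l z).2.1 ≠ (rv l z).2.2 ∧ (mv l z).1.1 (rv l z).2.1 ≠ (rv l z).2.2 := by
      rw [e1, e2]
      refine ⟨(z.1.2.2 l.2.1).symm, ?_⟩
      change swf z.1.1 l.2.1 l.2.2 l.2.1 ≠ z.1.1 l.2.1
      rw [swf_at_x]
      exact hs.2.symm
    constructor
    · rw [mv_zero_pos h' hs2]
      have e3 : swf (mv l z).1.1 (rv l z).2.1 (rv l z).2.2 = z.1.1 := by
        rw [e1, e2]
        exact swf_back z.1.2 hs.1 hs.2
      have e4 : (mv l z).2 = z.2 := by rw [e2]
      exact Prod.ext (Subtype.ext e3) e4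
    · rw [rv_zero_pos h' hs2, e1, e2]
      refine Prod.ext h.symm (Prod.ext rfl ?_)
      exact swf_at_x _ _ _
  · have e1 := rv_zero_neg h hs
    have e2 := mv_zero_neg h hs
    rw [e1, e2, e2, e1]
    exact ⟨rfl, rfl⟩

/-- **The weights of the 2-switch.** -/
theorem wt_swf {lam : Fin n → Fin n → ℝ} (hl : ∀ x y, lam x y = lam y x)
    (hp : ∀ x y, x ≠ y → 0 < lam x y) (M : PM n) {x y : Fin n} (hxy : x ≠ y) (h : M.1 x ≠ y) :
    wt lam ⟨swf M.1 x y, inv_swf M.2 hxy h⟩ * (lam x (M.1 x) * lam y (M.1 y)) =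
      wt lam M * (lam x y * lam (M.1 x) (M.1 y)) := by
  have hf : Inv M.1 := M.2
  have n1 : M.1 y ≠ x := fun e => h (by rw [← e, hf.1])
  have n2 : M.1 y ≠ M.1 x := fun e => hxy (by rw [← hf.1 x, ← e, hf.1])
  have p1 := hp _ _ (hf.2 x).symm
  have p2 := hp _ _ (hf.2 y).symm
  have p3 := hp _ _ hxy
  have p4 := hp _ _ n2.symm
  have b1 := wt_pos hp ⟨swf M.1 x y, inv_swf M.2 hxy h⟩
  have b2 := wt_pos hp M
  have key : ∀ g : Fin n → ℝ, ∏ z, g z =
      (g x * (g y * (g (M.1 x) * g (M.1 y)))) *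
        ∏ z ∈ ({x, y, M.1 x, M.1 y} : Finset (Fin n))ᶜ, g z := by
    intro g
    rw [← prod_mul_prod_compl ({x, y, M.1 x, M.1 y} : Finset (Fin n)) g]
    congr 1
    rw [prod_insert, prod_insert, prod_insert, prod_singleton]
    · rw [mem_singleton]; exact n2.symm
    · simp only [mem_insert, mem_singleton, not_or]
      exact ⟨h.symm, (hf.2 y).symm⟩
    · simp only [mem_insert, mem_singleton, not_or]
      exact ⟨hxy, (hf.2 x).symm, n1.symm⟩
  have a1 := wt_sq hl ⟨swf M.1 x y, inv_swf M.2 hxy h⟩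
  have a2 := wt_sq hl M
  simp only at a1
  rw [key] at a1 a2
  rw [swf_at_x, swf_at_y _ hxy, swf_at_fx hf h, swf_at_fy hf hxy h] at a1
  rw [hf.1, hf.1, hl (M.1 x) x, hl (M.1 y) y] at a2
  rw [hl y x, hl (M.1 y) (M.1 x)] at a1
  have e : ∏ z ∈ ({x, y, M.1 x, M.1 y} : Finset (Fin n))ᶜ, lam z (swf M.1 x y z) =
      ∏ z ∈ ({x, y, M.1 x, M.1 y} : Finset (Fin n))ᶜ, lam z (M.1 z) := by
    refine prod_congr rfl fun z hz => ?_
    simp only [mem_compl, mem_insert, mem_singleton, not_or] at hz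
    rw [swf_at_ne hz.1 hz.2.1 hz.2.2.1 hz.2.2.2]
  rw [e] at a1
  refine (sq_eq_sq₀ (by (clear * - hxy h b1 p1 p2; positivity)) (by (clear * - b2 p3 p4; positivity))).1 ?_
  simp only [mul_pow, a1, a2]
  ring

end Vale.Agent.P308.Poly
end

section

end

section

section

/-!
# P308, polynomial version: the list program of the pair step

`stepQ` on the lists of two perfect matchings is the pair step `psP`.
-/

namespace Vale.Agent.P308.PA

open Vale.Agent.Lib.PolyTime Vale.Agent.P308.Alg Vale.Agent.P308.Poly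

variable {n : ℕ}

/-- The list of the values. -/
def toF (g : Fin n → Fin n) : List ℕ := List.ofFn fun x => (g x : ℕ)

theorem toF_toL (M : PM n) : toF M.1 = toL M := rfl

theorem map_range_toF (f : ℕ → ℕ) (g : Fin n → Fin n) (h : ∀ z : Fin n, f z = g z) :
    (List.range n).map f = toF g := by
  apply List.ext_getElem
  · simp [toF]
  intro i h1 h2
  have hi : i < n := by simpa using h1
  simp only [List.getElem_map, List.getElem_range, toF, List.getElem_ofFn]
  exact h ⟨i, hi⟩

theorem wk_toL (N Y : PM n) (x : Fin n) (i : ℕ) :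
    wk (toL N) (toL Y) x i = (walk N.1 Y.1 x i : ℕ) := by
  induction i with
  | zero => rfl
  | succ i ih =>
    rcases Nat.mod_two_eq_zero_or_one i with h | h
    · rw [walk_even _ _ _ h, wk, if_pos h, ih, prt_toL]
    · rw [walk_odd _ _ _ h, wk, if_neg (by (clear * - h; omega)), ih, prt_toL]

theorem mem_alt (N Y : PM n) (x z : Fin n) (m : ℕ) :
    (z : ℕ) ∈ alt (toL N) (toL Y) x m ↔ ∃ i < m, walk N.1 Y.1 x i = z := by
  unfold alt
  simp only [wk_toL, List.mem_map, List.mem_range, Fin.val_inj]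

theorem flipC_toL (N Y : PM n) (x : Fin n) :
    flipC (toL N) (toL Y) (alt (toL N) (toL Y) x (toL N).length) =
      (toF (x0 N.1 Y.1 x).1, toF (x0 N.1 Y.1 x).2) := by
  unfold flipC
  rw [length_toL]
  refine Prod.ext (map_range_toF _ _ fun z => ?_) (map_range_toF _ _ fun z => ?_)
  · simp only [mem_alt, x0, prt_toL]
    split_ifs <;> rfl
  · simp only [mem_alt, prt_toL, x0]
    split_ifs <;> rfl

theorem flipA_toL (N Y : PM n) (x : Fin n) (k : ℕ) :
    flipA (toL N) (toL Y) (alt (toL N) (toL Y) x (2 * k + 1)) x (wk (toL N) (toL Y) x (2 * k)) =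
      (toF (x1 N.1 Y.1 x k).1, toF (x1 N.1 Y.1 x k).2) := by
  have e : ∀ z : Fin n, (∃ i < 2 * k + 1, walk N.1 Y.1 x i = z) ↔ InS N.1 Y.1 x k z := by
    intro z
    unfold InS
    simp only [Nat.lt_succ_iff]
  unfold flipA
  rw [length_toL, wk_toL]
  refine Prod.ext (map_range_toF _ _ fun z => ?_) (map_range_toF _ _ fun z => ?_)
  · simp only [mem_alt, prt_toL, Fin.val_inj, e]
    rw [x1_fst]
    split_ifs <;> rfl
  · simp only [mem_alt, prt_toL, Fin.val_inj, e]
    rw [x1_snd]
    split_ifs <;> rfl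

theorem pairwise_alt (N Y : PM n) (x : Fin n) (k : ℕ) :
    (alt (toL N) (toL Y) x (2 * k + 1)).Pairwise (fun p q => p ≠ q) ↔ Seg N.1 Y.1 x k := by
  have e : (alt (toL N) (toL Y) x (2 * k + 1)).Pairwise (fun p q => p ≠ q) ↔
      (alt (toL N) (toL Y) x (2 * k + 1)).Nodup := Iff.rfl
  rw [e]
  unfold alt
  rw [List.nodup_map_iff_inj_on List.nodup_range]
  unfold Seg
  simp only [List.mem_range, Nat.lt_succ_iff, wk_toL, Fin.val_inj]

/-! ### One labelled step -/

theorem accL_zero (h : ℕ) (Q : List (List ℕ)) {l : Lab n} (hl : l.1 = 0) (z : PM n × PM n)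
    (v : Raw) : accL h Q l z v = acc h v (ent Q l.2.1 (z.1.1 l.2.1)) (ent Q l.2.2 (z.1.1 l.2.2))
      (ent Q l.2.1 l.2.2) (ent Q (z.1.1 l.2.1) (z.1.1 l.2.2)) := by
  have n1 : l.1 ≠ 1 := by rw [hl]; decide
  unfold accL oa ob na nb
  rw [if_neg n1, if_pos hl, if_pos hl, if_pos hl]

theorem accL_one (h : ℕ) (Q : List (List ℕ)) {l : Lab n} (hl : l.1 = 1) (z : PM n × PM n)
    (v : Raw) : accL h Q l z v = true := by
  unfold accL
  rw [if_pos hl]

theorem accL_two (h : ℕ) (Q : List (List ℕ)) {l : Lab n} (hl : l.1 = 2) (z : PM n × PM n)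
    (v : Raw) : accL h Q l z v = acc h v (ent Q l.2.1 (z.1.1 l.2.1))
      (ent Q (walk z.1.1 z.2.1 l.2.1 (2 * l.2.2)) (z.2.1 (walk z.1.1 z.2.1 l.2.1 (2 * l.2.2))))
      (ent Q (walk z.1.1 z.2.1 l.2.1 (2 * l.2.2)) (z.1.1 l.2.1))
      (ent Q l.2.1 (z.2.1 (walk z.1.1 z.2.1 l.2.1 (2 * l.2.2)))) := by
  have n0 : l.1 ≠ 0 := by rw [hl]; decide
  have n1 : l.1 ≠ 1 := by rw [hl]; decide
  unfold accL oa ob na nb
  rw [if_neg n1, if_neg n0, if_neg n0, if_neg n0]

/-- A pair of matchings as a pair of lists. -/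
def toL2 (z : PM n × PM n) : List ℕ × List ℕ := (toL z.1, toL z.2)

theorem move_zero (h : ℕ) (Q : List (List ℕ)) {l : Lab n} (hl : l.1 = 0) (z : PM n × PM n)
    (v : Raw) : move h Q (0 : ℕ) l.2.1 l.2.2 v (toL z.1) (toL z.2) = toL2 (goL h Q l v z) := by
  unfold move goL
  rw [if_pos rfl, accL_zero h Q hl]
  simp only [prt_toL]
  by_cases hs : l.2.1 ≠ l.2.2 ∧ z.1.1 l.2.1 ≠ l.2.2
  · have hs1 : ((l.2.1 : ℕ) ≠ l.2.2) := fun e => hs.1 (Fin.ext e)
    have hs2 : ((z.1.1 l.2.1 : ℕ) ≠ l.2.2) := fun e => hs.2 (Fin.ext e)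
    have e1 : sw (toL z.1) l.2.1 l.2.2 = toF (swf z.1.1 l.2.1 l.2.2) := by
      unfold sw
      rw [length_toL]
      refine map_range_toF _ _ fun w => ?_
      simp only [prt_toL, Fin.val_inj]
      unfold swf
      split_ifs <;> rfl
    by_cases ha : acc h v (ent Q l.2.1 (z.1.1 l.2.1)) (ent Q l.2.2 (z.1.1 l.2.2))
        (ent Q l.2.1 l.2.2) (ent Q (z.1.1 l.2.1) (z.1.1 l.2.2)) = true
    · rw [if_pos ⟨hs1, hs2, ha⟩, if_pos ha, mv_zero_pos hl hs, e1]
      rfl
    · rw [if_neg (fun hc => ha hc.2.2), if_neg ha]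
      rfl
  · rw [mv_zero_neg hl hs, ite_self, if_neg]
    · rfl
    · rintro ⟨h1, h2, -⟩
      exact hs ⟨fun e => h1 (by rw [e]), fun e => h2 (by rw [e])⟩

theorem move_one (h : ℕ) (Q : List (List ℕ)) {l : Lab n} (hl : l.1 = 1) (z : PM n × PM n)
    (v : Raw) : move h Q (1 : ℕ) l.2.1 l.2.2 v (toL z.1) (toL z.2) = toL2 (goL h Q l v z) := by
  unfold move goL
  rw [if_neg (by norm_num : ¬ (1 : ℕ) = 0), if_pos rfl, if_pos (accL_one h Q hl z v), flipC_toL]
  have e : l = (1, l.2.1, l.2.2) := by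
    rw [← hl]
  have h1 := Xch.Comp.mv_one l.2.1 l.2.2 z
  rw [← e] at h1
  unfold toL2
  rw [← toF_toL, ← toF_toL, h1.1, h1.2]

theorem move_two (h : ℕ) (Q : List (List ℕ)) {l : Lab n} (hl : l.1 = 2) (z : PM n × PM n)
    (v : Raw) : move h Q (2 : ℕ) l.2.1 l.2.2 v (toL z.1) (toL z.2) = toL2 (goL h Q l v z) := by
  unfold move goL
  rw [if_neg (by norm_num : ¬ (2 : ℕ) = 0), if_neg (by norm_num : ¬ (2 : ℕ) = 1), if_pos rfl,
    accL_two h Q hl z v]
  simp only [pairwise_alt]
  by_cases hs : Seg z.1.1 z.2.1 l.2.1 l.2.2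
  · simp only [hs, true_and]
    rw [flipA_toL]
    simp only [wk_toL, prt_toL]
    by_cases ha : acc h v (ent Q l.2.1 (z.1.1 l.2.1))
        (ent Q (walk z.1.1 z.2.1 l.2.1 (2 * l.2.2)) (z.2.1 (walk z.1.1 z.2.1 l.2.1 (2 * l.2.2))))
        (ent Q (walk z.1.1 z.2.1 l.2.1 (2 * l.2.2)) (z.1.1 l.2.1))
        (ent Q l.2.1 (z.2.1 (walk z.1.1 z.2.1 l.2.1 (2 * l.2.2)))) = true
    · rw [if_pos ha, if_pos ha, mv_two_pos hl hs]
      rfl
    · rw [if_neg ha, if_neg ha]
      rfl
  · rw [mv_two_neg hl hs, ite_self, if_neg (fun hc => hs hc.1)]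
    rfl

theorem move_toL (h : ℕ) (Q : List (List ℕ)) (l : Lab n) (z : PM n × PM n) (v : Raw) :
    move h Q (l.1 : ℕ) l.2.1 l.2.2 v (toL z.1) (toL z.2) = toL2 (goL h Q l v z) := by
  have h3 : l.1 = 0 ∨ l.1 = 1 ∨ l.1 = 2 := by
    generalize l.1 = t
    revert t
    decide
  rcases h3 with hl | hl | hl
  · rw [hl]; exact move_zero h Q hl z v
  · rw [hl]; exact move_one h Q hl z v
  · rw [hl]; exact move_two h Q hl z v

/-- **The list program of the pair step.** -/
theorem listPair (n b h : ℕ) : ListPair (n := n) (psP b h) b h := by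
  intro Q u z
  change _ = toL2 (psP b h Q u.w z)
  unfold stepQ psP goP
  simp only [length_toL]
  by_cases hh : val (u.w.take 3) < 3 ∧ val ((u.w.drop 3).take b) < n ∧
      val ((u.w.drop (3 + b)).take b) < n
  · rw [dif_pos hh, if_pos hh.2]
    exact move_toL h Q (⟨_, hh.1⟩, ⟨_, hh.2.1⟩, ⟨_, hh.2.2⟩) z ⟨u.w.drop (3 + b + b)⟩
  · rw [dif_neg hh]
    split_ifs with h2
    · have h3 : ¬ val (u.w.take 3) < 3 := fun h3 => hh ⟨h3, h2⟩
      unfold move
      rw [if_neg (by omega), if_neg (by omega), if_neg (by omega)]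
      rfl
    · rfl

end Vale.Agent.P308.PA

end

section

/-!
The algorithm of `PA/Defs.lean` runs in polynomial time.
-/

namespace Vale.Agent.P308.PA

open Vale.Agent.Lib.PolyTime Vale.Agent.P308.Alg Function

variable {A : Set Word} {α : Type*} [Enc α]

/-! ### Positions and the acceptance test -/

theorem PT_exq {h q : α → ℕ} (hh : PT A h) (hhb : PBd h) (hq : PT A q) :
    PT A (fun a => exq (h a) (q a)) := hq.div (PT.pow (PT.const 2) hh hhb)

theorem PT_maq {h q : α → ℕ} (hh : PT A h) (hhb : PBd h) (hq : PT A q) :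
    PT A (fun a => maq (h a) (q a)) :=
  (PT.pow (PT.const 2) (hh.add (PT.const 1)) (hhb.add (PBd.const 1))).sub
    (hq.mod (PT.pow (PT.const 2) hh hhb))

theorem PT_acc {h o₁ o₂ n₁ n₂ : α → ℕ} {v : α → Raw} (hh : PT A h) (hhb : PBd h) (hv : PT A v)
    (ho₁ : PT A o₁) (ho₂ : PT A o₂) (hn₁ : PT A n₁) (hn₂ : PT A n₂) :
    PT A (fun a => acc (h a) (v a) (o₁ a) (o₂ a) (n₁ a) (n₂ a)) := by
  have h1 : PT A (fun a => h a + 1) := hh.add (PT.const 1)
  have c1 : PT A (fun a => decide (val ((v a).w.take (h a + 1)) < maq (h a) (n₁ a))) :=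
    PT.lt (PT.rawVal (PT.rawTake hv h1)) (PT_maq hh hhb hn₁)
  have c2 : PT A (fun a => decide (val (((v a).w.drop (h a + 1)).take (h a + 1)) <
      maq (h a) (n₂ a))) :=
    PT.lt (PT.rawVal (PT.rawTake (PT.rawDrop hv h1) h1)) (PT_maq hh hhb hn₂)
  have c3 : PT A (fun a => ones ⟨(v a).w.drop ((h a + 1) + (h a + 1))⟩
      ((exq (h a) (n₁ a) + exq (h a) (n₂ a)) - (exq (h a) (o₁ a) + exq (h a) (o₂ a)))) :=
    PT_ones (PT.rawDrop hv (h1.add h1)) (((PT_exq hh hhb hn₁).add (PT_exq hh hhb hn₂)).sub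
      ((PT_exq hh hhb ho₁).add (PT_exq hh hhb ho₂)))
  exact c1.and (c2.and c3)

/-! ### Alternating walks -/

/-- One step of the computation of the walk. -/
def wkSt (N Y : List ℕ) (s : List ℕ × (ℕ × ℕ)) : List ℕ × (ℕ × ℕ) :=
  (s.2.2 :: s.1, (s.2.1 + 1, if s.2.1 % 2 = 0 then prt Y s.2.2 else prt N s.2.2))

theorem iterate_wkSt (N Y : List ℕ) (x m : ℕ) :
    (wkSt N Y)^[m] ([], (0, x)) = ((alt N Y x m).reverse, (m, wk N Y x m)) := by
  induction m with
  | zero => rfl
  | succ m ih =>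
    rw [iterate_succ_apply', ih]
    unfold wkSt alt
    rw [List.range_succ, List.map_append, List.reverse_append]
    rfl

theorem wk_le {N Y : List ℕ} {x B : ℕ} (hN : ∀ z ∈ N, z ≤ B) (hY : ∀ z ∈ Y, z ≤ B) (hx : x ≤ B)
    (i : ℕ) : wk N Y x i ≤ B := by
  induction i with
  | zero => exact hx
  | succ i _ =>
    rw [wk]
    split_ifs
    · exact getD_le hY _
    · exact getD_le hN _

theorem length_alt (N Y : List ℕ) (x m : ℕ) : (alt N Y x m).length = m := by simp [alt]

theorem alt_le {N Y : List ℕ} {x B m : ℕ} (hN : ∀ z ∈ N, z ≤ B) (hY : ∀ z ∈ Y, z ≤ B)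
    (hx : x ≤ B) : ∀ z ∈ alt N Y x m, z ≤ B := by
  intro z hz
  obtain ⟨i, -, rfl⟩ := List.mem_map.1 hz
  exact wk_le hN hY hx i

theorem PT_alt {N Y : α → List ℕ} {x m : α → ℕ} (hN : PT A N) (hY : PT A Y) (hx : PT A x)
    (hm : PT A m) (hmb : PBd m) : PT A (fun a => alt (N a) (Y a) (x a) (m a)) := by
  have c1 : ∀ {β : Type _} [Enc β] {f : α → β}, PT A f →
      PT A (fun p : α × (List ℕ × (ℕ × ℕ)) => f p.1) := fun hf => hf.comp PT.fst'
  have hs2 : PT A (fun p : α × (List ℕ × (ℕ × ℕ)) => p.2.2.2) := PT.snd'.snd.snd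
  have hs1 : PT A (fun p : α × (List ℕ × (ℕ × ℕ)) => p.2.2.1) := PT.snd'.snd.fst
  have hst : PT A (fun p : α × (List ℕ × (ℕ × ℕ)) => wkSt (N p.1) (Y p.1) p.2) := by
    refine (PT.cons hs2 PT.snd'.fst).pair ((hs1.add (PT.const 1)).pair ?_)
    exact PT.ite (p := fun p : α × (List ℕ × (ℕ × ℕ)) => p.2.2.1 % 2 = 0)
      (PT.eqNat (PT.mod hs1 (PT.const 2)) (PT.const 0)) (PT_prt (c1 hY) hs2) (PT_prt (c1 hN) hs2)
  have hB : PT A (fun a => (N a).sum + (Y a).sum + x a) :=
    ((PT.sum hN).add (PT.sum hY)).add hx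
  have hBb := PBd.esize_comp hB
  have hit : PT A (fun a => (wkSt (N a) (Y a))^[m a] ([], (0, x a))) := by
    refine PT.iterate' (step := fun (a : α) s => wkSt (N a) (Y a) s) hm hmb
      (PT.pair PT.nil (PT.pair (PT.const 0) hx)) hst
      (b := fun a => 2 * (m a * (2 * esize ((N a).sum + (Y a).sum + x a) + 1)) +
        (2 * m a + esize ((N a).sum + (Y a).sum + x a) + 1) + 1) (by fun_prop) ?_
    intro a j hj
    rw [iterate_wkSt, esize_pair, esize_pair, esize_reverse]
    have h1 : ∀ z ∈ N a, z ≤ (N a).sum + (Y a).sum + x a := fun z hz => by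
      have := List.le_sum_of_mem hz
      omega
    have h2 : ∀ z ∈ Y a, z ≤ (N a).sum + (Y a).sum + x a := fun z hz => by
      have := List.le_sum_of_mem hz
      (clear * - this; omega)
    have h3 : x a ≤ (N a).sum + (Y a).sum + x a := by omega
    have h4 := esize_of_entries (alt_le (m := j) h1 h2 h3)
    have h5 := esize_nat_mono (wk_le h1 h2 h3 j)
    have h6 := esize_nat_le_self j
    rw [length_alt] at h4
    have h7 : j * (2 * esize ((N a).sum + (Y a).sum + x a) + 1) ≤
        m a * (2 * esize ((N a).sum + (Y a).sum + x a) + 1) := Nat.mul_le_mul_right _ hj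
    omega
  refine (PT.reverse hit.fst).congr fun a => ?_
  rw [iterate_wkSt, List.reverse_reverse]

theorem PT_wk {N Y : α → List ℕ} {x m : α → ℕ} (hN : PT A N) (hY : PT A Y) (hx : PT A x)
    (hm : PT A m) (hmb : PBd m) : PT A (fun a => wk (N a) (Y a) (x a) (m a)) := by
  refine (PT.getD (PT_alt hN hY hx (hm.add (PT.const 1)) (hmb.add (PBd.const 1))) hm
    (PT.const 0)).congr fun a => ?_
  simp only [alt, List.getD_eq_getElem?_getD, List.length_map, List.length_range, lt_add_iff_pos_right, Order.lt_one_iff, getElem?_pos, List.getElem_map, List.getElem_range, Option.getD_some]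

/-! ### Moves -/

theorem PT_flipC {N Y a : α → List ℕ} (hN : PT A N) (hY : PT A Y) (ha : PT A a) :
    PT A (fun p => flipC (N p) (Y p) (a p)) := by
  have c1 : ∀ {β : Type _} [Enc β] {f : α → β}, PT A f → PT A (fun p : α × ℕ => f p.1) :=
    fun hf => hf.comp PT.fst'
  have hr := PT.range (A := A) hN.length (PBd.length hN)
  have hmem : PT A (fun p : α × ℕ => decide (p.2 ∈ a p.1)) := PT.mem (c1 ha) PT.snd'
  have hpY : PT A (fun p : α × ℕ => prt (Y p.1) p.2) := PT_prt (c1 hY) PT.snd'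
  have hpN : PT A (fun p : α × ℕ => prt (N p.1) p.2) := PT_prt (c1 hN) PT.snd'
  exact (PT.map (f := fun (p : α) z => if z ∈ a p then prt (Y p) z else prt (N p) z) hr
    (PT.ite hmem hpY hpN)).pair
    (PT.map (f := fun (p : α) z => if z ∈ a p then prt (N p) z else prt (Y p) z) hr
    (PT.ite hmem hpN hpY))

theorem PT_flipA {N Y a : α → List ℕ} {x y : α → ℕ} (hN : PT A N) (hY : PT A Y) (ha : PT A a)
    (hx : PT A x) (hy : PT A y) : PT A (fun p => flipA (N p) (Y p) (a p) (x p) (y p)) := by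
  have c1 : ∀ {β : Type _} [Enc β] {f : α → β}, PT A f → PT A (fun p : α × ℕ => f p.1) :=
    fun hf => hf.comp PT.fst'
  have hr := PT.range (A := A) hN.length (PBd.length hN)
  have hmem : PT A (fun p : α × ℕ => decide (p.2 ∈ a p.1)) := PT.mem (c1 ha) PT.snd'
  have hpY : PT A (fun p : α × ℕ => prt (Y p.1) p.2) := PT_prt (c1 hY) PT.snd'
  have hpN : PT A (fun p : α × ℕ => prt (N p.1) p.2) := PT_prt (c1 hN) PT.snd'
  have hs := PT_prt hN hx
  have hs' := PT_prt hY hy
  exact (PT.map (f := fun (p : α) z => if z = y p then prt (N p) (x p) else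
      if z = prt (N p) (x p) then y p else if z ∈ a p then prt (Y p) z else prt (N p) z) hr
    (PT.ite (PT.eqNat PT.snd' (c1 hy)) (c1 hs) (PT.ite (PT.eqNat PT.snd' (c1 hs)) (c1 hy)
      (PT.ite hmem hpY hpN)))).pair
    (PT.map (f := fun (p : α) z => if z = x p then prt (Y p) (y p) else
      if z = prt (Y p) (y p) then x p else if z ∈ a p then prt (N p) z else prt (Y p) z) hr
    (PT.ite (PT.eqNat PT.snd' (c1 hx)) (c1 hs') (PT.ite (PT.eqNat PT.snd' (c1 hs')) (c1 hx)
      (PT.ite hmem hpN hpY))))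

theorem PT_move {h t x z : α → ℕ} {Q : α → List (List ℕ)} {v : α → Raw} {N Y : α → List ℕ}
    (hh : PT A h) (hhb : PBd h) (hQ : PT A Q) (ht : PT A t) (hx : PT A x) (hz : PT A z)
    (hzb : PBd z) (hv : PT A v) (hN : PT A N) (hY : PT A Y) :
    PT A (fun a => move (h a) (Q a) (t a) (x a) (z a) (v a) (N a) (Y a)) := by
  have hNx := PT_prt hN hx
  have hNz := PT_prt hN hz
  have h2z : PT A (fun a => 2 * z a) := (PT.const 2).mul hz
  have h2zb : PBd (fun a => 2 * z a) := by fun_prop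
  have hy := PT_wk hN hY hx h2z h2zb
  have hYy := PT_prt hY hy
  have ha := PT_alt hN hY hx (h2z.add (PT.const 1)) (h2zb.add (PBd.const 1))
  have hc := PT_alt hN hY hx hN.length (PBd.length hN)
  have hNY : PT A (fun a => (N a, Y a)) := hN.pair hY
  have hne : PT A (fun p : ℕ × ℕ => decide (p.1 ≠ p.2)) :=
    PT.decide_not (PT.eqNat PT.fst' PT.snd')
  have hnd : PT A (fun a => decide ((alt (N a) (Y a) (x a) (2 * z a + 1)).Pairwise
      (fun p q => p ≠ q))) := PT.pairwise hne ha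
  refine PT.ite (PT.eqNat ht (PT.const 0)) (PT.ite (PT.decide_and
      (PT.decide_not (PT.eqNat hx hz)) (PT.decide_and (PT.decide_not (PT.eqNat hNx hz))
        ((PT_acc hh hhb hv (PT_ent hQ hx hNx) (PT_ent hQ hz hNz) (PT_ent hQ hx hz)
          (PT_ent hQ hNx hNz)).congr fun a => by simp))) ((PT_sw hN hx hz).pair hY) hNY) ?_
  refine PT.ite (PT.eqNat ht (PT.const 1)) (PT_flipC hN hY hc) ?_
  exact PT.ite (PT.eqNat ht (PT.const 2)) (PT.ite (PT.decide_and hnd
    ((PT_acc hh hhb hv (PT_ent hQ hx hNx) (PT_ent hQ hy hYy) (PT_ent hQ hy hNx)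
      (PT_ent hQ hx hYy)).congr fun a => by simp)) (PT_flipA hN hY ha hx hy) hNY) hNY

theorem PT_stepQ {b h : α → ℕ} {Q : α → List (List ℕ)} {u : α → Raw}
    {s : α → List ℕ × List ℕ} (hb : PT A b) (hh : PT A h) (hhb : PBd h) (hQ : PT A Q)
    (hu : PT A u) (hs : PT A s) :
    PT A (fun a => stepQ (b a) (h a) (Q a) (u a) (s a)) := by
  have ht : PT A (fun a => val ((u a).w.take 3)) := PT.rawVal (PT.rawTake hu (PT.const 3))
  have hx : PT A (fun a => val (((u a).w.drop 3).take (b a))) :=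
    PT.rawVal (PT.rawTake (PT.rawDrop hu (PT.const 3)) hb)
  have hz : PT A (fun a => val (((u a).w.drop (3 + b a)).take (b a))) :=
    PT.rawVal (PT.rawTake (PT.rawDrop hu ((PT.const 3).add hb)) hb)
  have hv : PT A (fun a => Raw.mk ((u a).w.drop (3 + b a + b a))) :=
    PT.rawDrop hu (((PT.const 3).add hb).add hb)
  have hz' : PT A (fun a => min (val (((u a).w.drop (3 + b a)).take (b a))) (s a).1.length) :=
    hz.min hs.fst.length
  have hzb' : PBd (fun a => min (val (((u a).w.drop (3 + b a)).take (b a))) (s a).1.length) :=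
    (PBd.length hs.fst).mono fun a => min_le_right _ _
  refine (PT.ite (p := fun a => val (((u a).w.drop 3).take (b a)) < (s a).1.length ∧
      val (((u a).w.drop (3 + b a)).take (b a)) < (s a).1.length)
    (PT.decide_and (PT.lt hx hs.fst.length) (PT.lt hz hs.fst.length))
    (PT_move hh hhb hQ ht hx hz' hzb' hv hs.fst hs.snd) hs).congr fun a => ?_
  unfold stepQ
  dsimp only
  split_ifs with h1
  · rw [min_eq_left h1.2.le]
  · rfl

/-! ### Replicas -/

theorem PT_stepR {σ b h : α → ℕ} {Q : α → List (List ℕ)} {u : α → Raw}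
    {X : α → List (List ℕ)} (hσ : PT A σ) (hb : PT A b) (hh : PT A h) (hhb : PBd h)
    (hQ : PT A Q) (hu : PT A u) (hX : PT A X) :
    PT A (fun a => stepR (σ a) (b a) (h a) (Q a) (u a) (X a)) := by
  have c1 : ∀ {β : Type _} [Enc β] {f : α → β}, PT A f → PT A (fun p : α × ℕ => f p.1) :=
    fun hf => hf.comp PT.fst'
  have hi : PT A (fun a => val ((u a).w.take (σ a))) := PT.rawVal (PT.rawTake hu hσ)
  have hj : PT A (fun a => val (((u a).w.drop (σ a)).take (σ a))) :=
    PT.rawVal (PT.rawTake (PT.rawDrop hu hσ) hσ)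
  have hs : PT A (fun a => stepQ (b a) (h a) (Q a) ⟨(u a).w.drop (σ a + σ a)⟩
      ((X a).getD (val ((u a).w.take (σ a))) [],
        (X a).getD (val (((u a).w.drop (σ a)).take (σ a))) [])) :=
    PT_stepQ hb hh hhb hQ (PT.rawDrop hu (hσ.add hσ))
      ((PT.getD hX hi (PT.const [])).pair (PT.getD hX hj (PT.const [])))
  exact PT.ite (PT.eqNat hi hj) hX
    (PT.map (f := fun (a : α) k => if k = val ((u a).w.take (σ a)) then
        (stepQ (b a) (h a) (Q a) ⟨(u a).w.drop (σ a + σ a)⟩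
          ((X a).getD (val ((u a).w.take (σ a))) [],
            (X a).getD (val (((u a).w.drop (σ a)).take (σ a))) [])).1
        else if k = val (((u a).w.drop (σ a)).take (σ a)) then
        (stepQ (b a) (h a) (Q a) ⟨(u a).w.drop (σ a + σ a)⟩
          ((X a).getD (val ((u a).w.take (σ a))) [],
            (X a).getD (val (((u a).w.drop (σ a)).take (σ a))) [])).2
        else (X a).getD k []) (PT.range hX.length (PBd.length hX))
      (PT.ite (PT.eqNat PT.snd' (c1 hi)) (c1 hs.fst)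
        (PT.ite (PT.eqNat PT.snd' (c1 hj)) (c1 hs.snd) (PT.getD (c1 hX) PT.snd' (PT.const [])))))

theorem PT_pathM {n h X D t : α → ℕ} {E : α → List (List ℕ)} (hn : PT A n) (hnb : PBd n)
    (hh : PT A h) (hhb : PBd h) (hX : PT A X) (hD : PT A D) (hE : PT A E) (ht : PT A t) :
    PT A (fun a => pathM (n a) (h a) (X a) (D a) (E a) (t a)) := by
  have c1 : ∀ {β : Type _} [Enc β] {f : α → β}, PT A f → PT A (fun p : (α × ℕ) × ℕ => f p.1.1) :=
    fun hf => hf.comp PT.fst'.fst
  have hx : PT A (fun p : (α × ℕ) × ℕ => p.1.2) := PT.fst'.snd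
  have hy : PT A (fun p : (α × ℕ) × ℕ => p.2) := PT.snd'
  have hXH : PT A (fun a => X a * 2 ^ h a) := hX.mul (PT.pow (PT.const 2) hh hhb)
  have hmt : PT A (fun p : (α × ℕ) × ℕ => if p.1.2 % 2 = 0 then p.1.2 + 1 else p.1.2 - 1) :=
    PT.ite (p := fun p : (α × ℕ) × ℕ => p.1.2 % 2 = 0)
      (PT.eqNat (PT.mod hx (PT.const 2)) (PT.const 0)) (hx.add (PT.const 1)) (hx.sub (PT.const 1))
  exact PT_mk hn hnb (PT.ite (PT.le (c1 ht) (c1 hXH))
    (PT.ite (PT.eqNat hy hmt) (PT.const 0) ((c1 hXH).sub (c1 ht)))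
    ((((c1 ht).sub (c1 hXH)).mul (PT_ent (c1 hE) hx hy)).div (c1 hD)))

/-- One step of the sampler, with one counter for all steps. -/
def flat (n : ℕ) (P : Par) (E : List (List ℕ)) (s : ℕ × (List (List ℕ) × Raw)) :
    ℕ × (List (List ℕ) × Raw) :=
  (s.1 + 1, stepW P.σ P.b P.h P.ℓ (pathM n P.h P.X P.D E (s.1 / P.T + 1)) s.2)

theorem flat_block (n : ℕ) (P : Par) (E : List (List ℕ)) (j : ℕ) (s : List (List ℕ) × Raw) :
    ∀ i ≤ P.T, (flat n P E)^[i] (j * P.T, s) =
      (j * P.T + i, (stepW P.σ P.b P.h P.ℓ (pathM n P.h P.X P.D E (j + 1)))^[i] s) := by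
  intro i
  induction i with
  | zero => intro _; rfl
  | succ i ih =>
    intro hi
    rw [iterate_succ_apply', iterate_succ_apply', ih (by omega)]
    unfold flat
    have h1 : (j * P.T + i) / P.T = j := by
      rw [mul_comm, Nat.mul_add_div (by omega), Nat.div_eq_of_lt (by omega), add_zero]
    dsimp only
    rw [h1]
    rfl

theorem flat_micro (n : ℕ) (P : Par) (E : List (List ℕ)) (s : List (List ℕ) × Raw) (j : ℕ) :
    (flat n P E)^[j * P.T] (0, s) = (j * P.T, ((micro n P E)^[j] (0, s)).2) ∧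
      ((micro n P E)^[j] (0, s)).1 = j := by
  induction j with
  | zero => simp
  | succ j ih =>
    obtain ⟨ih1, ih2⟩ := ih
    have h1 : (j + 1) * P.T = P.T + j * P.T := by ring
    rw [h1, iterate_add_apply, ih1, flat_block n P E j _ P.T le_rfl, iterate_succ_apply']
    unfold micro at ih2 ⊢
    dsimp only
    rw [ih2]
    exact ⟨by rw [add_comm], rfl⟩

theorem runX_eq_flat (n : ℕ) (P : Par) (E : List (List ℕ)) (u : Raw) :
    runX n P E u = ((flat n P E)^[P.J * P.T]
      (0, (List.replicate (2 ^ P.σ) (M0 n), u))).2.1.getD 0 [] := by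
  rw [(flat_micro n P E _ P.J).1]
  rfl

/-! ### Sizes -/

/-- Lists of at most `n` numbers which are at most `n`. -/
def Ok (n : ℕ) (M : List ℕ) : Prop := M.length ≤ n ∧ ∀ z ∈ M, z ≤ n

/-- Lists of matchings of at most `n` vertices. -/
def Bdd (n S : ℕ) (X : List (List ℕ)) : Prop := X.length = S ∧ ∀ M ∈ X, Ok n M

theorem esize_bdd {n S : ℕ} {X : List (List ℕ)} (h : Bdd n S X) :
    esize X ≤ S * (2 * (n * (2 * esize n + 1)) + 1) := by
  rw [← h.1]
  refine esize_list_le fun M hM => ?_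
  obtain ⟨h1, h2⟩ := h.2 M hM
  exact (esize_of_entries h2).trans (Nat.mul_le_mul_right _ h1)

theorem ok_map {n k : ℕ} {f : ℕ → ℕ} (hk : k ≤ n) (hf : ∀ i, f i ≤ n) :
    Ok n ((List.range k).map f) := by
  refine ⟨by simpa only [List.length_map, List.length_range] using hk, fun z hz => ?_⟩
  obtain ⟨w, -, rfl⟩ := List.mem_map.1 hz
  exact hf w

theorem move_bdd {n h t x z : ℕ} {Q : List (List ℕ)} {v : Raw} {N Y : List ℕ}
    (hN : Ok n N) (hY : Ok n Y) (hx : x ≤ n) (hz : z ≤ n) :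
    Ok n (move h Q t x z v N Y).1 ∧ Ok n (move h Q t x z v N Y).2 := by
  have hw : ∀ i, wk N Y x i ≤ n := wk_le hN.2 hY.2 hx
  have hpN : ∀ i, prt N i ≤ n := getD_le hN.2
  have hpY : ∀ i, prt Y i ≤ n := getD_le hY.2
  have h1 : Ok n (sw N x z) := ⟨by rw [length_sw]; exact hN.1, sw_le hN.2 hx hz⟩
  have h2 : ∀ a, Ok n (flipC N Y a).1 := fun a => ok_map hN.1 fun i => by
    split_ifs
    · exact hpY i
    · exact hpN i
  have h3 : ∀ a, Ok n (flipC N Y a).2 := fun a => ok_map hN.1 fun i => by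
    split_ifs
    · exact hpN i
    · exact hpY i
  have h4 : ∀ a y, y ≤ n → Ok n (flipA N Y a x y).1 := fun a y hy => ok_map hN.1 fun i => by
    split_ifs
    · exact hpN x
    · exact hy
    · exact hpY i
    · exact hpN i
  have h5 : ∀ a y, y ≤ n → Ok n (flipA N Y a x y).2 := fun a y hy => ok_map hN.1 fun i => by
    split_ifs
    · exact hpY y
    · exact hx
    · exact hpN i
    · exact hpY i
  unfold move
  split_ifs
  · exact ⟨h1, hY⟩
  · exact ⟨hN, hY⟩
  · exact ⟨h2 _, h3 _⟩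
  · exact ⟨h4 _ _ (hw _), h5 _ _ (hw _)⟩
  · exact ⟨hN, hY⟩
  · exact ⟨hN, hY⟩

theorem stepQ_bdd {n b h : ℕ} {Q : List (List ℕ)} {u : Raw} {s : List ℕ × List ℕ}
    (hN : Ok n s.1) (hY : Ok n s.2) :
    Ok n (stepQ b h Q u s).1 ∧ Ok n (stepQ b h Q u s).2 := by
  unfold stepQ
  dsimp only
  split_ifs with h1
  · exact move_bdd hN hY (h1.1.le.trans hN.1) (h1.2.le.trans hN.1)
  · exact ⟨hN, hY⟩

theorem getD_bdd {n S : ℕ} {X : List (List ℕ)} (h : Bdd n S X) (i : ℕ) :
    Ok n (X.getD i []) := by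
  rw [List.getD_eq_getElem?_getD]
  rcases e : X[i]? with _ | M
  · exact ⟨Nat.zero_le _, by simp only [Option.getD_none, List.not_mem_nil, IsEmpty.forall_iff, implies_true]⟩
  · rw [Option.getD_some]
    exact h.2 M (List.mem_of_getElem? e)

theorem stepR_bdd {n S σ b h : ℕ} {Q : List (List ℕ)} {u : Raw} {X : List (List ℕ)}
    (hX : Bdd n S X) : Bdd n S (stepR σ b h Q u X) := by
  unfold stepR
  dsimp only
  by_cases hij : val (u.w.take σ) = val ((u.w.drop σ).take σ)
  · rw [if_pos hij]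
    exact hX
  · rw [if_neg hij]
    have h1 := stepQ_bdd (b := b) (h := h) (Q := Q) (u := ⟨u.w.drop (σ + σ)⟩)
      (s := (X.getD (val (u.w.take σ)) [], X.getD (val ((u.w.drop σ).take σ)) []))
      (getD_bdd hX _) (getD_bdd hX _)
    refine ⟨by simpa only [List.getD_eq_getElem?_getD, List.length_map, List.length_range] using hX.1, fun M hM => ?_⟩
    obtain ⟨k, -, rfl⟩ := List.mem_map.1 hM
    split_ifs
    · exact h1.1
    · exact h1.2
    · exact getD_bdd hX k

theorem flat_inv (n : ℕ) (P : Par) (E : List (List ℕ)) (u : Raw) (j : ℕ) :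
    ∀ s, s = (flat n P E)^[j] (0, (List.replicate (2 ^ P.σ) (M0 n), u)) →
      s.1 = j ∧ Bdd n (2 ^ P.σ) s.2.1 ∧ esize s.2.2 ≤ esize u := by
  induction j with
  | zero =>
    rintro s rfl
    refine ⟨rfl, ⟨by simp, fun M hM => ?_⟩, le_rfl⟩
    obtain rfl := List.eq_of_mem_replicate hM
    refine ⟨by simp only [M0, List.length_map, List.length_range, Std.le_refl], fun z hz => ?_⟩
    obtain ⟨x, hx, rfl⟩ := List.mem_map.1 hz
    rw [List.mem_range] at hx
    split_ifs <;> omega
  | succ j ih =>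
    rintro s rfl
    rw [iterate_succ_apply']
    obtain ⟨h1, h2, h3⟩ := ih _ rfl
    refine ⟨by rw [flat, h1], stepR_bdd h2, le_trans ?_ h3⟩
    rw [esize_raw, esize_raw]
    simp only [flat, stepW, List.length_drop, tsub_le_iff_right, le_add_iff_nonneg_right, zero_le]

section Run

variable {n W F c L s b h ℓ T σ X D : α → ℕ} {E : α → List (List ℕ)} {u : α → Raw}

theorem PT_runX (hn : PT A n) (hnb : PBd n) (hb : PT A b) (hh : PT A h) (hhb : PBd h)
    (hHb : PBd fun a => 2 ^ h a) (hℓ : PT A ℓ) (hT : PT A T) (hTb : PBd T) (hσ : PT A σ)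
    (hσb : PBd σ) (hSb : PBd fun a => 2 ^ σ a) (hX : PT A X) (hXb : PBd X) (hD : PT A D)
    (hDb : PBd D) (hE : PT A E) (hu : PT A u) :
    PT A (fun a => runX (n a) ⟨W a, F a, c a, L a, s a, b a, h a, ℓ a, T a, σ a, X a, D a⟩
      (E a) (u a)) := by
  have c1 : ∀ {β : Type _} [Enc β] {f : α → β}, PT A f →
      PT A (fun p : α × (ℕ × (List (List ℕ) × Raw)) => f p.1) := fun hf => hf.comp PT.fst'
  have hnb' := PBd.esize_comp hn
  have hub := PBd.esize_comp hu
  have hH : PT A (fun a => 2 ^ h a) := PT.pow (PT.const 2) hh hhb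
  have hS : PT A (fun a => 2 ^ σ a) := PT.pow (PT.const 2) hσ hσb
  have hk : PT A (fun a => (X a + D a) * 2 ^ h a * T a) := ((hX.add hD).mul hH).mul hT
  have hkb : PBd (fun a => (X a + D a) * 2 ^ h a * T a) := ((hXb.add hDb).mul hHb).mul hTb
  have hit : PT A (fun a => (flat (n a)
      ⟨W a, F a, c a, L a, s a, b a, h a, ℓ a, T a, σ a, X a, D a⟩ (E a))^[
        (X a + D a) * 2 ^ h a * T a] (0, (List.replicate (2 ^ σ a) (M0 (n a)), u a))) := by
    refine PT.iterate' (step := fun (a : α) s' => flat (n a)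
        ⟨W a, F a, c a, L a, s a, b a, h a, ℓ a, T a, σ a, X a, D a⟩ (E a) s') hk hkb
      (PT.pair (PT.const 0) (PT.pair (PT.replicate hS hSb (PT_M0 hn hnb)) hu)) ?_
      (b := fun a => 2 * ((X a + D a) * 2 ^ h a * T a) + (2 * (2 ^ σ a *
        (2 * (n a * (2 * esize (n a) + 1)) + 1)) + esize (u a) + 1) + 1) (by (clear * - hXb hDb hHb hTb hSb hnb hn hu; fun_prop)) ?_
    · have hi : PT A (fun p : α × (ℕ × (List (List ℕ) × Raw)) => p.2.1) := PT.snd'.fst
      have hr : PT A (fun p : α × (ℕ × (List (List ℕ) × Raw)) => p.2.2.2) := PT.snd'.snd.snd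
      have hM := PT_pathM (c1 hn) (hnb.comp (PT.fst' (A := A))) (c1 hh)
        (hhb.comp (PT.fst' (A := A))) (c1 hX) (c1 hD) (c1 hE)
        ((hi.div (c1 hT)).add (PT.const 1))
      exact (hi.add (PT.const 1)).pair ((PT_stepR (c1 hσ) (c1 hb) (c1 hh)
        (hhb.comp (PT.fst' (A := A))) hM (PT.rawTake hr (c1 hℓ)) PT.snd'.snd.fst).pair
        (PT.rawDrop hr (c1 hℓ)))
    · intro a j hj
      obtain ⟨h1, h2, h3⟩ := flat_inv (n a)
        ⟨W a, F a, c a, L a, s a, b a, h a, ℓ a, T a, σ a, X a, D a⟩ (E a) (u a) j _ rfl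
      generalize (flat (n a) ⟨W a, F a, c a, L a, s a, b a, h a, ℓ a, T a, σ a, X a, D a⟩
        (E a))^[j] (0, (List.replicate (2 ^ σ a) (M0 (n a)), u a)) = s' at *
      obtain ⟨i, X', v⟩ := s'
      rw [esize_pair, esize_pair]
      have h4 := esize_bdd h2
      dsimp only at h1 h3 h4
      have h5 := esize_nat_le_self i
      omega
  refine (PT.getD hit.snd.fst (PT.const 0) (PT.const [])).congr fun a => ?_
  rw [runX_eq_flat]
  rfl

end Run

/-! ### Parameters -/

/-- All parameters are computable in polynomial time, and those which are used as numbers of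
repetitions are polynomially bounded. -/
structure ParPT (A : Set Word) (P : α → Par) : Prop where
  W : PT A fun a => (P a).W
  Wb : PBd fun a => (P a).W
  F : PT A fun a => (P a).F
  Fb : PBd fun a => (P a).F
  c : PT A fun a => (P a).c
  L : PT A fun a => (P a).L
  s : PT A fun a => (P a).s
  sb : PBd fun a => (P a).s
  ssb : PBd fun a => 2 ^ (P a).s
  b : PT A fun a => (P a).b
  h : PT A fun a => (P a).h
  hb : PBd fun a => (P a).h
  hhb : PBd fun a => 2 ^ (P a).h
  ℓ : PT A fun a => (P a).ℓ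
  T : PT A fun a => (P a).T
  Tb : PBd fun a => (P a).T
  σ : PT A fun a => (P a).σ
  σb : PBd fun a => (P a).σ
  σσb : PBd fun a => 2 ^ (P a).σ
  X : PT A fun a => (P a).X
  Xb : PBd fun a => (P a).X
  D : PT A fun a => (P a).D
  Db : PBd fun a => (P a).D

section Outer

variable {β : Type*} [Enc β] {P : α → Par} {n : α → ℕ} {R : α → List Raw}

theorem ParPT.comp (hP : ParPT A P) {f : β → α} (hf : PT A f) : ParPT A fun b => P (f b) where
  W := hP.W.comp hf
  Wb := hP.Wb.comp hf
  F := hP.F.comp hf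
  Fb := hP.Fb.comp hf
  c := hP.c.comp hf
  L := hP.L.comp hf
  s := hP.s.comp hf
  sb := hP.sb.comp hf
  ssb := hP.ssb.comp hf
  b := hP.b.comp hf
  h := hP.h.comp hf
  hb := hP.hb.comp hf
  hhb := hP.hhb.comp hf
  ℓ := hP.ℓ.comp hf
  T := hP.T.comp hf
  Tb := hP.Tb.comp hf
  σ := hP.σ.comp hf
  σb := hP.σb.comp hf
  σσb := hP.σσb.comp hf
  X := hP.X.comp hf
  Xb := hP.Xb.comp hf
  D := hP.D.comp hf
  Db := hP.Db.comp hf

theorem ParPT.runX (hP : ParPT A P) {E : α → List (List ℕ)} {u : α → Raw} (hn : PT A n)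
    (hnb : PBd n) (hE : PT A E) (hu : PT A u) :
    PT A (fun a => runX (n a) (P a) (E a) (u a)) :=
  PT_runX (W := fun a => (P a).W) (F := fun a => (P a).F) (c := fun a => (P a).c)
    (L := fun a => (P a).L) (s := fun a => (P a).s) hn hnb hP.b hP.h hP.hb hP.hhb hP.ℓ hP.T hP.Tb
    hP.σ hP.σb hP.σσb hP.X hP.Xb hP.D hP.Db hE hu

theorem ParPT.B (hP : ParPT A P) : PT A (fun a => (P a).B) :=
  ((hP.X.add hP.D).mul (PT.pow (PT.const 2) hP.h hP.hb)).mul (hP.T.mul hP.ℓ)

/-! ### Samples and stages -/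

theorem PT_smp (hP : ParPT A P) {L F : α → ℕ} {K K' E : α → List (List ℕ)} {u : α → Raw}
    (hn : PT A n) (hnb : PBd n) (hL : PT A L) (hF : PT A F) (hK : PT A K) (hK' : PT A K')
    (hE : PT A E) (hu : PT A u) :
    PT A (fun a => smp (runX (n a) (P a)) (P a).B (n a) (L a) (F a) (K a) (K' a) (E a) (u a)) := by
  have hM := hP.runX hn hnb hE hu
  have ht : PT A (fun a => Raw.mk (((u a).w.drop (P a).B).take (L a))) :=
    PT.rawTake (PT.rawDrop hu hP.B) hL
  have hnF := (PT.half hn).mul hF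
  exact hM.pair ((PT_ones ht (((PT_ex hK hM).add hnF).sub (PT_ex hE hM))).pair
    (PT_ones ht (((PT_ex hK' hM).add hnF).sub (PT_ex hE hM))))

theorem PT_smps (hP : ParPT A P) {L F S : α → ℕ} {K K' E : α → List (List ℕ)} {u : α → Raw}
    (hn : PT A n) (hnb : PBd n) (hL : PT A L) (hF : PT A F) (hS : PT A S) (hSb : PBd S)
    (hK : PT A K) (hK' : PT A K') (hE : PT A E) (hu : PT A u) :
    PT A (fun a => smps (runX (n a) (P a)) (P a).B (n a) (L a) (F a) (S a) (K a) (K' a) (E a)
      (u a)) := by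
  have c1 : ∀ {β : Type _} [Enc β] {f : α → β}, PT A f → PT A (fun p : α × ℕ => f p.1) :=
    fun hf => hf.comp PT.fst'
  exact PT.map (f := fun (a : α) q => smp (runX (n a) (P a)) (P a).B (n a) (L a) (F a) (K a)
      (K' a) (E a) ⟨(u a).w.drop (q * ((P a).B + L a))⟩) (PT.range hS hSb)
    (PT_smp (hP.comp PT.fst') (c1 hn) (hnb.comp (PT.fst' (A := A))) (c1 hL) (c1 hF) (c1 hK)
      (c1 hK') (c1 hE) (PT.rawDrop (c1 hu) (PT.snd'.mul ((c1 hP.B).add (c1 hL)))))

theorem PT_stage (hP : ParPT A P) {s : α → State} (hR : PT A R) (hs : PT A s) :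
    PT A (fun a => stage (runX (R a).length (P a)) (P a).B (R a) (P a) (s a)) := by
  have hn := hR.length
  have hnb := PBd.length hR
  have hA := hs.fst.fst
  have hj := hs.fst.snd.fst
  have hS : PT A (fun a => 2 ^ (P a).s) := PT.pow (PT.const 2) hP.s hP.sb
  have hK := PT_schM hR hP.W hj
  have hK' := PT_schM hR hP.W (hj.add (PT.const 1))
  have hE := PT_imp hn hnb hP.F hP.Fb hP.W hP.Wb hP.c hK hA
  have hX := PT_smps hP hn hnb hP.L hP.F hS hP.ssb hK hK' hE hs.snd
  exact ((PT_newA hn hnb hP.s hE hX).pair ((hj.add (PT.const 1)).pair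
    ((hs.fst.snd.snd.fst.mul (PT_cntB hX)).pair (hs.fst.snd.snd.snd.mul (PT_cntA hX))))).pair
    (PT.rawDrop hs.snd (hS.mul (hP.B.add hP.L)))

theorem length_smps (run : List (List ℕ) → Raw → List ℕ) (B n L F S : ℕ)
    (K K' E : List (List ℕ)) (u : Raw) : (smps run B n L F S K K' E u).length = S := by
  simp [smps]

theorem stage_inv (run : List (List ℕ) → Raw → List ℕ) (B : ℕ) (R : List Raw) (P : Par)
    (w : Raw) (j : ℕ) : ∀ s : State,
      s = (stage run B R P)^[j] ((A0 R.length P.F, (0, (1, 1))), w) →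
      (s.1.1.length = R.length ∧ ∀ z ∈ s.1.1, z ≤ P.W + P.F + 1) ∧ s.1.2.1 = j ∧
      s.1.2.2.1 ≤ (2 ^ P.s) ^ j ∧ s.1.2.2.2 ≤ (2 ^ P.s) ^ j ∧ esize s.2 ≤ esize w := by
  induction j with
  | zero =>
    rintro s rfl
    refine ⟨⟨by simp only [A0, iterate_zero, id_eq, List.length_map, List.length_range], fun z hz => ?_⟩, rfl, le_rfl, le_rfl, le_rfl⟩
    obtain ⟨v, -, rfl⟩ := List.mem_map.1 hz
    split_ifs <;> omega
  | succ j ih =>
    rintro s rfl
    rw [iterate_succ_apply']
    obtain ⟨-, i3, i4, i5, i6⟩ := ih _ rfl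
    generalize (stage run B R P)^[j] ((A0 R.length P.F, (0, (1, 1))), w) = s at *
    have hE : ∀ x y, ent (imp R.length P.F P.W P.c (schM R P.W s.1.2.1) s.1.1) x y ≤
        P.W + P.F + 1 := by
      apply ent_mk_le
      intro x y
      refine (min_le_left _ _).trans ?_
      have h1 : ent (schM R P.W s.1.2.1) x y ≤ P.W := ent_mk_le (fun a b => sch_le _ _ _ _ _ _) x y
      omega
    have hX := length_smps run B R.length P.L P.F (2 ^ P.s) (schM R P.W s.1.2.1)
      (schM R P.W (s.1.2.1 + 1)) (imp R.length P.F P.W P.c (schM R P.W s.1.2.1) s.1.1) s.2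
    refine ⟨newA_inv hX hE, congrArg (· + 1) i3, ?_, ?_, ?_⟩
    · rw [pow_succ]
      exact Nat.mul_le_mul i4 ((cntB_le _).trans hX.le)
    · rw [pow_succ]
      exact Nat.mul_le_mul i5 ((cntA_le _).trans hX.le)
    · refine le_trans ?_ i6
      rw [esize_raw, esize_raw]
      simp only [stage, List.length_drop, tsub_le_iff_right, le_add_iff_nonneg_right, zero_le]

theorem esize_stage_le (run : List (List ℕ) → Raw → List ℕ) (B : ℕ) (R : List Raw) (P : Par)
    (w : Raw) {j K : ℕ} (hj : j ≤ K) :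
    esize ((stage run B R P)^[j] ((A0 R.length P.F, (0, (1, 1))), w)) ≤
      stBound R.length P.W P.F K P.s (esize w) := by
  obtain ⟨⟨i1, i2⟩, i3, i4, i5, i6⟩ := stage_inv run B R P w j _ rfl
  generalize (stage run B R P)^[j] ((A0 R.length P.F, (0, (1, 1))), w) = s at *
  obtain ⟨⟨E, ⟨m, ⟨x, y⟩⟩⟩, v⟩ := s
  dsimp only at i1 i2 i3 i4 i5 i6
  rw [esize_pair, esize_pair, esize_pair, esize_pair]
  have j1 := esize_of_entries i2
  rw [i1] at j1
  have j0 : ∀ z : ℕ, z ≤ (2 ^ P.s) ^ j → esize z ≤ K * (P.s + 1) + 1 := by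
    intro z hz
    refine (esize_nat_mono hz).trans ((esize_pow_le _ _).trans ?_)
    rw [esize_nat, size_two_pow]
    have := Nat.mul_le_mul_right (P.s + 1) hj
    omega
  have j3 := j0 x i4
  have j4 := j0 y i5
  have j5 : esize m ≤ K := (esize_nat_le_self m).trans (i3.le.trans hj)
  unfold stBound
  omega

theorem PT_allStages (hP : ParPT A P) {w : α → Raw} (hR : PT A R) (hw : PT A w) :
    PT A (fun a => allStages (runX (R a).length (P a)) (P a).B (R a) (P a) (w a)) := by
  have hn := hR.length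
  have hnb := PBd.length hR
  have hWF := PBd.esize_comp ((hP.W.add hP.F).add (PT.const 1))
  have hwb := PBd.esize_comp hw
  have hsb := hP.sb
  have hWb := hP.Wb
  have hinit : PT A (fun a => (((A0 (R a).length (P a).F, (0, (1, 1))), w a) : State)) :=
    ((PT_A0 hn hnb hP.F).pair (PT.const _)).pair hw
  refine PT.iterate' (step := fun (a : α) s =>
      stage (runX (R a).length (P a)) (P a).B (R a) (P a) s)
    (hn.mul (hn.mul hP.W)) (hnb.mul (hnb.mul hP.Wb)) hinit
    (PT_stage (hP.comp PT.fst') (hR.comp PT.fst') PT.snd')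
    (b := fun a => stBound (R a).length (P a).W (P a).F
      ((R a).length * ((R a).length * (P a).W)) (P a).s (esize (w a))) ?_ ?_
  · unfold stBound
    (clear * - hnb hWF hWb hsb hw; fun_prop)
  · intro a j hj
    exact esize_stage_le _ _ (R a) (P a) (w a) hj

theorem PT_out (hP : ParPT A P) {w : α → Raw} (hR : PT A R) (hw : PT A w) :
    PT A (fun a => out (runX (R a).length (P a)) (P a).B (R a) (P a) (w a)) := by
  have hz := (PT_allStages hP hR hw).fst.snd.snd
  exact PT.ite (PT.odd hR.length) (PT.const 0)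
    ((((PT.const 2).mul ((PT_dfac hR.length (PBd.length hR)).mul hz.fst)).add hz.snd).div
      ((PT.const 2).mul hz.snd))

end Outer

/-! ### The final function -/

/-- The algorithm runs in polynomial time. -/
theorem PT_alg (c1 c2 c3 c4 c5 c6 d : ℕ) : PT A (alg c1 c2 c3 c4 c5 c6 d) := by
  have hR : PT A (fun x : Input × Raw => x.1.1) := PT.fst'.fst
  have hn := hR.length
  have hw : PT A (fun x : Input × Raw => x.2) := PT.snd'
  have hLb : PBd (fun x : Input × Raw => x.2.w.length) := PBd.esize_comp hw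
  have hp : PT A (fun x : Input × Raw => root d x.2.w.length) :=
    PT_root d (PT.rawLength hw) hLb
  have hpb : PBd (fun x : Input × Raw => root d x.2.w.length) :=
    hLb.mono fun x => root_le _ _
  have hsz := PT.natSize hp
  have hszb : PBd (fun x : Input × Raw => Nat.size (root d x.2.w.length)) :=
    (PBd.esize_comp hp).mono fun x => by rw [esize_nat]
  have h2 : ∀ k : ℕ, PBd (fun x : Input × Raw => 2 ^ (k * Nat.size (root d x.2.w.length))) := by
    intro k
    refine ((((PBd.const 2).mul hpb).add (PBd.const 1)).pow k).mono fun x => ?_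
    rw [mul_comm, pow_mul]
    exact Nat.pow_le_pow_left (two_pow_size_le_PT _) k
  have hP : ParPT A (fun x : Input × Raw =>
      par c1 c2 c3 c4 c5 c6 x.1.1.length (root d x.2.w.length)) :=
    { W := hp.powConst 2
      Wb := hpb.pow 2
      F := hp.powConst 7
      Fb := hpb.pow 7
      c := (PT.const c1).mul ((PT.natSize hn).add (PT.const 1))
      L := hp.powConst 12
      s := (PT.const c2).mul hsz
      sb := (PBd.const c2).mul hszb
      ssb := h2 c2
      b := PT.natSize hn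
      h := (PT.const c4).mul hsz
      hb := (PBd.const c4).mul hszb
      hhb := h2 c4
      ℓ := hp.powConst c5
      T := hp.powConst c5
      Tb := hpb.pow c5
      σ := (PT.const c3).mul hsz
      σb := (PBd.const c3).mul hszb
      σσb := h2 c3
      X := hp.powConst c6
      Xb := hpb.pow c6
      D := hp.powConst 8
      Db := hpb.pow 8 }
  exact PT_out hP hR hw

end Vale.Agent.P308.PA

end
end

section

/-!
# The law of one replica after the annealing run (abstract form)
-/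

namespace Vale.Agent.P308.PA

set_option linter.unusedSectionVars false

open Finset Vale.Agent.P308.Rep Vale.Agent.P308.Alg
open Vale.Agent.P308.Poly (PairKer PK pw repErr RepStatement)

variable {X : Type} [Fintype X] [DecidableEq X] {ι : Type} [Fintype ι] [DecidableEq ι]

theorem sum_pw' {μ : X → ℝ} (h1 : ∑ x, μ x = 1) : ∑ ω : ι → X, pw μ ω = 1 := by
  unfold pw
  rw [← Fintype.piFinset_univ, ← Finset.prod_univ_sum]
  simp only [h1, prod_const_one]

theorem pw_law {μ : X → ℝ} (h : Law μ) : Law (pw μ : (ι → X) → ℝ) where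
  nonneg _ := prod_nonneg fun _ _ => h.nonneg _
  sum_one := sum_pw' h.sum_one

/-- Distance of a law to a point mass. -/
theorem l1_pt {Ω : Type*} [Fintype Ω] [DecidableEq Ω] {μ : Ω → ℝ} (h : Law μ) (x : Ω) :
    l1 (pt x) μ = 2 * (1 - μ x) := by
  unfold l1 pt
  have h1 : ∀ y, |(if x = y then (1 : ℝ) else 0) - μ y| =
      μ y + (if x = y then 1 - 2 * μ x else 0) := by
    intro y
    by_cases hy : x = y
    · subst hy
      have h2 : μ x ≤ 1 := by
        rw [← h.sum_one]
        exact single_le_sum (fun z _ => h.nonneg z) (mem_univ x)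
      rw [if_pos rfl, if_pos rfl, abs_of_nonneg (by linarith)]
      ring
    · rw [if_neg hy, if_neg hy, zero_sub, abs_neg, abs_of_nonneg (h.nonneg y), add_zero]
  rw [sum_congr rfl fun y _ => h1 y, sum_add_distrib, h.sum_one, sum_ite_eq, if_pos (mem_univ x)]
  ring

theorem pw_const_ge {μ : X → ℝ} (h : Law μ) {x : X} {η : ℝ} (hx : 1 - η ≤ μ x) (hη : η ≤ 1) :
    1 - Fintype.card ι * η ≤ pw μ (fun _ : ι => x) := by
  have h2 : μ x ≤ 1 := by
    rw [← h.sum_one]
    exact single_le_sum (fun z _ => h.nonneg z) (mem_univ x)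
  unfold pw
  rw [prod_const, card_univ]
  have h3 := one_add_mul_le_pow (a := -η) (by linarith) (Fintype.card ι)
  calc 1 - Fintype.card ι * η = 1 + (Fintype.card ι : ℝ) * (-η) := by ring
    _ ≤ (1 + -η) ^ Fintype.card ι := h3
    _ ≤ μ x ^ Fintype.card ι := pow_le_pow_left₀ (by linarith) (by linarith only [hx]) _

/-- The replica chain is a stochastic kernel. -/
theorem kern_PK {μ : X → ℝ} {K : X → X → X → X → ℝ} {γ : ℝ} (h : PairKer μ K γ)
    (hι : 2 ≤ Fintype.card ι) : Kern (PK K : (ι → X) → (ι → X) → ℝ) := by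
  have hc : (0 : ℝ) < (Fintype.card ι : ℝ) * (Fintype.card ι - 1) := by
    have : (2 : ℝ) ≤ Fintype.card ι := by exact_mod_cast hι
    exact mul_pos (by linarith) (by linarith only [this])
  constructor
  · intro ω ω'
    unfold PK
    refine mul_nonneg (inv_nonneg.2 hc.le) (sum_nonneg fun p _ => sum_nonneg fun x _ =>
      sum_nonneg fun y _ => ?_)
    refine mul_nonneg (h.nonneg _ _ _ _) ?_
    split_ifs <;> norm_num
  · intro ω
    unfold PK
    rw [← mul_sum, sum_comm]
    have h1 : ∀ p ∈ (univ : Finset ι).offDiag, ∑ ω' : ι → X, ∑ x, ∑ y, K (ω p.1) (ω p.2) x y *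
        (if Poly.upd ω p.1 p.2 x y = ω' then (1 : ℝ) else 0) = 1 := by
      intro p _
      rw [sum_comm]
      calc ∑ x, ∑ ω' : ι → X, ∑ y, K (ω p.1) (ω p.2) x y *
            (if Poly.upd ω p.1 p.2 x y = ω' then (1 : ℝ) else 0)
          = ∑ x, ∑ y, K (ω p.1) (ω p.2) x y := by
            refine sum_congr rfl fun x _ => ?_
            rw [sum_comm]
            refine sum_congr rfl fun y _ => ?_
            rw [← mul_sum]
            simp only [sum_ite_eq, mem_univ, ↓reduceIte, mul_one]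
        _ = 1 := h.sum _ _
    rw [sum_congr rfl h1, sum_const, nsmul_eq_mul, mul_one, offDiag_card, card_univ]
    have h2 : (((Fintype.card ι * Fintype.card ι - Fintype.card ι : ℕ)) : ℝ) =
        (Fintype.card ι : ℝ) * (Fintype.card ι - 1) := by
      rw [Nat.cast_sub (Nat.le_mul_self _)]
      push_cast
      ring
    rw [h2]
    exact inv_mul_cancel₀ hc.ne'

/-- **The law of one replica.** -/
theorem pop_tv (hRep : RepStatement) {μ : ℕ → X → ℝ} {K : ℕ → X → X → X → X → ℝ}
    {rep : ℕ → List Bool → (ι → X) → (ι → X)} {b T J : ℕ} {x₀ : X} (i₀ : ι) {η κ γ : ℝ}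
    (hμ0 : Law (μ 0)) (hK : ∀ t < J, PairKer (μ (t + 1)) (K t) γ)
    (hker : ∀ t < J, ∀ ω ω', stepKer b (rep t) ω ω' = PK (K t) ω ω')
    (hκ : ∀ t < J, ∀ x, |μ t x - μ (t + 1) x| ≤ κ * μ (t + 1) x)
    (h0 : 1 - η ≤ μ 0 x₀) (hη : η ≤ 1) (hγ : γ ≤ 1) (h3 : 3 ≤ Fintype.card ι) (hκ0 : 0 ≤ κ)
    (hs : Fintype.card ι * κ ^ 2 ≤ 1) (hT : 0 < T) :
    ∑ y : X, |prob (J * T * b) (fun w =>
        runV b (fun k => rep (k / T)) (J * T) 0 w (fun _ => x₀) i₀ = y) - μ J y| ≤
      2 * Fintype.card ι * η + J * repErr (Fintype.card ι) γ κ T := by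
  classical
  have hμ : ∀ t ≤ J, Law (μ t) := by
    intro t ht
    cases t with
    | zero => exact hμ0
    | succ t => exact ⟨fun x => ((hK t ht).μpos x).le, (hK t ht).μsum⟩
  have key := anneal_prob (Ω := ι → X) (step := rep) (K := fun t => PK (K t))
    (π := fun t => pw (μ t)) (b := b) (T := T) (J := J) (β := 0)
    (B := repErr (Fintype.card ι) γ κ T) (η := 2 * Fintype.card ι * η) (x₀ := fun _ => x₀) hT
    (fun t ht => pw_law (hμ t ht)) (fun t ht => kern_PK (hK t ht) (by omega))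
    (fun t ht ω => by
      rw [sum_eq_zero]
      intro ω' _
      rw [hker t ht, sub_self, abs_zero])
    (by
      rw [l1_pt (pw_law hμ0)]
      have := pw_const_ge (ι := ι) hμ0 h0 hη
      linarith only [this])
    (fun t ht => by
      unfold l1
      exact hRep X ι (μ (t + 1)) (μ t) (K t) γ κ T (hK t ht) hγ h3 (hμ t ht.le).sum_one hκ0
        (hκ t ht) hs)
  have h4 : ∀ y : X, prob (J * T * b) (fun w =>
      runV b (fun k => rep (k / T)) (J * T) 0 w (fun _ => x₀) i₀ = y) =
      ∑ ω : ι → X with ω i₀ = y, prob (J * T * b) (fun w =>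
        runV b (fun k => rep (k / T)) (J * T) 0 w (fun _ => x₀) = ω) := by
    intro y
    simp only [prob_eq_sum]
    rw [← sum_div, sum_comm]
    congr 1
    refine sum_congr rfl fun w _ => ?_
    rw [sum_ite_eq]
    simp only [mem_filter, mem_univ, true_and]
  have h5 : ∀ y : X, μ J y = ∑ ω : ι → X with ω i₀ = y, pw (μ J) ω := by
    intro y
    unfold pw
    have h6 : ∀ ω : ι → X, (if ω i₀ = y then ∏ j, μ J (ω j) else 0) =
        ∏ j, (if j = i₀ then (if ω j = y then μ J (ω j) else 0) else μ J (ω j)) := by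
      intro ω
      by_cases h : ω i₀ = y
      · rw [if_pos h]
        refine prod_congr rfl fun j _ => ?_
        by_cases hj : j = i₀
        · subst hj; simp [h]
        · simp [hj]
      · rw [if_neg h]
        symm
        exact prod_eq_zero (mem_univ i₀) (by simp [h])
    rw [sum_filter, sum_congr rfl fun ω _ => h6 ω, ← Fintype.piFinset_univ,
      ← Finset.prod_univ_sum (fun _ : ι => (univ : Finset X)) (fun (j : ι) (x : X) =>
      if j = i₀ then (if x = y then μ J x else 0) else μ J x)]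
    rw [prod_eq_single i₀]
    · simp only [↓reduceIte, sum_ite_eq', mem_univ]
    · intro j _ hj
      simp only [hj, ↓reduceIte, (hμ J le_rfl).sum_one]
    · intro h
      exact absurd (mem_univ i₀) h
  calc ∑ y : X, |prob (J * T * b) (fun w =>
        runV b (fun k => rep (k / T)) (J * T) 0 w (fun _ => x₀) i₀ = y) - μ J y|
      = ∑ y : X, |∑ ω : ι → X with ω i₀ = y, prob (J * T * b) (fun w =>
        runV b (fun k => rep (k / T)) (J * T) 0 w (fun _ => x₀) = ω) -
          ∑ ω : ι → X with ω i₀ = y, pw (μ J) ω| := by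
        refine sum_congr rfl fun y _ => ?_
        rw [h4 y, ← h5 y]
    _ ≤ l1 (fun ω => prob (J * T * b) (fun w =>
        runV b (fun k => rep (k / T)) (J * T) 0 w (fun _ => x₀) = ω)) (pw (μ J)) :=
        sum_map_le (fun ω : ι → X => ω i₀) _ _
    _ ≤ _ := by
        refine key.trans (le_of_eq ?_)
        ring

end Vale.Agent.P308.PA
end

section

/-! # Perfect matchings of `K_n` as fixed point free involutions -/

namespace Vale.Agent.P308.Canon

open Finset Vale.Agent.P308.Split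
open Vale.Agent.P308.Soft (Cp mem_Cp self_mem_Cp Cp_left Cp_right Cp_trans Cp_symm)

variable {n H : ℕ}

/-- perfect matchings of the complete graph on `Fin n` -/
abbrev PM (n : ℕ) := {f : Fin n → Fin n // (∀ v, f (f v) = v) ∧ ∀ v, f v ≠ v}

/-- replace the edges `{a, M a}`, `{b, M b}` by `{a, b}`, `{M a, M b}` -/
def swF (M : Fin n → Fin n) (a b : Fin n) : Fin n → Fin n := fun v =>
  if v = a then b else if v = b then a else if v = M a then M b else if v = M b then M a else M v

/-- equal or a switch -/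
def SwP (M M' : PM n) : Prop := M' = M ∨ ∃ a b, a ≠ b ∧ M.1 a ≠ b ∧ M'.1 = swF M.1 a b

/-- the unordered pairs `{f v, f' v}` and `{g v, g' v}` differ -/
def BadV (f f' g g' : Fin n → Fin n) (v : Fin n) : Prop :=
  ¬ ((f v = g v ∧ f' v = g' v) ∨ (f v = g' v ∧ f' v = g v))

instance (f f' g g' : Fin n → Fin n) (v : Fin n) : Decidable (BadV f f' g g' v) := by
  unfold BadV; infer_instance

/-- bound for the number of bad vertices -/
def Bd (n : ℕ) : ℕ := 12 * Nat.log 2 n

/-- the least vertex of the component of `v` -/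
noncomputable def mn (I F : PM n) (v : Fin n) : Fin n := (Cp I.1 F.1 v).min' ⟨v, self_mem_Cp _ _ _⟩

/-- `(N t, N' t)`, `t ≤ 2 n`, is a flip of the component `C` of `v` from `(I, F)` to `(F, I)` -/
structure LFlip (U : Ultra n H) (I F : PM n) (v : Fin n) (N N' : ℕ → Fin n → Fin n) : Prop where
  zero : ∀ x ∈ Cp I.1 F.1 v, N 0 x = I.1 x ∧ N' 0 x = F.1 x
  last : ∀ t, 2 * n ≤ t → ∀ x ∈ Cp I.1 F.1 v, N t x = F.1 x ∧ N' t x = I.1 x
  pm : ∀ t, ∀ x ∈ Cp I.1 F.1 v, N t x ∈ Cp I.1 F.1 v ∧ N t (N t x) = x ∧ N t x ≠ x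
  pm' : ∀ t, ∀ x ∈ Cp I.1 F.1 v, N' t x ∈ Cp I.1 F.1 v ∧ N' t (N' t x) = x ∧ N' t x ≠ x
  step : ∀ t, (∀ x ∈ Cp I.1 F.1 v, N (t + 1) x = N t x) ∨
    ∃ a ∈ Cp I.1 F.1 v, ∃ b ∈ Cp I.1 F.1 v, a ≠ b ∧ N t a ≠ b ∧
      ∀ x ∈ Cp I.1 F.1 v, N (t + 1) x = swF (N t) a b x
  bad : ∀ t, ((Cp I.1 F.1 v).filter (BadV (N t) (N' t) I.1 F.1)).card ≤ Bd n
  cost : ∀ t, ∑ x ∈ Cp I.1 F.1 v, (U.m x (I.1 x) + U.m x (F.1 x)) ≤
    ∑ x ∈ Cp I.1 F.1 v, (U.m x (N t x) + U.m x (N' t x))

/-- global canonical paths `γ I F t`, `t ≤ L = n * (2 n)`, and the complementary matchings `γ'` -/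
structure Glob (U : Ultra n H) (γ γ' : PM n → PM n → ℕ → PM n) : Prop where
  zero : ∀ I F, γ I F 0 = I
  last : ∀ I F, γ I F (n * (2 * n)) = F
  step : ∀ I F t, SwP (γ I F t) (γ I F (t + 1))
  bad : ∀ I F t, (univ.filter (BadV (γ I F t).1 (γ' I F t).1 I.1 F.1)).card ≤ Bd n
  cost : ∀ I F t, ∑ x, (U.m x (I.1 x) + U.m x (F.1 x)) ≤
    ∑ x, (U.m x ((γ I F t).1 x) + U.m x ((γ' I F t).1 x))
  done : ∀ I F t x, (mn I F x : ℕ) < t / (2 * n) → (γ I F t).1 x = F.1 x ∧ (γ' I F t).1 x = I.1 x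
  todo : ∀ I F t x, t / (2 * n) < (mn I F x : ℕ) → (γ I F t).1 x = I.1 x ∧ (γ' I F t).1 x = F.1 x

/-- the code of `(I, F)` at time `t`: the unordered pairs at the bad vertices, and one bit for the
component in progress -/
noncomputable def code (γ γ' : PM n → PM n → ℕ → PM n) (I F : PM n) (t : ℕ) :
    Finset (Fin n × Fin n × Fin n) × Bool :=
  ((univ.filter (BadV (γ I F t).1 (γ' I F t).1 I.1 F.1)).image
      fun x => (x, min (I.1 x) (F.1 x), max (I.1 x) (F.1 x)),
    if h : t / (2 * n) < n then decide (I.1 ⟨t / (2 * n), h⟩ ≤ F.1 ⟨t / (2 * n), h⟩) else false)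

/-- the energy of a perfect matching for integer edge weights -/
def En (K : Fin n → Fin n → ℤ) (M : PM n) : ℤ := ∑ x, if x < M.1 x then K x (M.1 x) else 0

end Vale.Agent.P308.Canon
end

section

/-! # C4: the encoding is injective

Let the matchings `γ`, `γ'` and the codes of `(I, F)` and `(I', F')` at time `t` agree. A vertex `x` is bad
for `(I, F)` iff it occurs as first component in the code, hence iff it is bad for `(I', F')`; if bad
the unordered pair `{I x, F x} = {I' x, F' x}` is in the code, otherwise it is `{γ x, γ' x}`. So the unordered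
pairs agree everywhere, hence the components agree (`Cp I F x = Cp I' F' x`) and the least vertices.
Put `v = t / (2 n)`. If `mn x < v`: `F x = γ x = F' x`, `I x = γ' x = I' x`; if `v < mn x` similarly. If `mn x = v`: at
`v` the two pairs agree or are swapped; if swapped, the bit gives `I v ≤ F v ↔ F v ≤ I v`, so `I v = F v` and they
agree too. The set of points where `(I, F) = (I', F')` is closed under `I` and `F` (`y = I x = I' x`:
`I y = x = I' y` and the unordered pairs agree, so `F y = F' y`), so they agree on the component. -/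

namespace Vale.Agent.P308.Canon

open Finset Vale.Agent.P308.Split
open Vale.Agent.P308.Soft (Cp mem_Cp self_mem_Cp Cp_left Cp_right Cp_trans Cp_symm)

variable {n H : ℕ}

theorem de_h723_pairs {γ γ' : PM n → PM n → ℕ → PM n} (t : ℕ) {I F I' F' : PM n} (h1 : γ I F t = γ I' F' t) (h2 : γ' I F t = γ' I' F' t)
    (h3 : code γ γ' I F t = code γ γ' I' F' t) (x : Fin n) :
    (I.1 x = I'.1 x ∧ F.1 x = F'.1 x) ∨ (I.1 x = F'.1 x ∧ F.1 x = I'.1 x) := by
  have hcode : (univ.filter (BadV (γ I F t).1 (γ' I F t).1 I.1 F.1)).image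
      (fun x => (x, min (I.1 x) (F.1 x), max (I.1 x) (F.1 x)))
      = (univ.filter (BadV (γ I' F' t).1 (γ' I' F' t).1 I'.1 F'.1)).image
      (fun x => (x, min (I'.1 x) (F'.1 x), max (I'.1 x) (F'.1 x))) := congrArg Prod.fst h3
  have key : ∀ {J G J' G' : PM n},
      (univ.filter (BadV (γ J G t).1 (γ' J G t).1 J.1 G.1)).image
      (fun x => (x, min (J.1 x) (G.1 x), max (J.1 x) (G.1 x)))
      = (univ.filter (BadV (γ J' G' t).1 (γ' J' G' t).1 J'.1 G'.1)).image
      (fun x => (x, min (J'.1 x) (G'.1 x), max (J'.1 x) (G'.1 x))) →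
      BadV (γ J G t).1 (γ' J G t).1 J.1 G.1 x →
      BadV (γ J' G' t).1 (γ' J' G' t).1 J'.1 G'.1 x ∧
        min (J.1 x) (G.1 x) = min (J'.1 x) (G'.1 x) ∧
        max (J.1 x) (G.1 x) = max (J'.1 x) (G'.1 x) := by
    intro J G J' G' hc hb
    have hm : (x, min (J.1 x) (G.1 x), max (J.1 x) (G.1 x)) ∈
        (univ.filter (BadV (γ J G t).1 (γ' J G t).1 J.1 G.1)).image
        (fun x => (x, min (J.1 x) (G.1 x), max (J.1 x) (G.1 x))) :=
      Finset.mem_image.2 ⟨x, Finset.mem_filter.2 ⟨Finset.mem_univ _, hb⟩, rfl⟩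
    rw [hc, Finset.mem_image] at hm
    obtain ⟨y, hy, hxy⟩ := hm
    rw [Prod.mk.injEq, Prod.mk.injEq] at hxy
    obtain ⟨rfl, e1, e2⟩ := hxy
    exact ⟨(Finset.mem_filter.1 hy).2, e1.symm, e2.symm⟩
  by_cases hb : BadV (γ I F t).1 (γ' I F t).1 I.1 F.1 x
  · obtain ⟨_, e1, e2⟩ := key hcode hb
    rcases le_total (I.1 x) (F.1 x) with h | h <;> rcases le_total (I'.1 x) (F'.1 x) with h' | h' <;>
      simp only [min_eq_left h, max_eq_right h, min_eq_left h', max_eq_right h', min_eq_right h,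
        max_eq_left h, min_eq_right h', max_eq_left h'] at e1 e2
    · exact Or.inl ⟨e1, e2⟩
    · exact Or.inr ⟨e1, e2⟩
    · exact Or.inr ⟨e2, e1⟩
    · exact Or.inl ⟨e2, e1⟩
  · have hb' : ¬ BadV (γ I' F' t).1 (γ' I' F' t).1 I'.1 F'.1 x := fun hcon =>
      hb (key hcode.symm hcon).1
    unfold BadV at hb hb'
    rw [not_not] at hb hb'
    rw [← h1, ← h2] at hb'
    rcases hb with ⟨a1, a2⟩ | ⟨a1, a2⟩ <;> rcases hb' with ⟨b1, b2⟩ | ⟨b1, b2⟩
    · exact Or.inl ⟨a1.symm.trans b1, a2.symm.trans b2⟩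
    · exact Or.inr ⟨a1.symm.trans b1, a2.symm.trans b2⟩
    · exact Or.inr ⟨a2.symm.trans b2, a1.symm.trans b1⟩
    · exact Or.inl ⟨a2.symm.trans b2, a1.symm.trans b1⟩

theorem de_h723_Cp {I F I' F' : PM n}
    (hp : ∀ x, (I.1 x = I'.1 x ∧ F.1 x = F'.1 x) ∨ (I.1 x = F'.1 x ∧ F.1 x = I'.1 x)) (x : Fin n) :
    Cp I.1 F.1 x = Cp I'.1 F'.1 x := by
  have hrel : (fun x y => y = I.1 x ∨ y = F.1 x) = (fun x y => y = I'.1 x ∨ y = F'.1 x) := by
    funext a b
    rcases hp a with ⟨h1, h2⟩ | ⟨h1, h2⟩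
    · rw [h1, h2]
    · rw [h1, h2, or_comm]
  ext v
  rw [mem_Cp, mem_Cp, hrel]

theorem decode {U : Ultra n H} {γ γ' : PM n → PM n → ℕ → PM n} (hG : Glob U γ γ') (t : ℕ)
    {I F I' F' : PM n} (h1 : γ I F t = γ I' F' t) (h2 : γ' I F t = γ' I' F' t)
    (h3 : code γ γ' I F t = code γ γ' I' F' t) : I = I' ∧ F = F' := by
  have hp := de_h723_pairs t h1 h2 h3
  have hmn : ∀ x, mn I F x = mn I' F' x := by
    intro x
    unfold mn
    congr 1
    exact de_h723_Cp hp x
  have hall : ∀ x, I.1 x = I'.1 x ∧ F.1 x = F'.1 x := by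
    intro x
    rcases lt_trichotomy (mn I F x : ℕ) (t / (2 * n)) with hlt | heq | hgt
    · have a := hG.done I F t x hlt
      have b := hG.done I' F' t x (by rw [← hmn]; exact hlt)
      rw [← h1, ← h2] at b
      exact ⟨a.2.symm.trans b.2, a.1.symm.trans b.1⟩
    · have hv : t / (2 * n) < n := heq ▸ (mn I F x).2
      have hvv : mn I F x = ⟨t / (2 * n), hv⟩ := Fin.ext heq
      have hbit : decide (I.1 ⟨t / (2 * n), hv⟩ ≤ F.1 ⟨t / (2 * n), hv⟩)
          = decide (I'.1 ⟨t / (2 * n), hv⟩ ≤ F'.1 ⟨t / (2 * n), hv⟩) := by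
        have := congrArg Prod.snd h3
        unfold code at this
        simpa only [dif_pos hv] using this
      rw [decide_eq_decide] at hbit
      have hat : I.1 ⟨t / (2 * n), hv⟩ = I'.1 ⟨t / (2 * n), hv⟩ ∧
          F.1 ⟨t / (2 * n), hv⟩ = F'.1 ⟨t / (2 * n), hv⟩ := by
        rcases hp ⟨t / (2 * n), hv⟩ with h | ⟨e1, e2⟩
        · exact h
        · rw [← e1, ← e2] at hbit
          have : I.1 ⟨t / (2 * n), hv⟩ = F.1 ⟨t / (2 * n), hv⟩ := by
            rcases le_total (I.1 ⟨t / (2 * n), hv⟩) (F.1 ⟨t / (2 * n), hv⟩) with h | h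
            · exact le_antisymm h (hbit.1 h)
            · exact le_antisymm (hbit.2 h) h
          exact ⟨this.trans e2, this.symm.trans e1⟩
      have hmem : mn I F x ∈ Cp I.1 F.1 x := Finset.min'_mem _ _
      rw [hvv] at hmem
      have hx : x ∈ Cp I.1 F.1 ⟨t / (2 * n), hv⟩ := Cp_symm I.2.1 F.2.1 hmem
      rw [mem_Cp] at hx
      clear hmem hvv heq
      induction hx with
      | refl => exact hat
      | @tail a b _ hab ih' =>
        rcases hab with rfl | rfl
        · have e1 : I.1 (I.1 a) = I'.1 (I.1 a) := by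
            rw [I.2.1 a]
            conv_rhs => rw [ih'.1]
            rw [I'.2.1 a]
          rcases hp (I.1 a) with h | ⟨e2, e3⟩
          · exact h
          · exact ⟨e1, e3.trans (e1.symm.trans e2)⟩
        · have e1 : F.1 (F.1 a) = F'.1 (F.1 a) := by
            rw [F.2.1 a]
            conv_rhs => rw [ih'.2]
            rw [F'.2.1 a]
          rcases hp (F.1 a) with h | ⟨e2, e3⟩
          · exact h
          · exact ⟨e2.trans (e1.symm.trans e3), e1⟩
    · have a := hG.todo I F t x hgt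
      have b := hG.todo I' F' t x (by rw [← hmn]; exact hgt)
      rw [← h1, ← h2] at b
      exact ⟨a.1.symm.trans b.1, a.2.symm.trans b.2⟩
  exact ⟨Subtype.ext (funext fun x => (hall x).1), Subtype.ext (funext fun x => (hall x).2)⟩

/-- the first component of the code is small -/
theorem code_card_le {U : Ultra n H} {γ γ' : PM n → PM n → ℕ → PM n} (hG : Glob U γ γ')
    (I F : PM n) (t : ℕ) : (code γ γ' I F t).1.card ≤ Bd n :=
  Finset.card_image_le.trans (hG.bad I F t)

/-- number of small subsets -/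
theorem card_small_subsets (α : Type) [Fintype α] [DecidableEq α] (B : ℕ) :
    Fintype.card {s : Finset α // s.card ≤ B} ≤ (Fintype.card α + 1) ^ B := by
  have hcard : ∀ f : Fin B → Option α, (univ.filter fun a : α => ∃ i, f i = some a).card ≤ B := by
    intro f
    have h1 : ((univ.filter fun a : α => ∃ i, f i = some a).image some).card
        ≤ (univ.image f).card := by
      refine Finset.card_le_card ?_
      intro y hy
      rw [Finset.mem_image] at hy
      obtain ⟨a, ha, rfl⟩ := hy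
      obtain ⟨i, hi⟩ := (Finset.mem_filter.1 ha).2
      exact Finset.mem_image.2 ⟨i, Finset.mem_univ _, hi⟩
    rw [Finset.card_image_of_injective _ (Option.some_injective α)] at h1
    refine h1.trans (Finset.card_image_le.trans ?_)
    simp only [card_univ, Fintype.card_fin, Std.le_refl]
  have hsurj : Function.Surjective (fun f : Fin B → Option α =>
      (⟨univ.filter fun a : α => ∃ i, f i = some a, hcard f⟩ : {s : Finset α // s.card ≤ B})) := by
    rintro ⟨s, hs⟩
    refine ⟨fun i => if h : (i : ℕ) < s.card then some (s.equivFin.symm ⟨i, h⟩ : α) else none, ?_⟩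
    rw [Subtype.mk.injEq]
    ext a
    rw [Finset.mem_filter]
    constructor
    · rintro ⟨_, i, hi⟩
      dsimp only at hi
      split_ifs at hi with h
      rw [Option.some.injEq] at hi
      rw [← hi]
      exact (s.equivFin.symm ⟨i, h⟩).2
    · intro ha
      refine ⟨Finset.mem_univ _, ⟨(s.equivFin ⟨a, ha⟩ : ℕ), ?_⟩, ?_⟩
      · exact lt_of_lt_of_le (s.equivFin ⟨a, ha⟩).2 hs
      · dsimp only
        rw [dif_pos (s.equivFin ⟨a, ha⟩).2]
        simp
  have := Fintype.card_le_of_surjective _ hsurj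
  rwa [Fintype.card_fun, Fintype.card_option, Fintype.card_fin] at this

end Vale.Agent.P308.Canon
end

section

/-! # C1: a component of two perfect matchings as a cyclic list

`l = [v, I v, F (I v), I (F (I v)), ...]` with `2 k` entries, `k` the minimal period of `v` under
`ρ = F ∘ I`. The points `ρ^j v` (`j < k`) are distinct, the points `I (ρ^j v)` are distinct, and
`I (ρ^j v) = ρ^i v` is impossible (then, by `I ρ^i = ρ^(-i) I`, some point is fixed by `I` or `F`). -/

namespace Vale.Agent.P308.Canon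

open Finset Vale.Agent.P308.Split
open Vale.Agent.P308.Soft (Cp mem_Cp self_mem_Cp Cp_left Cp_right Cp_trans Cp_symm)

variable {n : ℕ}

/-- the points of the component in cyclic order -/
def cy_c1_g (I F : Fin n → Fin n) (v : Fin n) (i : ℕ) : Fin n :=
  if i % 2 = 0 then (fun x => F (I x))^[i / 2] v else I ((fun x => F (I x))^[i / 2] v)

theorem cy_c1_even (I F : Fin n → Fin n) (v : Fin n) (j : ℕ) :
    cy_c1_g I F v (2 * j) = (fun x => F (I x))^[j] v := by
  rw [cy_c1_g, if_pos (by omega), Nat.mul_div_cancel_left j (by norm_num)]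

theorem cy_c1_odd (I F : Fin n → Fin n) (v : Fin n) (j : ℕ) :
    cy_c1_g I F v (2 * j + 1) = I ((fun x => F (I x))^[j] v) := by
  have h : (2 * j + 1) / 2 = j := by omega
  rw [cy_c1_g, if_neg (by omega), h]

theorem cy_c1_I (I F : PM n) (v : Fin n) (j : ℕ) :
    I.1 (cy_c1_g I.1 F.1 v (2 * j)) = cy_c1_g I.1 F.1 v (2 * j + 1) ∧
      I.1 (cy_c1_g I.1 F.1 v (2 * j + 1)) = cy_c1_g I.1 F.1 v (2 * j) := by
  rw [cy_c1_even, cy_c1_odd]
  exact ⟨rfl, I.2.1 _⟩

theorem cy_c1_F (I F : PM n) (v : Fin n) (j : ℕ) :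
    F.1 (cy_c1_g I.1 F.1 v (2 * j + 1)) = cy_c1_g I.1 F.1 v (2 * j + 2) ∧
      F.1 (cy_c1_g I.1 F.1 v (2 * j + 2)) = cy_c1_g I.1 F.1 v (2 * j + 1) := by
  have h : 2 * j + 2 = 2 * (j + 1) := by ring
  rw [h, cy_c1_even, cy_c1_odd, Function.iterate_succ_apply']
  exact ⟨rfl, F.2.1 _⟩

theorem cy_c1_ne (I F : PM n) (v : Fin n) (i j : ℕ) :
    I.1 ((fun x => F.1 (I.1 x))^[j] v) ≠ (fun x => F.1 (I.1 x))^[i] v := by
  set ρ : Fin n → Fin n := fun x => F.1 (I.1 x) with hρ
  -- one step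
  have up : ∀ i j, I.1 (ρ^[j + 1] v) = ρ^[i] v → I.1 (ρ^[j] v) = ρ^[i + 1] v := by
    intro i j h
    rw [Function.iterate_succ_apply'] at h ⊢
    rw [← h]
    simp only [hρ]
    rw [I.2.1, F.2.1]
  have dn : ∀ i j, I.1 (ρ^[j] v) = ρ^[i + 1] v → I.1 (ρ^[j + 1] v) = ρ^[i] v := by
    intro i j h
    rw [Function.iterate_succ_apply'] at h ⊢
    have h1 : I.1 (F.1 (I.1 (ρ^[j] v))) = I.1 (F.1 (ρ (ρ^[i] v))) := by rw [h]
    simp only [hρ] at h1 ⊢
    rw [h1, F.2.1, I.2.1]
  have up0 : ∀ j i, I.1 (ρ^[j] v) = ρ^[i] v → I.1 (ρ^[0] v) = ρ^[i + j] v := by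
    intro j
    induction j with
    | zero => exact fun i h => h
    | succ j ih =>
      intro i h
      have h1 := ih _ (up _ _ h)
      have h2 : i + 1 + j = i + (j + 1) := by ring
      rwa [h2] at h1
  have dn0 : ∀ j i, I.1 (ρ^[0] v) = ρ^[i + j] v → I.1 (ρ^[j] v) = ρ^[i] v := by
    intro j
    induction j with
    | zero => exact fun i h => h
    | succ j ih =>
      intro i h
      refine dn _ _ (ih _ ?_)
      have h2 : i + 1 + j = i + (j + 1) := by ring
      rwa [h2]
  intro h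
  have h1 := up0 _ _ h
  rcases Nat.even_or_odd' (i + j) with ⟨m, hm | hm⟩
  · rw [hm, two_mul] at h1
    exact I.2.2 _ (dn0 m m h1)
  · have h2 : i + j = (m + 1) + m := by omega
    rw [h2] at h1
    have h3 := dn0 m (m + 1) h1
    rw [Function.iterate_succ_apply'] at h3
    exact F.2.2 _ h3.symm

theorem cy_c1_pos (I F : PM n) (v : Fin n) :
    0 < Function.minimalPeriod (fun x => F.1 (I.1 x)) v := by
  have hinj : Function.Injective fun x => F.1 (I.1 x) := by
    intro x y h
    have h1 : I.1 (F.1 (F.1 (I.1 x))) = I.1 (F.1 (F.1 (I.1 y))) := congrArg (fun z => I.1 (F.1 z)) h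
    rwa [F.2.1, F.2.1, I.2.1, I.2.1] at h1
  exact Function.minimalPeriod_pos_of_mem_periodicPts (hinj.mem_periodicPts v)

theorem cy_c1_per (I F : PM n) (v : Fin n) (i : ℕ) :
    cy_c1_g I.1 F.1 v (i + 2 * Function.minimalPeriod (fun x => F.1 (I.1 x)) v) =
      cy_c1_g I.1 F.1 v i := by
  set k := Function.minimalPeriod (fun x => F.1 (I.1 x)) v with hk
  rcases Nat.even_or_odd' i with ⟨m, rfl | rfl⟩
  · have h : 2 * m + 2 * k = 2 * (m + k) := by ring
    rw [h, cy_c1_even, cy_c1_even, hk, Function.iterate_add_minimalPeriod_eq]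
  · have h : 2 * m + 1 + 2 * k = 2 * (m + k) + 1 := by ring
    rw [h, cy_c1_odd, cy_c1_odd, hk, Function.iterate_add_minimalPeriod_eq]

theorem cy_c1_inj (I F : PM n) (v : Fin n) {i j : ℕ}
    (hi : i < 2 * Function.minimalPeriod (fun x => F.1 (I.1 x)) v)
    (hj : j < 2 * Function.minimalPeriod (fun x => F.1 (I.1 x)) v)
    (h : cy_c1_g I.1 F.1 v i = cy_c1_g I.1 F.1 v j) : i = j := by
  rcases Nat.even_or_odd' i with ⟨a, rfl | rfl⟩ <;> rcases Nat.even_or_odd' j with ⟨b, rfl | rfl⟩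
  · rw [cy_c1_even, cy_c1_even] at h
    have := (Function.iterate_eq_iterate_iff_of_lt_minimalPeriod (by omega) (by omega)).1 h
    omega
  · rw [cy_c1_even, cy_c1_odd] at h
    exact absurd h.symm (cy_c1_ne I F v _ _)
  · rw [cy_c1_even, cy_c1_odd] at h
    exact absurd h (cy_c1_ne I F v _ _)
  · rw [cy_c1_odd, cy_c1_odd] at h
    have h1 := congrArg I.1 h
    rw [I.2.1, I.2.1] at h1
    have := (Function.iterate_eq_iterate_iff_of_lt_minimalPeriod (by omega) (by omega)).1 h1
    omega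

/-- the list of the values of `h` at `0, …, 2 k - 1` -/
def cy_c1_L (h : ℕ → Fin n) (k : ℕ) : List ℕ := (List.range (2 * k)).map fun i => (h i : ℕ)

theorem cy_c1_L_length (h : ℕ → Fin n) (k : ℕ) : (cy_c1_L h k).length = 2 * k := by
  rw [cy_c1_L, List.length_map, List.length_range]

theorem cy_c1_L_get (h : ℕ → Fin n) (k i : ℕ) (hi : i < (cy_c1_L h k).length) :
    (cy_c1_L h k)[i] = (h i : ℕ) := by
  simp [cy_c1_L]

theorem cy_c1_L_nodup {h : ℕ → Fin n} {k : ℕ}
    (hinj : ∀ i < 2 * k, ∀ j < 2 * k, h i = h j → i = j) : (cy_c1_L h k).Nodup := by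
  refine (List.nodup_map_iff_inj_on List.nodup_range).2 ?_
  intro x hx y hy hxy
  exact hinj x (List.mem_range.1 hx) y (List.mem_range.1 hy) (Fin.ext hxy)

theorem cy_c1_cp {h : ℕ → Fin n} {k : ℕ} (hn : (cy_c1_L h k).Nodup) (G : Fin n → Fin n)
    (hG : ∀ j, G (h (2 * j)) = h (2 * j + 1) ∧ G (h (2 * j + 1)) = h (2 * j)) {i : ℕ}
    (hi : i < 2 * k) : cp (cy_c1_L h k) (h i) = (G (h i) : ℕ) := by
  have he : Even (cy_c1_L h k).length := by
    rw [cy_c1_L_length]
    exact even_two_mul k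
  rcases Nat.even_or_odd' i with ⟨j, rfl | rfl⟩
  · have h1 := (cp_getElem hn he j (by rw [cy_c1_L_length]; omega)).1
    rw [cy_c1_L_get, cy_c1_L_get] at h1
    rw [h1, (hG j).1]
  · have h1 := (cp_getElem hn he j (by rw [cy_c1_L_length]; omega)).2
    rw [cy_c1_L_get, cy_c1_L_get] at h1
    rw [h1, (hG j).2]

theorem exists_cycle (I F : PM n) (v : Fin n) :
    ∃ l : List ℕ, l.Nodup ∧ Even l.length ∧ 2 ≤ l.length ∧ l.length ≤ n ∧
      (∀ x : Fin n, (x : ℕ) ∈ l ↔ x ∈ Cp I.1 F.1 v) ∧ (∀ y ∈ l, y < n) ∧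
      ∀ x ∈ Cp I.1 F.1 v, cp l x = (I.1 x : ℕ) ∧ cp (l.rotate 1) x = (F.1 x : ℕ) := by
  set k := Function.minimalPeriod (fun x => F.1 (I.1 x)) v with hk
  have hk0 : 0 < k := cy_c1_pos I F v
  set g : ℕ → Fin n := cy_c1_g I.1 F.1 v with hg
  have hper : ∀ i, g (i + 2 * k) = g i := cy_c1_per I F v
  have hinj : ∀ i < 2 * k, ∀ j < 2 * k, g i = g j → i = j := fun i hi j hj h =>
    cy_c1_inj I F v hi hj h
  have hnd : (cy_c1_L g k).Nodup := cy_c1_L_nodup hinj
  have hlen : (cy_c1_L g k).length = 2 * k := cy_c1_L_length g k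
  have hgI : ∀ j, I.1 (g (2 * j)) = g (2 * j + 1) ∧ I.1 (g (2 * j + 1)) = g (2 * j) :=
    cy_c1_I I F v
  have hgF : ∀ j, F.1 (g (2 * j + 1)) = g (2 * j + 2) ∧ F.1 (g (2 * j + 2)) = g (2 * j + 1) :=
    cy_c1_F I F v
  have hrot : (cy_c1_L g k).rotate 1 = cy_c1_L (fun i => g (i + 1)) k := by
    refine List.ext_getElem ?_ ?_
    · rw [List.length_rotate, cy_c1_L_length, cy_c1_L_length]
    · intro i h1 h2
      rw [List.getElem_rotate, cy_c1_L_get, cy_c1_L_get, cy_c1_L_length]
      rw [cy_c1_L_length] at h2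
      rcases Nat.lt_or_ge (i + 1) (2 * k) with h3 | h3
      · rw [Nat.mod_eq_of_lt h3]
      · have h4 : i + 1 = 2 * k := by omega
        have h5 := hper 0
        rw [zero_add] at h5
        simp only [h4, Nat.mod_self, h5]
  have hnd' : (cy_c1_L (fun i => g (i + 1)) k).Nodup := by
    rw [← hrot]
    exact List.nodup_rotate.2 hnd
  have hg0 : g 0 = v := rfl
  -- members of the component
  have hmem : ∀ i, g i ∈ Cp I.1 F.1 v := by
    intro i
    induction i with
    | zero =>
      rw [hg0]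
      exact self_mem_Cp _ _ _
    | succ i ih =>
      rcases Nat.even_or_odd' i with ⟨j, rfl | rfl⟩
      · rw [← (hgI j).1]
        exact Cp_left ih
      · rw [← (hgF j).1]
        exact Cp_right ih
  have hmod : ∀ i, g i = g (i % (2 * k)) := by
    intro i
    have h1 : ∀ m r, g (r + 2 * k * m) = g r := by
      intro m r
      induction m with
      | zero => rfl
      | succ m ih =>
        rw [Nat.mul_succ, ← Nat.add_assoc, hper, ih]
    have h2 := h1 (i / (2 * k)) (i % (2 * k))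
    rwa [Nat.mod_add_div] at h2
  have hrange : ∀ x ∈ Cp I.1 F.1 v, ∃ i, g i = x := by
    intro x hx
    rw [mem_Cp] at hx
    induction hx with
    | refl => exact ⟨0, hg0⟩
    | @tail y z _ hyz ih =>
      obtain ⟨i, rfl⟩ := ih
      rcases hyz with rfl | rfl
      · rcases Nat.even_or_odd' i with ⟨j, rfl | rfl⟩
        · exact ⟨_, (hgI j).1.symm⟩
        · exact ⟨_, (hgI j).2.symm⟩
      · rcases Nat.even_or_odd' i with ⟨j, rfl | rfl⟩
        · rcases Nat.eq_zero_or_pos j with rfl | hj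
          · have h1 := (hgF (k - 1)).2
            have h2 : 2 * (k - 1) + 2 = 0 + 2 * k := by (clear * - hk0; omega)
            rw [h2, hper] at h1
            exact ⟨_, h1.symm⟩
          · have h1 := (hgF (j - 1)).2
            have h2 : 2 * (j - 1) + 2 = 2 * j := by (clear * - hj; omega)
            rw [h2] at h1
            exact ⟨_, h1.symm⟩
        · exact ⟨_, (hgF j).1.symm⟩
  have hrange' : ∀ x ∈ Cp I.1 F.1 v, ∃ i < 2 * k, g i = x := by
    intro x hx
    obtain ⟨i, rfl⟩ := hrange x hx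
    exact ⟨i % (2 * k), Nat.mod_lt _ (by omega), (hmod i).symm⟩
  refine ⟨cy_c1_L g k, hnd, ?_, ?_, ?_, ?_, ?_, ?_⟩
  · rw [hlen]
    exact even_two_mul k
  · rw [hlen]
    omega
  · have h1 : ((List.range (2 * k)).map g).Nodup := by
      refine (List.nodup_map_iff_inj_on List.nodup_range).2 ?_
      intro x hx y hy hxy
      exact hinj x (List.mem_range.1 hx) y (List.mem_range.1 hy) hxy
    have h2 := h1.length_le_card
    rw [Fintype.card_fin, List.length_map, List.length_range] at h2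
    rw [hlen]
    exact h2
  · intro x
    rw [cy_c1_L, List.mem_map]
    constructor
    · rintro ⟨i, _, hi⟩
      rw [← Fin.ext hi]
      exact hmem i
    · intro hx
      obtain ⟨i, hi, rfl⟩ := hrange' x hx
      exact ⟨i, List.mem_range.2 hi, rfl⟩
  · intro y hy
    rw [cy_c1_L, List.mem_map] at hy
    obtain ⟨i, _, rfl⟩ := hy
    exact (g i).2
  · intro x hx
    obtain ⟨i, hi, rfl⟩ := hrange' x hx
    refine ⟨cy_c1_cp hnd I.1 hgI hi, ?_⟩
    rw [hrot]
    rcases Nat.eq_zero_or_pos i with rfl | hi0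
    · have h1 := cy_c1_cp hnd' F.1 (fun j => hgF j) (i := 2 * k - 1) (by omega)
      have h2 : g (2 * k - 1 + 1) = g 0 := by
        have h3 : 2 * k - 1 + 1 = 0 + 2 * k := by (clear * - hk0; omega)
        rw [h3, hper]
      simp only [h2] at h1
      exact h1
    · have h1 := cy_c1_cp hnd' F.1 (fun j => hgF j) (i := i - 1) (by omega)
      have h2 : g (i - 1 + 1) = g i := by
        have h3 : i - 1 + 1 = i := by (clear * - hi0; omega)
        rw [h3]
      simp only [h2] at h1
      exact h1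

end Vale.Agent.P308.Canon
end

section

/-! # H5: the splitting lemma

PROOF. Strong induction on `l.length = m`. `m = 2`: `flip_two`. `m ≥ 4`: center `c` of the list
`l.map loc`, `balanced_cut` for `comp ∘ loc`, rotate (`Flip.of_rotate`). The arcs have lengths `x`, `m - x`
with `m ≤ 3 x ≤ 2 m`. Even arcs: `glue_even`, lengths `≤ 2m/3 ≤ 3m/4`. Odd arcs: ghosts `z, z'`
(any new labels), `loc' = loc` except at `z, z'`, lengths `x + 1`, `m - x + 1`, which are `≤ 3m/4` (check:
`x` odd, `m` even, `3x ≤ 2m` imply `4 (x + 1) ≤ 3 m`). With `j = 1 + max j1 j2` and `Flip.mono`.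
Lengths of the schedules: `L m = 2 m - 4`: even arcs `2 m1 - 4 + 2 m2 - 4 + 2 ≤ 2 m - 4`, odd arcs
`2 (x+1) - 4 + 2 (m-x+1) - 4 = 2 m - 4`. -/

namespace Vale.Agent.P308.Split

theorem sm_step_bound {a m j : ℕ} (h : 2 * 4 ^ j ≤ a * 3 ^ j) (ha : 4 * a ≤ 3 * m) :
    2 * 4 ^ (j + 1) ≤ m * 3 ^ (j + 1) := by
  calc 2 * 4 ^ (j + 1) = 4 * (2 * 4 ^ j) := by ring
    _ ≤ 4 * (a * 3 ^ j) := Nat.mul_le_mul_left 4 h
    _ = 4 * a * 3 ^ j := by ring
    _ ≤ 3 * m * 3 ^ j := Nat.mul_le_mul_right _ ha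
    _ = m * 3 ^ (j + 1) := by ring

theorem sm_step_max {a b m j1 j2 : ℕ} (h1 : 2 * 4 ^ j1 ≤ a * 3 ^ j1)
    (h2 : 2 * 4 ^ j2 ≤ b * 3 ^ j2) (ha : 4 * a ≤ 3 * m) (hb : 4 * b ≤ 3 * m) :
    2 * 4 ^ (max j1 j2 + 1) ≤ m * 3 ^ (max j1 j2 + 1) := by
  rcases le_total j1 j2 with h | h
  · rw [max_eq_right h]; exact sm_step_bound h2 hb
  · rw [max_eq_left h]; exact sm_step_bound h1 ha

theorem split {W : Type} (D : TreeD W) (m : ℕ) : ∀ (l : List ℕ) (loc : ℕ → W), l.length = m →
    l.Nodup → Even m → 2 ≤ m →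
    ∃ j, 2 * 4 ^ j ≤ m * 3 ^ j ∧ Flip D loc l (4 * j) (2 * m - 4) := by
  induction m using Nat.strong_induction_on with
  | _ m ih =>
  intro l loc hlen hnd hev hm
  by_cases h2 : m = 2
  · subst h2
    obtain ⟨x, y, rfl⟩ := List.length_eq_two.1 hlen
    refine ⟨0, by norm_num, ?_⟩
    have hxy : x ≠ y := by
      intro h
      simp [h] at hnd
    exact flip_two hxy
  · have hm4 : 4 ≤ m := by
      obtain ⟨k, hk⟩ := hev
      omega
    obtain ⟨c, κ, hdec, comp, hcross, hhalf⟩ := D.center (l.map loc)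
    obtain ⟨r, A1, A2, hA1, hA2, hrot, hx1, hx2, hcr1, hcr2⟩ :=
      balanced_cut (fun v => comp (loc v)) l (by omega) (by
        intro j
        have h := hhalf j
        rw [List.filter_map, List.length_map, List.length_map] at h
        exact h)
    have hc1 := hcross (loc (A1.getLast hA1)) (loc (A2.head hA2)) hcr1
    have hc2 := hcross (loc (A2.getLast hA2)) (loc (A1.head hA1)) hcr2
    have hnd' : (A1 ++ A2).Nodup := by
      rw [← hrot]
      exact List.nodup_rotate.2 hnd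
    have hlen' : A1.length + A2.length = m := by
      rw [← List.length_append, ← hrot, List.length_rotate, hlen]
    have hp1 : 0 < A1.length := List.length_pos_iff.2 hA1
    have hp2 : 0 < A2.length := List.length_pos_iff.2 hA2
    have hndA := List.nodup_append.1 hnd'
    have hel : Even l.length := by rw [hlen]; exact hev
    rw [hlen] at hx1 hx2
    rcases Nat.even_or_odd A1.length with e1 | o1
    · have e2 : Even A2.length := by
        obtain ⟨a, ha⟩ := e1
        obtain ⟨b, hb⟩ := hev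
        exact ⟨b - a, by (clear * - hA1 hA2 hlen' hp2 ha hb; omega)⟩
      obtain ⟨j1, hj1, f1⟩ := ih A1.length (by omega) A1 loc rfl hndA.1 e1
        (by obtain ⟨a, ha⟩ := e1; (clear * - hA1 hA2 hp1 ha; omega))
      obtain ⟨j2, hj2, f2⟩ := ih A2.length (by omega) A2 loc rfl hndA.2.1 e2
        (by obtain ⟨a, ha⟩ := e2; omega)
      refine ⟨max j1 j2 + 1, sm_step_max hj1 hj2 (by omega) (by omega), ?_⟩
      refine Flip.of_rotate hnd hel r ?_
      rw [hrot]
      refine Flip.mono (glue_even hnd' hA1 hA2 e1 e2 c hc1 hc2 (B := 4 * max j1 j2)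
        (Flip.mono f1 (by (clear * - hA1 hA2; omega)) le_rfl) (Flip.mono f2 (by omega) le_rfl)) (by omega) ?_
      obtain ⟨a, ha⟩ := e1
      obtain ⟨b, hb⟩ := e2
      (clear * - hm4 hA1 hA2 hlen' hp1 hp2 ha hb; omega)
    · have o2 : Odd A2.length := by
        obtain ⟨a, ha⟩ := o1
        obtain ⟨b, hb⟩ := hev
        exact ⟨b - a - 1, by omega⟩
      obtain ⟨z, hz⟩ := Infinite.exists_notMem_finset (A1 ++ A2).toFinset
      obtain ⟨z', hz'⟩ := Infinite.exists_notMem_finset (insert z (A1 ++ A2).toFinset)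
      rw [List.mem_toFinset] at hz
      rw [Finset.mem_insert, List.mem_toFinset, not_or] at hz'
      obtain ⟨hzz', hz'⟩ := hz'
      have hloc : ∀ v ∈ A1 ++ A2,
          Function.update (Function.update loc z c) z' c v = loc v := by
        intro v hv
        have hv1 : v ≠ z' := fun h => hz' (by rw [← h]; exact hv)
        have hv2 : v ≠ z := fun h => hz (by rw [← h]; exact hv)
        rw [Function.update_of_ne hv1, Function.update_of_ne hv2]
      have hlz : Function.update (Function.update loc z c) z' c z = c := by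
        rw [Function.update_of_ne (Ne.symm hzz'), Function.update_self]
      have hlz' : Function.update (Function.update loc z c) z' c z' = c := by
        rw [Function.update_self]
      have hzA : z ∉ A1 := fun h => hz (List.mem_append_left _ h)
      have hzA' : z' ∉ A2 := fun h => hz' (List.mem_append_right _ h)
      have n1 : (A1 ++ [z]).Nodup := by
        rw [List.nodup_append]
        refine ⟨hndA.1, List.nodup_singleton _, ?_⟩
        intro a ha b hb hab
        rw [List.mem_singleton] at hb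
        exact hzA (by rw [← hb, ← hab]; exact ha)
      have n2 : (z' :: A2).Nodup := List.nodup_cons.2 ⟨hzA', hndA.2.1⟩
      have l1 : (A1 ++ [z]).length = A1.length + 1 := by simp
      have l2 : (z' :: A2).length = A2.length + 1 := by simp
      have b1 : 4 * (A1.length + 1) ≤ 3 * m := by
        obtain ⟨a, ha⟩ := o1
        obtain ⟨b, hb⟩ := hev
        omega
      have b2 : 4 * (A2.length + 1) ≤ 3 * m := by
        obtain ⟨a, ha⟩ := o2
        obtain ⟨b, hb⟩ := hev
        omega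
      obtain ⟨j1, hj1, f1⟩ := ih (A1.length + 1) (by (clear * - hm4 hA1 hA2 hx1 hx2 hlen' hp2 l1 l2; omega)) (A1 ++ [z])
        (Function.update (Function.update loc z c) z' c) l1 n1 o1.add_one (by omega)
      obtain ⟨j2, hj2, f2⟩ := ih (A2.length + 1) (by (clear * - hm4 hA1 hA2 hx1 hx2 hlen' hp1 l1 l2; omega)) (z' :: A2)
        (Function.update (Function.update loc z c) z' c) l2 n2 o2.add_one (by omega)
      refine ⟨max j1 j2 + 1, sm_step_max hj1 hj2 b1 b2, ?_⟩
      refine Flip.of_rotate hnd hel r ?_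
      rw [hrot]
      refine Flip.mono (glue_odd hnd' hA1 hA2 o1 o2 c hc1 hc2 hz hz' (Ne.symm hzz') hloc hlz hlz'
        (B := 4 * max j1 j2) (Flip.mono f1 (by (clear * - hA1 hA2; omega)) le_rfl) (Flip.mono f2 (by omega) le_rfl))
        (by omega) ?_
      omega

end Vale.Agent.P308.Split
end

section

/-! # C2: flipping one component -/


namespace Vale.Agent.P308.Canon

open Finset Vale.Agent.P308.Split
open Vale.Agent.P308.Soft (Cp mem_Cp self_mem_Cp Cp_left Cp_right Cp_trans Cp_symm)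

variable {n H : ℕ}

theorem four_mul_le_Bd {j m : ℕ} (hmn : m ≤ n) (h : 2 * 4 ^ j ≤ m * 3 ^ j) : 4 * j ≤ Bd n := by
  unfold Bd
  by_contra hc
  have hj : 3 * Nat.log 2 n + 1 ≤ j := by (clear * - hc; omega)
  set L := Nat.log 2 n with hL
  have hn : n < 2 ^ (L + 1) := Nat.lt_pow_succ_log_self (by norm_num) n
  obtain ⟨i, rfl⟩ := Nat.exists_eq_add_of_le hj
  have h1 : 2 ^ L * 3 ^ (3 * L + 1 + i) ≤ 4 ^ (3 * L + 1 + i) := by
    have h2 : 2 ^ L * 3 ^ (3 * L) ≤ 4 ^ (3 * L) := by
      rw [pow_mul, pow_mul, ← mul_pow]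
      exact Nat.pow_le_pow_left (by norm_num) L
    have h3 : 3 ^ (1 + i) ≤ 4 ^ (1 + i) := Nat.pow_le_pow_left (by norm_num) _
    calc 2 ^ L * 3 ^ (3 * L + 1 + i) = (2 ^ L * 3 ^ (3 * L)) * 3 ^ (1 + i) := by ring
      _ ≤ 4 ^ (3 * L) * 4 ^ (1 + i) := Nat.mul_le_mul h2 h3
      _ = 4 ^ (3 * L + 1 + i) := by ring
  have h4 : m * 3 ^ (3 * L + 1 + i) < 2 ^ (L + 1) * 3 ^ (3 * L + 1 + i) :=
    Nat.mul_lt_mul_of_pos_right (lt_of_le_of_lt hmn hn) (by positivity)
  have h5 : 2 ^ (L + 1) * 3 ^ (3 * L + 1 + i) = 2 * (2 ^ L * 3 ^ (3 * L + 1 + i)) := by ring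
  omega

theorem exists_lflip (U : Ultra n H) (I F : PM n) (v : Fin n) :
    ∃ N N', LFlip U I F v N N' := by
  obtain ⟨l, hnd, hev, h2, hln, hmem, hlt, hcp⟩ := exists_cycle I F v
  have hn : 0 < n := by omega
  obtain ⟨D, hD⟩ := exists_treeD hn U
  set loc : ℕ → Pt n H := fun y => if h : y < n then (⟨y, h⟩, ⟨H, Nat.lt_succ_self H⟩)
    else (⟨0, hn⟩, ⟨H, Nat.lt_succ_self H⟩) with hloc
  obtain ⟨j, hj, N0, N0', z1, z2, z3, z4, hpm, hsw, hbad, hcost⟩ :=
    split D l.length l loc rfl hnd hev h2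
  set L := 2 * l.length - 4 with hL
  have hL2 : L ≤ 2 * n := by omega
  -- values stay below n
  have hin : ∀ f : ℕ → ℕ, PairOn l f → ∀ y ∈ l, f y ∈ l := by
    intro f hf y hy
    rw [← hf.2]
    have h3 := (hf.2 y).2 hy
    rw [hf.1 y]
    exact h3.symm
  have hval : ∀ f : ℕ → ℕ, PairOn l f → ∀ x : Fin n, f x < n := by
    intro f hf x
    by_cases hx : (x : ℕ) ∈ l
    · exact hlt _ (hin f hf x hx)
    · have : f x = x := by
        by_contra hne
        exact hx ((hf.2 x).1 hne)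
      rw [this]
      exact x.2
  have hP : ∀ t, PairOn l (N0 (min t L)) := fun t => (hpm _ (min_le_right _ _)).1
  have hP' : ∀ t, PairOn l (N0' (min t L)) := fun t => (hpm _ (min_le_right _ _)).2
  set N : ℕ → Fin n → Fin n := fun t x => ⟨N0 (min t L) x, hval _ (hP t) x⟩ with hN
  set N' : ℕ → Fin n → Fin n := fun t x => ⟨N0' (min t L) x, hval _ (hP' t) x⟩ with hN'
  have hNv : ∀ t x, (N t x : ℕ) = N0 (min t L) x := fun _ _ => rfl
  have hNv' : ∀ t x, (N' t x : ℕ) = N0' (min t L) x := fun _ _ => rfl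
  -- generic facts
  have pmf : ∀ (f : ℕ → ℕ) (g : Fin n → Fin n), PairOn l f → (∀ x, (g x : ℕ) = f x) →
      ∀ x ∈ Cp I.1 F.1 v, g x ∈ Cp I.1 F.1 v ∧ g (g x) = x ∧ g x ≠ x := by
    intro f g hf hg x hx
    have hxl := (hmem x).2 hx
    refine ⟨?_, ?_, ?_⟩
    · rw [← hmem, hg]
      exact hin f hf x hxl
    · apply Fin.ext
      rw [hg, hg, hf.1]
    · intro h3
      have h4 := (hf.2 x).2 hxl
      rw [← hg, h3] at h4
      exact h4 rfl
  refine ⟨N, N', ?_, ?_, ?_, ?_, ?_, ?_, ?_⟩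
  · intro x hx
    have h3 := hcp x hx
    constructor
    · apply Fin.ext
      rw [hNv, Nat.zero_min, z1]
      exact h3.1
    · apply Fin.ext
      rw [hNv', Nat.zero_min, z2]
      exact h3.2
  · intro t ht x hx
    have h3 := hcp x hx
    have h4 : min t L = L := min_eq_right (by (clear * - hL2 ht; omega))
    constructor
    · apply Fin.ext
      rw [hNv, h4, z3]
      exact h3.2
    · apply Fin.ext
      rw [hNv', h4, z4]
      exact h3.1
  · intro t
    exact pmf _ _ (hP t) (hNv t)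
  · intro t
    exact pmf _ _ (hP' t) (hNv' t)
  · intro t
    rcases Nat.lt_or_ge t L with ht | ht
    · have e1 : min t L = t := min_eq_left ht.le
      have e2 : min (t + 1) L = t + 1 := min_eq_left ht
      rcases (hsw t ht).1 with h3 | ⟨a, b, ha, hb, hab, hMab, hM⟩
      · left
        intro x _
        apply Fin.ext
        rw [hNv, hNv, e1, e2, h3]
      · right
        have hPt := (hpm t ht.le).1
        have hal : a ∈ l := (hPt.2 a).1 ha
        have hbl : b ∈ l := (hPt.2 b).1 hb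
        refine ⟨⟨a, hlt a hal⟩, (hmem _).1 hal, ⟨b, hlt b hbl⟩, (hmem _).1 hbl, ?_, ?_, ?_⟩
        · intro h4
          exact hab (congrArg Fin.val h4)
        · intro h4
          apply hMab
          have := congrArg Fin.val h4
          rw [hNv, e1] at this
          exact this
        · intro x _
          apply Fin.ext
          rw [hNv, e2, hM]
          unfold swF sw
          have ea : ((N t ⟨a, hlt a hal⟩ : Fin n) : ℕ) = N0 t a := by rw [hNv, e1]
          have eb : ((N t ⟨b, hlt b hbl⟩ : Fin n) : ℕ) = N0 t b := by rw [hNv, e1]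
          have ex : ((N t x : Fin n) : ℕ) = N0 t x := by rw [hNv, e1]
          simp only [Fin.ext_iff, ea, eb]
          split_ifs <;> simp_all
    · left
      intro x _
      apply Fin.ext
      rw [hNv, hNv, min_eq_right ht, min_eq_right (by omega)]
  · intro t
    refine le_trans ?_ (four_mul_le_Bd hln hj)
    refine le_trans ?_ (hbad (min t L) (min_le_right _ _))
    have h3 : ((Cp I.1 F.1 v).filter (BadV (N t) (N' t) I.1 F.1)).card ≤
        ((l.filter fun v => Bad (N0 (min t L)) (N0' (min t L)) (cp l) (cp (l.rotate 1)) v).toFinset).card := by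
      refine Finset.card_le_card_of_injOn (fun x => (x : ℕ)) ?_ ?_
      · intro x hx
        have hx' := Finset.mem_filter.1 hx
        simp only [List.coe_toFinset, Set.mem_ofPred_eq, List.mem_filter, decide_eq_true_eq]
        refine ⟨(hmem x).2 hx'.1, ?_⟩
        have h4 := hcp x hx'.1
        intro h5
        apply hx'.2
        unfold BadV at *
        rw [h4.1, h4.2] at h5
        rcases h5 with h5 | h5
        · left
          exact ⟨Fin.ext h5.1, Fin.ext h5.2⟩
        · right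
          exact ⟨Fin.ext h5.1, Fin.ext h5.2⟩
      · intro x _ y _ hxy
        exact Fin.ext hxy
    exact h3.trans (List.toFinset_card_le _)
  · intro t
    have h3 := hcost (min t L) (min_le_right _ _)
    unfold cost at h3
    -- sums over the list are sums over the component
    have hsum : ∀ φ : ℕ → ℤ, (l.map φ).sum = ∑ x ∈ Cp I.1 F.1 v, φ x := by
      intro φ
      rw [← List.sum_toFinset φ hnd]
      symm
      refine Finset.sum_bij (fun x _ => (x : ℕ)) ?_ ?_ ?_ ?_
      · intro x hx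
        rw [List.mem_toFinset]
        exact (hmem x).2 hx
      · intro x _ y _ hxy
        exact Fin.ext hxy
      · intro y hy
        rw [List.mem_toFinset] at hy
        exact ⟨⟨y, hlt y hy⟩, (hmem _).1 hy, rfl⟩
      · intro x _
        rfl
    rw [hsum, hsum] at h3
    have hdist : ∀ x y : Fin n, x ≠ y → D.d (loc x) (loc y) = 2 * (H : ℤ) - 2 * (U.m x y : ℤ) := by
      intro x y hxy
      rw [hD]
      have e1 : loc x = (x, ⟨H, Nat.lt_succ_self H⟩) := by simp [hloc]
      have e2 : loc y = (y, ⟨H, Nat.lt_succ_self H⟩) := by simp [hloc]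
      rw [e1, e2]
      have e3 : U.J (x, ⟨H, Nat.lt_succ_self H⟩) (y, ⟨H, Nat.lt_succ_self H⟩) = U.m x y := by
        unfold Ultra.J
        simp only [if_neg hxy]
        have := U.le x y
        omega
      rw [e3]
      simp only
      ring
    have hterm : ∀ (f : ℕ → ℕ) (g : Fin n → Fin n), (∀ x ∈ Cp I.1 F.1 v, (g x : ℕ) = f x) →
        (∀ x ∈ Cp I.1 F.1 v, g x ≠ x) → ∀ x ∈ Cp I.1 F.1 v,
        D.d (loc x) (loc (f x)) = 2 * (H : ℤ) - 2 * (U.m x (g x) : ℤ) := by
      intro f g hfg hne x hx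
      rw [← hfg x hx]
      exact hdist x (g x) (hne x hx).symm
    have hL1 : ∑ x ∈ Cp I.1 F.1 v, (D.d (loc x) (loc (N0 (min t L) x)) +
        D.d (loc x) (loc (N0' (min t L) x))) =
        ∑ x ∈ Cp I.1 F.1 v, (4 * (H : ℤ) - 2 * ((U.m x (N t x) : ℤ) + U.m x (N' t x))) := by
      refine Finset.sum_congr rfl fun x hx => ?_
      rw [hterm _ (N t) (fun x _ => hNv t x) (fun x hx => (pmf _ _ (hP t) (hNv t) x hx).2.2) x hx,
        hterm _ (N' t) (fun x _ => hNv' t x)
          (fun x hx => (pmf _ _ (hP' t) (hNv' t) x hx).2.2) x hx]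
      ring
    have hR1 : ∑ x ∈ Cp I.1 F.1 v, (D.d (loc x) (loc (cp l x)) +
        D.d (loc x) (loc (cp (l.rotate 1) x))) =
        ∑ x ∈ Cp I.1 F.1 v, (4 * (H : ℤ) - 2 * ((U.m x (I.1 x) : ℤ) + U.m x (F.1 x))) := by
      refine Finset.sum_congr rfl fun x hx => ?_
      rw [hterm _ I.1 (fun x hx => (hcp x hx).1.symm) (fun x _ => I.2.2 x) x hx,
        hterm _ F.1 (fun x hx => (hcp x hx).2.symm) (fun x _ => F.2.2 x) x hx]
      ring
    rw [hL1, hR1] at h3
    simp only [Finset.sum_sub_distrib, ← Finset.mul_sum] at h3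
    have h6 : (∑ x ∈ Cp I.1 F.1 v, ((U.m x (I.1 x) : ℤ) + U.m x (F.1 x))) ≤
        ∑ x ∈ Cp I.1 F.1 v, ((U.m x (N t x) : ℤ) + U.m x (N' t x)) := by linarith only [h3]
    exact_mod_cast h6

end Vale.Agent.P308.Canon
end

section

/-! # C3: the global canonical path

Choose `N^v, N'^v` by `exists_lflip` for every `I, F, v`. For `t = v * (2 n) + s`, `s < 2 n`:
`γ I F t x = F x` if `mn I F x < v`, `I x` if `v < mn I F x`, `N^v s x` if `mn I F x = v`
(then `Cp I F v = Cp I F x`); `γ'` similarly. At `t = n * (2 n)` everything is done. Between the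
times `v (2n) + (2n - 1)` and `(v+1) (2n)` the last step of the schedule of `v` is made
(`LFlip.last` with `t = 2 n`). The components partition the vertices, the bad vertices all lie in the
component in progress. -/

namespace Vale.Agent.P308.Canon

open Finset Vale.Agent.P308.Split
open Vale.Agent.P308.Soft (Cp mem_Cp self_mem_Cp Cp_left Cp_right Cp_trans Cp_symm)

variable {n H : ℕ}

/-- the component of a point of the component is the same -/
theorem Cp_eq_of_mem (I F : PM n) {v x : Fin n} (h : x ∈ Cp I.1 F.1 v) :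
    Cp I.1 F.1 x = Cp I.1 F.1 v := by
  ext y
  exact ⟨fun hy => Cp_trans h hy, fun hy => Cp_trans (Cp_symm I.2.1 F.2.1 h) hy⟩

theorem mn_eq_of_mem (I F : PM n) {v x : Fin n} (h : x ∈ Cp I.1 F.1 v) : mn I F x = mn I F v := by
  unfold mn
  congr 1
  exact Cp_eq_of_mem I F h

theorem mn_mem (I F : PM n) (x : Fin n) : mn I F x ∈ Cp I.1 F.1 x := Finset.min'_mem _ _

theorem mem_Cp_mn (I F : PM n) (x : Fin n) : x ∈ Cp I.1 F.1 (mn I F x) :=
  Cp_symm I.2.1 F.2.1 (mn_mem I F x)

theorem mn_mn (I F : PM n) (x : Fin n) : mn I F (mn I F x) = mn I F x :=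
  mn_eq_of_mem I F (mn_mem I F x)

/-- the glued map: `A` before, `B` after, `N v s` for the component in progress -/
noncomputable def gf (I F A B : PM n) (N : Fin n → ℕ → Fin n → Fin n) (q s : ℕ) (x : Fin n) :
    Fin n :=
  if (mn I F x : ℕ) < q then B.1 x else if q < (mn I F x : ℕ) then A.1 x else N (mn I F x) s x

section

variable {I F A B : PM n} {N N' : Fin n → ℕ → Fin n → Fin n} {q s : ℕ}

theorem gf_lt {x : Fin n} (h : (mn I F x : ℕ) < q) : gf I F A B N q s x = B.1 x := by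
  unfold gf; rw [if_pos h]

theorem gf_gt {x : Fin n} (h : q < (mn I F x : ℕ)) : gf I F A B N q s x = A.1 x := by
  unfold gf; rw [if_neg (not_lt.2 h.le), if_pos h]

theorem gf_eq {x : Fin n} (h : (mn I F x : ℕ) = q) : gf I F A B N q s x = N (mn I F x) s x := by
  unfold gf; rw [if_neg (not_lt.2 h.ge), if_neg (not_lt.2 h.le)]

theorem gf_pm (hA : ∀ x, A.1 x ∈ Cp I.1 F.1 x) (hB : ∀ x, B.1 x ∈ Cp I.1 F.1 x)
    (hN : ∀ v, ∀ x ∈ Cp I.1 F.1 v, N v s x ∈ Cp I.1 F.1 v ∧ N v s (N v s x) = x ∧ N v s x ≠ x) :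
    (∀ x, gf I F A B N q s (gf I F A B N q s x) = x) ∧ ∀ x, gf I F A B N q s x ≠ x := by
  have key : ∀ x, gf I F A B N q s (gf I F A B N q s x) = x ∧ gf I F A B N q s x ≠ x := by
    intro x
    rcases lt_trichotomy (mn I F x : ℕ) q with h | h | h
    · rw [gf_lt h]
      have h1 : mn I F (B.1 x) = mn I F x := mn_eq_of_mem I F (hB x)
      rw [gf_lt (by rw [h1]; exact h)]
      exact ⟨B.2.1 x, B.2.2 x⟩
    · rw [gf_eq h]
      obtain ⟨h1, h2, h3⟩ := hN (mn I F x) x (mem_Cp_mn I F x)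
      have h4 : mn I F (N (mn I F x) s x) = mn I F x := by
        rw [mn_eq_of_mem I F h1, mn_mn]
      rw [gf_eq (by rw [h4]; exact h), h4]
      exact ⟨h2, h3⟩
    · rw [gf_gt h]
      have h1 : mn I F (A.1 x) = mn I F x := mn_eq_of_mem I F (hA x)
      rw [gf_gt (by rw [h1]; exact h)]
      exact ⟨A.2.1 x, A.2.2 x⟩
  exact ⟨fun x => (key x).1, fun x => (key x).2⟩

/-- one time step of the glued map -/
theorem gf_succ (hn : 0 < n) (h0 : ∀ v, ∀ x ∈ Cp I.1 F.1 v, N v 0 x = A.1 x)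
    (h1 : ∀ v t, 2 * n ≤ t → ∀ x ∈ Cp I.1 F.1 v, N v t x = B.1 x) (t : ℕ) (x : Fin n) :
    gf I F A B N ((t + 1) / (2 * n)) ((t + 1) % (2 * n)) x =
      gf I F A B N (t / (2 * n)) (t % (2 * n) + 1) x := by
  have hn2 : 0 < 2 * n := by omega
  by_cases hs : t % (2 * n) + 1 < 2 * n
  · have e1 : (t + 1) / (2 * n) = t / (2 * n) := by
      rw [Nat.succ_div]
      rw [if_neg, add_zero]
      intro hd
      have := Nat.mod_add_div t (2 * n)
      have h2 := Nat.mod_eq_zero_of_dvd hd
      rw [Nat.add_mod, Nat.mod_eq_of_lt (show 1 < 2 * n by omega), Nat.mod_eq_of_lt hs] at h2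
      omega
    have e2 : (t + 1) % (2 * n) = t % (2 * n) + 1 := by
      rw [Nat.add_mod, Nat.mod_eq_of_lt (show 1 < 2 * n by omega), Nat.mod_eq_of_lt hs]
    rw [e1, e2]
  · have hlt := Nat.mod_lt t hn2
    have hs' : t % (2 * n) + 1 = 2 * n := by omega
    have e3 : t + 1 = 2 * n * (t / (2 * n) + 1) := by
      have := Nat.mod_add_div t (2 * n)
      rw [mul_add, mul_one]
      omega
    have e1 : (t + 1) / (2 * n) = t / (2 * n) + 1 := by
      conv_lhs => rw [e3]
      exact Nat.mul_div_cancel_left _ hn2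
    have e2 : (t + 1) % (2 * n) = 0 := by
      conv_lhs => rw [e3]
      exact Nat.mul_mod_right _ _
    rw [e1, e2, hs']
    rcases lt_trichotomy (mn I F x : ℕ) (t / (2 * n)) with h | h | h
    · rw [gf_lt h, gf_lt (by omega)]
    · rw [gf_eq h, gf_lt (by omega), h1 _ _ le_rfl _ (mem_Cp_mn I F x)]
    · rw [gf_gt h]
      rcases Nat.lt_or_ge (t / (2 * n) + 1) (mn I F x : ℕ) with h' | h'
      · rw [gf_gt h']
      · rw [gf_eq (by omega), h0 _ _ (mem_Cp_mn I F x)]

end

theorem exists_glob (U : Ultra n H) : ∃ γ γ', Glob U γ γ' := by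
  classical
  rcases Nat.eq_zero_or_pos n with rfl | hn
  · refine ⟨fun I _ _ => I, fun _ F _ => F, ?_⟩
    have hsub : ∀ I F : PM 0, I = F := fun I F => Subtype.ext (funext fun x => x.elim0)
    exact
      { zero := fun _ _ => rfl
        last := fun I F => hsub _ _
        step := fun _ _ _ => Or.inl rfl
        bad := fun _ _ _ => by simp only [ne_eq, univ_eq_empty, filter_empty, card_empty, zero_le]
        cost := fun _ _ _ => le_rfl
        done := fun _ _ _ x => x.elim0
        todo := fun _ _ _ x => x.elim0 }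
  choose N N' hN using fun I F v => exists_lflip U I F v
  have pm : ∀ (I F : PM n) (q s : ℕ), (∀ x, gf I F I F (N I F) q s (gf I F I F (N I F) q s x) = x) ∧
      ∀ x, gf I F I F (N I F) q s x ≠ x := fun I F q s =>
    gf_pm (fun x => Cp_left (self_mem_Cp _ _ x)) (fun x => Cp_right (self_mem_Cp _ _ x))
      fun v x hx => (hN I F v).pm s x hx
  have pm' : ∀ (I F : PM n) (q s : ℕ),
      (∀ x, gf I F F I (N' I F) q s (gf I F F I (N' I F) q s x) = x) ∧
      ∀ x, gf I F F I (N' I F) q s x ≠ x := fun I F q s =>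
    gf_pm (fun x => Cp_right (self_mem_Cp _ _ x)) (fun x => Cp_left (self_mem_Cp _ _ x))
      fun v x hx => (hN I F v).pm' s x hx
  let γ : PM n → PM n → ℕ → PM n := fun I F t => ⟨_, pm I F (t / (2 * n)) (t % (2 * n))⟩
  let γ' : PM n → PM n → ℕ → PM n := fun I F t => ⟨_, pm' I F (t / (2 * n)) (t % (2 * n))⟩
  have hγ : ∀ I F t x, (γ I F t).1 x = gf I F I F (N I F) (t / (2 * n)) (t % (2 * n)) x :=
    fun _ _ _ _ => rfl
  have hγ' : ∀ I F t x, (γ' I F t).1 x = gf I F F I (N' I F) (t / (2 * n)) (t % (2 * n)) x :=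
    fun _ _ _ _ => rfl
  -- the component in progress
  have hcomp : ∀ (I F : PM n) (q : ℕ), (∀ x, (mn I F x : ℕ) ≠ q) ∨
      ∃ v : Fin n, (v : ℕ) = q ∧ ∀ x, (mn I F x : ℕ) = q ↔ x ∈ Cp I.1 F.1 v := by
    intro I F q
    by_cases h : ∀ x, (mn I F x : ℕ) ≠ q
    · exact Or.inl h
    · push Not at h
      obtain ⟨y, hy⟩ := h
      refine Or.inr ⟨mn I F y, hy, fun x => ⟨fun hx => ?_, fun hx => ?_⟩⟩
      · have e : mn I F x = mn I F y := Fin.ext (hx.trans hy.symm)
        rw [← e]
        exact mem_Cp_mn I F x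
      · rw [mn_eq_of_mem I F hx, mn_mn]
        exact hy
  have hdone : ∀ I F t x, (mn I F x : ℕ) < t / (2 * n) →
      (γ I F t).1 x = F.1 x ∧ (γ' I F t).1 x = I.1 x := fun I F t x h => by
    rw [hγ, hγ', gf_lt h, gf_lt h]
    exact ⟨rfl, rfl⟩
  have htodo : ∀ I F t x, t / (2 * n) < (mn I F x : ℕ) →
      (γ I F t).1 x = I.1 x ∧ (γ' I F t).1 x = F.1 x := fun I F t x h => by
    rw [hγ, hγ', gf_gt h, gf_gt h]
    exact ⟨rfl, rfl⟩
  have hprog : ∀ (I F : PM n) (t : ℕ) (v : Fin n), (v : ℕ) = t / (2 * n) →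
      (∀ x, (mn I F x : ℕ) = t / (2 * n) ↔ x ∈ Cp I.1 F.1 v) → ∀ x ∈ Cp I.1 F.1 v,
      (γ I F t).1 x = N I F v (t % (2 * n)) x ∧ (γ' I F t).1 x = N' I F v (t % (2 * n)) x := by
    intro I F t v hv hv' x hx
    have h1 : (mn I F x : ℕ) = t / (2 * n) := (hv' x).2 hx
    have h2 : mn I F x = v := Fin.ext (h1.trans hv.symm)
    rw [hγ, hγ', gf_eq h1, gf_eq h1, h2]
    exact ⟨rfl, rfl⟩
  refine ⟨γ, γ', ?_, ?_, ?_, ?_, ?_, hdone, htodo⟩
  · -- zero
    intro I F
    refine Subtype.ext (funext fun x => ?_)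
    rw [hγ, Nat.zero_div, Nat.zero_mod]
    rcases Nat.eq_zero_or_pos (mn I F x : ℕ) with h | h
    · rw [gf_eq h]
      exact ((hN I F _).zero x (mem_Cp_mn I F x)).1
    · rw [gf_gt h]
  · -- last
    intro I F
    refine Subtype.ext (funext fun x => ?_)
    rw [hγ, Nat.mul_div_cancel _ (show 0 < 2 * n by (clear * - hn; omega)), gf_lt (mn I F x).2]
  · -- step
    intro I F t
    have hsucc : ∀ x, (γ I F (t + 1)).1 x =
        gf I F I F (N I F) (t / (2 * n)) (t % (2 * n) + 1) x := fun x =>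
      gf_succ hn (fun v x hx => ((hN I F v).zero x hx).1)
        (fun v t ht x hx => ((hN I F v).last t ht x hx).1) t x
    rcases hcomp I F (t / (2 * n)) with h | ⟨v, hv, hv'⟩
    · left
      refine Subtype.ext (funext fun x => ?_)
      rw [hsucc, hγ]
      rcases lt_or_gt_of_ne (h x) with h' | h'
      · rw [gf_lt h', gf_lt h']
      · rw [gf_gt h', gf_gt h']
    · have hout : ∀ x, x ∉ Cp I.1 F.1 v → (γ I F (t + 1)).1 x = (γ I F t).1 x := by
        intro x hx
        rw [hsucc, hγ]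
        rcases lt_or_gt_of_ne (fun h => hx ((hv' x).1 h)) with h' | h'
        · rw [gf_lt h', gf_lt h']
        · rw [gf_gt h', gf_gt h']
      have hin : ∀ x ∈ Cp I.1 F.1 v, (γ I F (t + 1)).1 x = N I F v (t % (2 * n) + 1) x := by
        intro x hx
        have h1 : (mn I F x : ℕ) = t / (2 * n) := (hv' x).2 hx
        have h2 : mn I F x = v := Fin.ext (h1.trans hv.symm)
        rw [hsucc, gf_eq h1, h2]
      have hin0 : ∀ x ∈ Cp I.1 F.1 v, (γ I F t).1 x = N I F v (t % (2 * n)) x := fun x hx =>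
        (hprog I F t v hv hv' x hx).1
      rcases (hN I F v).step (t % (2 * n)) with h | ⟨a, ha, b, hb, hab, hne, h⟩
      · left
        refine Subtype.ext (funext fun x => ?_)
        by_cases hx : x ∈ Cp I.1 F.1 v
        · rw [hin x hx, hin0 x hx, h x hx]
        · exact hout x hx
      · right
        refine ⟨a, b, hab, by rw [hin0 a ha]; exact hne, funext fun x => ?_⟩
        by_cases hx : x ∈ Cp I.1 F.1 v
        · rw [hin x hx, h x hx]
          unfold swF
          rw [hin0 a ha, hin0 b hb, hin0 x hx]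
        · rw [hout x hx]
          unfold swF
          have hxa : x ≠ a := fun e => hx (e ▸ ha)
          have hxb : x ≠ b := fun e => hx (e ▸ hb)
          have hxa' : x ≠ (γ I F t).1 a := fun e => hx (by
            rw [e, hin0 a ha]; exact ((hN I F v).pm _ a ha).1)
          have hxb' : x ≠ (γ I F t).1 b := fun e => hx (by
            rw [e, hin0 b hb]; exact ((hN I F v).pm _ b hb).1)
          rw [if_neg hxa, if_neg hxb, if_neg hxa', if_neg hxb']
  · -- bad
    intro I F t
    have hgood : ∀ x, (mn I F x : ℕ) ≠ t / (2 * n) →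
        ¬ BadV (γ I F t).1 (γ' I F t).1 I.1 F.1 x := by
      intro x hx hbad
      apply hbad
      rcases lt_or_gt_of_ne hx with h | h
      · exact Or.inr (hdone I F t x h)
      · exact Or.inl (htodo I F t x h)
    rcases hcomp I F (t / (2 * n)) with h | ⟨v, hv, hv'⟩
    · rw [Finset.filter_false_of_mem fun x _ => hgood x (h x)]
      simp only [card_empty, zero_le]
    · refine le_trans (Finset.card_le_card ?_) ((hN I F v).bad (t % (2 * n)))
      intro x hx
      rw [Finset.mem_filter] at hx ⊢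
      have hx1 : x ∈ Cp I.1 F.1 v := by
        by_contra hcon
        exact hgood x (fun h => hcon ((hv' x).1 h)) hx.2
      refine ⟨hx1, ?_⟩
      have h2 := hx.2
      obtain ⟨e1, e2⟩ := hprog I F t v hv hv' x hx1
      unfold BadV at h2 ⊢
      rw [e1, e2] at h2
      exact h2
  · -- cost
    intro I F t
    have hgood : ∀ x, (mn I F x : ℕ) ≠ t / (2 * n) → U.m x (I.1 x) + U.m x (F.1 x) =
        U.m x ((γ I F t).1 x) + U.m x ((γ' I F t).1 x) := by
      intro x hx
      rcases lt_or_gt_of_ne hx with h | h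
      · rw [(hdone I F t x h).1, (hdone I F t x h).2, add_comm]
      · rw [(htodo I F t x h).1, (htodo I F t x h).2]
    rcases hcomp I F (t / (2 * n)) with h | ⟨v, hv, hv'⟩
    · exact (Finset.sum_congr rfl fun x _ => hgood x (h x)).le
    · rw [← Finset.sum_add_sum_compl (Cp I.1 F.1 v),
        ← Finset.sum_add_sum_compl (Cp I.1 F.1 v)
          fun x => U.m x ((γ I F t).1 x) + U.m x ((γ' I F t).1 x)]
      refine add_le_add ?_ (Finset.sum_congr rfl fun x hx => ?_).le
      · refine ((hN I F v).cost (t % (2 * n))).trans (Finset.sum_congr rfl fun x hx => ?_).le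
        obtain ⟨e1, e2⟩ := hprog I F t v hv hv' x hx
        rw [e1, e2]
      · exact hgood x fun h => Finset.mem_compl.1 hx ((hv' x).1 h)

end Vale.Agent.P308.Canon
end

section

/-! # C5: Poincaré inequality for chains of perfect matchings with tree-like weights -/

namespace Vale.Agent.P308.Canon

open Finset Vale.Agent.P308.Split Vale.Agent.P308.Soft.Mix
open Vale.Agent.P308.Soft (Cp mem_Cp self_mem_Cp Cp_left Cp_right Cp_trans Cp_symm)

variable {n H : ℕ}

/-- Integer edge weights that are tree-like up to `c`: vertex potentials, an ultrametric, and an error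
between `0` and `c`. -/
structure TreeLike (K : Fin n → Fin n → ℤ) (U : Ultra n H) (c : ℕ) : Prop where
  symm : ∀ x y, K x y = K y x
  ex : ∃ p : Fin n → ℤ, ∀ x y, x ≠ y →
    p x + p y - U.m x y ≤ K x y ∧ K x y ≤ p x + p y - U.m x y + c

/-- twice the energy is the sum over the vertices -/
theorem two_mul_En (K : Fin n → Fin n → ℤ) (hK : ∀ x y, K x y = K y x) (M : PM n) :
    2 * En K M = ∑ x, K x (M.1 x) := by
  have h1 : ∑ x, (if M.1 x < x then K x (M.1 x) else 0) =
      ∑ x, (if x < M.1 x then K x (M.1 x) else 0) := by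
    rw [← Equiv.sum_comp (⟨M.1, M.1, M.2.1, M.2.1⟩ : Fin n ≃ Fin n)
      (fun x => if M.1 x < x then K x (M.1 x) else 0)]
    refine Finset.sum_congr rfl fun x _ => ?_
    change (if M.1 (M.1 x) < M.1 x then K (M.1 x) (M.1 (M.1 x)) else 0) = _
    rw [M.2.1 x, hK (M.1 x) x]
  have h2 : ∀ x, K x (M.1 x) = (if x < M.1 x then K x (M.1 x) else 0) +
      (if M.1 x < x then K x (M.1 x) else 0) := by
    intro x
    rcases lt_or_gt_of_ne (M.2.2 x) with h | h
    · rw [if_pos h, if_neg (not_lt.2 h.le), zero_add]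
    · rw [if_pos h, if_neg (not_lt.2 h.le), add_zero]
  rw [Finset.sum_congr rfl fun x _ => h2 x, sum_add_distrib, h1, En, two_mul]

/-- the sum of a function over the partners -/
theorem po_sum_partner (M : PM n) (p : Fin n → ℤ) : ∑ x, p (M.1 x) = ∑ x, p x :=
  Equiv.sum_comp (⟨M.1, M.1, M.2.1, M.2.1⟩ : Fin n ≃ Fin n) p

/-- PROOF. Write `K x y = p x + p y - m x y + θ x y` with `0 ≤ θ ≤ c`. `∑ x, (K x (γ x) + K x (γ' x))
- ∑ x, (K x (I x) + K x (F x))`: the potentials cancel (bijections), the `m` terms are `≤ 0` by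
`Glob.cost`, the `θ` terms cancel at the good vertices and are at most `2 c` at a bad one. -/
theorem energy_le {K : Fin n → Fin n → ℤ} {U : Ultra n H} {c : ℕ} (hK : TreeLike K U c)
    {γ γ' : PM n → PM n → ℕ → PM n} (hG : Glob U γ γ') (I F : PM n) (t : ℕ) :
    En K (γ I F t) + En K (γ' I F t) ≤ En K I + En K F + c * Bd n := by
  obtain ⟨p, hp⟩ := hK.ex
  set θ : Fin n → Fin n → ℤ := fun x y => K x y - (p x + p y - U.m x y) with hθ
  have hθ0 : ∀ x y, x ≠ y → 0 ≤ θ x y ∧ θ x y ≤ c := by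
    intro x y hxy
    have := hp x y hxy
    simp only [hθ]
    constructor <;> linarith only [this]
  have key : ∀ M M' : PM n, 2 * (En K M + En K M') = 4 * ∑ x, p x -
      ((∑ x, (U.m x (M.1 x) + U.m x (M'.1 x)) : ℕ) : ℤ) +
      ∑ x, (θ x (M.1 x) + θ x (M'.1 x)) := by
    intro M M'
    rw [mul_add, two_mul_En K hK.symm, two_mul_En K hK.symm]
    have h1 : ∀ N : PM n, ∑ x, K x (N.1 x) = ∑ x, p x + ∑ x, p x - ∑ x, (U.m x (N.1 x) : ℤ) +
        ∑ x, θ x (N.1 x) := by
      intro N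
      have e : ∀ x, K x (N.1 x) = p x + p (N.1 x) - U.m x (N.1 x) + θ x (N.1 x) := by
        intro x
        simp only [hθ]
        ring
      rw [Finset.sum_congr rfl fun x _ => e x, sum_add_distrib, sum_sub_distrib, sum_add_distrib,
        po_sum_partner]
    rw [h1 M, h1 M']
    push_cast
    rw [sum_add_distrib, sum_add_distrib]
    ring
  have hθs : ∑ x, (θ x ((γ I F t).1 x) + θ x ((γ' I F t).1 x)) ≤
      ∑ x, (θ x (I.1 x) + θ x (F.1 x)) + 2 * (c * Bd n) := by
    have h1 : ∀ x, θ x ((γ I F t).1 x) + θ x ((γ' I F t).1 x) ≤ (θ x (I.1 x) + θ x (F.1 x)) +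
        (if BadV (γ I F t).1 (γ' I F t).1 I.1 F.1 x then 2 * (c : ℤ) else 0) := by
      intro x
      by_cases hb : BadV (γ I F t).1 (γ' I F t).1 I.1 F.1 x
      · rw [if_pos hb]
        have a1 := hθ0 x _ ((γ I F t).2.2 x).symm
        have a2 := hθ0 x _ ((γ' I F t).2.2 x).symm
        have a3 := hθ0 x _ (I.2.2 x).symm
        have a4 := hθ0 x _ (F.2.2 x).symm
        linarith only [a1, a2, a3, a4]
      · rw [if_neg hb, add_zero]
        have hb' := not_not.1 hb
        rcases hb' with ⟨e1, e2⟩ | ⟨e1, e2⟩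
        · rw [e1, e2]
        · rw [e1, e2, add_comm]
    refine (Finset.sum_le_sum fun x _ => h1 x).trans ?_
    rw [sum_add_distrib]
    refine add_le_add le_rfl ?_
    rw [← sum_filter, sum_const, nsmul_eq_mul]
    have h2 := hG.bad I F t
    have h3 : (((univ.filter (BadV (γ I F t).1 (γ' I F t).1 I.1 F.1)).card : ℕ) : ℤ) ≤ Bd n := by
      exact_mod_cast h2
    have h4 := mul_le_mul_of_nonneg_right h3 (show (0 : ℤ) ≤ 2 * (c : ℤ) by (clear * -; positivity))
    calc _ ≤ (Bd n : ℤ) * (2 * c) := h4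
      _ = 2 * (c * Bd n) := by ring
  have h5 := key (γ I F t) (γ' I F t)
  have h6 := key I F
  have h7 : ((∑ x, (U.m x (I.1 x) + U.m x (F.1 x)) : ℕ) : ℤ) ≤
      ((∑ x, (U.m x ((γ I F t).1 x) + U.m x ((γ' I F t).1 x)) : ℕ) : ℤ) := by
    exact_mod_cast hG.cost I F t
  linarith only [hθs, h5, h6, h7]

/-- **Poincaré inequality** with a quasi-polynomial constant, for every chain on perfect matchings
that is reversible for the law proportional to `2 ^ (-En K M)` and makes every switch with conductance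
at least `p * min (π M) (π M')`. PROOF: `poincare_of_paths` with `L = n * (2 n)`,
`congestion_of_encoding` with `E = {s : Finset (Fin n × Fin n × Fin n) // s.card ≤ Bd n} × Bool`,
`A = 2 ^ (c * Bd n)`. -/
theorem poincare {K : Fin n → Fin n → ℤ} {U : Ultra n H} {c : ℕ} (hK : TreeLike K U c)
    {π : PM n → ℝ} {P : PM n → PM n → ℝ} (hC : Chain π P) {Zt : ℝ} (hZ : 0 < Zt)
    (hπ : ∀ M, π M = (2 : ℝ) ^ (-En K M) / Zt) {p : ℝ} (hp : 0 < p)
    (hstep : ∀ M M', SwP M M' → M ≠ M' → p * min (π M) (π M') ≤ π M * P M M')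
    (f : PM n → ℝ) :
    var π f ≤ ((n * (2 * n) : ℕ) : ℝ) ^ 2 *
      ((2 : ℝ) ^ (c * Bd n) * (2 * (n ^ 3 + 1) ^ Bd n)) / p * dir π P f := by
  obtain ⟨γ, γ', hG⟩ := exists_glob U
  refine poincare_of_paths hC (n * (2 * n)) hp γ hG.zero hG.last
    (fun x y i _ hne => hstep _ _ (hG.step x y i) hne) ?_ f
  intro i _ z
  have hcard : (Fintype.card ({s : Finset (Fin n × Fin n × Fin n) // s.card ≤ Bd n} × Bool) : ℝ) ≤
      2 * (n ^ 3 + 1) ^ Bd n := by
    have h1 := card_small_subsets (Fin n × Fin n × Fin n) (Bd n)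
    have h2 : Fintype.card (Fin n × Fin n × Fin n) = n ^ 3 := by
      rw [Fintype.card_prod, Fintype.card_prod, Fintype.card_fin]
      ring
    rw [h2] at h1
    rw [Fintype.card_prod, Fintype.card_bool, mul_comm]
    exact_mod_cast Nat.mul_le_mul_left 2 h1
  have hcong := congestion_of_encoding
    (E := {s : Finset (Fin n × Fin n × Fin n) // s.card ≤ Bd n} × Bool) hC
    (A := (2 : ℝ) ^ (c * Bd n)) (by positivity)
    (fun x y => γ x y i) (fun x y => γ' x y i)
    (fun x y => (⟨(code γ γ' x y i).1, code_card_le hG x y i⟩, (code γ γ' x y i).2))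
    (fun x y x' y' h1 h2 h3 => decode hG i h1 h2 (by
      have a := congrArg Prod.fst h3
      have b := congrArg Prod.snd h3
      exact Prod.ext (congrArg Subtype.val a) b)) (fun x y => by
      rw [hπ, hπ, hπ, hπ, div_mul_div_comm, div_mul_div_comm, mul_div_assoc']
      refine div_le_div_of_nonneg_right ?_ (mul_pos hZ hZ).le
      rw [← zpow_natCast, ← zpow_add₀ (two_ne_zero), ← zpow_add₀ (two_ne_zero),
        ← zpow_add₀ (two_ne_zero)]
      refine zpow_le_zpow_right₀ one_le_two ?_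
      have := energy_le hK hG x y i
      push_cast
      linarith only [this]) z
  refine hcong.trans ?_
  refine mul_le_mul_of_nonneg_right ?_ (hC.pos z).le
  exact mul_le_mul_of_nonneg_left hcard (by positivity)

end Vale.Agent.P308.Canon
end

section

/-!
# P308, polynomial sampler: the law of the acceptance test

`wq h q` is the weight of the position `q`, `accP` the probability of the acceptance test `acc`.
The chain with this acceptance probability is exactly reversible.
-/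

namespace Vale.Agent.P308.PA

open Finset
open Vale.Agent.P308.Alg Vale.Agent.P308.Alg.St
open Vale.Agent.Lib.PolyTime (val val_lt Raw)

theorem maq_le (h q : ℕ) : maq h q ≤ 2 ^ (h + 1) := Nat.sub_le _ _

theorem lt_maq (h q : ℕ) : 2 ^ h < maq h q := by
  unfold maq
  have h1 : q % 2 ^ h < 2 ^ h := Nat.mod_lt _ (by positivity)
  have h2 : 2 ^ (h + 1) = 2 ^ h + 2 ^ h := by ring
  omega

/-- The mantissa as a real number in `(1/2, 1]`. -/
noncomputable def mr (h q : ℕ) : ℝ := (maq h q : ℝ) / 2 ^ (h + 1)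

theorem half_lt_mr (h q : ℕ) : 1 / 2 < mr h q := by
  unfold mr
  rw [lt_div_iff₀ (by positivity)]
  have h1 : (2 : ℝ) ^ h < maq h q := by exact_mod_cast lt_maq h q
  have h2 : (1 / 2 : ℝ) * 2 ^ (h + 1) = 2 ^ h := by ring
  rw [h2]
  exact h1

theorem mr_pos (h q : ℕ) : 0 < mr h q := lt_trans (by norm_num) (half_lt_mr h q)

theorem wq_eq_mr (h q : ℕ) : wq h q = (1 / 2 : ℝ) ^ (exq h q) * mr h q := rfl

theorem wq_pos (h q : ℕ) : 0 < wq h q := by
  rw [wq_eq_mr]
  exact mul_pos (by positivity) (mr_pos h q)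

/-- The probability of acceptance. -/
noncomputable def accP (h o₁ o₂ n₁ n₂ : ℕ) : ℝ :=
  mr h n₁ * mr h n₂ * (1 / 2 : ℝ) ^ ((exq h n₁ + exq h n₂) - (exq h o₁ + exq h o₂))

theorem sum_lt_maq (h q : ℕ) (a : ℝ) :
    ∑ u ∈ words (h + 1), (if val u < maq h q then a else 0) = maq h q * a := by
  rw [sum_words_val (h + 1) (fun k => if k < maq h q then a else 0), ← Finset.sum_filter,
    Finset.sum_const, nsmul_eq_mul]
  congr 2
  have : (range (2 ^ (h + 1))).filter (fun k => k < maq h q) = range (maq h q) := by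
    ext k
    simp only [mem_filter, mem_range]
    have := maq_le h q
    omega
  rw [this, card_range]

theorem acc_append (h o₁ o₂ n₁ n₂ : ℕ) {u v w : List Bool} (hu : u.length = h + 1)
    (hv : v.length = h + 1) : acc h ⟨u ++ (v ++ w)⟩ o₁ o₂ n₁ n₂ =
      (decide (val u < maq h n₁) && (decide (val v < maq h n₂) &&
        ones ⟨w⟩ ((exq h n₁ + exq h n₂) - (exq h o₁ + exq h o₂)))) := by
  have e1 : (u ++ (v ++ w)).take (h + 1) = u := List.take_left' hu
  have e2 : (u ++ (v ++ w)).drop (h + 1) = v ++ w := List.drop_left' hu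
  have e3 : (v ++ w).take (h + 1) = v := List.take_left' hv
  have e4 : (u ++ (v ++ w)).drop ((h + 1) + (h + 1)) = w := by
    rw [← List.drop_drop, e2]; exact List.drop_left' hv
  unfold acc
  simp only
  rw [e1, e2, e3, e4]

/-- The number of words which pass the test. -/
theorem sum_acc (h m o₁ o₂ n₁ n₂ : ℕ)
    (hm : (exq h n₁ + exq h n₂) - (exq h o₁ + exq h o₂) ≤ m) :
    ∑ v ∈ words ((h + 1) + ((h + 1) + m)), (if acc h ⟨v⟩ o₁ o₂ n₁ n₂ = true then (1 : ℝ) else 0) =
      2 ^ ((h + 1) + ((h + 1) + m)) * accP h o₁ o₂ n₁ n₂ := by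
  rw [sum_words_add]
  have key : ∀ u ∈ words (h + 1), ∑ v ∈ words ((h + 1) + m),
      (if acc h ⟨u ++ v⟩ o₁ o₂ n₁ n₂ = true then (1 : ℝ) else 0) =
      (if val u < maq h n₁ then (maq h n₂ : ℝ) *
        (2 ^ m * (1 / 2) ^ ((exq h n₁ + exq h n₂) - (exq h o₁ + exq h o₂))) else 0) := by
    intro u hu
    have hu' := mem_words.1 hu
    rw [sum_words_add]
    have key2 : ∀ v ∈ words (h + 1), ∑ w ∈ words m,
        (if acc h ⟨u ++ (v ++ w)⟩ o₁ o₂ n₁ n₂ = true then (1 : ℝ) else 0) =
        (if val v < maq h n₂ then (if val u < maq h n₁ then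
          (2 ^ m * (1 / 2) ^ ((exq h n₁ + exq h n₂) - (exq h o₁ + exq h o₂))) else 0) else 0) := by
      intro v hv
      have hv' := mem_words.1 hv
      rw [← sum_ones m _ hm]
      by_cases h1 : val u < maq h n₁
      · by_cases h2 : val v < maq h n₂
        · rw [if_pos h2, if_pos h1]
          refine Finset.sum_congr rfl fun w _ => ?_
          rw [acc_append h o₁ o₂ n₁ n₂ hu' hv']
          simp only [h1, decide_true, h2, Bool.true_and]
        · rw [if_neg h2]
          refine Finset.sum_eq_zero fun w _ => ?_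
          rw [acc_append h o₁ o₂ n₁ n₂ hu' hv']
          simp only [h2, decide_false, Bool.false_and, Bool.and_false, Bool.false_eq_true, ↓reduceIte]
      · rw [if_neg h1, ite_self]
        refine Finset.sum_eq_zero fun w _ => ?_
        rw [acc_append h o₁ o₂ n₁ n₂ hu' hv']
        simp only [h1, decide_false, Bool.false_and, Bool.false_eq_true, ↓reduceIte]
    rw [Finset.sum_congr rfl key2, sum_lt_maq]
    by_cases h1 : val u < maq h n₁
    · simp only [h1, ↓reduceIte, one_div, inv_pow]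
    · simp [h1]
  rw [Finset.sum_congr rfl key, sum_lt_maq]
  unfold accP mr
  rw [pow_add 2 (h + 1) (h + 1 + m), pow_add 2 (h + 1) m]
  (clear * -; field_simp)

/-- **Exact reversibility.** -/
theorem wq_accP (h o₁ o₂ n₁ n₂ : ℕ) :
    wq h o₁ * wq h o₂ * accP h o₁ o₂ n₁ n₂ = wq h n₁ * wq h n₂ * accP h n₁ n₂ o₁ o₂ := by
  rw [wq_eq_mr, wq_eq_mr, wq_eq_mr, wq_eq_mr]
  unfold accP
  have e : ∀ a b : ℕ, (1 / 2 : ℝ) ^ a * (1 / 2) ^ (b - a) = (1 / 2) ^ (max a b) := by
    intro a b
    rw [← pow_add]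
    congr 1
    omega
  have e1 := e (exq h o₁ + exq h o₂) (exq h n₁ + exq h n₂)
  have e2 := e (exq h n₁ + exq h n₂) (exq h o₁ + exq h o₂)
  rw [max_comm] at e2
  have e3 : (1 / 2 : ℝ) ^ exq h o₁ * (1 / 2) ^ exq h o₂ *
      (1 / 2) ^ ((exq h n₁ + exq h n₂) - (exq h o₁ + exq h o₂)) =
      (1 / 2 : ℝ) ^ exq h n₁ * (1 / 2) ^ exq h n₂ *
      (1 / 2) ^ ((exq h o₁ + exq h o₂) - (exq h n₁ + exq h n₂)) := by
    rw [← pow_add (1 / 2 : ℝ) (exq h o₁) (exq h o₂), ← pow_add (1 / 2 : ℝ) (exq h n₁) (exq h n₂),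
      e1, e2]
  calc _ = mr h o₁ * mr h o₂ * mr h n₁ * mr h n₂ * ((1 / 2 : ℝ) ^ exq h o₁ * (1 / 2) ^ exq h o₂ *
      (1 / 2) ^ ((exq h n₁ + exq h n₂) - (exq h o₁ + exq h o₂))) := by ring
    _ = _ := by rw [e3]; ring

/-- **Comparison with the Metropolis rate.** -/
theorem quarter_min_le (h o₁ o₂ n₁ n₂ : ℕ) :
    1 / 4 * min (wq h o₁ * wq h o₂) (wq h n₁ * wq h n₂) ≤
      wq h o₁ * wq h o₂ * accP h o₁ o₂ n₁ n₂ := by
  have a1 := half_lt_mr h o₁
  have a2 := half_lt_mr h o₂
  have a3 := half_lt_mr h n₁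
  have a4 := half_lt_mr h n₂
  have b1 := wq_pos h o₁
  have b2 := wq_pos h o₂
  rcases le_total (exq h n₁ + exq h n₂) (exq h o₁ + exq h o₂) with hle | hle
  · have e : (exq h n₁ + exq h n₂) - (exq h o₁ + exq h o₂) = 0 := by omega
    have h1 : (1 / 4 : ℝ) ≤ accP h o₁ o₂ n₁ n₂ := by
      unfold accP
      rw [e, pow_zero, mul_one]
      nlinarith only [a3, a4]
    calc _ ≤ 1 / 4 * (wq h o₁ * wq h o₂) :=
          mul_le_mul_of_nonneg_left (min_le_left _ _) (by norm_num)
      _ = wq h o₁ * wq h o₂ * (1 / 4) := by ring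
      _ ≤ _ := mul_le_mul_of_nonneg_left h1 (by (clear * - b1 b2; positivity))
  · have e : (exq h o₁ + exq h o₂) - (exq h n₁ + exq h n₂) = 0 := by (clear * - hle; omega)
    have c1 := wq_pos h n₁
    have c2 := wq_pos h n₂
    have h1 : (1 / 4 : ℝ) ≤ accP h n₁ n₂ o₁ o₂ := by
      unfold accP
      rw [e, pow_zero, mul_one]
      nlinarith only [a1, a2]
    rw [wq_accP]
    calc _ ≤ 1 / 4 * (wq h n₁ * wq h n₂) :=
          mul_le_mul_of_nonneg_left (min_le_right _ _) (by norm_num)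
      _ = wq h n₁ * wq h n₂ * (1 / 4) := by ring
      _ ≤ _ := mul_le_mul_of_nonneg_left h1 (by (clear * - c1 c2; positivity))

/-- The comparison for two probabilities with the quotient of the weights. -/
theorem quarter_min_mu (h o₁ o₂ n₁ n₂ : ℕ) {p p' : ℝ} (hp : 0 < p)
    (hq : p' * (wq h o₁ * wq h o₂) = p * (wq h n₁ * wq h n₂)) :
    1 / 4 * min p p' ≤ p * accP h o₁ o₂ n₁ n₂ := by
  have b : 0 < wq h o₁ * wq h o₂ := mul_pos (wq_pos _ _) (wq_pos _ _)
  have h1 := quarter_min_le h o₁ o₂ n₁ n₂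
  have h2 : p' = p / (wq h o₁ * wq h o₂) * (wq h n₁ * wq h n₂) := by
    rw [div_mul_eq_mul_div, ← hq, mul_div_cancel_right₀ _ b.ne']
  have h3 : p = p / (wq h o₁ * wq h o₂) * (wq h o₁ * wq h o₂) := (div_mul_cancel₀ p b.ne').symm
  have h4 : 0 < p / (wq h o₁ * wq h o₂) := div_pos hp b
  have h5 : min p p' = p / (wq h o₁ * wq h o₂) *
      min (wq h o₁ * wq h o₂) (wq h n₁ * wq h n₂) := by
    rw [mul_min_of_nonneg _ _ h4.le, ← h3, ← h2]
  rw [h5]
  calc _ = p / (wq h o₁ * wq h o₂) *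
        (1 / 4 * min (wq h o₁ * wq h o₂) (wq h n₁ * wq h n₂)) := by ring
    _ ≤ p / (wq h o₁ * wq h o₂) * (wq h o₁ * wq h o₂ * accP h o₁ o₂ n₁ n₂) :=
        mul_le_mul_of_nonneg_left h1 h4.le
    _ = _ := by rw [← mul_assoc, ← h3]

/-- Detailed balance for two probabilities with the quotient of the weights. -/
theorem mu_accP (h o₁ o₂ n₁ n₂ : ℕ) {p p' : ℝ}
    (hq : p' * (wq h o₁ * wq h o₂) = p * (wq h n₁ * wq h n₂)) :
    p * accP h o₁ o₂ n₁ n₂ = p' * accP h n₁ n₂ o₁ o₂ := by
  have b : 0 < wq h o₁ * wq h o₂ := mul_pos (wq_pos _ _) (wq_pos _ _)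
  have h1 := wq_accP h o₁ o₂ n₁ n₂
  have h2 : wq h o₁ * wq h o₂ * (p * accP h o₁ o₂ n₁ n₂) =
      wq h o₁ * wq h o₂ * (p' * accP h n₁ n₂ o₁ o₂) := by
    calc _ = p * (wq h o₁ * wq h o₂ * accP h o₁ o₂ n₁ n₂) := by ring
      _ = p * (wq h n₁ * wq h n₂) * accP h n₁ n₂ o₁ o₂ := by rw [h1]; ring
      _ = _ := by rw [← hq]; ring
  exact mul_left_cancel₀ b.ne' h2

end Vale.Agent.P308.PA
end
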