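import Vale.Agent.P308.MathlibUsed
import Vale.Agent.P308.Bd3.B1
import Vale.Agent.P308.Bd3.B2

set_option linter.all false

section

/-!
# P308, polynomial version: numerical bound for the annealing errors
-/

namespace Vale.Agent.P308.PA

open Vale.Agent.P308.Poly

theorem num_t1 {V H s κ k0 η A : ℝ} (hV : 0 < V) (hH : 0 < H) (hs : 0 < s) (hη : 0 < η)
    (hκ0 : 0 ≤ κ) (hκ : κ ≤ k0 / H) (hbH : s * (A * V / η) ≤ H) (hA : 6 * k0 ^ 2 ≤ A) :
    V * H * (s * κ ^ 2) ≤ η / 6 := by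
  have e1 : κ ^ 2 ≤ (k0 / H) ^ 2 := pow_le_pow_left₀ hκ0 hκ 2
  have e2 : V * H * (s * κ ^ 2) ≤ V * H * (s * (k0 / H) ^ 2) := by gcongr
  have e3 : V * H * (s * (k0 / H) ^ 2) = V * s * k0 ^ 2 / H := by field_simp
  rw [e3] at e2
  refine e2.trans ?_
  rw [div_le_iff₀ hH]
  refine le_trans ?_ (mul_le_mul_of_nonneg_left hbH (by positivity : (0 : ℝ) ≤ η / 6))
  have e5 : η / 6 * (s * (A * V / η)) = s * V * (A / 6) := by (clear * - hη hV hs; field_simp)
  rw [e5]
  have e7 : V * s * k0 ^ 2 = s * V * k0 ^ 2 := by ring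
  rw [e7]
  exact mul_le_mul_of_nonneg_left (by linarith only [hA]) (by positivity)

theorem num_t2 {V H κ k0 η A γ g r x : ℝ} (hV : 0 < V) (hH : 0 < H) (hη : 0 < η)
    (hκ : κ ≤ k0 / H) (hx : 0 < x) (hr : x * (A * V / η) ≤ r) (hg : 0 < g)
    (hγ0 : 0 < γ) (hγ : 1 / γ ^ 2 ≤ g) (hk0 : 0 < k0) (hA : 6000 * (k0 * g) ≤ A) :
    V * H * (1000 * x * κ / (γ ^ 2 * r)) ≤ η / 6 := by
  have hA0 : 0 < A := lt_of_lt_of_le (by (clear * - hk0 hg; positivity)) hA
  have hr0 : 0 < r := lt_of_lt_of_le (by positivity) hr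
  have e1 : 1000 * x * κ / (γ ^ 2 * r) = 1000 * x * κ * (1 / γ ^ 2) / r := by
    (clear * - hr0 hγ0 hx; field_simp)
  rw [e1, ← mul_div_assoc, div_le_iff₀ hr0]
  have hγ3 : 0 < 1 / γ ^ 2 := by positivity
  have e2 : V * H * (1000 * x * κ * (1 / γ ^ 2)) ≤ V * H * (1000 * x * (k0 / H) * g) := by
    (clear * - hκ hx hγ hγ0 hk0 hH hV; gcongr)
  have e3 : V * H * (1000 * x * (k0 / H) * g) = x * (V * (1000 * (k0 * g))) := by
    field_simp
  rw [e3] at e2
  refine e2.trans (le_trans ?_ (mul_le_mul_of_nonneg_left hr (by positivity)))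
  have e5 : η / 6 * (x * (A * V / η)) = x * (V * (A / 6)) := by (clear * - hη hV hA0 hx; field_simp)
  rw [e5]
  apply mul_le_mul_of_nonneg_left _ hx.le
  apply mul_le_mul_of_nonneg_left _ hV.le
  linarith only [hA]

/-- The constants. -/
theorem num_consts {n c0 c1 C : ℕ} {γ : ℝ} (hγ : 1 / ((n : ℝ) + 2) ^ c1 ≤ γ)
    (hC : 2 * c1 + 2 * c0 + 17 ≤ C) :
    0 < γ ∧ 1 ≤ ((n : ℝ) + 2) ^ (c0 + 1) ∧ (c0 : ℝ) * n ≤ ((n : ℝ) + 2) ^ (c0 + 1) ∧
      1 ≤ ((n : ℝ) + 2) ^ (2 * c1) ∧ 1 / γ ^ 2 ≤ ((n : ℝ) + 2) ^ (2 * c1) ∧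
      6000 * ((((n : ℝ) + 2) ^ (c0 + 1)) ^ 2 * ((n : ℝ) + 2) ^ (2 * c1)) ≤
        ((n : ℝ) + 2) ^ C := by
  have hn0 : (0 : ℝ) ≤ n := Nat.cast_nonneg n
  set u : ℝ := (n : ℝ) + 2 with hu
  have hu2 : 2 ≤ u := by linarith
  have hu1 : 1 ≤ u := by linarith
  have hu0 : 0 < u := by linarith
  have hγ0 : 0 < γ := lt_of_lt_of_le (by (clear * -; positivity)) hγ
  refine ⟨hγ0, one_le_pow₀ hu1, ?_, one_le_pow₀ hu1, ?_, ?_⟩
  · have hc0 : (c0 : ℝ) ≤ u ^ c0 := by
      calc (c0 : ℝ) ≤ 2 ^ c0 := by exact_mod_cast (Nat.lt_two_pow_self).le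
        _ ≤ u ^ c0 := pow_le_pow_left₀ (by norm_num) hu2 _
    rw [pow_succ]
    exact mul_le_mul hc0 (by linarith only []) hn0 (by (clear * -; positivity))
  · rw [div_le_iff₀ (by positivity)]
    have e1 : 1 ≤ u ^ c1 * γ := by
      rw [div_le_iff₀ (by positivity)] at hγ
      linarith only [hγ]
    calc (1 : ℝ) = 1 ^ 2 := by norm_num
      _ ≤ (u ^ c1 * γ) ^ 2 := pow_le_pow_left₀ (by norm_num) e1 2
      _ = u ^ (2 * c1) * γ ^ 2 := by ring
  · have e1 : (6000 : ℝ) ≤ u ^ 13 := by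
      calc (6000 : ℝ) ≤ 2 ^ 13 := by norm_num
        _ ≤ u ^ 13 := pow_le_pow_left₀ (by norm_num) hu2 _
    calc 6000 * ((u ^ (c0 + 1)) ^ 2 * u ^ (2 * c1)) ≤ u ^ 13 * ((u ^ (c0 + 1)) ^ 2 * u ^ (2 * c1)) :=
          mul_le_mul_of_nonneg_right e1 (by positivity)
      _ = u ^ (2 * c1 + 2 * c0 + 15) := by ring
      _ ≤ u ^ C := pow_le_pow_right₀ hu1 (by omega)

theorem num_core {V H s κ k0 η A γ g τ : ℝ} (hη : 0 < η) (hη1 : η ≤ 1) (hV : 1 ≤ V)
    (hH : 1 ≤ H) (hs : 1 ≤ s) (hκ0 : 0 ≤ κ) (hκ : κ ≤ k0 / H) (hk : 1 ≤ k0) (hg : 1 ≤ g)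
    (hγ0 : 0 < γ) (hγ : 1 / γ ^ 2 ≤ g) (hA : 6000 * (k0 ^ 2 * g) ≤ A)
    (ha : (A * V / η) ^ 2 ≤ s) (hb : s * (A * V / η) ≤ H)
    (hc : s ^ 4 * (A * V / η) ^ 2 ≤ τ) :
    s * κ ^ 2 ≤ 1 ∧ V * H * (s * κ ^ 2 + 1000 * κ / (γ ^ 2 * Real.sqrt s) +
        1000 * s ^ 2 * κ / (γ ^ 2 * Real.sqrt (τ + 1))) ≤ η / 2 := by
  have hV0 : 0 < V := by linarith only [hV]
  have hH0 : 0 < H := by linarith only [hH]
  have hs0 : 0 < s := by linarith only [hs]
  have hk0 : 0 < k0 := by linarith only [hk]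
  have hg0 : 0 < g := by linarith only [hg]
  have hA0 : 0 < A := lt_of_lt_of_le (by positivity) hA
  have hsq : A * V / η ≤ Real.sqrt s := Real.le_sqrt_of_sq_le ha
  have hTq : s ^ 2 * (A * V / η) ≤ Real.sqrt (τ + 1) := by
    apply Real.le_sqrt_of_sq_le
    have e1 : (s ^ 2 * (A * V / η)) ^ 2 = s ^ 4 * (A * V / η) ^ 2 := by ring
    rw [e1]
    linarith only [hc]
  have hkk : k0 ≤ k0 ^ 2 := by nlinarith only [hk]
  have hA6 : 6 * k0 ^ 2 ≤ A := by
    have : k0 ^ 2 * 1 ≤ k0 ^ 2 * g := mul_le_mul_of_nonneg_left hg (by positivity)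
    have : 0 < k0 ^ 2 := by positivity
    (clear V H s κ η γ τ hη hη1 hV hH hs hκ0 hκ hγ0 hγ ha hb hc hV0 hH0 hs0 hk0 hg0 hA0 hsq hTq this; linarith)
  have hA2 : 6000 * (k0 * g) ≤ A := by
    have := mul_le_mul_of_nonneg_right hkk hg0.le
    linarith only [hA, this]
  have t1 := num_t1 hV0 hH0 hs0 hη hκ0 hκ hb hA6
  have t2 := num_t2 (x := 1) (r := Real.sqrt s) hV0 hH0 hη hκ one_pos
    (by rw [one_mul]; exact hsq) hg0 hγ0 hγ hk0 hA2
  have t3 := num_t2 (x := s ^ 2) hV0 hH0 hη hκ (by positivity) hTq hg0 hγ0 hγ hk0 hA2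
  rw [mul_one] at t2
  constructor
  · have e1 : κ ^ 2 ≤ (k0 / H) ^ 2 := pow_le_pow_left₀ hκ0 hκ 2
    have e2 : s * κ ^ 2 ≤ s * (k0 / H) ^ 2 := mul_le_mul_of_nonneg_left e1 hs0.le
    refine e2.trans ?_
    rw [div_pow, ← mul_div_assoc, div_le_one (by positivity)]
    have e3 : A ≤ A * V / η := by
      rw [le_div_iff₀ hη]
      have h5 : A * η ≤ A * 1 := mul_le_mul_of_nonneg_left hη1 hA0.le
      have h6 : A * 1 ≤ A * V := mul_le_mul_of_nonneg_left hV hA0.le
      linarith only [h5, h6]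
    have e4 : s * A ≤ H := le_trans (mul_le_mul_of_nonneg_left e3 hs0.le) hb
    have e5 : k0 ^ 2 ≤ A := by
      have : 0 < k0 ^ 2 := by positivity
      linarith only [hk, hkk, hA6]
    have e6 : s * k0 ^ 2 ≤ H := le_trans (mul_le_mul_of_nonneg_left e5 hs0.le) e4
    have e7 : H * 1 ≤ H * H := mul_le_mul_of_nonneg_left hH hH0.le
    rw [sq H]
    linarith only [e6, e7]
  · have e8 : V * H * (s * κ ^ 2 + 1000 * κ / (γ ^ 2 * Real.sqrt s) +
        1000 * s ^ 2 * κ / (γ ^ 2 * Real.sqrt (τ + 1))) =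
        V * H * (s * κ ^ 2) + V * H * (1000 * κ / (γ ^ 2 * Real.sqrt s)) +
        V * H * (1000 * s ^ 2 * κ / (γ ^ 2 * Real.sqrt (τ + 1))) := by ring
    rw [e8]
    linarith only [t1, t2, t3]

/-- The sum of the errors of all micro-stages of one population run: `V * 2 ^ h` micro-stages,
density ratio `κ ≤ c0 n / 2 ^ h`, gap `γ ≥ (n + 2) ^ (-c1)`, `2 ^ ρ` replicas, `T` steps per
micro-stage. -/
theorem repErr_sum_le {n V ρ h T c0 c1 C : ℕ} {η γ κ : ℝ} (hη : 0 < η) (hη1 : η ≤ 1)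
    (hV : 1 ≤ V) (hκ0 : 0 ≤ κ) (hκ : κ ≤ (c0 : ℝ) * n / 2 ^ h)
    (hγ : 1 / ((n : ℝ) + 2) ^ c1 ≤ γ) (hC : 2 * c1 + 2 * c0 + 17 ≤ C)
    (ha : (((n : ℝ) + 2) ^ C * V / η) ^ 2 ≤ 2 ^ ρ)
    (hb : ((n : ℝ) + 2) ^ C * 2 ^ ρ * V / η ≤ 2 ^ h)
    (hc : ((2 : ℝ) ^ ρ) ^ 4 * (((n : ℝ) + 2) ^ C * V / η) ^ 2 ≤ T) :
    ((2 ^ ρ : ℕ) : ℝ) * κ ^ 2 ≤ 1 ∧
      ((V * 2 ^ h : ℕ) : ℝ) * repErr (2 ^ ρ) γ κ T ≤ η / 2 := by
  obtain ⟨hγ0, hk, hck, hg, hγ2, hA⟩ := num_consts (n := n) hγ hC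
  have hH0 : (0 : ℝ) < 2 ^ h := by positivity
  have hκ' : κ ≤ ((n : ℝ) + 2) ^ (c0 + 1) / 2 ^ h :=
    hκ.trans (div_le_div_of_nonneg_right hck hH0.le)
  have hb' : (2 : ℝ) ^ ρ * (((n : ℝ) + 2) ^ C * V / η) ≤ 2 ^ h := by
    refine le_of_eq_of_le ?_ hb
    ring
  have key := num_core hη hη1 (by exact_mod_cast hV) (one_le_pow₀ (by norm_num))
    (one_le_pow₀ (by norm_num)) hκ0 hκ' hk hg hγ0 hγ2 hA ha hb' hc
  have e0 : ((V * 2 ^ h : ℕ) : ℝ) = V * 2 ^ h := by push_cast; ring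
  have e00 : ((2 ^ ρ : ℕ) : ℝ) = (2 : ℝ) ^ ρ := by push_cast; ring
  rw [e0]
  unfold repErr
  rw [e00]
  exact key

end Vale.Agent.P308.PA
end

section

/-!
# P308, polynomial version: the conditions `SampOK` give the bound of the sampler
-/

namespace Vale.Agent.P308.PA

open Vale.Agent.P308.Poly

/-- The error of the start. -/
theorem start_le {C n : ℕ} {P : Par} {η : ℝ} (hS : SampOK C n P η) (hη : 0 < η) (hC : 2 ≤ C) :
    2 * ((2 ^ P.σ : ℕ) : ℝ) * ((n : ℝ) ^ n * (2 : ℝ) ^ (-(P.X : ℤ))) ≤ η / 2 := by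
  have hX := hS.X
  have h1 : (n : ℝ) ^ n ≤ (2 : ℝ) ^ ((n : ℝ) * Nat.size n) := by
    have h2 : (n : ℝ) ^ n ≤ ((2 : ℝ) ^ Nat.size n) ^ n := by
      refine pow_le_pow_left₀ (Nat.cast_nonneg n) ?_ n
      exact_mod_cast (Nat.lt_size_self n).le
    refine h2.trans (le_of_eq ?_)
    rw [← pow_mul, ← Real.rpow_natCast]
    congr 1
    push_cast
    ring
  have e1 : ((2 ^ P.σ : ℕ) : ℝ) = (2 : ℝ) ^ (P.σ : ℝ) := by
    rw [Real.rpow_natCast]
    push_cast
    rfl
  have e2 : (2 : ℝ) ^ (-(P.X : ℤ)) = (2 : ℝ) ^ (-(P.X : ℝ)) := by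
    rw [Real.rpow_neg (by norm_num), Real.rpow_natCast, zpow_neg, zpow_natCast]
  rw [e1, e2]
  have h3 : 2 * (2 : ℝ) ^ (P.σ : ℝ) * ((n : ℝ) ^ n * (2 : ℝ) ^ (-(P.X : ℝ))) ≤
      2 * (2 : ℝ) ^ (P.σ : ℝ) * ((2 : ℝ) ^ ((n : ℝ) * Nat.size n) * (2 : ℝ) ^ (-(P.X : ℝ))) := by
    gcongr
  refine h3.trans ?_
  have e3 : 2 * (2 : ℝ) ^ (P.σ : ℝ) * ((2 : ℝ) ^ ((n : ℝ) * Nat.size n) *
      (2 : ℝ) ^ (-(P.X : ℝ))) = (2 : ℝ) ^ (1 + (P.σ : ℝ) + ((n : ℝ) * Nat.size n + -(P.X : ℝ))) := by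
    rw [Real.rpow_add (by norm_num), Real.rpow_add (by norm_num), Real.rpow_add (by norm_num),
      Real.rpow_one]
  rw [e3]
  have e4 : η / 2 = (2 : ℝ) ^ (-Real.logb 2 (1 / η) + -1) := by
    rw [Real.rpow_add (by norm_num), Real.rpow_neg (by norm_num), Real.rpow_logb (by norm_num)
      (by norm_num) (by positivity), Real.rpow_neg_one]
    field_simp
  rw [e4]
  apply Real.rpow_le_rpow_of_exponent_le (by norm_num)
  have hC' : (2 : ℝ) ≤ C := by exact_mod_cast hC
  have hh : (0 : ℝ) ≤ P.h := Nat.cast_nonneg _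
  linarith only [hX, hC']

/-- **The numerical part of the analysis of the sampler.** -/
theorem samp_num {C n c0 c1 : ℕ} {P : Par} {η γ κ : ℝ} (hS : SampOK C n P η) (hη : 0 < η)
    (hη1 : η ≤ 1) (hC : 2 * c1 + 2 * c0 + 17 ≤ C) (hκ0 : 0 ≤ κ)
    (hκ : κ ≤ (c0 : ℝ) * n / 2 ^ P.h) (hγ : 1 / ((n : ℝ) + 2) ^ c1 ≤ γ) :
    3 ≤ 2 ^ P.σ ∧ 0 < P.T ∧ ((2 ^ P.σ : ℕ) : ℝ) * κ ^ 2 ≤ 1 ∧
      (n : ℝ) ^ n * (2 : ℝ) ^ (-(P.X : ℤ)) ≤ 1 ∧
      2 * ((2 ^ P.σ : ℕ) : ℝ) * ((n : ℝ) ^ n * (2 : ℝ) ^ (-(P.X : ℤ))) +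
        (P.J : ℝ) * repErr (2 ^ P.σ) γ κ P.T ≤ η := by
  have hV : 1 ≤ P.X + P.D := by
    have := hS.D
    omega
  have hn0 : (0 : ℝ) ≤ n := Nat.cast_nonneg n
  have hV1 : (1 : ℝ) ≤ ((P.X + P.D : ℕ) : ℝ) := by exact_mod_cast hV
  have eV : ((P.X : ℝ) + P.D) = ((P.X + P.D : ℕ) : ℝ) := by push_cast; ring
  have ha := hS.σ
  have hb := hS.h
  have hc := hS.T
  rw [eV] at ha hb hc
  obtain ⟨k1, k2⟩ := repErr_sum_le hη hη1 hV hκ0 hκ hγ hC ha hb hc
  have hst := start_le hS hη (by omega)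
  have hu : (2 : ℝ) ≤ (n : ℝ) + 2 := by linarith only []
  have hQ : (3 : ℝ) ≤ ((n : ℝ) + 2) ^ C * ((P.X + P.D : ℕ) : ℝ) / η := by
    rw [le_div_iff₀ hη]
    have h4 : (3 : ℝ) ≤ ((n : ℝ) + 2) ^ C := by
      calc (3 : ℝ) ≤ 2 ^ 2 := by norm_num
        _ ≤ ((n : ℝ) + 2) ^ 2 := pow_le_pow_left₀ (by norm_num) hu 2
        _ ≤ ((n : ℝ) + 2) ^ C := pow_le_pow_right₀ (by linarith only []) (by (clear * - hC; omega))
    have h5 : (3 : ℝ) * 1 ≤ ((n : ℝ) + 2) ^ C * ((P.X + P.D : ℕ) : ℝ) :=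
      mul_le_mul h4 hV1 (by norm_num) (by (clear * -; positivity))
    nlinarith only [hη1, h5]
  set Q : ℝ := ((n : ℝ) + 2) ^ C * ((P.X + P.D : ℕ) : ℝ) / η with hQd
  have hQ2 : (3 : ℝ) ≤ Q ^ 2 := by nlinarith only [hQ]
  have h2σ : (3 : ℝ) ≤ (2 : ℝ) ^ P.σ := hQ2.trans ha
  refine ⟨?_, ?_, k1, ?_, ?_⟩
  · exact_mod_cast h2σ
  · have h6 : (0 : ℝ) < ((2 : ℝ) ^ P.σ) ^ 4 * Q ^ 2 := by (clear * - hV hη; positivity)
    have h7 : (0 : ℝ) < P.T := lt_of_lt_of_le h6 hc
    exact_mod_cast h7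
  · have h8 : (1 : ℝ) ≤ ((2 ^ P.σ : ℕ) : ℝ) := by
      push_cast
      linarith only [ha, hQ2]
    have h9 : (0 : ℝ) ≤ (n : ℝ) ^ n * (2 : ℝ) ^ (-(P.X : ℤ)) := by (clear * -; positivity)
    nlinarith only [hη1, hst, h8]
  · have e5 : (P.J : ℝ) = (((P.X + P.D) * 2 ^ P.h : ℕ) : ℝ) := rfl
    rw [e5]
    linarith only [k2, hst]

end Vale.Agent.P308.PA
end

section

/-! R1: the product measure on `Fin s → X`, marginalisation, lifts of `U`. -/

set_option linter.unusedSectionVars false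
set_option linter.unusedVariables false

namespace Vale.Agent.P308.Rep

open Finset

variable {X : Type*} [Fintype X] [DecidableEq X] {s : ℕ}

/-- average over one coordinate -/
def avg (μ : X → ℝ) (i : Fin s) (F : (Fin s → X) → ℝ) : (Fin s → X) → ℝ :=
  fun x => ∑ u, μ u * F (Function.update x i u)

theorem mW_update (μ : X → ℝ) (x : Fin s → X) (i : Fin s) (z : X) :
    mW μ (Function.update x i z) * μ (x i) = mW μ x * μ z := by
  unfold mW
  rw [← mul_prod_erase univ (fun k => μ (Function.update x i z k)) (mem_univ i),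
    ← mul_prod_erase univ (fun k => μ (x k)) (mem_univ i)]
  have : ∏ k ∈ univ.erase i, μ (Function.update x i z k) = ∏ k ∈ univ.erase i, μ (x k) :=
    prod_congr rfl fun k hk => by rw [Function.update_of_ne (ne_of_mem_erase hk)]
  rw [this, Function.update_self]
  ring

theorem mW_posProb {μ : X → ℝ} (hμ : PosProb μ) : PosProb (mW μ (s := s)) := by
  refine ⟨fun x => prod_pos fun i _ => hμ.pos _, ?_⟩
  have : ∏ _i : Fin s, ∑ z, μ z = ∑ x : Fin s → X, ∏ i, μ (x i) := by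
    rw [prod_univ_sum]
    simp only [Fintype.piFinset_univ]
  unfold mW
  rw [← this, hμ.sum]
  simp only [prod_const_one]

theorem m2_posProb {μ : X → ℝ} (hμ : PosProb μ) : PosProb (m2 μ) := by
  refine ⟨fun p => mul_pos (hμ.pos _) (hμ.pos _), ?_⟩
  rw [Fintype.sum_prod_type]
  simp only [m2, ← mul_sum, hμ.sum, mul_one]

theorem mean_avg {μ : X → ℝ} (hμ : PosProb μ) (i : Fin s) (F : (Fin s → X) → ℝ) :
    mean (mW μ) (avg μ i F) = mean (mW μ) F := by
  unfold mean avg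
  have e1 : ∑ x, mW μ x * F x = ∑ p : (Fin s → X) × X, mW μ p.1 * μ p.2 * F p.1 := by
    rw [Fintype.sum_prod_type]
    refine sum_congr rfl fun x _ => ?_
    simp only
    have : ∀ z, mW μ x * μ z * F x = μ z * (mW μ x * F x) := fun z => by ring
    simp only [this]
    rw [← sum_mul, hμ.sum, one_mul]
  have e2 : ∑ x, mW μ x * ∑ z, μ z * F (Function.update x i z)
      = ∑ p : (Fin s → X) × X, mW μ p.1 * μ p.2 * F (Function.update p.1 i p.2) := by
    rw [Fintype.sum_prod_type]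
    refine sum_congr rfl fun x _ => ?_
    rw [mul_sum]
    exact sum_congr rfl fun z _ => by ring
  rw [e1, e2]
  let e : (Fin s → X) × X ≃ (Fin s → X) × X :=
    { toFun := fun p => (Function.update p.1 i p.2, p.1 i)
      invFun := fun p => (Function.update p.1 i p.2, p.1 i)
      left_inv := fun p => by simp
      right_inv := fun p => by simp }
  symm
  refine (Equiv.sum_comp e _).symm.trans (sum_congr rfl fun p _ => ?_)
  simp only [e, Equiv.coe_fn_mk]
  rw [mW_update]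

/-- marginalisation over two coordinates -/
theorem mean_upd {μ : X → ℝ} (hμ : PosProb μ) {i j : Fin s} (hij : i ≠ j)
    (F : (Fin s → X) → ℝ) :
    mean (mW μ) F = ∑ x, mW μ x * ∑ p, m2 μ p * F (upd x i j p) := by
  rw [← mean_avg hμ j F, ← mean_avg hμ i (avg μ j F)]
  unfold mean avg m2 upd
  refine sum_congr rfl fun x _ => ?_
  congr 1
  rw [Fintype.sum_prod_type]
  refine sum_congr rfl fun z _ => ?_
  rw [mul_sum]
  exact sum_congr rfl fun w _ => by ring

/-- if `F` has mean zero in the coordinate `i` and `G` does not depend on it -/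
theorem ip_eq_zero_of_avg {μ : X → ℝ} (hμ : PosProb μ) (i : Fin s) (F G : (Fin s → X) → ℝ)
    (hF : ∀ x, avg μ i F x = 0) (hG : ∀ x u, G (Function.update x i u) = G x) :
    ip (mW μ) F G = 0 := by
  have h : ip (mW μ) F G = mean (mW μ) (fun x => F x * G x) := rfl
  rw [h, ← mean_avg hμ i]
  have : ∀ x, avg μ i (fun x => F x * G x) x = 0 := by
    intro x
    have e : avg μ i (fun x => F x * G x) x = avg μ i F x * G x := by
      unfold avg
      rw [sum_mul]
      refine sum_congr rfl fun u _ => ?_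
      show μ u * (F (Function.update x i u) * G (Function.update x i u)) = _
      rw [hG]; ring
    rw [e, hF, zero_mul]
  unfold mean
  simp only [this, mul_zero, sum_const_zero]

/-- functions of one coordinate -/
theorem mean_one {μ : X → ℝ} (hμ : PosProb μ) (i : Fin s) (a : X → ℝ) :
    mean (mW μ) (fun x => a (x i)) = mean μ a := by
  rw [← mean_avg hμ i]
  have : ∀ x : Fin s → X, avg μ i (fun x => a (x i)) x = mean μ a := by
    intro x
    unfold avg mean
    simp only [Function.update_self]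
  unfold mean at this ⊢
  simp only [this]
  rw [← sum_mul, (mW_posProb hμ).sum, one_mul]

theorem mean_two {μ : X → ℝ} (hμ : PosProb μ) {i j : Fin s} (hij : i ≠ j) (b : X × X → ℝ) :
    mean (mW μ) (fun x => b (x i, x j)) = mean (m2 μ) b := by
  rw [mean_upd hμ hij]
  have : ∀ (x : Fin s → X) (p : X × X), b (upd x i j p i, upd x i j p j) = b p := by
    intro x p
    simp [upd, Function.update_of_ne hij]
  simp only [this]
  rw [← sum_mul, (mW_posProb hμ).sum, one_mul]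
  rfl

theorem mean_three {μ : X → ℝ} (hμ : PosProb μ) {i j k : Fin s} (hij : i ≠ j) (hik : i ≠ k)
    (hjk : j ≠ k) (t : X × X × X → ℝ) :
    mean (mW μ) (fun x => t (x i, x j, x k)) = mean (m3 μ) t := by
  rw [← mean_avg hμ i]
  have : ∀ x : Fin s → X, avg μ i (fun x => t (x i, x j, x k)) x
      = (fun x : Fin s → X => (fun p : X × X => ∑ u, μ u * t (u, p.1, p.2)) (x j, x k)) x := by
    intro x
    unfold avg
    simp only [Function.update_self, Function.update_of_ne hij.symm,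
      Function.update_of_ne hik.symm]
  have e : mean (mW μ) (avg μ i (fun x => t (x i, x j, x k)))
      = mean (mW μ) (fun x : Fin s → X =>
        (fun p : X × X => ∑ u, μ u * t (u, p.1, p.2)) (x j, x k)) := by
    congr 1
    funext x
    exact this x
  rw [e, mean_two hμ hjk (fun p : X × X => ∑ u, μ u * t (u, p.1, p.2))]
  unfold mean m2 m3
  simp only [Fintype.sum_prod_type]
  have e2 : ∀ w v, μ w * μ v * ∑ u, μ u * t (u, w, v) = ∑ u, μ u * (μ w * μ v) * t (u, w, v) := by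
    intro w v
    rw [mul_sum]
    exact sum_congr rfl fun z _ => by ring
  simp only [e2]
  calc ∑ w, ∑ v, ∑ z, μ z * (μ w * μ v) * t (z, w, v)
      = ∑ w, ∑ z, ∑ v, μ z * (μ w * μ v) * t (z, w, v) := sum_congr rfl fun w _ => sum_comm
    _ = ∑ z, ∑ w, ∑ v, μ z * (μ w * μ v) * t (z, w, v) := sum_comm

theorem upd_upd (x : Fin s → X) {i j : Fin s} (hij : i ≠ j) (p q : X × X) :
    upd (upd x i j p) i j q = upd x i j q := by
  unfold upd
  funext k
  by_cases hk : k = j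
  · subst hk; simp
  · by_cases hk2 : k = i
    · subst hk2
      simp [Function.update_of_ne hij]
    · simp only [Function.update_of_ne hk, Function.update_of_ne hk2]

theorem lift_upd (U : ((X × X) → ℝ) →ₗ[ℝ] ((X × X) → ℝ)) {i j : Fin s} (hij : i ≠ j)
    (F : (Fin s → X) → ℝ) (x : Fin s → X) (p : X × X) :
    lift U i j F (upd x i j p) = U (fun q => F (upd x i j q)) p := by
  unfold lift
  have e1 : upd x i j p i = p.1 := by simp [upd, Function.update_of_ne hij]
  have e2 : upd x i j p j = p.2 := by simp [upd]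
  rw [e1, e2]
  simp only [upd_upd x hij]

/-- inner product of functions of which both are resampled in the coordinates `i`, `j` -/
theorem ip_upd {μ : X → ℝ} (hμ : PosProb μ) {i j : Fin s} (hij : i ≠ j)
    (F G : (Fin s → X) → ℝ) :
    ip (mW μ) F G = ∑ x, mW μ x *
      ip (m2 μ) (fun p => F (upd x i j p)) (fun p => G (upd x i j p)) :=
  mean_upd hμ hij (fun x => F x * G x)

/-- the lift is selfadjoint -/
theorem lift_sa {μ : X → ℝ} (hμ : PosProb μ) {γ : ℝ}
    {U : ((X × X) → ℝ) →ₗ[ℝ] ((X × X) → ℝ)} (hU : PairOp μ γ U) {i j : Fin s} (hij : i ≠ j)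
    (F G : (Fin s → X) → ℝ) :
    ip (mW μ) (lift U i j F) G = ip (mW μ) F (lift U i j G) := by
  rw [ip_upd hμ hij, ip_upd hμ hij]
  refine sum_congr rfl fun x _ => ?_
  congr 1
  simp only [lift_upd U hij]
  exact hU.sa _ _

theorem lift_contr {μ : X → ℝ} (hμ : PosProb μ) {γ : ℝ}
    {U : ((X × X) → ℝ) →ₗ[ℝ] ((X × X) → ℝ)} (hU : PairOp μ γ U) {i j : Fin s} (hij : i ≠ j)
    (F : (Fin s → X) → ℝ) :
    nsq (mW μ) (lift U i j F) ≤ ip (mW μ) (lift U i j F) F := by
  unfold nsq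
  rw [ip_upd hμ hij, ip_upd hμ hij]
  refine sum_le_sum fun x _ => mul_le_mul_of_nonneg_left ?_ ((mW_posProb hμ).pos x).le
  simp only [lift_upd U hij]
  exact hU.contr _

theorem lift_add (U : ((X × X) → ℝ) →ₗ[ℝ] ((X × X) → ℝ)) (i j : Fin s)
    (F G : (Fin s → X) → ℝ) : lift U i j (F + G) = lift U i j F + lift U i j G := by
  funext x
  unfold lift
  have : (fun p => (F + G) (upd x i j p))
      = (fun p => F (upd x i j p)) + (fun p => G (upd x i j p)) := rfl
  rw [this, map_add]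
  rfl

theorem lift_smul (U : ((X × X) → ℝ) →ₗ[ℝ] ((X × X) → ℝ)) (i j : Fin s) (c : ℝ)
    (F : (Fin s → X) → ℝ) : lift U i j (c • F) = c • lift U i j F := by
  funext x
  unfold lift
  have : (fun p => (c • F) (upd x i j p)) = c • (fun p => F (upd x i j p)) := rfl
  rw [this, map_smul]
  rfl

theorem D_add (U : ((X × X) → ℝ) →ₗ[ℝ] ((X × X) → ℝ)) (F G : (Fin s → X) → ℝ) :
    D U (F + G) = D U F + D U G := by
  funext x
  unfold D
  simp only [lift_add, Pi.add_apply, sum_add_distrib, mul_add]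

theorem D_smul (U : ((X × X) → ℝ) →ₗ[ℝ] ((X × X) → ℝ)) (c : ℝ) (F : (Fin s → X) → ℝ) :
    D U (c • F) = c • D U F := by
  funext x
  unfold D
  simp only [lift_smul, Pi.smul_apply, smul_eq_mul, ← mul_sum]
  ring

theorem lift_const {μ : X → ℝ} {γ : ℝ} {U : ((X × X) → ℝ) →ₗ[ℝ] ((X × X) → ℝ)}
    (hU : PairOp μ γ U) (i j : Fin s) (c : ℝ) : lift U i j (fun _ : Fin s → X => c) = 0 := by
  funext x
  unfold lift
  rw [hU.const c]
  rfl

theorem D_const {μ : X → ℝ} {γ : ℝ} {U : ((X × X) → ℝ) →ₗ[ℝ] ((X × X) → ℝ)}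
    (hU : PairOp μ γ U) (c : ℝ) : D U (fun _ : Fin s → X => c) = 0 := by
  funext x
  unfold D
  simp only [lift_const hU, Pi.zero_apply, sum_const_zero, mul_zero]

theorem ip_comm_R1 {Z : Type*} [Fintype Z] (m : Z → ℝ) (F G : Z → ℝ) : ip m F G = ip m G F :=
  sum_congr rfl fun z _ => by ring

theorem ip_D_left {μ : X → ℝ} (U : ((X × X) → ℝ) →ₗ[ℝ] ((X × X) → ℝ))
    (F G : (Fin s → X) → ℝ) :
    ip (mW μ) (D U F) G = (1 / ((s : ℝ) * (s - 1))) *
      ∑ q ∈ (univ : Finset (Fin s)).offDiag, ip (mW μ) (lift U q.1 q.2 F) G := by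
  unfold ip D
  rw [sum_comm, mul_sum]
  refine sum_congr rfl fun x _ => ?_
  rw [← mul_sum, ← sum_mul]
  ring

theorem D_sa {μ : X → ℝ} (hμ : PosProb μ) {γ : ℝ}
    {U : ((X × X) → ℝ) →ₗ[ℝ] ((X × X) → ℝ)} (hU : PairOp μ γ U) (F G : (Fin s → X) → ℝ) :
    ip (mW μ) (D U F) G = ip (mW μ) F (D U G) := by
  rw [ip_D_left, ip_comm_R1 _ F, ip_D_left]
  congr 1
  refine sum_congr rfl fun q hq => ?_
  have hq' : q.1 ≠ q.2 := (mem_offDiag.mp hq).2.2
  rw [lift_sa hμ hU hq', ip_comm_R1]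

theorem D_contr {μ : X → ℝ} (hμ : PosProb μ) {γ : ℝ}
    {U : ((X × X) → ℝ) →ₗ[ℝ] ((X × X) → ℝ)} (hU : PairOp μ γ U) (hs : 2 ≤ s)
    (F : (Fin s → X) → ℝ) :
    nsq (mW μ) (D U F) ≤ ip (mW μ) (D U F) F := by
  have hs1 : (0 : ℝ) < (s : ℝ) * (s - 1) := by
    have : (2 : ℝ) ≤ s := by exact_mod_cast hs
    nlinarith only [this]
  have hcard : ((univ : Finset (Fin s)).offDiag.card : ℝ) = (s : ℝ) * (s - 1) := by
    rw [offDiag_card, card_univ, Fintype.card_fin]
    have : s ≤ s * s := Nat.le_mul_self s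
    push_cast [Nat.cast_sub this]
    ring
  -- pointwise Cauchy-Schwarz
  have hpt : ∀ x, (D U F x) * (D U F x) ≤ (1 / ((s : ℝ) * (s - 1))) *
      ∑ q ∈ (univ : Finset (Fin s)).offDiag, lift U q.1 q.2 F x * lift U q.1 q.2 F x := by
    intro x
    have h := sq_sum_le_card_mul_sum_sq (s := (univ : Finset (Fin s)).offDiag)
      (f := fun q => lift U q.1 q.2 F x)
    rw [hcard] at h
    unfold D
    have e : (1 / ((s : ℝ) * (s - 1)) * ∑ q ∈ (univ : Finset (Fin s)).offDiag,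
        lift U q.1 q.2 F x) * (1 / ((s : ℝ) * (s - 1)) * ∑ q ∈ (univ : Finset (Fin s)).offDiag,
        lift U q.1 q.2 F x) = (1 / ((s : ℝ) * (s - 1))) ^ 2 *
        (∑ q ∈ (univ : Finset (Fin s)).offDiag, lift U q.1 q.2 F x) ^ 2 := by ring
    rw [e]
    calc (1 / ((s : ℝ) * (s - 1))) ^ 2 *
        (∑ q ∈ (univ : Finset (Fin s)).offDiag, lift U q.1 q.2 F x) ^ 2
        ≤ (1 / ((s : ℝ) * (s - 1))) ^ 2 * (((s : ℝ) * (s - 1)) *
          ∑ q ∈ (univ : Finset (Fin s)).offDiag, lift U q.1 q.2 F x ^ 2) :=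
          mul_le_mul_of_nonneg_left h (sq_nonneg _)
      _ = (1 / ((s : ℝ) * (s - 1))) *
          ∑ q ∈ (univ : Finset (Fin s)).offDiag, lift U q.1 q.2 F x * lift U q.1 q.2 F x := by
          rw [← mul_assoc]
          congr 1
          · field_simp
          · exact sum_congr rfl fun q _ => by ring
  calc nsq (mW μ) (D U F) ≤ ∑ x, mW μ x * ((1 / ((s : ℝ) * (s - 1))) *
      ∑ q ∈ (univ : Finset (Fin s)).offDiag, lift U q.1 q.2 F x * lift U q.1 q.2 F x) :=
        sum_le_sum fun x _ => mul_le_mul_of_nonneg_left (hpt x) ((mW_posProb hμ).pos x).le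
    _ = (1 / ((s : ℝ) * (s - 1))) * ∑ q ∈ (univ : Finset (Fin s)).offDiag,
        nsq (mW μ) (lift U q.1 q.2 F) := by
        unfold nsq ip
        rw [sum_comm, mul_sum]
        refine sum_congr rfl fun x _ => ?_
        rw [← mul_sum]
        ring
    _ ≤ (1 / ((s : ℝ) * (s - 1))) * ∑ q ∈ (univ : Finset (Fin s)).offDiag,
        ip (mW μ) (lift U q.1 q.2 F) F := by
        refine mul_le_mul_of_nonneg_left (sum_le_sum fun q hq => ?_) (by positivity)
        exact lift_contr hμ hU (mem_offDiag.mp hq).2.2 F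
    _ = ip (mW μ) (D U F) F := (ip_D_left U F F).symm

end Vale.Agent.P308.Rep
end

section

/-! R5: abstract decay `(T+1) |D P^T G|^2 ≤ |G|^2`. -/

namespace Vale.Agent.P308.Rep

open Finset

lemma r5_nsq_nonneg {Z : Type*} [Fintype Z] {m : Z → ℝ} (hm : PosProb m) (F : Z → ℝ) :
    0 ≤ nsq m F :=
  sum_nonneg fun z _ => mul_nonneg (hm.pos z).le (mul_self_nonneg _)

lemma r5_nsq_sub {Z : Type*} [Fintype Z] (m : Z → ℝ) (F G : Z → ℝ) :
    nsq m (F - G) = nsq m F - 2 * ip m G F + nsq m G := by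
  simp only [nsq, ip, Pi.sub_apply, mul_sum, ← sum_sub_distrib, ← sum_add_distrib]
  exact sum_congr rfl fun z _ => by ring

/-- weighted Cauchy-Schwarz -/
lemma r5_cs {Z : Type*} [Fintype Z] {m : Z → ℝ} (hm : PosProb m) (F G : Z → ℝ) :
    ip m F G ^ 2 ≤ nsq m F * nsq m G := by
  have h := sum_mul_sq_le_sq_mul_sq univ (fun z => Real.sqrt (m z) * F z)
    (fun z => Real.sqrt (m z) * G z)
  have e : ∀ H K : Z → ℝ, ∑ z, (Real.sqrt (m z) * H z) * (Real.sqrt (m z) * K z) = ip m H K := by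
    intro H K
    refine sum_congr rfl fun z _ => ?_
    have h1 := Real.mul_self_sqrt (hm.pos z).le
    calc (Real.sqrt (m z) * H z) * (Real.sqrt (m z) * K z)
        = (Real.sqrt (m z) * Real.sqrt (m z)) * (H z * K z) := by ring
      _ = m z * (H z * K z) := by rw [h1]
  simp only [sq] at h ⊢
  rw [e, e, e] at h
  exact h

theorem decay {Z : Type*} [Fintype Z] {m : Z → ℝ} (hm : PosProb m)
    (A : (Z → ℝ) →ₗ[ℝ] (Z → ℝ))
    (hsa : ∀ F G, ip m (A F) G = ip m F (A G))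
    (hc : ∀ F, nsq m (A F) ≤ ip m (A F) F) (G : Z → ℝ) (T : ℕ) :
    ((T : ℝ) + 1) * nsq m ((fun F => F - A F)^[T] (A G)) ≤ nsq m G := by
  have h1 : ∀ F, nsq m (A F) ≤ nsq m F - nsq m (F - A F) := by
    intro F
    rw [r5_nsq_sub]
    linarith [hc F]
  have h2 : ∀ F, nsq m (F - A F) ≤ nsq m F := by
    intro F
    linarith only [h1 F, r5_nsq_nonneg hm (A F)]
  have h3 : ∀ (n : ℕ) F, nsq m ((fun F => F - A F)^[n] F) ≤ nsq m F := by
    intro n
    induction n with
    | zero => intro F; exact le_rfl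
    | succ n ih =>
      intro F
      rw [Function.iterate_succ_apply]
      exact (ih _).trans (h2 F)
  induction T generalizing G with
  | zero =>
    simp only [Nat.cast_zero, zero_add, one_mul, Function.iterate_zero, id]
    linarith [h1 G, r5_nsq_nonneg hm (G - A G)]
  | succ n ih =>
    have e : (fun F => F - A F)^[n + 1] (A G) = (fun F => F - A F)^[n] (A (G - A G)) := by
      rw [Function.iterate_succ_apply, map_sub]
    have h4 := ih (G - A G)
    have h5 := h3 (n + 1) (A G)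
    rw [e] at h5 ⊢
    push_cast
    have h6 := h1 G
    linarith only [h4, h5, h6]

/-- `L¹` distance is at most the `L²` norm -/
theorem l1_le {Z : Type*} [Fintype Z] {m : Z → ℝ} (hm : PosProb m) (F : Z → ℝ) :
    ∑ z, |m z * F z| ≤ Real.sqrt (nsq m F) := by
  apply Real.le_sqrt_of_sq_le
  have h := r5_cs hm (fun _ => 1) (fun z => |F z|)
  have h1 : nsq m (fun _ => (1 : ℝ)) = 1 := by
    simp only [nsq, ip, mul_one]
    exact hm.sum
  have h2 : nsq m (fun z => |F z|) = nsq m F := by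
    simp only [nsq, ip, abs_mul_abs_self]
  have h3 : ip m (fun _ => 1) (fun z => |F z|) = ∑ z, |m z * F z| := by
    simp only [ip, one_mul]
    exact sum_congr rfl fun z _ => by rw [abs_mul, abs_of_pos (hm.pos z)]
  rw [h1, h2, h3, one_mul] at h
  exact h

theorem sqrt_nsq_add_le {Z : Type*} [Fintype Z] {m : Z → ℝ} (hm : PosProb m) (F G : Z → ℝ) :
    Real.sqrt (nsq m (fun z => F z + G z)) ≤ Real.sqrt (nsq m F) + Real.sqrt (nsq m G) := by
  have hF := r5_nsq_nonneg hm F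
  have hG := r5_nsq_nonneg hm G
  apply Real.sqrt_le_iff.2
  refine ⟨by (clear * -; positivity), ?_⟩
  have h1 : ip m F G ≤ Real.sqrt (nsq m F) * Real.sqrt (nsq m G) := by
    rw [← Real.sqrt_mul hF]
    exact Real.le_sqrt_of_sq_le (r5_cs hm F G)
  have h2 : nsq m (fun z => F z + G z) = nsq m F + 2 * ip m F G + nsq m G := by
    simp only [nsq, ip, mul_sum, ← sum_add_distrib]
    exact sum_congr rfl fun z _ => by ring
  rw [h2, add_sq, Real.sq_sqrt hF, Real.sq_sqrt hG]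
  linarith only [h1]

end Vale.Agent.P308.Rep
end

section

/-! The Markov kernels behind the operators of the replica theorem: `UQ Q = I - Q` for a lazy
reversible kernel on pairs, and the replica kernel `KP Q` on `Fin s → X` (ordered pair of indices
uniform in `Fin s × Fin s`, nothing happens on the diagonal). -/

set_option linter.unusedSectionVars false

namespace Vale.Agent.P308.Rep

open Finset
open Vale.Agent.P308.Soft

variable {X : Type*} [Fintype X] [DecidableEq X] {s : ℕ}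

/-- `I - Q` -/
def UQ (Q : X × X → X × X → ℝ) : ((X × X) → ℝ) →ₗ[ℝ] ((X × X) → ℝ) where
  toFun f := fun p => f p - ∑ q, Q p q * f q
  map_add' f g := by
    funext p
    simp only [Pi.add_apply, mul_add, sum_add_distrib]
    ring
  map_smul' c f := by
    funext p
    simp only [Pi.smul_apply, smul_eq_mul, RingHom.id_apply, mul_sub, mul_sum]
    congr 1
    exact sum_congr rfl fun q _ => by ring

theorem UQ_apply (Q : X × X → X × X → ℝ) (f : X × X → ℝ) (p : X × X) :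
    UQ Q f p = f p - MC.pull Q f p := rfl

theorem ip_UQ {μ : X → ℝ} (Q : X × X → X × X → ℝ) (f g : X × X → ℝ) :
    ip (m2 μ) (UQ Q f) g
      = ∑ p, m2 μ p * (f p * g p) - ∑ p, m2 μ p * (MC.pull Q f p * g p) := by
  unfold ip
  rw [← sum_sub_distrib]
  exact sum_congr rfl fun p _ => by rw [UQ_apply]; ring

theorem pairOp_UQ {μ : X → ℝ} {Q : X × X → X × X → ℝ} (hQ : MC.Chain (m2 μ) Q)
    (hsw : ∀ p q, Q p.swap q.swap = Q p q) {γ : ℝ}
    (hgap : ∀ f : X → ℝ, mean μ f = 0 → 2 * γ * nsq μ f ≤ MC.dir (m2 μ) Q (dbl f)) :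
    PairOp μ γ (UQ Q) where
  sa f g := by
    rw [ip_UQ, ip_comm_R1, ip_UQ]
    have e1 : ∀ f g : X × X → ℝ, ∑ p, m2 μ p * (MC.pull Q f p * g p)
        = ∑ p, ∑ q, (m2 μ p * Q p q) * (f q * g p) := by
      intro f g
      refine sum_congr rfl fun p _ => ?_
      unfold MC.pull
      rw [sum_mul, mul_sum]
      exact sum_congr rfl fun q _ => by ring
    rw [e1, e1, sum_comm]
    congr 1
    · exact sum_congr rfl fun p _ => by ring
    · refine sum_congr rfl fun p _ => sum_congr rfl fun q _ => ?_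
      rw [hQ.rev]
      ring
  contr f := by
    have h := MC.lazy_le hQ f
    have e : nsq (m2 μ) (UQ Q f) = ∑ p, m2 μ p * (f p * f p)
        - 2 * ∑ p, m2 μ p * (f p * MC.pull Q f p) + ∑ p, m2 μ p * (MC.pull Q f p) ^ 2 := by
      unfold nsq ip
      rw [mul_sum, ← sum_sub_distrib, ← sum_add_distrib]
      exact sum_congr rfl fun p _ => by rw [UQ_apply]; ring
    have e2 : ∑ p, m2 μ p * (MC.pull Q f p * f p) = ∑ p, m2 μ p * (f p * MC.pull Q f p) :=
      sum_congr rfl fun p _ => by ring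
    rw [e, ip_UQ, e2]
    linarith only [h]
  const c := by
    funext p
    rw [UQ_apply]
    unfold MC.pull
    rw [← sum_mul, hQ.row, one_mul, sub_self]
    rfl
  swap f p := by
    rw [UQ_apply, UQ_apply]
    unfold MC.pull
    congr 1
    rw [← (Equiv.prodComm X X).sum_comp]
    refine sum_congr rfl fun q _ => ?_
    have : Q p (Equiv.prodComm X X q) = Q p.swap q := by
      have := hsw p (Equiv.prodComm X X q)
      rw [← this]
      simp
    rw [this]
    simp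
  gap f hf := by
    refine (hgap f hf).trans (le_of_eq ?_)
    rw [MC.dir_eq hQ, ip_UQ]
    congr 1
    · exact sum_congr rfl fun p _ => by ring
    · exact sum_congr rfl fun p _ => by ring

theorem upd_self (x : Fin s → X) (i j : Fin s) : upd x i j (x i, x j) = x := by
  unfold upd
  simp

/-- the density after `T` steps -/
theorem density_iter {μ : X → ℝ} {P : (Fin s → X) → (Fin s → X) → ℝ}
    (hP : MC.Chain (mW μ) P) (ν : (Fin s → X) → ℝ) (T : ℕ) :
    (fun y => MC.pushIter P T ν y / mW μ y)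
      = (MC.pull P)^[T] (fun x => ν x / mW μ x) := by
  induction T with
  | zero => rfl
  | succ T ih =>
    have : MC.pushIter P (T + 1) ν = MC.push P (MC.pushIter P T ν) := by
      simp only [MC.pushIter, Function.iterate_succ_apply']
    rw [this, MC.push_density hP, ih, Function.iterate_succ_apply']

/-- `L¹` distance after `T` steps -/
theorem l1_pushIter_le_sqrt {μ : X → ℝ} (hμ : PosProb μ) {P : (Fin s → X) → (Fin s → X) → ℝ}
    (hP : MC.Chain (mW μ) P) (ν : (Fin s → X) → ℝ) (T : ℕ) :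
    ∑ x, |MC.pushIter P T ν x - mW μ x|
      ≤ Real.sqrt (nsq (mW μ) (fun x => (MC.pull P)^[T] (fun x => ν x / mW μ x) x - 1)) := by
  refine le_trans (le_of_eq ?_) (l1_le (mW_posProb hμ) _)
  refine sum_congr rfl fun x _ => ?_
  rw [← density_iter hP ν T]
  congr 1
  have := ((mW_posProb hμ (s := s)).pos x).ne'
  field_simp

/-- the density of a product law against another one -/
theorem density_prod {μ μ' h : X → ℝ} (hμ : PosProb μ) (hh : ∀ x, μ' x = μ x * (1 + h x))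
    (x : Fin s → X) : mW μ' x / mW μ x = ∏ i, (1 + h (x i)) := by
  rw [div_eq_iff ((mW_posProb hμ).pos x).ne']
  unfold mW
  rw [← prod_mul_distrib]
  exact prod_congr rfl fun i _ => by rw [hh]; ring

end Vale.Agent.P308.Rep
end

section

/-! R3: norm bounds of `S1`, `S2`, `S3` by orthogonality. -/

namespace Vale.Agent.P308.Rep

open Finset

section family

variable {Z κ : Type*} [Fintype Z]

theorem ip_sum_sum (m : Z → ℝ) (T T' : Finset κ) (F G : κ → Z → ℝ) :
    ip m (fun z => ∑ e ∈ T, F e z) (fun z => ∑ e ∈ T', G e z)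
      = ∑ e ∈ T, ∑ e' ∈ T', ip m (F e) (G e') := by
  unfold ip
  have : ∀ z, m z * ((∑ e ∈ T, F e z) * ∑ e ∈ T', G e z)
      = ∑ e ∈ T, ∑ e' ∈ T', m z * (F e z * G e' z) := by
    intro z
    rw [Finset.sum_mul_sum, Finset.mul_sum]
    exact Finset.sum_congr rfl fun e _ => Finset.mul_sum _ _ _
  simp only [this]
  rw [Finset.sum_comm]
  refine Finset.sum_congr rfl fun e _ => ?_
  rw [Finset.sum_comm]

theorem nsq_nonneg' {m : Z → ℝ} (hm : ∀ z, 0 ≤ m z) (F : Z → ℝ) : 0 ≤ nsq m F :=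
  Finset.sum_nonneg fun z _ => mul_nonneg (hm z) (mul_self_nonneg _)

theorem ip_le_half {m : Z → ℝ} (hm : ∀ z, 0 ≤ m z) (F G : Z → ℝ) :
    ip m F G ≤ (nsq m F + nsq m G) / 2 := by
  unfold nsq ip
  rw [← Finset.sum_add_distrib, Finset.sum_div]
  refine Finset.sum_le_sum fun z _ => ?_
  nlinarith only [mul_nonneg (hm z) (sq_nonneg (F z - G z))]

/-- the family bound -/
theorem nsq_family {m : Z → ℝ} (hm : ∀ z, 0 ≤ m z) (T : Finset κ) (F : κ → Z → ℝ)
    (rel : κ → κ → Prop) [DecidableRel rel] (K : ℕ)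
    (hrel : ∀ e ∈ T, ∀ e' ∈ T, ¬ rel e e' → ip m (F e) (F e') = 0)
    (hsymm : ∀ e ∈ T, ∀ e' ∈ T, rel e e' → rel e' e)
    (hK : ∀ e ∈ T, (T.filter (rel e)).card ≤ K) :
    nsq m (fun z => ∑ e ∈ T, F e z) ≤ K * ∑ e ∈ T, nsq m (F e) := by
  have hnn : ∀ e, 0 ≤ nsq m (F e) := fun e => nsq_nonneg' hm _
  have e2 : ∀ e ∈ T, ∀ e' ∈ T, ip m (F e) (F e')
      ≤ if rel e e' then (nsq m (F e) + nsq m (F e')) / 2 else 0 := by
    intro e he e' he'
    split_ifs with h
    · exact ip_le_half hm _ _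
    · exact le_of_eq (hrel e he e' he' h)
  have e1 : nsq m (fun z => ∑ e ∈ T, F e z) = ∑ e ∈ T, ∑ e' ∈ T, ip m (F e) (F e') := by
    unfold nsq
    exact ip_sum_sum m T T F F
  rw [e1]
  calc ∑ e ∈ T, ∑ e' ∈ T, ip m (F e) (F e')
      ≤ ∑ e ∈ T, ∑ e' ∈ T, (if rel e e' then (nsq m (F e) + nsq m (F e')) / 2 else 0) :=
        Finset.sum_le_sum fun e he => Finset.sum_le_sum fun e' he' => e2 e he e' he'
    _ = (∑ e ∈ T, ∑ e' ∈ T, (if rel e e' then nsq m (F e) else 0)) / 2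
        + (∑ e ∈ T, ∑ e' ∈ T, (if rel e e' then nsq m (F e') else 0)) / 2 := by
        rw [← add_div, ← Finset.sum_add_distrib, Finset.sum_div]
        refine Finset.sum_congr rfl fun e _ => ?_
        rw [← Finset.sum_add_distrib, Finset.sum_div]
        refine Finset.sum_congr rfl fun e' _ => ?_
        split_ifs <;> ring
    _ ≤ (∑ e ∈ T, K * nsq m (F e)) / 2 + (∑ e ∈ T, K * nsq m (F e)) / 2 := by
        have key : ∀ e ∈ T, (∑ e' ∈ T, (if rel e e' then nsq m (F e) else 0))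
            ≤ K * nsq m (F e) := by
          intro e he
          rw [← Finset.sum_filter, Finset.sum_const, nsmul_eq_mul]
          exact mul_le_mul_of_nonneg_right (by exact_mod_cast hK e he) (hnn e)
        have h2 : (∑ e ∈ T, ∑ e' ∈ T, (if rel e e' then nsq m (F e') else 0))
            ≤ ∑ e ∈ T, K * nsq m (F e) := by
          rw [Finset.sum_comm]
          refine Finset.sum_le_sum fun e' he' => le_trans ?_ (key e' he')
          refine Finset.sum_le_sum fun e he => ?_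
          by_cases h : rel e e'
          · rw [if_pos h, if_pos (hsymm e he e' he' h)]
          · rw [if_neg h]
            split_ifs
            · exact hnn e'
            · exact le_rfl
        have h1' := Finset.sum_le_sum key
        linarith only [h2, h1']
    _ = K * ∑ e ∈ T, nsq m (F e) := by
        rw [← Finset.mul_sum]
        ring

end family

variable {X : Type*} [Fintype X] [DecidableEq X] {s : ℕ}

omit [DecidableEq X] in
theorem mW_nonneg {μ : X → ℝ} (hμ : PosProb μ) (x : Fin s → X) : 0 ≤ mW μ x :=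
  Finset.prod_nonneg fun _ _ => (hμ.pos _).le

theorem ip_one_one {μ : X → ℝ} (hμ : PosProb μ) (a : X → ℝ) (ha : mean μ a = 0) {i j : Fin s}
    (hij : i ≠ j) : ip (mW μ) (fun x : Fin s → X => a (x i)) (fun x => a (x j)) = 0 := by
  refine ip_eq_zero_of_avg hμ i _ _ (fun x => ?_) (fun x u => ?_)
  · show ∑ u, μ u * a (Function.update x i u i) = 0
    simp only [Function.update_self]
    exact ha
  · show a (Function.update x i u j) = a (x j)
    rw [Function.update_of_ne hij.symm]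

theorem nsq_one {μ : X → ℝ} (hμ : PosProb μ) (a : X → ℝ) (i : Fin s) :
    nsq (mW μ) (fun x : Fin s → X => a (x i)) = nsq μ a :=
  mean_one hμ i (fun u => a u * a u)

theorem nsq_S1 {μ : X → ℝ} (hμ : PosProb μ) (a : X → ℝ) (ha : mean μ a = 0) :
    nsq (mW μ) (S1 a : (Fin s → X) → ℝ) = s * nsq μ a := by
  have : nsq (mW μ) (S1 a : (Fin s → X) → ℝ)
      = ∑ i : Fin s, ∑ j : Fin s, ip (mW μ) (fun x : Fin s → X => a (x i)) (fun x => a (x j)) :=
    ip_sum_sum (mW μ) univ univ (fun i (x : Fin s → X) => a (x i)) (fun i x => a (x i))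
  rw [this]
  have h : ∀ i : Fin s, ∑ j : Fin s, ip (mW μ) (fun x : Fin s → X => a (x i)) (fun x => a (x j))
      = nsq μ a := by
    intro i
    rw [Finset.sum_eq_single i (fun j _ hj => ip_one_one hμ a ha hj.symm)
      (fun h => absurd (mem_univ i) h)]
    exact nsq_one hμ a i
  simp only [h, Finset.sum_const, Finset.card_univ, Fintype.card_fin, nsmul_eq_mul]

theorem nsq_S2_le {μ : X → ℝ} (hμ : PosProb μ) (c : X × X → ℝ) (hc : mean (m2 μ) c = 0) :
    nsq (mW μ) (S2 c : (Fin s → X) → ℝ) ≤ 4 * (s : ℝ) ^ 3 * nsq (m2 μ) c := by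
  classical
  have h := nsq_family (m := mW μ) (mW_nonneg hμ) ((univ : Finset (Fin s)).offDiag)
    (fun q (x : Fin s → X) => c (x q.1, x q.2))
    (fun e e' => e.1 = e'.1 ∨ e.1 = e'.2 ∨ e.2 = e'.1 ∨ e.2 = e'.2) (4 * s)
    (by
      rintro ⟨i, j⟩ he ⟨k, l⟩ he' hn
      have hij : i ≠ j := (Finset.mem_offDiag.1 he).2.2
      push Not at hn
      obtain ⟨h1, h2, h3, h4⟩ := hn
      have := mean_upd hμ hij (fun x : Fin s → X => c (x i, x j) * c (x k, x l))
      have e0 : ip (mW μ) (fun x : Fin s → X => c (x i, x j)) (fun x => c (x k, x l))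
          = mean (mW μ) (fun x : Fin s → X => c (x i, x j) * c (x k, x l)) := rfl
      show ip (mW μ) (fun x : Fin s → X => c (x i, x j)) (fun x => c (x k, x l)) = 0
      rw [e0, this]
      refine Finset.sum_eq_zero fun x _ => ?_
      have e1 : ∑ p, m2 μ p * (c (upd x i j p i, upd x i j p j) * c (upd x i j p k, upd x i j p l))
          = (∑ p, m2 μ p * c p) * c (x k, x l) := by
        rw [Finset.sum_mul]
        refine Finset.sum_congr rfl fun p _ => ?_
        have a1 : upd x i j p i = p.1 := by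
          unfold upd
          rw [Function.update_of_ne hij, Function.update_self]
        have a2 : upd x i j p j = p.2 := by
          unfold upd
          rw [Function.update_self]
        have a3 : upd x i j p k = x k := by
          unfold upd
          rw [Function.update_of_ne (Ne.symm h3), Function.update_of_ne (Ne.symm h1)]
        have a4 : upd x i j p l = x l := by
          unfold upd
          rw [Function.update_of_ne (Ne.symm h4), Function.update_of_ne (Ne.symm h2)]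
        rw [a1, a2, a3, a4]
        ring
      have hc' : ∑ p, m2 μ p * c p = 0 := hc
      rw [e1, hc', zero_mul, mul_zero])
    (by
      rintro ⟨i, j⟩ _ ⟨k, l⟩ _ hr
      rcases hr with h | h | h | h
      · exact Or.inl h.symm
      · exact Or.inr (Or.inr (Or.inl h.symm))
      · exact Or.inr (Or.inl h.symm)
      · exact Or.inr (Or.inr (Or.inr h.symm)))
    (by
      rintro ⟨i, j⟩ _
      have hsub : ((univ : Finset (Fin s)).offDiag.filter
          (fun e' : Fin s × Fin s => i = e'.1 ∨ i = e'.2 ∨ j = e'.1 ∨ j = e'.2))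
          ⊆ (({i} : Finset (Fin s)) ×ˢ univ) ∪ (univ ×ˢ ({i} : Finset (Fin s)))
            ∪ ((({j} : Finset (Fin s)) ×ˢ univ) ∪ (univ ×ˢ ({j} : Finset (Fin s)))) := by
        rintro ⟨k, l⟩ hkl
        have := (Finset.mem_filter.1 hkl).2
        simp only [mem_union, mem_product, mem_singleton, mem_univ, and_true, true_and]
        rcases this with h | h | h | h
        · exact Or.inl (Or.inl h.symm)
        · exact Or.inl (Or.inr h.symm)
        · exact Or.inr (Or.inl h.symm)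
        · exact Or.inr (Or.inr h.symm)
      refine (Finset.card_le_card hsub).trans ?_
      refine (Finset.card_union_le _ _).trans ?_
      have b1 := Finset.card_union_le (({i} : Finset (Fin s)) ×ˢ (univ : Finset (Fin s)))
        ((univ : Finset (Fin s)) ×ˢ ({i} : Finset (Fin s)))
      have b2 := Finset.card_union_le (({j} : Finset (Fin s)) ×ˢ (univ : Finset (Fin s)))
        ((univ : Finset (Fin s)) ×ˢ ({j} : Finset (Fin s)))
      simp only [Finset.card_product, Finset.card_singleton, Finset.card_univ, Fintype.card_fin,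
        one_mul, mul_one] at b1 b2
      omega)
  have hsum : ∑ e ∈ (univ : Finset (Fin s)).offDiag,
      nsq (mW μ) (fun x : Fin s → X => c (x e.1, x e.2)) ≤ (s : ℝ) ^ 2 * nsq (m2 μ) c := by
    have h1 : ∀ e ∈ (univ : Finset (Fin s)).offDiag,
        nsq (mW μ) (fun x : Fin s → X => c (x e.1, x e.2)) = nsq (m2 μ) c := by
      rintro ⟨i, j⟩ he
      exact mean_two hμ (Finset.mem_offDiag.1 he).2.2 (fun p => c p * c p)
    rw [Finset.sum_congr rfl h1, Finset.sum_const, nsmul_eq_mul]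
    refine mul_le_mul_of_nonneg_right ?_ (nsq_nonneg' (fun p =>
      mul_nonneg (hμ.pos _).le (hμ.pos _).le) _)
    rw [Finset.offDiag_card, Finset.card_univ, Fintype.card_fin]
    have : s * s - s ≤ s ^ 2 := by
      rw [sq]
      exact Nat.sub_le _ _
    exact_mod_cast this
  have h' : nsq (mW μ) (S2 c : (Fin s → X) → ℝ) ≤ ((4 * s : ℕ) : ℝ) *
      ∑ e ∈ (univ : Finset (Fin s)).offDiag,
        nsq (mW μ) (fun x : Fin s → X => c (x e.1, x e.2)) := h
  refine h'.trans ?_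
  have : ((4 * s : ℕ) : ℝ) * ∑ e ∈ (univ : Finset (Fin s)).offDiag,
      nsq (mW μ) (fun x : Fin s → X => c (x e.1, x e.2))
      ≤ ((4 * s : ℕ) : ℝ) * ((s : ℝ) ^ 2 * nsq (m2 μ) c) :=
    mul_le_mul_of_nonneg_left hsum (Nat.cast_nonneg _)
  refine this.trans (le_of_eq ?_)
  push_cast
  ring

theorem ip_comm' {Z : Type*} [Fintype Z] (m : Z → ℝ) (F G : Z → ℝ) : ip m F G = ip m G F := by
  unfold ip
  exact Finset.sum_congr rfl fun z _ => by ring

/-- cross terms of three-body functions -/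
theorem ip_three_eq_zero {μ : X → ℝ} (hμ : PosProb μ) (t : X × X × X → ℝ) (ht : Deg3 μ t)
    {i j k i' j' k' : Fin s} (hij : i ≠ j) (hik : i ≠ k) (hjk : j ≠ k)
    (h : ¬ ((i = i' ∨ i = j' ∨ i = k') ∧ (j = i' ∨ j = j' ∨ j = k') ∧
      (k = i' ∨ k = j' ∨ k = k'))) :
    ip (mW μ) (fun x : Fin s → X => t (x i, x j, x k)) (fun x => t (x i', x j', x k')) = 0 := by
  have hcases : (i ≠ i' ∧ i ≠ j' ∧ i ≠ k') ∨ (j ≠ i' ∧ j ≠ j' ∧ j ≠ k') ∨
      (k ≠ i' ∧ k ≠ j' ∧ k ≠ k') := by tauto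
  obtain ⟨t1, t2, t3⟩ := ht
  rcases hcases with ⟨h1, h2, h3⟩ | ⟨h1, h2, h3⟩ | ⟨h1, h2, h3⟩
  · refine ip_eq_zero_of_avg hμ i _ _ (fun x => ?_) (fun x u => ?_)
    · show ∑ u, μ u * t (Function.update x i u i, Function.update x i u j,
        Function.update x i u k) = 0
      simp only [Function.update_self, Function.update_of_ne hij.symm,
        Function.update_of_ne hik.symm]
      exact t1 _ _
    · show t (Function.update x i u i', Function.update x i u j', Function.update x i u k') = _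
      rw [Function.update_of_ne h1.symm, Function.update_of_ne h2.symm,
        Function.update_of_ne h3.symm]
  · refine ip_eq_zero_of_avg hμ j _ _ (fun x => ?_) (fun x u => ?_)
    · show ∑ u, μ u * t (Function.update x j u i, Function.update x j u j,
        Function.update x j u k) = 0
      simp only [Function.update_self, Function.update_of_ne hij,
        Function.update_of_ne hjk.symm]
      exact t2 _ _
    · show t (Function.update x j u i', Function.update x j u j', Function.update x j u k') = _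
      rw [Function.update_of_ne h1.symm, Function.update_of_ne h2.symm,
        Function.update_of_ne h3.symm]
  · refine ip_eq_zero_of_avg hμ k _ _ (fun x => ?_) (fun x u => ?_)
    · show ∑ u, μ u * t (Function.update x k u i, Function.update x k u j,
        Function.update x k u k) = 0
      simp only [Function.update_self, Function.update_of_ne hik,
        Function.update_of_ne hjk]
      exact t3 _ _
    · show t (Function.update x k u i', Function.update x k u j', Function.update x k u k') = _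
      rw [Function.update_of_ne h1.symm, Function.update_of_ne h2.symm,
        Function.update_of_ne h3.symm]

theorem nsq_S3_le {μ : X → ℝ} (hμ : PosProb μ) (t : X × X × X → ℝ) (ht : Deg3 μ t) :
    nsq (mW μ) (S3 t : (Fin s → X) → ℝ) ≤ 27 * (s : ℝ) ^ 3 * nsq (m3 μ) t := by
  classical
  let sub : (Fin s × Fin s × Fin s) → (Fin s × Fin s × Fin s) → Prop := fun e e' =>
    (e.1 = e'.1 ∨ e.1 = e'.2.1 ∨ e.1 = e'.2.2) ∧ (e.2.1 = e'.1 ∨ e.2.1 = e'.2.1 ∨ e.2.1 = e'.2.2) ∧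
      (e.2.2 = e'.1 ∨ e.2.2 = e'.2.1 ∨ e.2.2 = e'.2.2)
  have h := nsq_family (m := mW μ) (mW_nonneg hμ) (trip s)
    (fun q (x : Fin s → X) => t (x q.1, x q.2.1, x q.2.2))
    (fun e e' => sub e e' ∧ sub e' e) 27
    (by
      rintro ⟨i, j, k⟩ he ⟨i', j', k'⟩ he' hn
      obtain ⟨hij, hik, hjk⟩ := (Finset.mem_filter.1 he).2
      obtain ⟨hij', hik', hjk'⟩ := (Finset.mem_filter.1 he').2
      by_cases hs : sub (i, j, k) (i', j', k')
      · have hs' : ¬ sub (i', j', k') (i, j, k) := fun h => hn ⟨hs, h⟩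
        have := ip_three_eq_zero (s := s) hμ t ht (i := i') (j := j') (k := k')
          (i' := i) (j' := j) (k' := k) hij' hik' hjk' hs'
        rw [ip_comm'] at this
        exact this
      · exact ip_three_eq_zero (s := s) hμ t ht (i := i) (j := j) (k := k)
          (i' := i') (j' := j') (k' := k') hij hik hjk hs)
    (fun e _ e' _ h => ⟨h.2, h.1⟩)
    (by
      rintro ⟨i, j, k⟩ _
      have hsub : ((trip s).filter (fun e' => sub (i, j, k) e' ∧ sub e' (i, j, k)))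
          ⊆ (({i, j, k} : Finset (Fin s)) ×ˢ (({i, j, k} : Finset (Fin s)) ×ˢ
            ({i, j, k} : Finset (Fin s)))) := by
        rintro ⟨i', j', k'⟩ hh
        obtain ⟨a1, a2, a3⟩ := (Finset.mem_filter.1 hh).2.2
        simp only [Finset.mem_product, Finset.mem_insert, Finset.mem_singleton]
        exact ⟨a1, a2, a3⟩
      refine (Finset.card_le_card hsub).trans ?_
      rw [Finset.card_product, Finset.card_product]
      have h3 : ({i, j, k} : Finset (Fin s)).card ≤ 3 := Finset.card_le_three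
      calc _ ≤ 3 * (3 * 3) := Nat.mul_le_mul h3 (Nat.mul_le_mul h3 h3)
        _ = 27 := by norm_num)
  have hsum : ∑ e ∈ trip s, nsq (mW μ) (fun x : Fin s → X => t (x e.1, x e.2.1, x e.2.2))
      ≤ (s : ℝ) ^ 3 * nsq (m3 μ) t := by
    have h1 : ∀ e ∈ trip s,
        nsq (mW μ) (fun x : Fin s → X => t (x e.1, x e.2.1, x e.2.2)) = nsq (m3 μ) t := by
      rintro ⟨i, j, k⟩ he
      obtain ⟨hij, hik, hjk⟩ := (Finset.mem_filter.1 he).2
      exact mean_three hμ hij hik hjk (fun p => t p * t p)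
    rw [Finset.sum_congr rfl h1, Finset.sum_const, nsmul_eq_mul]
    refine mul_le_mul_of_nonneg_right ?_ (nsq_nonneg' (fun p =>
      mul_nonneg (hμ.pos _).le (mul_nonneg (hμ.pos _).le (hμ.pos _).le)) _)
    have : (trip s).card ≤ s ^ 3 := by
      refine (Finset.card_filter_le _ _).trans ?_
      rw [Finset.card_univ, Fintype.card_prod, Fintype.card_prod, Fintype.card_fin]
      exact le_of_eq (by ring)
    exact_mod_cast this
  have h' : nsq (mW μ) (S3 t : (Fin s → X) → ℝ) ≤ ((27 : ℕ) : ℝ) *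
      ∑ e ∈ trip s, nsq (mW μ) (fun x : Fin s → X => t (x e.1, x e.2.1, x e.2.2)) := h
  refine h'.trans ?_
  push_cast
  linarith

omit [DecidableEq X] in
/-- expectation of a product of one-coordinate functions -/
theorem mean_prod {μ : X → ℝ} (g : Fin s → X → ℝ) :
    mean (mW μ) (fun x : Fin s → X => ∏ i, g i (x i)) = ∏ i, mean μ (g i) := by
  unfold mean mW
  have h := Finset.prod_univ_sum (fun _ : Fin s => (univ : Finset X)) (fun i a => μ a * g i a)
  simp only [Fintype.piFinset_univ] at h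
  rw [h]
  exact Finset.sum_congr rfl fun x _ => Finset.prod_mul_distrib.symm

/-- the product density -/
theorem nsq_prod {μ : X → ℝ} (hμ : PosProb μ) (h : X → ℝ) (hh : mean μ h = 0) :
    nsq (mW μ) (fun x : Fin s → X => ∏ i, (1 + h (x i)) - 1 - S1 h x) =
      (1 + nsq μ h) ^ s - 1 - s * nsq μ h := by
  have hmm : mean μ (fun x => 1 + h x) = 1 := by
    unfold mean at hh ⊢
    simp only [mul_add, mul_one, sum_add_distrib, hμ.sum, hh, add_zero]
  have hm2 : mean μ (fun x => (1 + h x) * (1 + h x)) = 1 + nsq μ h := by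
    unfold mean at hh ⊢
    unfold nsq ip
    have : ∀ x, μ x * ((1 + h x) * (1 + h x)) = μ x + 2 * (μ x * h x) + μ x * (h x * h x) := by
      intro x; ring
    simp only [this, Finset.sum_add_distrib, ← Finset.mul_sum, hh, hμ.sum, mul_zero, add_zero]
  have hm3 : mean μ (fun x => (1 + h x) * h x) = nsq μ h := by
    unfold mean at hh ⊢
    unfold nsq ip
    have : ∀ x, μ x * ((1 + h x) * h x) = μ x * h x + μ x * (h x * h x) := by
      intro x; ring
    simp only [this, Finset.sum_add_distrib, hh, zero_add]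
  -- E Π² 
  have p1 : mean (mW μ) (fun x : Fin s → X => (∏ i, (1 + h (x i))) * ∏ i, (1 + h (x i)))
      = (1 + nsq μ h) ^ s := by
    have : (fun x : Fin s → X => (∏ i, (1 + h (x i))) * ∏ i, (1 + h (x i)))
        = fun x => ∏ i, (fun (_ : Fin s) (u : X) => (1 + h u) * (1 + h u)) i (x i) := by
      funext x
      rw [← Finset.prod_mul_distrib]
    rw [this]
    refine (mean_prod (μ := μ) (fun (_ : Fin s) (u : X) => (1 + h u) * (1 + h u))).trans ?_
    simp only [hm2, Finset.prod_const, Finset.card_univ, Fintype.card_fin]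
  -- E Π
  have p2 : mean (mW μ) (fun x : Fin s → X => ∏ i, (1 + h (x i))) = 1 := by
    rw [mean_prod (μ := μ) (fun _ u => 1 + h u)]
    simp only [hmm, Finset.prod_const_one]
  -- E Π S1
  have p3 : mean (mW μ) (fun x : Fin s → X => (∏ i, (1 + h (x i))) * S1 h x)
      = s * nsq μ h := by
    have e1 : (fun x : Fin s → X => (∏ i, (1 + h (x i))) * S1 h x)
        = fun x => ∑ j, (∏ i, (1 + h (x i))) * h (x j) := by
      funext x
      unfold S1
      rw [Finset.mul_sum]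
    have e2 : mean (mW μ) (fun x : Fin s → X => ∑ j, (∏ i, (1 + h (x i))) * h (x j))
        = ∑ j : Fin s, mean (mW μ) (fun x : Fin s → X => (∏ i, (1 + h (x i))) * h (x j)) := by
      unfold mean
      simp only [Finset.mul_sum]
      rw [Finset.sum_comm]
    have e3 : ∀ j : Fin s,
        mean (mW μ) (fun x : Fin s → X => (∏ i, (1 + h (x i))) * h (x j)) = nsq μ h := by
      intro j
      have : (fun x : Fin s → X => (∏ i, (1 + h (x i))) * h (x j))
          = fun x => ∏ i, (fun (i : Fin s) (u : X) =>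
            if i = j then (1 + h u) * h u else (1 + h u)) i (x i) := by
        funext x
        rw [← Finset.mul_prod_erase univ (fun i => 1 + h (x i)) (mem_univ j),
          ← Finset.mul_prod_erase univ (fun i => (fun (i : Fin s) (u : X) =>
            if i = j then (1 + h u) * h u else (1 + h u)) i (x i)) (mem_univ j)]
        have : ∏ i ∈ univ.erase j, (if i = j then (1 + h (x i)) * h (x i) else (1 + h (x i)))
            = ∏ i ∈ univ.erase j, (1 + h (x i)) :=
          Finset.prod_congr rfl fun i hi => if_neg (Finset.ne_of_mem_erase hi)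
        simp only [this, if_true]
        ring
      rw [this]
      refine (mean_prod (μ := μ) (fun (i : Fin s) (u : X) =>
            if i = j then (1 + h u) * h u else (1 + h u))).trans ?_
      rw [← Finset.mul_prod_erase univ _ (mem_univ j)]
      have h1 : ∏ i ∈ univ.erase j, mean μ ((fun (i : Fin s) (u : X) =>
            if i = j then (1 + h u) * h u else (1 + h u)) i) = 1 := by
        refine Finset.prod_eq_one fun i hi => ?_
        simp only [if_neg (Finset.ne_of_mem_erase hi)]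
        exact hmm
      rw [h1, mul_one]
      simp only [if_true]
      exact hm3
    rw [e1, e2]
    simp only [e3, Finset.sum_const, Finset.card_univ, Fintype.card_fin, nsmul_eq_mul]
  -- E S1 = 0
  have p4 : mean (mW μ) (S1 h : (Fin s → X) → ℝ) = 0 := by
    have e2 : mean (mW μ) (S1 h : (Fin s → X) → ℝ)
        = ∑ j : Fin s, mean (mW μ) (fun x : Fin s → X => h (x j)) := by
      unfold mean S1
      simp only [Finset.mul_sum]
      rw [Finset.sum_comm]
    rw [e2]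
    exact Finset.sum_eq_zero fun j _ => (mean_one hμ j h).trans hh
  have p5 := nsq_S1 (s := s) hμ h hh
  have p6 : ∑ x : Fin s → X, mW μ x = 1 := (mW_posProb hμ).sum
  unfold nsq ip at p5 ⊢
  unfold mean at p1 p2 p3 p4
  have : ∀ x : Fin s → X, mW μ x * ((∏ i, (1 + h (x i)) - 1 - S1 h x) *
      (∏ i, (1 + h (x i)) - 1 - S1 h x))
      = mW μ x * ((∏ i, (1 + h (x i))) * ∏ i, (1 + h (x i)))
        + mW μ x + mW μ x * (S1 h x * S1 h x)
        - 2 * (mW μ x * ∏ i, (1 + h (x i)))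
        - 2 * (mW μ x * ((∏ i, (1 + h (x i))) * S1 h x))
        + 2 * (mW μ x * S1 h x) := by
    intro x
    ring
  simp only [this, Finset.sum_add_distrib, Finset.sum_sub_distrib, ← Finset.mul_sum]
  rw [p1, p2, p3, p4, p5, p6]
  unfold nsq ip
  ring

end Vale.Agent.P308.Rep
end

section

/-! R4: the linearised operator is coercive; Poisson equations. -/

namespace Vale.Agent.P308.Rep

open Finset

variable {X : Type*} [Fintype X] [DecidableEq X]

private theorem r4_m2_nonneg {μ : X → ℝ} (hμ : PosProb μ) (p : X × X) : 0 ≤ m2 μ p :=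
  mul_nonneg (hμ.pos _).le (hμ.pos _).le

private theorem r4_sum2 (μ : X → ℝ) (F : X × X → ℝ) :
    ∑ p, m2 μ p * F p = ∑ x, μ x * ∑ y, μ y * F (x, y) := by
  rw [Fintype.sum_prod_type]
  refine sum_congr rfl fun x _ => ?_
  rw [mul_sum]
  exact sum_congr rfl fun y _ => by rw [m2]; ring

private theorem r4_sum2' (μ : X → ℝ) (F : X × X → ℝ) :
    ∑ p, m2 μ p * F p = ∑ y, μ y * ∑ x, μ x * F (x, y) := by
  rw [Fintype.sum_prod_type_right]
  refine sum_congr rfl fun x _ => ?_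
  rw [mul_sum]
  exact sum_congr rfl fun y _ => by rw [m2]; ring

private theorem r4_sym {μ : X → ℝ} {γ : ℝ}
    {U : ((X × X) → ℝ) →ₗ[ℝ] ((X × X) → ℝ)} (hU : PairOp μ γ U) (a : X → ℝ) (x y : X) :
    U (dbl a) (x, y) = U (dbl a) (y, x) := by
  have h := hU.swap (dbl a) (x, y)
  have h1 : (fun q : X × X => dbl a q.swap) = dbl a := by
    funext q
    simp only [dbl, Prod.fst_swap, Prod.snd_swap]
    ring
  rw [h1] at h
  exact h

theorem nsq_U_le {μ : X → ℝ} (hμ : PosProb μ) {γ : ℝ}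
    {U : ((X × X) → ℝ) →ₗ[ℝ] ((X × X) → ℝ)} (hU : PairOp μ γ U) (f : X × X → ℝ) :
    nsq (m2 μ) (U f) ≤ nsq (m2 μ) f := by
  have h1 := hU.contr f
  have h2 : 0 ≤ ∑ p, m2 μ p * ((U f p - f p) * (U f p - f p)) :=
    sum_nonneg fun p _ => mul_nonneg (r4_m2_nonneg hμ p) (mul_self_nonneg _)
  have h3 : ∑ p, m2 μ p * ((U f p - f p) * (U f p - f p)) =
      nsq (m2 μ) (U f) - 2 * ip (m2 μ) (U f) f + nsq (m2 μ) f := by
    rw [nsq, nsq, ip, ip, ip, mul_sum, ← sum_sub_distrib, ← sum_add_distrib]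
    exact sum_congr rfl fun p _ => by ring
  linarith only [h1, h2, h3]

theorem mean_U {μ : X → ℝ} (hμ : PosProb μ) {γ : ℝ}
    {U : ((X × X) → ℝ) →ₗ[ℝ] ((X × X) → ℝ)} (hU : PairOp μ γ U) (f : X × X → ℝ) :
    mean (m2 μ) (U f) = 0 := by
  have h := hU.sa f (fun _ => 1)
  rw [hU.const 1] at h
  simp only [ip, mul_one, Pi.zero_apply, mul_zero, sum_const_zero] at h
  exact h

private theorem r4_mean_L {μ : X → ℝ} (hμ : PosProb μ) {γ : ℝ}
    {U : ((X × X) → ℝ) →ₗ[ℝ] ((X × X) → ℝ)} (hU : PairOp μ γ U) (a : X → ℝ) :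
    ∑ x, μ x * Lop μ U a x = 0 := by
  have h := mean_U hμ hU (dbl a)
  rw [mean, r4_sum2] at h
  exact h

/-- `R_a` is symmetric and degenerate -/
theorem Rop_sym {μ : X → ℝ} (hμ : PosProb μ) {γ : ℝ}
    {U : ((X × X) → ℝ) →ₗ[ℝ] ((X × X) → ℝ)} (hU : PairOp μ γ U) (a : X → ℝ) :
    Sym (Rop μ U a) := by
  intro x y
  simp only [Rop]
  rw [r4_sym hU a x y]
  ring

theorem Rop_deg {μ : X → ℝ} (hμ : PosProb μ) {γ : ℝ}
    {U : ((X × X) → ℝ) →ₗ[ℝ] ((X × X) → ℝ)} (hU : PairOp μ γ U) (a : X → ℝ) :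
    Deg μ (Rop μ U a) := by
  have h : ∀ x, ∑ y, μ y * Rop μ U a (x, y) = 0 := by
    intro x
    simp only [Rop, mul_sub, sum_sub_distrib]
    rw [r4_mean_L hμ hU, ← sum_mul, hμ.sum, one_mul, sub_zero, Lop, sub_self]
  refine ⟨h, fun y => ?_⟩
  rw [← h y]
  exact sum_congr rfl fun x _ => by rw [Rop_sym hμ hU a x y]

/-- degenerate functions are orthogonal to functions of one variable -/
private theorem r4_orth {μ : X → ℝ} {b : X × X → ℝ} (hb : Deg μ b) (u v : X → ℝ) :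
    ∑ p, m2 μ p * (b p * (u p.1 + v p.2)) = 0 := by
  have h1 : ∑ p, m2 μ p * (b p * u p.1) = 0 := by
    rw [r4_sum2 μ fun p => b p * u p.1]
    refine sum_eq_zero fun x _ => ?_
    have : ∑ y, μ y * (b (x, y) * u x) = (∑ y, μ y * b (x, y)) * u x := by
      rw [sum_mul]
      exact sum_congr rfl fun y _ => by ring
    rw [this, hb.1 x, zero_mul, mul_zero]
  have h2 : ∑ p, m2 μ p * (b p * v p.2) = 0 := by
    rw [r4_sum2' μ fun p => b p * v p.2]
    refine sum_eq_zero fun y _ => ?_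
    have : ∑ x, μ x * (b (x, y) * v y) = (∑ x, μ x * b (x, y)) * v y := by
      rw [sum_mul]
      exact sum_congr rfl fun x _ => by ring
    rw [this, hb.2 y, zero_mul, mul_zero]
  simp only [mul_add, sum_add_distrib]
  rw [h1, h2, add_zero]

private theorem r4_nsq_dbl {μ : X → ℝ} (hμ : PosProb μ) (a : X → ℝ) (ha : mean μ a = 0) :
    nsq (m2 μ) (dbl a) = 2 * nsq μ a := by
  rw [nsq, ip, r4_sum2 μ fun p => dbl a p * dbl a p]
  have h1 : ∀ x, ∑ y, μ y * (dbl a (x, y) * dbl a (x, y)) =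
      a x * a x + 2 * a x * (∑ y, μ y * a y) + ∑ y, μ y * (a y * a y) := by
    intro x
    have e : ∀ y, μ y * (dbl a (x, y) * dbl a (x, y)) =
        μ y * (a x * a x) + 2 * a x * (μ y * a y) + μ y * (a y * a y) := fun y => by
      rw [dbl]; ring
    simp only [e, sum_add_distrib]
    rw [← sum_mul, hμ.sum, one_mul, ← mul_sum]
  have h2 : ∑ y, μ y * a y = 0 := ha
  simp only [h1, h2, mul_zero, add_zero, mul_add, sum_add_distrib]
  rw [← sum_mul, hμ.sum, one_mul, nsq, ip]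
  ring

private theorem r4_nsq_Rop {μ : X → ℝ} (hμ : PosProb μ) {γ : ℝ}
    {U : ((X × X) → ℝ) →ₗ[ℝ] ((X × X) → ℝ)} (hU : PairOp μ γ U) (a : X → ℝ)
    (ha : mean μ a = 0) : nsq (m2 μ) (Rop μ U a) ≤ 2 * nsq μ a := by
  have h1 := nsq_U_le hμ hU (dbl a)
  rw [r4_nsq_dbl hμ a ha] at h1
  have h2 : ip (m2 μ) (Rop μ U a) (U (dbl a)) = nsq (m2 μ) (Rop μ U a) := by
    have h3 := r4_orth (Rop_deg hμ hU a) (Lop μ U a) (Lop μ U a)
    rw [nsq, ip, ip, ← sub_eq_zero, ← sum_sub_distrib, ← h3]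
    refine sum_congr rfl fun p _ => ?_
    have : U (dbl a) p = Rop μ U a p + (Lop μ U a p.1 + Lop μ U a p.2) := by
      rw [Rop]; ring
    rw [this]
    ring
  have h4 : 0 ≤ ∑ p, m2 μ p * ((U (dbl a) p - Rop μ U a p) * (U (dbl a) p - Rop μ U a p)) :=
    sum_nonneg fun p _ => mul_nonneg (r4_m2_nonneg hμ p) (mul_self_nonneg _)
  have h5 : ∑ p, m2 μ p * ((U (dbl a) p - Rop μ U a p) * (U (dbl a) p - Rop μ U a p)) =
      nsq (m2 μ) (U (dbl a)) - 2 * ip (m2 μ) (Rop μ U a) (U (dbl a)) +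
        nsq (m2 μ) (Rop μ U a) := by
    rw [nsq, nsq, ip, ip, ip, mul_sum, ← sum_sub_distrib, ← sum_add_distrib]
    exact sum_congr rfl fun p _ => by ring
  linarith only [h1, h2, h4, h5]

private theorem r4_nsq_nonneg {μ : X → ℝ} (hμ : PosProb μ) (a : X → ℝ) : 0 ≤ nsq μ a :=
  sum_nonneg fun x _ => mul_nonneg (hμ.pos x).le (mul_self_nonneg _)

theorem nsq_Rop {μ : X → ℝ} (hμ : PosProb μ) {γ : ℝ}
    {U : ((X × X) → ℝ) →ₗ[ℝ] ((X × X) → ℝ)} (hU : PairOp μ γ U) (a : X → ℝ)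
    (ha : mean μ a = 0) : nsq (m2 μ) (Rop μ U a) ≤ 18 * nsq μ a := by
  have h1 := r4_nsq_Rop hμ hU a ha
  have h2 := r4_nsq_nonneg hμ a
  linarith only [h1, h2]

/-- the linearised operator as a linear map -/
private def r4_L (μ : X → ℝ) (U : ((X × X) → ℝ) →ₗ[ℝ] ((X × X) → ℝ)) :
    (X → ℝ) →ₗ[ℝ] (X → ℝ) where
  toFun := Lop μ U
  map_add' a b := by
    have h1 : dbl (a + b) = dbl a + dbl b := by
      funext p
      simp only [dbl, Pi.add_apply]
      ring
    funext x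
    simp only [Lop, Pi.add_apply, h1, map_add, mul_add, sum_add_distrib]
  map_smul' c a := by
    have h1 : dbl (c • a) = c • dbl a := by
      funext p
      simp only [dbl, Pi.smul_apply, smul_eq_mul]
      ring
    funext x
    simp only [Lop, Pi.smul_apply, h1, map_smul, smul_eq_mul, RingHom.id_apply, mul_sum]
    exact sum_congr rfl fun y _ => by ring

/-- averages of `R` over a parameter -/
private theorem r4_R_sum (μ : X → ℝ) (U : ((X × X) → ℝ) →ₗ[ℝ] ((X × X) → ℝ))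
    (b : X × X → ℝ) (p : X × X) :
    ∑ z, μ z * Rop μ U (fun u => b (z, u)) p = Rop μ U (fun u => ∑ z, μ z * b (z, u)) p := by
  have h1 : dbl (fun u => ∑ z, μ z * b (z, u)) = ∑ z, μ z • dbl fun u => b (z, u) := by
    funext q
    simp only [dbl, Finset.sum_apply, Pi.smul_apply, smul_eq_mul, mul_add, sum_add_distrib]
  have h2 : ∀ q, U (dbl fun u => ∑ z, μ z * b (z, u)) q =
      ∑ z, μ z * U (dbl fun u => b (z, u)) q := by
    intro q
    rw [h1, map_sum, Finset.sum_apply]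
    simp only [map_smul, Pi.smul_apply, smul_eq_mul]
  have h3 : ∀ x, Lop μ U (fun u => ∑ z, μ z * b (z, u)) x =
      ∑ z, μ z * Lop μ U (fun u => b (z, u)) x := by
    intro x
    simp only [Lop, h2, mul_sum]
    rw [sum_comm]
    exact sum_congr rfl fun z _ => sum_congr rfl fun y _ => by ring
  simp only [Rop, h2, h3, mul_sub, sum_sub_distrib]

theorem RRop_deg {μ : X → ℝ} (hμ : PosProb μ) {γ : ℝ}
    {U : ((X × X) → ℝ) →ₗ[ℝ] ((X × X) → ℝ)} (hU : PairOp μ γ U) (b : X × X → ℝ)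
    (hb : Deg μ b) : Deg3 μ (RRop μ U b) := by
  refine ⟨fun y z => ?_, fun x z => ?_, fun x y => ?_⟩
  · have h1 : (fun u => ∑ z, μ z * b (z, u)) = 0 := funext fun u => hb.2 u
    have h2 : dbl (0 : X → ℝ) = 0 := by
      funext p
      simp [dbl]
    have h3 : ∀ x, Lop μ U 0 x = 0 := fun x => by
      simp only [Lop, h2, map_zero, Pi.zero_apply, mul_zero, sum_const_zero]
    refine (r4_R_sum μ U b (y, z)).trans ?_
    rw [h1, Rop, h3, h3, h2, map_zero, Pi.zero_apply, sub_zero, sub_zero]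
  · exact (Rop_deg hμ hU fun u => b (x, u)).2 z
  · exact (Rop_deg hμ hU fun u => b (x, u)).1 y

private theorem r4_sum3 (μ : X → ℝ) (F : X × X × X → ℝ) :
    ∑ q, m3 μ q * F q = ∑ x, μ x * ∑ p : X × X, m2 μ p * F (x, p) := by
  rw [Fintype.sum_prod_type]
  refine sum_congr rfl fun x _ => ?_
  rw [mul_sum]
  exact sum_congr rfl fun y _ => by rw [m2, m3]; ring

theorem nsq_RRop {μ : X → ℝ} (hμ : PosProb μ) {γ : ℝ}
    {U : ((X × X) → ℝ) →ₗ[ℝ] ((X × X) → ℝ)} (hU : PairOp μ γ U) (b : X × X → ℝ)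
    (hb : Deg μ b) : nsq (m3 μ) (RRop μ U b) ≤ 18 * nsq (m2 μ) b := by
  rw [nsq, nsq, ip, ip, r4_sum3 μ fun q => RRop μ U b q * RRop μ U b q,
    r4_sum2 μ fun p => b p * b p, mul_sum]
  refine sum_le_sum fun x _ => ?_
  have h1 := mul_le_mul_of_nonneg_left (nsq_Rop hμ hU (fun u => b (x, u)) (hb.1 x)) (hμ.pos x).le
  rw [nsq, nsq, ip, ip] at h1
  have h2 : μ x * (18 * ∑ z, μ z * (b (x, z) * b (x, z))) =
      18 * (μ x * ∑ z, μ z * (b (x, z) * b (x, z))) := by ring
  rw [← h2]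
  exact h1

private theorem r4_coer {μ : X → ℝ} {γ : ℝ}
    {U : ((X × X) → ℝ) →ₗ[ℝ] ((X × X) → ℝ)} (hU : PairOp μ γ U) (a : X → ℝ)
    (ha : ∑ x, μ x * a x = 0) :
    γ * ∑ x, μ x * (a x * a x) ≤ ∑ x, μ x * (a x * Lop μ U a x) := by
  have h1 := hU.gap a ha
  have h2 : ip (m2 μ) (U (dbl a)) (dbl a) = 2 * ∑ x, μ x * (a x * Lop μ U a x) := by
    have e1 : ip (m2 μ) (U (dbl a)) (dbl a) =
        ∑ p, m2 μ p * (U (dbl a) p * a p.1) + ∑ p, m2 μ p * (U (dbl a) p * a p.2) := by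
      rw [ip, ← sum_add_distrib]
      exact sum_congr rfl fun p _ => by rw [dbl]; ring
    have e2 : ∑ p, m2 μ p * (U (dbl a) p * a p.1) = ∑ x, μ x * (a x * Lop μ U a x) := by
      rw [r4_sum2 μ fun p => U (dbl a) p * a p.1]
      refine sum_congr rfl fun x _ => congrArg _ ?_
      rw [Lop, mul_sum]
      exact sum_congr rfl fun y _ => by ring
    have e3 : ∑ p, m2 μ p * (U (dbl a) p * a p.2) = ∑ x, μ x * (a x * Lop μ U a x) := by
      rw [r4_sum2' μ fun p => U (dbl a) p * a p.2]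
      refine sum_congr rfl fun x _ => congrArg _ ?_
      rw [Lop, mul_sum]
      exact sum_congr rfl fun y _ => by rw [r4_sym hU a x y]; ring
    rw [e1, e2, e3]
    ring
  rw [h2, nsq, ip] at h1
  linarith only [h1]

/-- the one-body Poisson equation -/
theorem solve1 {μ : X → ℝ} (hμ : PosProb μ) {γ : ℝ} (hγ : 0 < γ)
    {U : ((X × X) → ℝ) →ₗ[ℝ] ((X × X) → ℝ)} (hU : PairOp μ γ U) (h : X → ℝ)
    (hh : mean μ h = 0) :
    ∃ a : X → ℝ, mean μ a = 0 ∧ Lop μ U a = h ∧ γ ^ 2 * nsq μ a ≤ nsq μ h := by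
  obtain ⟨a, h1, h2, h3⟩ := solve_one hμ.pos (r4_L μ U) (fun a _ => r4_mean_L hμ hU a) hγ
    (fun a ha => r4_coer hU a ha) (h := h) hh
  refine ⟨a, h1, h2, ?_⟩
  rw [le_div_iff₀ (by positivity)] at h3
  rw [nsq, nsq, ip, ip]
  linarith only [h3]

/-- the two-body Poisson equation -/
theorem solve2 {μ : X → ℝ} (hμ : PosProb μ) {γ : ℝ} (hγ : 0 < γ)
    {U : ((X × X) → ℝ) →ₗ[ℝ] ((X × X) → ℝ)} (hU : PairOp μ γ U) (r : X × X → ℝ)
    (hr : Sym r) (hd : Deg μ r) :
    ∃ b : X × X → ℝ, Sym b ∧ Deg μ b ∧ Mop μ U b = r ∧ 4 * γ ^ 2 * nsq (m2 μ) b ≤ nsq (m2 μ) r := by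
  obtain ⟨b, h1, h2, h3, h4⟩ := solve_two hμ.pos (r4_L μ U) (fun a _ => r4_mean_L hμ hU a) hγ
    (fun a ha => r4_coer hU a ha) (r := fun x y => r (x, y)) hr hd.1
  refine ⟨fun p => b p.1 p.2, h1, ⟨h2, fun y => ?_⟩, ?_, ?_⟩
  · rw [← h2 y]
    exact sum_congr rfl fun x _ => congrArg _ (h1 x y)
  · funext p
    rw [← h3 p.1 p.2]
    exact add_comm _ _
  · rw [le_div_iff₀ (by positivity)] at h4
    rw [nsq, nsq, ip, ip, r4_sum2 μ fun p => b p.1 p.2 * b p.1 p.2, r4_sum2 μ fun p => r p * r p]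
    linarith only [h4]

end Vale.Agent.P308.Rep
end

section

/-! Theorem 2: the replica chain started from a product density close to the stationary one. -/

namespace Vale.Agent.P308.Rep

open Finset

variable {X : Type*} [Fintype X] [DecidableEq X] {s : ℕ}

section general
variable {Z : Type*} [Fintype Z] {m : Z → ℝ}

theorem nsq_nonneg (hm : PosProb m) (F : Z → ℝ) : 0 ≤ nsq m F := by
  unfold nsq ip
  refine sum_nonneg fun z _ => mul_nonneg (hm.pos z).le (mul_self_nonneg _)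

theorem ip_comm (m : Z → ℝ) (F G : Z → ℝ) : ip m F G = ip m G F := by
  unfold ip
  refine sum_congr rfl fun z _ => ?_
  ring

theorem nsq_smul (m : Z → ℝ) (c : ℝ) (F : Z → ℝ) : nsq m (c • F) = c ^ 2 * nsq m F := by
  unfold nsq ip
  rw [mul_sum]
  refine sum_congr rfl fun z _ => ?_
  simp only [Pi.smul_apply, smul_eq_mul]
  ring

theorem nsq_add_le (hm : PosProb m) (F G : Z → ℝ) :
    nsq m (F + G) ≤ 2 * (nsq m F + nsq m G) := by
  unfold nsq ip
  rw [← sum_add_distrib, mul_sum]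
  refine sum_le_sum fun z _ => ?_
  simp only [Pi.add_apply]
  nlinarith only [mul_nonneg (hm.pos z).le (sq_nonneg (F z - G z))]

theorem nsq_sub_decomp (m : Z → ℝ) (F G : Z → ℝ) :
    nsq m (F - G) = nsq m F - 2 * ip m F G + nsq m G := by
  unfold nsq ip
  rw [mul_sum, ← sum_sub_distrib, ← sum_add_distrib]
  refine sum_congr rfl fun z _ => ?_
  simp only [Pi.sub_apply]
  ring

end general

/-- `D` as a linear map -/
noncomputable def DL (U : ((X × X) → ℝ) →ₗ[ℝ] ((X × X) → ℝ)) :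
    ((Fin s → X) → ℝ) →ₗ[ℝ] ((Fin s → X) → ℝ) where
  toFun := D U
  map_add' := D_add U
  map_smul' := D_smul U

/-- `P = I - D` as a linear map -/
noncomputable def PL (U : ((X × X) → ℝ) →ₗ[ℝ] ((X × X) → ℝ)) :
    ((Fin s → X) → ℝ) →ₗ[ℝ] ((Fin s → X) → ℝ) := LinearMap.id - DL U

theorem PL_apply (U : ((X × X) → ℝ) →ₗ[ℝ] ((X × X) → ℝ)) (F : (Fin s → X) → ℝ) :
    PL U F = F - D U F := rfl

theorem Pop_eq (U : ((X × X) → ℝ) →ₗ[ℝ] ((X × X) → ℝ)) :
    (Pop U : ((Fin s → X) → ℝ) → ((Fin s → X) → ℝ)) = PL U := by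
  funext F x
  rfl

section
variable {μ : X → ℝ} (hμ : PosProb μ) {γ : ℝ} {U : ((X × X) → ℝ) →ₗ[ℝ] ((X × X) → ℝ)}
  (hU : PairOp μ γ U)
include hμ hU

theorem nsq_PL_le (hs : 2 ≤ s) (F : (Fin s → X) → ℝ) :
    nsq (mW μ) (PL U F) ≤ nsq (mW μ) F := by
  rw [PL_apply, nsq_sub_decomp]
  have h := D_contr hμ hU hs F
  have h0 := nsq_nonneg (mW_posProb (s := s) hμ) (D U F)
  rw [ip_comm (mW μ) F (D U F)]
  linarith only [h, h0]

theorem nsq_PLpow_le (hs : 2 ≤ s) (T : ℕ) (F : (Fin s → X) → ℝ) :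
    nsq (mW μ) ((PL U)^[T] F) ≤ nsq (mW μ) F := by
  induction T with
  | zero => exact le_rfl
  | succ n ih =>
    rw [Function.iterate_succ_apply']
    exact (nsq_PL_le hμ hU hs _).trans ih

theorem PLpow_const (T : ℕ) (c : ℝ) : (PL U)^[T] (fun _ : Fin s → X => c) = fun _ => c := by
  induction T with
  | zero => rfl
  | succ n ih =>
    rw [Function.iterate_succ_apply', ih, PL_apply, D_const hU]
    simp

/-- the Poisson equation up to a small error -/
theorem poisson (hγ : 0 < γ) (hγ1 : γ ≤ 1) (hs : 3 ≤ s) (h : X → ℝ) (hh : mean μ h = 0) :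
    ∃ G E : (Fin s → X) → ℝ, S1 h = D U G - E ∧
      nsq (mW μ) G ≤ 21 * s ^ 3 * nsq μ h / γ ^ 4 ∧
      nsq (mW μ) E ≤ 25600 * nsq μ h / (γ ^ 4 * s) := by
  have hs' : (3 : ℝ) ≤ s := by exact_mod_cast hs
  have hs0 : (0 : ℝ) < s := by linarith only [hs']
  have hs2 : (0 : ℝ) < (s : ℝ) - 2 := by linarith only [hs']
  have hs1 : (0 : ℝ) < (s : ℝ) - 1 := by linarith only [hs']
  have hε := nsq_nonneg hμ h
  obtain ⟨a, ha0, hLa, hna⟩ := solve1 hμ hγ hU (((s : ℝ) / 2) • h) (by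
    have : mean μ (((s : ℝ) / 2) • h) = ((s : ℝ) / 2) * mean μ h := by
      unfold mean
      rw [mul_sum]
      refine sum_congr rfl fun x _ => ?_
      simp only [Pi.smul_apply, smul_eq_mul]
      ring
    rw [this, hh, mul_zero])
  rw [nsq_smul] at hna
  obtain ⟨b, hbs, hbd, hMb, hnb⟩ := solve2 hμ hγ hU
    ((-(1 / (2 * ((s : ℝ) - 2)))) • Rop μ U a)
    (fun x y => by
      simp only [Pi.smul_apply]
      rw [Rop_sym hμ hU a x y])
    ⟨fun x => by
      have := (Rop_deg hμ hU a).1 x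
      simp only [Pi.smul_apply, smul_eq_mul]
      have e : ∀ y, μ y * (-(1 / (2 * ((s : ℝ) - 2))) * Rop μ U a (x, y)) =
        -(1 / (2 * ((s : ℝ) - 2))) * (μ y * Rop μ U a (x, y)) := fun y => by ring
      simp only [e, ← mul_sum, this, mul_zero],
     fun y => by
      have := (Rop_deg hμ hU a).2 y
      simp only [Pi.smul_apply, smul_eq_mul]
      have e : ∀ x, μ x * (-(1 / (2 * ((s : ℝ) - 2))) * Rop μ U a (x, y)) =
        -(1 / (2 * ((s : ℝ) - 2))) * (μ x * Rop μ U a (x, y)) := fun y => by ring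
      simp only [e, ← mul_sum, this, mul_zero]⟩
  rw [nsq_smul] at hnb
  have hRa := nsq_Rop hμ hU a ha0
  have hγ2 : 0 < γ ^ 2 := by (clear * - hγ; positivity)
  have hγ4 : 0 < γ ^ 4 := by positivity
  -- bounds for a and b
  have hna' : nsq μ a ≤ s ^ 2 * nsq μ h / (4 * γ ^ 2) := by
    rw [le_div_iff₀ (by positivity)]
    nlinarith only [hna]
  have hna0 := nsq_nonneg hμ a
  have hnb0 := nsq_nonneg (m2_posProb hμ) b
  have hnb' : nsq (m2 μ) b ≤ 81 / 32 * nsq μ h / γ ^ 4 := by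
    rw [le_div_iff₀ hγ4]
    have k1 : 4 * γ ^ 2 * nsq (m2 μ) b ≤ (1 / (2 * ((s : ℝ) - 2))) ^ 2 * (18 * nsq μ a) := by
      refine hnb.trans ?_
      rw [neg_sq]
      exact mul_le_mul_of_nonneg_left hRa (by (clear * - hs2; positivity))
    have k2 : (1 / (2 * ((s : ℝ) - 2))) ^ 2 ≤ 9 / 4 / s ^ 2 := by
      rw [div_pow, one_pow, div_div, div_le_div_iff₀ (by (clear * - hs2; positivity)) (by positivity)]
      have : (s : ℝ) ≤ 3 * (s - 2) := by linarith only [hs']
      nlinarith only [hs']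
    have k3 : (1 / (2 * ((s : ℝ) - 2))) ^ 2 * (18 * nsq μ a) ≤
        9 / 4 / s ^ 2 * (18 * (s ^ 2 * nsq μ h / (4 * γ ^ 2))) := by
      refine mul_le_mul k2 ?_ (by (clear * - hna0; positivity)) (by (clear * - hs; positivity))
      linarith only [hna']
    have k4 : 9 / 4 / (s : ℝ) ^ 2 * (18 * (s ^ 2 * nsq μ h / (4 * γ ^ 2))) =
        81 / 8 * nsq μ h / γ ^ 2 := by
      field_simp
      ring
    have k5 : 4 * γ ^ 2 * nsq (m2 μ) b ≤ 81 / 8 * nsq μ h / γ ^ 2 := by
      rw [← k4]; exact k1.trans k3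
    rw [le_div_iff₀ hγ2] at k5
    (clear * - k5; nlinarith)
  refine ⟨S1 a + S2 b,
    (2 / ((s : ℝ) * (s - 1))) • (S2 (U b) + S3 (RRop μ U b)), ?_, ?_, ?_⟩
  · rw [D_add]
    funext x
    simp only [Pi.sub_apply, Pi.add_apply, Pi.smul_apply, smul_eq_mul]
    rw [D_S1 hU (by omega) a x, D_S2 hU b hbs x, hLa, hMb]
    have e1 : S1 (((s : ℝ) / 2) • h) x = (s : ℝ) / 2 * S1 h x := by
      simp only [S1, Pi.smul_apply, smul_eq_mul, mul_sum]
    have e2 : S2 (-(1 / (2 * ((s : ℝ) - 2))) • Rop μ U a) x =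
        -(1 / (2 * ((s : ℝ) - 2))) * S2 (Rop μ U a) x := by
      simp only [S2, Pi.smul_apply, smul_eq_mul, mul_sum]
    rw [e1, e2]
    have := hs2.ne'
    have := hs1.ne'
    field_simp
    ring
  · refine (nsq_add_le (mW_posProb hμ) _ _).trans ?_
    rw [nsq_S1 hμ a ha0]
    have h2 := nsq_S2_le (s := s) hμ b (by
      unfold mean m2
      rw [Fintype.sum_prod_type]
      simp only []
      have : ∀ x, ∑ y, μ x * μ y * b (x, y) = 0 := fun x => by
        have := hbd.1 x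
        simp only [mul_assoc, ← mul_sum, this, mul_zero]
      simp only [this, sum_const_zero])
    have h3 : (s : ℝ) * nsq μ a ≤ s * (s ^ 2 * nsq μ h / (4 * γ ^ 2)) :=
      mul_le_mul_of_nonneg_left hna' hs0.le
    have h4 : 4 * (s : ℝ) ^ 3 * nsq (m2 μ) b ≤ 4 * (s : ℝ) ^ 3 * (81 / 32 * nsq μ h / γ ^ 4) :=
      mul_le_mul_of_nonneg_left hnb' (by positivity)
    have h5 : (s : ℝ) * (s ^ 2 * nsq μ h / (4 * γ ^ 2)) ≤ s ^ 3 * nsq μ h / (4 * γ ^ 4) := by
      rw [← mul_div_assoc]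
      rw [div_le_div_iff₀ (by positivity) (by positivity)]
      have : γ ^ 4 ≤ γ ^ 2 := pow_le_pow_of_le_one hγ.le hγ1 (by norm_num)
      nlinarith only [mul_nonneg (mul_nonneg (pow_nonneg hs0.le 3) hε) (sub_nonneg.2 this)]
    have h6 : 2 * (s ^ 3 * nsq μ h / (4 * γ ^ 4) + 4 * (s : ℝ) ^ 3 * (81 / 32 * nsq μ h / γ ^ 4)) ≤
        21 * s ^ 3 * nsq μ h / γ ^ 4 := by
      have : 21 * s ^ 3 * nsq μ h / γ ^ 4 -
        2 * (s ^ 3 * nsq μ h / (4 * γ ^ 4) + 4 * (s : ℝ) ^ 3 * (81 / 32 * nsq μ h / γ ^ 4)) =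
        1 / 4 * (s ^ 3 * nsq μ h / γ ^ 4) := by
        field_simp
        ring
      have h7 : 0 ≤ 1 / 4 * (s ^ 3 * nsq μ h / γ ^ 4) := by (clear * - hs hε hγ; positivity)
      linarith only [this, h7]
    linarith only [h2, h3, h4, h5, h6]
  · rw [nsq_smul]
    have g1 := nsq_add_le (mW_posProb (s := s) hμ) (S2 (U b)) (S3 (RRop μ U b))
    have g2 := nsq_S2_le (s := s) hμ (U b) (mean_U hμ hU b)
    have g3 := nsq_S3_le (s := s) hμ (RRop μ U b) (RRop_deg hμ hU b hbd)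
    have g4 := nsq_RRop hμ hU b hbd
    have g5 := nsq_U_le hμ hU b
    have g6 : nsq (mW μ) (S2 (U b) + S3 (RRop μ U b) : (Fin s → X) → ℝ) ≤
        980 * s ^ 3 * nsq (m2 μ) b := by
      have a1 : 4 * (s : ℝ) ^ 3 * nsq (m2 μ) (U b) ≤ 4 * (s : ℝ) ^ 3 * nsq (m2 μ) b :=
        mul_le_mul_of_nonneg_left g5 (by (clear * - hs; positivity))
      have a2 : 27 * (s : ℝ) ^ 3 * nsq (m3 μ) (RRop μ U b) ≤
          27 * (s : ℝ) ^ 3 * (18 * nsq (m2 μ) b) :=
        mul_le_mul_of_nonneg_left g4 (by positivity)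
      nlinarith only [g1, g2, g3, a1, a2]
    have g7 : (2 / ((s : ℝ) * (s - 1))) ^ 2 ≤ 9 / s ^ 4 := by
      rw [div_pow, div_le_div_iff₀ (by (clear * - hs hs1; positivity)) (by positivity)]
      have : 2 * (s : ℝ) ≤ 3 * (s - 1) := by linarith only [hs']
      have h9 : 4 * (s : ℝ) ^ 2 ≤ 9 * (s - 1) ^ 2 := by nlinarith only [hs']
      have := mul_le_mul_of_nonneg_left h9 (sq_nonneg (s : ℝ))
      nlinarith only [this]
    calc (2 / ((s : ℝ) * (s - 1))) ^ 2 *
          nsq (mW μ) (S2 (U b) + S3 (RRop μ U b) : (Fin s → X) → ℝ)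
        ≤ 9 / s ^ 4 * (980 * s ^ 3 * nsq (m2 μ) b) :=
          mul_le_mul g7 g6 (nsq_nonneg (mW_posProb hμ) _) (by positivity)
      _ = 8820 / s * nsq (m2 μ) b := by
          field_simp
          ring
      _ ≤ 8820 / s * (81 / 32 * nsq μ h / γ ^ 4) :=
          mul_le_mul_of_nonneg_left hnb' (by positivity)
      _ = 714420 / 32 * (nsq μ h / (γ ^ 4 * s)) := by
          field_simp
          ring
      _ ≤ 25600 * (nsq μ h / (γ ^ 4 * s)) := by
          refine mul_le_mul_of_nonneg_right (by norm_num) (by (clear * - hε hγ hs; positivity))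
      _ = 25600 * nsq μ h / (γ ^ 4 * s) := by ring

/-- **Theorem 2** -/
theorem rep_bound (hγ : 0 < γ) (hγ1 : γ ≤ 1) (hs : 3 ≤ s) (h : X → ℝ) (hh : mean μ h = 0)
    {κ : ℝ} (hκ0 : 0 ≤ κ) (hκ : nsq μ h ≤ κ ^ 2) (hsκ : s * κ ^ 2 ≤ 1) (T : ℕ) :
    Real.sqrt (nsq (mW μ) (fun x => (PL U)^[T] (fun x : Fin s → X => ∏ i, (1 + h (x i))) x - 1)) ≤
      s * κ ^ 2 + 160 * κ / (γ ^ 2 * Real.sqrt s) +
        5 * (s : ℝ) ^ 2 * κ / (γ ^ 2 * Real.sqrt (T + 1)) := by
  have hs' : (3 : ℝ) ≤ s := by exact_mod_cast hs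
  have hs0 : (0 : ℝ) < s := by linarith only [hs']
  have hε := nsq_nonneg hμ h
  have hm := mW_posProb (s := s) hμ
  obtain ⟨G, E, hGE, hG, hE⟩ := poisson hμ hU hγ hγ1 hs h hh
  set D0 : (Fin s → X) → ℝ := fun x => ∏ i, (1 + h (x i)) - 1 - S1 h x with hD0
  have hprod : (fun x : Fin s → X => ∏ i, (1 + h (x i))) =
      (fun _ => (1 : ℝ)) + D0 + D U G + (-E) := by
    have : (fun x : Fin s → X => ∏ i, (1 + h (x i))) = (fun _ => (1 : ℝ)) + D0 + S1 h := by
      funext x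
      simp only [hD0, Pi.add_apply]
      ring
    rw [this, hGE]
    funext x
    simp only [Pi.add_apply, Pi.sub_apply, Pi.neg_apply]
    ring
  have hP : (fun x => (PL U)^[T] (fun x : Fin s → X => ∏ i, (1 + h (x i))) x - 1) =
      fun x => (PL U)^[T] D0 x + ((PL U)^[T] (D U G) x + (PL U)^[T] (-E) x) := by
    funext x
    have hl : ∀ F : (Fin s → X) → ℝ, (PL U)^[T] F = ((PL U) ^ T) F := fun F => by
      rw [Module.End.pow_apply]
    rw [hprod, sub_eq_add_neg]
    rw [hl, map_add, map_add, map_add, ← hl, ← hl, ← hl, ← hl, PLpow_const hμ hU]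
    simp only [Pi.add_apply]
    ring
  rw [hP]
  have hDD : nsq (mW μ) D0 ≤ (s * κ ^ 2) ^ 2 := by
    rw [hD0, nsq_prod hμ h hh]
    have e1 : (1 + nsq μ h) ^ s ≤ Real.exp (s * nsq μ h) := by
      rw [mul_comm, Real.exp_mul, Real.rpow_natCast]
      exact pow_le_pow_left₀ (by linarith only [hε]) (by linarith only [Real.add_one_le_exp (nsq μ h)]) s
    have hx1 : s * nsq μ h ≤ s * κ ^ 2 := mul_le_mul_of_nonneg_left hκ hs0.le
    have hx0 : 0 ≤ s * nsq μ h := by (clear * - hs hε; positivity)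
    have e2 := Real.abs_exp_sub_one_sub_id_le (x := s * nsq μ h) (by
      rw [abs_of_nonneg hx0]; linarith only [hsκ, hx1])
    have e3 := (abs_le.1 e2).2
    have e4 : (s * nsq μ h) ^ 2 ≤ (s * κ ^ 2) ^ 2 := pow_le_pow_left₀ hx0 hx1 2
    linarith only [e1, e3, e4]
  have hEs : nsq (mW μ) (-E) = nsq (mW μ) E := by
    unfold nsq ip
    refine sum_congr rfl fun z _ => ?_
    simp only [Pi.neg_apply, mul_neg, neg_mul, neg_neg]
  have t1 : Real.sqrt (nsq (mW μ) ((PL U)^[T] D0)) ≤ s * κ ^ 2 := by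
    refine (Real.sqrt_le_sqrt ((nsq_PLpow_le hμ hU (by (clear * - hs; omega)) T D0).trans hDD)).trans ?_
    rw [Real.sqrt_sq (by (clear * - hs; positivity))]
  have t2 : Real.sqrt (nsq (mW μ) ((PL U)^[T] (-E))) ≤ 160 * κ / (γ ^ 2 * Real.sqrt s) := by
    have : nsq (mW μ) ((PL U)^[T] (-E)) ≤ (160 * κ / (γ ^ 2 * Real.sqrt s)) ^ 2 := by
      refine (nsq_PLpow_le hμ hU (by omega) T (-E)).trans ?_
      rw [hEs]
      refine hE.trans ?_
      rw [div_pow, mul_pow, mul_pow, Real.sq_sqrt hs0.le]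
      have : (γ ^ 2) ^ 2 = γ ^ 4 := by ring
      rw [this]
      gcongr
      norm_num
    exact (Real.sqrt_le_sqrt this).trans (by rw [Real.sqrt_sq (by (clear * - hκ0 hγ hs; positivity))])
  have t3 : Real.sqrt (nsq (mW μ) ((PL U)^[T] (D U G))) ≤
      5 * (s : ℝ) ^ 2 * κ / (γ ^ 2 * Real.sqrt (T + 1)) := by
    have hdec := decay hm (DL U) (fun F G => D_sa hμ hU F G)
      (fun F => D_contr hμ hU (by omega) F) G T
    have hT : (0 : ℝ) < (T : ℝ) + 1 := by (clear * -; positivity)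
    have : nsq (mW μ) ((PL U)^[T] (D U G)) ≤
        (5 * (s : ℝ) ^ 2 * κ / (γ ^ 2 * Real.sqrt (T + 1))) ^ 2 := by
      have e0 : (fun F : (Fin s → X) → ℝ => F - DL U F) = PL U := rfl
      rw [e0] at hdec
      have e1 : nsq (mW μ) ((PL U)^[T] (D U G)) ≤ nsq (mW μ) G / ((T : ℝ) + 1) := by
        rw [le_div_iff₀ hT, mul_comm]
        exact hdec
      refine e1.trans ?_
      rw [div_pow, mul_pow, mul_pow, mul_pow, Real.sq_sqrt hT.le]
      have e2 : (γ ^ 2) ^ 2 = γ ^ 4 := by ring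
      rw [e2]
      have e3 : nsq (mW μ) G ≤ 5 ^ 2 * ((s : ℝ) ^ 2) ^ 2 * κ ^ 2 / γ ^ 4 := by
        refine hG.trans ?_
        rw [div_le_div_iff_of_pos_right (by positivity)]
        have i1 : 21 * (s : ℝ) ^ 3 ≤ 5 ^ 2 * ((s : ℝ) ^ 2) ^ 2 := by
          have : (s : ℝ) ^ 3 * 1 ≤ s ^ 3 * s := mul_le_mul_of_nonneg_left (by linarith only [hs']) (by positivity)
          nlinarith only [this]
        calc 21 * (s : ℝ) ^ 3 * nsq μ h ≤ 5 ^ 2 * ((s : ℝ) ^ 2) ^ 2 * nsq μ h :=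
              mul_le_mul_of_nonneg_right i1 hε
          _ ≤ 5 ^ 2 * ((s : ℝ) ^ 2) ^ 2 * κ ^ 2 := mul_le_mul_of_nonneg_left hκ (by positivity)
      calc nsq (mW μ) G / ((T : ℝ) + 1)
          ≤ (5 ^ 2 * ((s : ℝ) ^ 2) ^ 2 * κ ^ 2 / γ ^ 4) / ((T : ℝ) + 1) :=
            div_le_div_of_nonneg_right e3 hT.le
        _ = 5 ^ 2 * ((s : ℝ) ^ 2) ^ 2 * κ ^ 2 / (γ ^ 4 * ((T : ℝ) + 1)) := by
            rw [div_div]
    exact (Real.sqrt_le_sqrt this).trans (by rw [Real.sqrt_sq (by (clear * - hs hκ0 hγ; positivity))])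
  refine (sqrt_nsq_add_le hm _ _).trans ?_
  refine (add_le_add le_rfl (sqrt_nsq_add_le hm _ _)).trans ?_
  linarith only [t1, t2, t3]

end

end Vale.Agent.P308.Rep
end

section

/-!
# P308, polynomial sampler, part 2: weighted L2 on a finite set

`ip w F G = ∑ w F G`, `nm w F = sqrt (ip w F F)`, Minkowski, Cauchy-Schwarz, solving coercive
equations on an invariant subspace, smoothing `‖P^T (1-P) G‖ ≤ ‖G‖ / sqrt (T+1)`.
-/

set_option linter.unusedSectionVars false

open Finset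

namespace Vale.Agent.P308.Poly

variable {Z : Type*} [Fintype Z]

/-- weighted inner product -/
def ip (w F G : Z → ℝ) : ℝ := ∑ z, w z * (F z * G z)

theorem ip_comm (w F G : Z → ℝ) : ip w F G = ip w G F := by
  unfold ip
  exact sum_congr rfl fun z _ => by ring

theorem ip_sub_left (w F G H : Z → ℝ) : ip w (F - G) H = ip w F H - ip w G H := by
  unfold ip
  rw [← sum_sub_distrib]
  exact sum_congr rfl fun z _ => by simp only [Pi.sub_apply]; ring

theorem ip_sub_right (w F G H : Z → ℝ) : ip w H (F - G) = ip w H F - ip w H G := by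
  rw [ip_comm, ip_sub_left, ip_comm w F, ip_comm w G]

section pos

variable {w : Z → ℝ} (hw : ∀ z, 0 ≤ w z)
include hw

end pos

/-- Self-adjoint with `0 ≤ P ≤ 1` in the weighted L2. -/
structure Ctr (w : Z → ℝ) (P : (Z → ℝ) →ₗ[ℝ] (Z → ℝ)) : Prop where
  symm : ∀ F G, ip w (P F) G = ip w F (P G)
  nonneg : ∀ F, 0 ≤ ip w F (P F)
  le_one : ∀ F, ip w F (P F) ≤ ip w F F

namespace Ctr

variable {w : Z → ℝ} {P : (Z → ℝ) →ₗ[ℝ] (Z → ℝ)} (h : Ctr w P) (hw : ∀ z, 0 ≤ w z)
include h hw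

omit hw in
theorem sq_le (F : Z → ℝ) : ip w (P F) (P F) ≤ ip w F (P F) := by
  -- `0 ≤ ⟨F - t P F, P (F - t P F)⟩` with `t = 1`
  have h1 := h.nonneg (F - P F)
  have h2 := h.le_one (P F)
  rw [map_sub, ip_sub_left, ip_sub_right, ip_sub_right] at h1
  have h3 : ip w F (P (P F)) = ip w (P F) (P F) := (h.symm F (P F)).symm
  rw [h3] at h1
  linarith only [h1, h2]

theorem step (G : Z → ℝ) : ip w (G - P G) (G - P G) ≤ ip w G G - ip w (P G) (P G) := by
  rw [ip_sub_left, ip_sub_right, ip_sub_right, ip_comm w (P G) G]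
  have h1 := h.sq_le G
  linarith only [h1]

end Ctr

end Vale.Agent.P308.Poly
end

section

/-!
# P308, polynomial sampler, part 2: product laws and the replica chain
-/

set_option linter.unusedSectionVars false
set_option linter.unusedVariables false

open Finset

namespace Vale.Agent.P308.Poly

variable {X : Type*} [Fintype X] {ι : Type*} [Fintype ι] [DecidableEq ι] [DecidableEq X]

section prod

variable {μ : X → ℝ}

theorem sum_pw_prod (f : ι → X → ℝ) :
    ∑ ω : ι → X, ∏ i, f i (ω i) = ∏ i, ∑ x, f i x := by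
  rw [Finset.prod_univ_sum, Fintype.piFinset_univ]

theorem sum_pw (h1 : ∑ x, μ x = 1) : ∑ ω : ι → X, pw μ ω = 1 := by
  unfold pw
  rw [sum_pw_prod (fun _ => μ)]
  simp only [h1, prod_const_one]

theorem pw_pos (h : ∀ x, 0 < μ x) (ω : ι → X) : 0 < pw μ ω := prod_pos fun _ _ => h _

theorem upd_left {i j : ι} (hij : i ≠ j) (ω : ι → X) (x y : X) : upd ω i j x y i = x := by
  unfold upd
  rw [Function.update_of_ne hij, Function.update_self]

theorem upd_right (i j : ι) (ω : ι → X) (x y : X) : upd ω i j x y j = y := by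
  unfold upd
  rw [Function.update_self]

theorem upd_of_ne {i j k : ι} (hi : k ≠ i) (hj : k ≠ j) (ω : ι → X) (x y : X) :
    upd ω i j x y k = ω k := by
  unfold upd
  rw [Function.update_of_ne hj, Function.update_of_ne hi]

end prod

section chain

variable {μ : X → ℝ} {K : X → X → X → X → ℝ} {γ : ℝ}

/-- the indices different from `i`, `j` -/
def Rs (i j : ι) : Finset ι := (univ.erase i).erase j

theorem mem_Rs {i j k : ι} : k ∈ Rs i j ↔ k ≠ j ∧ k ≠ i := by
  unfold Rs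
  simp only [mem_erase, ne_eq, mem_univ, and_true]

theorem prod_split_two {M : Type*} [CommMonoid M] {i j : ι} (hij : i ≠ j) (f : ι → M) :
    ∏ k, f k = f i * (f j * ∏ k ∈ Rs i j, f k) := by
  unfold Rs
  rw [← mul_prod_erase univ f (mem_univ i), ← mul_prod_erase (univ.erase i) f
    (mem_erase.2 ⟨hij.symm, mem_univ j⟩)]

/-- one pair -/
theorem pair_term {i j : ι} (hij : i ≠ j) (ω ω' : ι → X) :
    ∑ x, ∑ y, K (ω i) (ω j) x y * (if upd ω i j x y = ω' then 1 else 0) =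
      if (∀ k ∈ Rs i j, ω k = ω' k) then K (ω i) (ω j) (ω' i) (ω' j) else 0 := by
  by_cases h : ∀ k ∈ Rs i j, ω k = ω' k
  · rw [if_pos h]
    have hu : ∀ x y, upd ω i j x y = ω' ↔ x = ω' i ∧ y = ω' j := by
      intro x y
      constructor
      · intro he
        exact ⟨by rw [← he, upd_left hij], by rw [← he, upd_right]⟩
      · rintro ⟨hx, hy⟩
        funext k
        by_cases hi : k = i
        · rw [hi, upd_left hij, hx]
        · by_cases hj : k = j
          · rw [hj, upd_right, hy]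
          · rw [upd_of_ne hi hj, h k (mem_Rs.2 ⟨hj, hi⟩)]
    have : ∀ x y, K (ω i) (ω j) x y * (if upd ω i j x y = ω' then (1 : ℝ) else 0) =
        if y = ω' j then (if x = ω' i then K (ω i) (ω j) x y else 0) else 0 := by
      intro x y
      by_cases hx : x = ω' i <;> by_cases hy : y = ω' j <;> simp [hu, hx, hy]
    rw [sum_congr rfl fun x _ => sum_congr rfl fun y _ => this x y]
    simp only [sum_ite_eq', mem_univ, ↓reduceIte]
  · rw [if_neg h]
    refine sum_eq_zero fun x _ => sum_eq_zero fun y _ => ?_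
    rw [if_neg, mul_zero]
    intro he
    refine h fun k hk => ?_
    rw [← he, upd_of_ne (mem_Rs.1 hk).2 (mem_Rs.1 hk).1]

theorem PK_eq (ω ω' : ι → X) : PK K ω ω' =
    ((Fintype.card ι : ℝ) * (Fintype.card ι - 1))⁻¹ * ∑ p ∈ (univ : Finset ι).offDiag,
      if (∀ k ∈ Rs p.1 p.2, ω k = ω' k) then K (ω p.1) (ω p.2) (ω' p.1) (ω' p.2) else 0 := by
  unfold PK
  congr 1
  exact sum_congr rfl fun p hp => pair_term (mem_offDiag.1 hp).2.2 ω ω'

theorem card_offDiag_real (hs : 2 ≤ Fintype.card ι) :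
    (((univ : Finset ι).offDiag.card : ℕ) : ℝ) = (Fintype.card ι : ℝ) * (Fintype.card ι - 1) := by
  rw [offDiag_card, card_univ]
  have : Fintype.card ι ≤ Fintype.card ι * Fintype.card ι := Nat.le_mul_self _
  rw [Nat.cast_sub this]
  push_cast
  ring

theorem card_pos_real (hs : 2 ≤ Fintype.card ι) :
    0 < (Fintype.card ι : ℝ) * (Fintype.card ι - 1) := by
  have : (2 : ℝ) ≤ Fintype.card ι := by exact_mod_cast hs
  nlinarith only [this]

/-- The replica chain is a reversible lazy chain for the product law. -/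
theorem chain_PK (hK : PairKer μ K γ) (hs : 2 ≤ Fintype.card ι) :
    Soft.Mix.Chain (pw μ) (PK (ι := ι) K) where
  pos ω := pw_pos hK.μpos ω
  sum_one := sum_pw hK.μsum
  nonneg ω ω' := by
    unfold PK
    have := card_pos_real hs
    refine mul_nonneg (by (clear * - this; positivity)) (sum_nonneg fun p _ => sum_nonneg fun x _ =>
      sum_nonneg fun y _ => mul_nonneg (hK.nonneg _ _ _ _) ?_)
    split_ifs <;> norm_num
  row ω := by
    unfold PK
    rw [← mul_sum, sum_comm]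
    have : ∀ p ∈ (univ : Finset ι).offDiag, ∑ ω' : ι → X, ∑ x, ∑ y, K (ω p.1) (ω p.2) x y *
        (if upd ω p.1 p.2 x y = ω' then (1 : ℝ) else 0) = 1 := by
      intro p _
      rw [sum_comm]
      refine Eq.trans ?_ (hK.sum (ω p.1) (ω p.2))
      refine sum_congr rfl fun x _ => ?_
      rw [sum_comm]
      refine sum_congr rfl fun y _ => ?_
      simp only [mul_ite, mul_one, mul_zero, sum_ite_eq, mem_univ, ↓reduceIte]
    rw [sum_congr rfl this, sum_const, nsmul_eq_mul, mul_one, card_offDiag_real hs]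
    exact inv_mul_cancel₀ (card_pos_real hs).ne'
  rev ω ω' := by
    rw [PK_eq, PK_eq, mul_left_comm, mul_left_comm (pw μ ω')]
    congr 1
    rw [mul_sum, mul_sum]
    refine sum_congr rfl fun p hp => ?_
    have hij := (mem_offDiag.1 hp).2.2
    by_cases h : ∀ k ∈ Rs p.1 p.2, ω k = ω' k
    · rw [if_pos h, if_pos fun k hk => (h k hk).symm]
      unfold pw
      rw [prod_split_two hij, prod_split_two hij]
      have : ∏ k ∈ Rs p.1 p.2, μ (ω k) = ∏ k ∈ Rs p.1 p.2, μ (ω' k) :=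
        prod_congr rfl fun k hk => by rw [h k hk]
      rw [this]
      have := hK.rev (ω p.1) (ω p.2) (ω' p.1) (ω' p.2)
      linear_combination (∏ k ∈ Rs p.1 p.2, μ (ω' k)) * this
    · rw [if_neg h, if_neg fun h' => h fun k hk => (h' k hk).symm, mul_zero, mul_zero]
  lazy ω := by
    rw [PK_eq]
    have h1 : ∀ p ∈ (univ : Finset ι).offDiag, (1 / 2 : ℝ) ≤
        if (∀ k ∈ Rs p.1 p.2, ω k = ω k) then K (ω p.1) (ω p.2) (ω p.1) (ω p.2) else 0 := by
      intro p _
      rw [if_pos fun _ _ => rfl]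
      exact hK.lazy _ _
    have h2 := card_nsmul_le_sum _ _ _ h1
    rw [nsmul_eq_mul, card_offDiag_real hs] at h2
    have h3 := card_pos_real hs
    rw [inv_mul_eq_div, le_div_iff₀ h3]
    linarith only [h2]

theorem pull_PK (F : (ι → X) → ℝ) (ω : ι → X) :
    Soft.Mix.pull (PK K) F ω = ((Fintype.card ι : ℝ) * (Fintype.card ι - 1))⁻¹ *
      ∑ p ∈ (univ : Finset ι).offDiag, ∑ x, ∑ y, K (ω p.1) (ω p.2) x y *
        F (upd ω p.1 p.2 x y) := by
  unfold Soft.Mix.pull PK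
  have : ∀ ω' : ι → X, ((Fintype.card ι : ℝ) * (Fintype.card ι - 1))⁻¹ *
      (∑ p ∈ (univ : Finset ι).offDiag, ∑ x, ∑ y, K (ω p.1) (ω p.2) x y *
        if upd ω p.1 p.2 x y = ω' then 1 else 0) * F ω' =
      ((Fintype.card ι : ℝ) * (Fintype.card ι - 1))⁻¹ *
      (∑ p ∈ (univ : Finset ι).offDiag, ∑ x, ∑ y, K (ω p.1) (ω p.2) x y *
        if upd ω p.1 p.2 x y = ω' then F ω' else 0) := by
    intro ω'
    rw [mul_assoc, sum_mul]
    congr 1
    refine sum_congr rfl fun p _ => ?_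
    rw [sum_mul]
    refine sum_congr rfl fun x _ => ?_
    rw [sum_mul]
    refine sum_congr rfl fun y _ => ?_
    split_ifs <;> ring
  rw [sum_congr rfl fun ω' _ => this ω', ← mul_sum, sum_comm]
  congr 1
  refine sum_congr rfl fun p _ => ?_
  rw [sum_comm]
  refine sum_congr rfl fun x _ => ?_
  rw [sum_comm]
  refine sum_congr rfl fun y _ => ?_
  simp only [mul_ite, mul_zero, sum_ite_eq, mem_univ, ↓reduceIte]

end chain

section ctr

variable {Ω : Type*} [Fintype Ω] [DecidableEq Ω]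

end ctr

end Vale.Agent.P308.Poly
end
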