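import Vale.Agent.P308.Bd3.B1

set_option linter.all false

section

/-!
# P308: probabilities of the tests, and their ideal values
-/

namespace Vale.Agent.P308.Alg

open Vale.Agent.Lib.PolyTime Finset Function

variable {n : ℕ}

/-! ### Exponents of matchings -/

theorem ew_congr {w w' : Fin n → Fin n → ℤ} (h : ∀ x y, x ≠ y → w x y = w' x y) (M : PM n) :
    ew w M = ew w' M := by
  unfold ew
  refine Finset.sum_congr rfl fun x _ => ?_
  split_ifs with hx
  · exact h _ _ (ne_of_lt hx)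
  · rfl

theorem ew_mono {w w' : Fin n → Fin n → ℤ} (h : ∀ x y, x ≠ y → w x y ≤ w' x y) (M : PM n) :
    ew w M ≤ ew w' M := by
  unfold ew
  refine Finset.sum_le_sum fun x _ => ?_
  split_ifs with hx
  · exact h _ _ (ne_of_lt hx)
  · exact le_rfl

theorem card_lt_partner (M : PM n) : (univ.filter fun x => x < M.1 x).card = n / 2 := by
  have h1 : (univ.filter fun x => x < M.1 x).card = (univ.filter fun x => M.1 x < x).card := by
    refine Finset.card_bij (fun x _ => M.1 x) ?_ ?_ ?_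
    · intro x hx
      rw [Finset.mem_filter] at hx ⊢
      refine ⟨Finset.mem_univ _, ?_⟩
      rw [M.2.1 x]
      exact hx.2
    · intro x _ y _ h
      rw [← M.2.1 x, ← M.2.1 y, h]
    · intro y hy
      rw [Finset.mem_filter] at hy
      refine ⟨M.1 y, ?_, M.2.1 y⟩
      rw [Finset.mem_filter]
      refine ⟨Finset.mem_univ _, ?_⟩
      rw [M.2.1 y]
      exact hy.2
  have h2 : (univ.filter fun x => x < M.1 x).card + (univ.filter fun x => M.1 x < x).card = n := by
    rw [← Finset.card_union_of_disjoint]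
    · have hU : (univ.filter fun x => x < M.1 x) ∪ (univ.filter fun x => M.1 x < x) =
          (Finset.univ : Finset (Fin n)) := by
        ext x
        simp only [Finset.mem_union, Finset.mem_filter, Finset.mem_univ, true_and, iff_true]
        rcases lt_trichotomy x (M.1 x) with h | h | h
        · exact Or.inl h
        · exact absurd h.symm (M.2.2 x)
        · exact Or.inr h
      rw [hU, Finset.card_univ, Fintype.card_fin]
    · rw [Finset.disjoint_left]
      intro x hx hx'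
      rw [Finset.mem_filter] at hx hx'
      exact absurd hx.2 (not_lt.2 hx'.2.le)
  omega

/-- The exponent computed on lists. -/
theorem ex_toL_int (K : List (List ℕ)) (M : PM n) :
    (ex K (toL M) : ℤ) = ew (fun x y => (ent K x y : ℤ)) M := by
  rw [ex_toL]
  unfold ew
  push_cast
  refine Finset.sum_congr rfl fun x _ => ?_
  split_ifs <;> simp only [ne_eq]

theorem ex_toL_offset (F : ℕ) (E : List (List ℕ)) (M : PM n) :
    (ex E (toL M) : ℤ) = (n / 2 * F : ℕ) + ew (toZ F E) M := by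
  rw [ex_toL_int]
  have h1 : ((n / 2 * F : ℕ) : ℤ) = ∑ x : Fin n, if x < M.1 x then (F : ℤ) else 0 := by
    rw [← card_lt_partner M, Finset.card_eq_sum_ones, Finset.sum_mul, Finset.sum_filter]
    push_cast
    refine Finset.sum_congr rfl fun x _ => ?_
    split_ifs <;> simp
  rw [h1]
  unfold ew
  rw [← Finset.sum_add_distrib]
  refine Finset.sum_congr rfl fun x _ => ?_
  unfold toZ
  split_ifs
  · ring
  · ring

theorem ex_toL_le {K : List (List ℕ)} {B : ℕ} (h : ∀ x y, ent K x y ≤ B) (M : PM n) :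
    ex K (toL M) ≤ n * B := by
  rw [ex_toL]
  calc ∑ x : Fin n, (if x < M.1 x then ent K x (M.1 x) else 0) ≤ ∑ _x : Fin n, B := by
        refine Finset.sum_le_sum fun x _ => ?_
        split_ifs
        · exact h _ _
        · exact Nat.zero_le _
    _ = n * B := by simp only [sum_const, card_univ, Fintype.card_fin, smul_eq_mul]

/-- The number of bits used by an acceptance test. -/
theorem test_exp {F : ℕ} {K E : List (List ℕ)} {M : PM n}
    (h : ew (toZ F E) M ≤ ew (fun x y => (ent K x y : ℤ)) M) :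
    ((ex K (toL M) + n / 2 * F - ex E (toL M) : ℕ) : ℤ) =
      ew (fun x y => (ent K x y : ℤ)) M - ew (toZ F E) M := by
  have h1 := ex_toL_int K M
  have h2 := ex_toL_offset F E M
  (clear * - h h1 h2; omega)

/-! ### Masses -/

theorem mass_congr {w w' : Fin n → Fin n → ℤ} (h : ∀ x y, x ≠ y → w x y = w' x y) (M : PM n) :
    mass w M = mass w' M := by
  unfold mass
  rw [ew_congr h]

theorem Zf_congr {w w' : Fin n → Fin n → ℤ} (h : ∀ x y, x ≠ y → w x y = w' x y) :
    Zf w = Zf w' := Finset.sum_congr rfl fun M _ => mass_congr h M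

theorem law_congr {w w' : Fin n → Fin n → ℤ} (h : ∀ x y, x ≠ y → w x y = w' x y) (M : PM n) :
    law w M = law w' M := by
  unfold law
  rw [Zf_congr h, mass_congr h]

theorem alpha_congr {w w' : Fin n → Fin n → ℤ} (h : ∀ x y, x ≠ y → w x y = w' x y)
    {r u : Fin n} (hu : u ≠ r) : alpha w r u = alpha w' r u := by
  unfold alpha
  rw [Zf_congr h, h r u hu.symm]
  congr 2
  refine Finset.sum_congr rfl fun M _ => ?_
  rw [mass_congr h]

/-! ### Probabilities of the tests -/

/-- A function of the matching and of the acceptance bits. -/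
theorem prob_test {b ℓ T L F : ℕ} {K K' E : List (List ℕ)}
    (hrun : ∀ u, ∃ M : PM n, runM n b ℓ T E u = toL M)
    (ψ : List ℕ × (Bool × Bool) → Bool) (g : PM n → ℝ)
    (hg : ∀ M : PM n, prob L (fun v => ψ (toL M,
      (ones ⟨v⟩ (ex K (toL M) + n / 2 * F - ex E (toL M)),
        ones ⟨v⟩ (ex K' (toL M) + n / 2 * F - ex E (toL M)))) = true) = g M) :
    prob (T * ℓ + L) (fun u => ψ (smp n b ℓ T L F K K' E ⟨u⟩) = true) =
      ∑ M : PM n, rlaw n b ℓ T E M * g M := by
  choose X hX using fun u : List Bool => hrun ⟨u⟩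
  rw [prob_split (T * ℓ) L X _ g]
  · refine Finset.sum_congr rfl fun M _ => ?_
    congr 1
    unfold rlaw
    refine prob_congr _ fun u _ => ?_
    rw [hX u]
    exact ⟨fun h => by rw [h], fun h => toL_injective h⟩
  · intro u hu
    rw [← hg (X u)]
    refine prob_congr _ fun v hv => ?_
    have e1 : smp n b ℓ T L F K K' E ⟨u ++ v⟩ = (toL (X u),
      (ones ⟨v⟩ (ex K (toL (X u)) + n / 2 * F - ex E (toL (X u))),
        ones ⟨v⟩ (ex K' (toL (X u)) + n / 2 * F - ex E (toL (X u))))) := by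
      unfold smp
      have e2 : runM n b ℓ T E ⟨u ++ v⟩ = toL (X u) := by
        rw [runM_take, List.take_append_of_le_length (by omega), List.take_of_length_le (by omega)]
        exact hX u
      have e3 : ((u ++ v).drop (T * ℓ)).take L = v := by
        rw [List.drop_append_of_le_length (by omega), List.drop_eq_nil_of_le (by omega),
          List.nil_append, List.take_of_length_le (by omega)]
      simp only [e2, e3]
    rw [e1]

theorem abs_sum_sub_le {p q g : PM n → ℝ} {η : ℝ} (h : ∑ M, |p M - q M| ≤ η)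
    (h0 : ∀ M, 0 ≤ g M) (h1 : ∀ M, g M ≤ 1) : |∑ M, p M * g M - ∑ M, q M * g M| ≤ η := by
  rw [← Finset.sum_sub_distrib]
  refine (Finset.abs_sum_le_sum_abs _ _).trans (le_trans ?_ h)
  refine Finset.sum_le_sum fun M _ => ?_
  rw [← sub_mul, abs_mul, abs_of_nonneg (h0 M)]
  calc |p M - q M| * g M ≤ |p M - q M| * 1 := by
        gcongr
        exact h1 M
    _ = |p M - q M| := mul_one _

/-- The ideal probability that the root is matched with `v`. -/
theorem ideal_root (w : Fin n → Fin n → ℤ) (r v : Fin n) :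
    ∑ M : PM n, law w M * (if M.1 r = v then 1 else 0) = alpha w r v * (2 : ℝ) ^ (-(w r v)) := by
  unfold alpha law
  have h1 : ∀ M : PM n, mass w M / Zf w * (if M.1 r = v then 1 else 0) =
      (if M.1 r = v then mass w M else 0) / Zf w := by
    intro M
    split_ifs <;> simp
  rw [Finset.sum_congr rfl fun M _ => h1 M, ← Finset.sum_div, zpow_neg]
  field_simp

/-- The ideal probability of acceptance. -/
theorem ideal_accept (w k : Fin n → Fin n → ℤ) :
    ∑ M : PM n, law w M * (2 : ℝ) ^ (-(ew k M - ew w M)) = Zf k / Zf w := by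
  unfold law
  have h1 : ∀ M : PM n, mass w M / Zf w * (2 : ℝ) ^ (-(ew k M - ew w M)) = mass k M / Zf w := by
    intro M
    unfold mass
    rw [div_mul_eq_mul_div, ← zpow_add₀ (by norm_num)]
    congr 2
    ring
  rw [Finset.sum_congr rfl fun M _ => h1 M, ← Finset.sum_div]
  rfl

end Vale.Agent.P308.Alg
end

section

/-!
# P308: analysis of one stage, and induction over the stages
-/

namespace Vale.Agent.P308.Alg

open Vale.Agent.Lib.PolyTime Finset Function

/-- What the stage analysis uses about the improved exponents `w`. -/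
structure WOK {n : ℕ} (k w : Fin n → Fin n → ℤ) (a : Fin n → ℤ) (c : ℤ) (r : Fin n) : Prop where
  le : ∀ x y, x ≠ y → w x y ≤ k x y
  root : ∀ u, u ≠ r → w r u ≤ a u + c
  Z1 : Zf k ≤ Zf w
  Z2 : Zf w ≤ 2 * Zf k
  a1 : ∀ u, u ≠ r → alpha k r u ≤ 2 * alpha w r u
  a2 : ∀ u, u ≠ r → alpha w r u ≤ 2 * alpha k r u

/-! ### Arithmetic -/

theorem ratio_bound {cA cB S pA pB η : ℝ} (hS : 0 < S) (hη0 : 0 < η) (hη : η ≤ 1 / 32)
    (hA : |cA / S - pA| ≤ 2 * η) (hB : |cB / S - pB| ≤ 2 * η) (h1 : 1 / 2 ≤ pA)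
    (h2 : 1 / 4 ≤ pB) :
    0 < cA ∧ 0 < cB ∧ (1 - 32 * η) * (pB / pA) ≤ cB / cA ∧ cB / cA ≤ (1 + 32 * η) * (pB / pA) := by
  obtain ⟨a1, a2⟩ := abs_le.1 hA
  obtain ⟨b1, b2⟩ := abs_le.1 hB
  have hA0 : 0 < cA / S := by linarith only [hη, h1, a1]
  have hB0 : 0 < cB / S := by linarith only [hη, h2, b1]
  have hcA : 0 < cA := by
    have := mul_pos hA0 hS
    rwa [div_mul_cancel₀ _ hS.ne'] at this
  have hcB : 0 < cB := by
    have := mul_pos hB0 hS
    rwa [div_mul_cancel₀ _ hS.ne'] at this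
  have e : cB / cA = (cB / S) / (cA / S) := by
    (clear * - hS hcA hcB; field_simp)
  have hpA : 0 < pA := by linarith only [h1]
  have hpB : 0 < pB := by linarith only [h2]
  have u1 : cA / S ≤ pA * (1 + 4 * η) := by nlinarith only [a2, hη0, h1]
  have u2 : pA * (1 - 4 * η) ≤ cA / S := by nlinarith only [a1, hη0, h1]
  have u3 : cB / S ≤ pB * (1 + 8 * η) := by nlinarith only [b2, hη0, h2]
  have u4 : pB * (1 - 8 * η) ≤ cB / S := by nlinarith only [b1, hη0, h2]
  refine ⟨hcA, hcB, ?_, ?_⟩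
  · rw [e, le_div_iff₀ hA0]
    calc (1 - 32 * η) * (pB / pA) * (cA / S) ≤ (1 - 32 * η) * (pB / pA) * (pA * (1 + 4 * η)) := by
          apply mul_le_mul_of_nonneg_left u1
          have : 0 ≤ 1 - 32 * η := by linarith only [hη]
          (clear * - this h2 h1; positivity)
      _ = pB * ((1 - 32 * η) * (1 + 4 * η)) := by field_simp
      _ ≤ pB * (1 - 8 * η) := by
          apply mul_le_mul_of_nonneg_left _ hpB.le
          nlinarith only [hη0]
      _ ≤ cB / S := u4
  · rw [e, div_le_iff₀ hA0]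
    calc cB / S ≤ pB * (1 + 8 * η) := u3
      _ ≤ pB * ((1 + 32 * η) * (1 - 4 * η)) := by
          apply mul_le_mul_of_nonneg_left _ hpB.le
          nlinarith only [hη0, hη]
      _ = (1 + 32 * η) * (pB / pA) * (pA * (1 - 4 * η)) := by (clear * - h1 hη0 h2; field_simp)
      _ ≤ (1 + 32 * η) * (pB / pA) * (cA / S) := by
          apply mul_le_mul_of_nonneg_left u2
          (clear * - hη0 h2 h1; positivity)

theorem est_bound {cv σ : ℕ} {w : ℤ} {η αw αk αk' : ℝ} (hη : 0 < η)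
    (h : |(cv : ℝ) / (2 ^ σ : ℕ) - αw * (2 : ℝ) ^ (-w)| ≤ 2 * η)
    (hp : 32 * η ≤ αw * (2 : ℝ) ^ (-w)) (h1 : αk ≤ 2 * αw) (h2 : αw ≤ 2 * αk)
    (h3 : αk / 2 ≤ αk') (h4 : αk' ≤ 2 * αk) :
    (2 : ℝ) ^ (w + Nat.size cv - σ - 1 - 4) ≤ αk' ∧
      αk' ≤ (2 : ℝ) ^ (w + Nat.size cv - σ - 1 + 4) := by
  obtain ⟨a1, a2⟩ := abs_le.1 h
  set p := αw * (2 : ℝ) ^ (-w) with hpd
  have hS : (0 : ℝ) < (2 ^ σ : ℕ) := by (clear * -; positivity)
  have hSe : ((2 ^ σ : ℕ) : ℝ) = (2 : ℝ) ^ (σ : ℤ) := by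
    rw [zpow_natCast]; push_cast; rfl
  have hq : 0 < (cv : ℝ) / (2 ^ σ : ℕ) := by (clear * - hη hp a1; linarith)
  have hcv : 0 < cv := by
    rcases Nat.eq_zero_or_pos cv with h0 | h0
    · rw [h0] at hq
      simp at hq
    · exact h0
  obtain ⟨s, hs⟩ : ∃ s, Nat.size cv = s + 1 :=
    ⟨Nat.size cv - 1, by have := Nat.size_pos.2 hcv; omega⟩
  have hlo : 2 ^ s ≤ cv := Nat.lt_size.1 (by omega)
  have hhi : cv < 2 ^ (s + 1) := by
    rw [← hs]
    exact Nat.lt_size_self cv
  have hlo' : (2 : ℝ) ^ (s : ℤ) ≤ cv := by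
    rw [zpow_natCast]
    exact_mod_cast hlo
  have hhi' : (cv : ℝ) ≤ (2 : ℝ) ^ ((s : ℤ) + 1) := by
    rw [zpow_add₀ (by norm_num), zpow_natCast, zpow_one, ← pow_succ]
    exact_mod_cast hhi.le
  have ht : w + ((s + 1 : ℕ) : ℤ) - σ - 1 = w + s - σ := by push_cast; ring
  have e1 : (2 : ℝ) ^ (w + s - σ) = (2 : ℝ) ^ w * ((2 : ℝ) ^ (s : ℤ) / (2 : ℝ) ^ (σ : ℤ)) := by
    rw [zpow_sub₀ (by norm_num), zpow_add₀ (by norm_num)]
    ring
  have hw : (0 : ℝ) < (2 : ℝ) ^ w := by positivity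
  have hαw : αw = p * (2 : ℝ) ^ w := by
    rw [hpd, mul_assoc, ← zpow_add₀ (by norm_num)]
    simp
  have e2 : (2 : ℝ) ^ (w + s - σ) ≤ αw * (17 / 16) := by
    rw [e1, hαw]
    have h5 : (2 : ℝ) ^ (s : ℤ) / (2 : ℝ) ^ (σ : ℤ) ≤ cv / (2 ^ σ : ℕ) := by
      rw [hSe]
      (clear * - hlo'; gcongr)
    have h6 : (cv : ℝ) / (2 ^ σ : ℕ) ≤ p * (17 / 16) := by linarith only [hp, a2]
    calc (2 : ℝ) ^ w * ((2 : ℝ) ^ (s : ℤ) / (2 : ℝ) ^ (σ : ℤ)) ≤ (2 : ℝ) ^ w * (p * (17 / 16)) := by
          gcongr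
          exact h5.trans h6
      _ = p * (2 : ℝ) ^ w * (17 / 16) := by ring
  have e3 : αw * (15 / 16) ≤ 2 * (2 : ℝ) ^ (w + s - σ) := by
    rw [e1, hαw]
    have h5 : (cv : ℝ) / (2 ^ σ : ℕ) ≤ 2 * ((2 : ℝ) ^ (s : ℤ) / (2 : ℝ) ^ (σ : ℤ)) := by
      rw [hSe, ← mul_div_assoc]
      gcongr
      rw [zpow_add₀ (by norm_num), zpow_one] at hhi'
      linarith only [hhi']
    have h6 : p * (15 / 16) ≤ (cv : ℝ) / (2 ^ σ : ℕ) := by linarith only [hp, a1]
    calc p * (2 : ℝ) ^ w * (15 / 16) = (2 : ℝ) ^ w * (p * (15 / 16)) := by ring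
      _ ≤ (2 : ℝ) ^ w * (2 * ((2 : ℝ) ^ (s : ℤ) / (2 : ℝ) ^ (σ : ℤ))) :=
          mul_le_mul_of_nonneg_left (h6.trans h5) hw.le
      _ = _ := by ring
  have hpos : (0 : ℝ) < (2 : ℝ) ^ (w + s - σ) := by positivity
  rw [hs, ht]
  have f1 : (2 : ℝ) ^ (w + s - σ - 4) = (2 : ℝ) ^ (w + s - σ) / 16 := by
    rw [zpow_sub₀ (by norm_num)]
    norm_num
  have f2 : (2 : ℝ) ^ (w + s - σ + 4) = (2 : ℝ) ^ (w + s - σ) * 16 := by
    rw [zpow_add₀ (by norm_num)]
    norm_num
  rw [f1, f2]
  constructor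
  · (clear * - h2 h3 e2 hpos; linarith)
  · linarith only [h1, h4, e3, hpos]

/-! ### One stage -/

section Stage

variable {R : List Raw} {P : Par} {c1 : ℕ} {η : ℝ}

theorem prob_const (L : ℕ) (p : Prop) [Decidable p] :
    prob L (fun _ => p) = if p then 1 else 0 := by
  classical
  rw [prob_eq_sum]
  split_ifs with h
  · simp only [sum_const, card_words, nsmul_eq_mul, Nat.cast_pow, Nat.cast_ofNat, mul_one, ne_eq, pow_eq_zero_iff', OfNat.ofNat_ne_zero, false_and, not_false_eq_true, div_self]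
  · simp

/-- Analysis of one stage. -/
theorem stage_good (hR : ∀ x y, adj R x y = adj R y x) (hn : Even R.length) (h2 : 2 ≤ R.length)
    (hP : ParOK c1 R.length P η) {j : ℕ} {A : List ℕ} (hA : EstOK R P.W P.F j A)
    (hW : ∀ r : Fin R.length, (r : ℕ) = 0 →
      WOK (kZ R P.W j) (toZ P.F (impS R P j A)) (fun u => (A.getD u 0 : ℤ) - P.F) P.c r)
    (hrun : ∀ u, ∃ M : PM R.length, runM R.length P.b P.ℓ P.T (impS R P j A) u = toL M)
    (hmix : Mixed R P η j A) (u : List Bool)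
    (hbad : ∀ τ < R.length + 2, |((((List.range (2 ^ P.σ)).filter fun q =>
      tst R.length P.b P.ℓ P.T P.L P.F (schM R P.W j) (schM R P.W (j + 1)) (impS R P j A) τ
        ((u.drop (q * (P.T * P.ℓ + P.L))).take (P.T * P.ℓ + P.L))).length : ℕ) : ℝ) /
          (2 ^ P.σ : ℕ) -
      prob (P.T * P.ℓ + P.L) (fun v => tst R.length P.b P.ℓ P.T P.L P.F (schM R P.W j)
        (schM R P.W (j + 1)) (impS R P j A) τ v = true)| < η) :
    ∃ (A' : List ℕ) (cA cB : ℕ), 0 < cA ∧ 0 < cB ∧
      (1 - 32 * η) * (Zs R P.W (j + 1) / Zs R P.W j) ≤ (cB : ℝ) / cA ∧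
      (cB : ℝ) / cA ≤ (1 + 32 * η) * (Zs R P.W (j + 1) / Zs R P.W j) ∧
      EstOK R P.W P.F (j + 1) A' ∧
      ∀ x y : ℕ, stage R P ((A, (j, (x, y))), ⟨u⟩) =
        ((A', (j + 1, (x * cB, y * cA))), ⟨u.drop (2 ^ P.σ * (P.T * P.ℓ + P.L))⟩) := by
  obtain ⟨a0, b0, hstep⟩ := kZ_step hR (by omega) P.W j
  set n := R.length with hnd
  set K := schM R P.W j with hK
  set K' := schM R P.W (j + 1) with hK'
  set E := impS R P j A with hE
  set S := 2 ^ P.σ with hS
  have hS0 : (0 : ℝ) < (S : ℕ) := by rw [hS]; positivity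
  have hη0 := hP.ηpos
  have hηc : η * 2 ^ (P.c + 10) ≤ 1 := hP.ηle
  have hη1 : η ≤ 1 / 1024 := by
    have h3 : (1024 : ℝ) ≤ 2 ^ (P.c + 10) := by
      calc (1024 : ℝ) = 2 ^ 10 := by norm_num
        _ ≤ 2 ^ (P.c + 10) := pow_le_pow_right₀ (by norm_num) (by omega)
    rw [le_div_iff₀ (by norm_num)]
    nlinarith only [hηc, h3]
  -- the counts
  set c : ℕ → ℕ := fun τ => cnt n P.b P.ℓ P.T P.L P.F S K K' E τ u with hc
  have hbad' : ∀ τ < n + 2, |((c τ : ℕ) : ℝ) / (S : ℕ) - prob (P.T * P.ℓ + P.L) (fun v =>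
      tst n P.b P.ℓ P.T P.L P.F K K' E τ v = true)| < η := hbad
  set r : Fin n := ⟨0, by omega⟩ with hr
  set k : Fin n → Fin n → ℤ := kZ R P.W j with hk
  set k' : Fin n → Fin n → ℤ := kZ R P.W (j + 1) with hk'
  set w : Fin n → Fin n → ℤ := toZ P.F E with hw
  have hWr := hW r rfl
  have hkk : ∀ x y, k x y ≤ k' x y := by
    intro x y
    rcases hstep.step x y with h | h
    · exact h.ge
    · rw [h.1]; omega
  have hZk : 0 < Zf k := Zf_pos hn k
  have hZw : 0 < Zf w := Zf_pos hn w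
  have hewk : ∀ M : PM n, ew w M ≤ ew k M := fun M => ew_mono hWr.le M
  have hewk' : ∀ M : PM n, ew w M ≤ ew k' M := fun M =>
    (hewk M).trans (ew_mono (fun x y _ => hkk x y) M)
  -- number of bits of the acceptance tests
  have hbits : ∀ (K₁ : List (List ℕ)), (∀ x y, ent K₁ x y ≤ P.W) → ∀ M : PM n,
      ex K₁ (toL M) + n / 2 * P.F - ex E (toL M) ≤ P.L := by
    intro K₁ hK₁ M
    have h3 := ex_toL_le hK₁ M
    have h4 : n / 2 * P.F ≤ n * P.F := Nat.mul_le_mul_right _ (Nat.div_le_self _ _)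
    have h5 := hP.L
    have h6 : n * (P.W + P.F) = n * P.W + n * P.F := by ring
    omega
  -- probabilities of the tests
  have pA : |prob (P.T * P.ℓ + P.L) (fun v => tst n P.b P.ℓ P.T P.L P.F K K' E n v = true) -
      Zf k / Zf w| ≤ η := by
    have h3 := prob_test (K := K) (K' := K') (L := P.L) (F := P.F) hrun (fun s => s.2.1)
      (fun M => (2 : ℝ) ^ (-(ew k M - ew w M))) (fun M => by
        rw [prob_ones (hbits K (ent_schM_le R P.W j) M)]
        exact congrArg (fun z : ℤ => (2 : ℝ) ^ (-z))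
          (test_exp (F := P.F) (K := K) (E := E) (M := M) (hewk M)))
    have h4 : prob (P.T * P.ℓ + P.L) (fun v => tst n P.b P.ℓ P.T P.L P.F K K' E n v = true) =
        prob (P.T * P.ℓ + P.L) (fun u => (smp n P.b P.ℓ P.T P.L P.F K K' E ⟨u⟩).2.1 = true) := by
      refine prob_congr _ fun v _ => ?_
      simp [tst]
    rw [h4, h3, ← ideal_accept w k]
    refine abs_sum_sub_le hmix (fun M => by positivity) fun M => ?_
    apply zpow_le_one_of_nonpos₀ (by norm_num)
    have := hewk M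
    omega
  have pB : |prob (P.T * P.ℓ + P.L) (fun v => tst n P.b P.ℓ P.T P.L P.F K K' E (n + 1) v = true) -
      Zf k' / Zf w| ≤ η := by
    have h3 := prob_test (K := K) (K' := K') (L := P.L) (F := P.F) hrun (fun s => s.2.2)
      (fun M => (2 : ℝ) ^ (-(ew k' M - ew w M))) (fun M => by
        rw [prob_ones (hbits K' (ent_schM_le R P.W (j + 1)) M)]
        exact congrArg (fun z : ℤ => (2 : ℝ) ^ (-z))
          (test_exp (F := P.F) (K := K') (E := E) (M := M) (hewk' M)))
    have h4 : prob (P.T * P.ℓ + P.L)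
        (fun v => tst n P.b P.ℓ P.T P.L P.F K K' E (n + 1) v = true) =
        prob (P.T * P.ℓ + P.L) (fun u => (smp n P.b P.ℓ P.T P.L P.F K K' E ⟨u⟩).2.2 = true) := by
      refine prob_congr _ fun v _ => ?_
      simp [tst]
    rw [h4, h3, ← ideal_accept w k']
    refine abs_sum_sub_le hmix (fun M => by positivity) fun M => ?_
    apply zpow_le_one_of_nonpos₀ (by norm_num)
    have := hewk' M
    omega
  have pU : ∀ v : Fin n, |prob (P.T * P.ℓ + P.L)
      (fun z => tst n P.b P.ℓ P.T P.L P.F K K' E v z = true) -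
      alpha w r v * (2 : ℝ) ^ (-(w r v))| ≤ η := by
    intro v
    have h3 := prob_test (K := K) (K' := K') (L := P.L) (F := P.F) hrun
      (fun s => decide (prt s.1 0 = (v : ℕ)))
      (fun M => if M.1 r = v then (1 : ℝ) else 0) (fun M => by
        have h5 : prt (toL M) 0 = M.1 r := prt_toL M r
        simp only [h5, decide_eq_true_eq, Fin.val_inj]
        exact prob_const _ _)
    have h4 : prob (P.T * P.ℓ + P.L) (fun z => tst n P.b P.ℓ P.T P.L P.F K K' E v z = true) =
        prob (P.T * P.ℓ + P.L) (fun u =>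
          decide (prt (smp n P.b P.ℓ P.T P.L P.F K K' E ⟨u⟩).1 0 = (v : ℕ)) = true) := by
      refine prob_congr _ fun z _ => ?_
      simp [tst, v.2]
    rw [h4, h3, ← ideal_root w r v]
    refine abs_sum_sub_le hmix (fun M => ?_) fun M => ?_
    · split_ifs <;> norm_num
    · split_ifs <;> norm_num
  -- the two ratios
  have dA : |((c n : ℕ) : ℝ) / (S : ℕ) - Zf k / Zf w| ≤ 2 * η := by
    have := abs_sub_le (((c n : ℕ) : ℝ) / (S : ℕ)) (prob (P.T * P.ℓ + P.L) (fun v =>
      tst n P.b P.ℓ P.T P.L P.F K K' E n v = true)) (Zf k / Zf w)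
    have h5 := hbad' n (by omega)
    linarith only [pA, this, h5]
  have dB : |((c (n + 1) : ℕ) : ℝ) / (S : ℕ) - Zf k' / Zf w| ≤ 2 * η := by
    have := abs_sub_le (((c (n + 1) : ℕ) : ℝ) / (S : ℕ)) (prob (P.T * P.ℓ + P.L) (fun v =>
      tst n P.b P.ℓ P.T P.L P.F K K' E (n + 1) v = true)) (Zf k' / Zf w)
    have h5 := hbad' (n + 1) (by omega)
    linarith only [pB, this, h5]
  have hZ1 : 1 / 2 ≤ Zf k / Zf w := by
    rw [div_le_div_iff₀ (by norm_num) hZw]
    have := hWr.Z2
    linarith only [this]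
  have hZ2 : 1 / 4 ≤ Zf k' / Zf w := by
    rw [div_le_div_iff₀ (by norm_num) hZw]
    have h5 := hWr.Z2
    have h6 := hstep.Zf_le.1
    linarith only [h5, h6]
  obtain ⟨r1, r2, r3, r4⟩ := ratio_bound hS0 hη0 (by linarith only [hη1]) dA dB hZ1 hZ2
  have hrat : (Zf k' / Zf w) / (Zf k / Zf w) = Zs R P.W (j + 1) / Zs R P.W j := by
    have : (Zf k' / Zf w) / (Zf k / Zf w) = Zf k' / Zf k := by (clear * - hZw hZk; field_simp)
    rw [this]
    rfl
  rw [hrat] at r3 r4
  -- the new estimates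
  set X := smps n P.b P.ℓ P.T P.L P.F S K K' E ⟨u⟩ with hX
  refine ⟨newA n P.σ E X, c n, c (n + 1), by exact_mod_cast r1, by exact_mod_cast r2, r3, r4,
    ?_, ?_⟩
  · intro r' v hr' hv
    have hrr : r' = r := Fin.ext (by rw [hr', hr])
    subst hrr
    have hv0 : (v : ℕ) ≠ 0 := fun h => hv (Fin.ext (by rw [h]))
    have e1 : (newA n P.σ E X).getD v 0 = ent E 0 v + Nat.size (c v) - (P.σ + 1) := by
      have h5 : cntU X v = c v := cntU_eq n P.b P.ℓ P.T P.L P.F S K K' E u v.2
      unfold newA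
      rw [List.getD_eq_getElem?_getD, List.getElem?_map, List.getElem?_range v.2]
      simp only [Option.map_some, hv0, ↓reduceIte, h5, Option.getD_some]
    have dU : |((c v : ℕ) : ℝ) / (S : ℕ) - alpha w r v * (2 : ℝ) ^ (-(w r v))| ≤ 2 * η := by
      have := abs_sub_le (((c v : ℕ) : ℝ) / (S : ℕ)) (prob (P.T * P.ℓ + P.L) (fun z =>
        tst n P.b P.ℓ P.T P.L P.F K K' E v z = true)) (alpha w r v * (2 : ℝ) ^ (-(w r v)))
      have h5 := hbad' v (by have := v.2; omega)
      have h6 := pU v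
      linarith only [this, h5, h6]
    have hlow : 32 * η ≤ alpha w r v * (2 : ℝ) ^ (-(w r v)) := by
      have h5 := (hA r v rfl hv).1
      have h6 := hWr.a1 v hv
      have h7 := hWr.root v hv
      have h8 : (2 : ℝ) ^ (-(P.c : ℤ) - 5) ≤ alpha w r v * (2 : ℝ) ^ (-(w r v)) := by
        have h9 : (2 : ℝ) ^ (((A.getD v 0 : ℤ) - P.F) - 5) ≤ alpha w r v := by
          have h10 : (2 : ℝ) ^ (((A.getD v 0 : ℤ) - P.F) - 5) * 2 =
              (2 : ℝ) ^ ((A.getD v 0 : ℤ) - P.F - 4) := by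
            rw [← zpow_add_one₀ (by norm_num)]
            congr 1
            ring
          linarith only [h5, h6, h10]
        calc (2 : ℝ) ^ (-(P.c : ℤ) - 5) =
            (2 : ℝ) ^ (((A.getD v 0 : ℤ) - P.F) - 5) *
              (2 : ℝ) ^ (-(((A.getD v 0 : ℤ) - P.F) + P.c)) := by
              rw [← zpow_add₀ (by norm_num)]
              congr 1
              ring
          _ ≤ alpha w r v * (2 : ℝ) ^ (-(w r v)) := by
              apply mul_le_mul h9 _ (by positivity) (alpha_nonneg w r v)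
              apply zpow_le_zpow_right₀ (by norm_num)
              have h7' : w r v ≤ ((A.getD v 0 : ℤ) - P.F) + P.c := h7
              omega
      refine le_trans ?_ h8
      have h11 : (2 : ℝ) ^ (-(P.c : ℤ) - 5) = 32 * (1 / 2 ^ (P.c + 10)) := by
        rw [zpow_sub₀ (by norm_num), zpow_neg, zpow_natCast, pow_add]
        norm_num
        field_simp
        norm_num
      rw [h11]
      gcongr
      rw [le_div_iff₀ (by positivity)]
      exact hηc
    have key := est_bound (cv := c v) (σ := P.σ) hη0 dU hlow (hWr.a1 v hv) (hWr.a2 v hv)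
      (hstep.alpha_le hn r v).1 (hstep.alpha_le hn r v).2
    have hge : -(n * P.W + n * Nat.size n : ℤ) ≤ w r v + Nat.size (c v) - P.σ - 1 + 4 := by
      have h5 := (alpha_bounds hn (k := k') (W := P.W) (fun x y _ => kZ_nonneg R P.W (j + 1) x y)
        (fun x y _ => kZ_le R P.W (j + 1) x y) hv).1
      have h6 := h5.trans key.2
      exact (zpow_le_zpow_iff_right₀ (by norm_num : (1 : ℝ) < 2)).1 h6
    have hF := hP.F
    have e2 : (((newA n P.σ E X).getD v 0 : ℕ) : ℤ) - P.F =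
        w r v + Nat.size (c v) - P.σ - 1 := by
      rw [e1]
      have h5 : w r v = (ent E 0 v : ℤ) - P.F := rfl
      rw [h5] at hge ⊢
      have h6 : (8 * (n * P.W + n * Nat.size n + P.W + 8) : ℤ) ≤ P.F := by exact_mod_cast hF
      have h7 : (0 : ℤ) ≤ n * P.W + n * Nat.size n := by (clear * - h2; positivity)
      have h8 : (0 : ℤ) ≤ P.W := by (clear * -; positivity)
      omega
    rw [e2]
    exact key
  · intro x y
    have eA : cntA X = c n := cntA_eq n P.b P.ℓ P.T P.L P.F S K K' E u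
    have eB : cntB X = c (n + 1) := cntB_eq n P.b P.ℓ P.T P.L P.F S K K' E u
    rw [← eA, ← eB]
    rfl

/-- The estimate after one stage. -/
theorem good_step {W : ℕ} {θ : ℝ} {K j x y cA cB : ℕ} (hn : Even R.length) (hθ0 : 0 ≤ θ)
    (hθ1 : θ ≤ 1) (hA : 0 < cA) (hB : 0 < cB)
    (h1 : (1 - θ) * (Zs R W (j + 1) / Zs R W j) ≤ (cB : ℝ) / cA)
    (h2 : (cB : ℝ) / cA ≤ (1 + θ) * (Zs R W (j + 1) / Zs R W j)) (hx : 0 < x) (hy : 0 < y)
    {z : ℕ × ℕ} (hz : Good R W θ K (j + 1) (x * cB) (y * cA) z) : Good R W θ (K + 1) j x y z := by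
  obtain ⟨g1, g2, g3⟩ := hz
  have hxr : (0 : ℝ) < x := by exact_mod_cast hx
  have hyr : (0 : ℝ) < y := by exact_mod_cast hy
  have hAr : (0 : ℝ) < cA := by exact_mod_cast hA
  have hBr : (0 : ℝ) < cB := by exact_mod_cast hB
  have hZ0 : 0 < Zs R W j := Zf_pos hn _
  have hZ1 : 0 < Zs R W (j + 1) := Zf_pos hn _
  have hZ2 : 0 < Zs R W (j + 1 + K) := Zf_pos hn _
  have e0 : j + (K + 1) = j + 1 + K := by ring
  have e1 : ((x * cB : ℕ) : ℝ) / ((y * cA : ℕ) : ℝ) = (x / y) * (cB / cA) := by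
    push_cast
    field_simp
  refine ⟨g1, le_trans ?_ g2, g3.trans ?_⟩
  · rw [e0, e1, pow_succ]
    calc (1 - θ) ^ K * (1 - θ) * (Zs R W (j + 1 + K) / Zs R W j * ((x : ℝ) / y))
        = (1 - θ) ^ K * (Zs R W (j + 1 + K) / Zs R W (j + 1) * ((x : ℝ) / y)) *
            ((1 - θ) * (Zs R W (j + 1) / Zs R W j)) := by
          (clear * - hZ1 hy hx hZ0 hZ2; field_simp)
      _ ≤ (1 - θ) ^ K * (Zs R W (j + 1 + K) / Zs R W (j + 1) * ((x : ℝ) / y)) *
            ((cB : ℝ) / cA) := by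
          apply mul_le_mul_of_nonneg_left h1
          have : 0 ≤ (1 - θ) ^ K := pow_nonneg (by linarith only [hθ1]) K
          (clear * - hθ1 hZ2 hZ1 hx hy; positivity)
      _ = _ := by ring
  · rw [e0, e1, pow_succ]
    calc (1 + θ) ^ K * (Zs R W (j + 1 + K) / Zs R W (j + 1) * ((x : ℝ) / y * ((cB : ℝ) / cA)))
        = (1 + θ) ^ K * (Zs R W (j + 1 + K) / Zs R W (j + 1) * ((x : ℝ) / y)) *
            ((cB : ℝ) / cA) := by ring
      _ ≤ (1 + θ) ^ K * (Zs R W (j + 1 + K) / Zs R W (j + 1) * ((x : ℝ) / y)) *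
            ((1 + θ) * (Zs R W (j + 1) / Zs R W j)) := by
          apply mul_le_mul_of_nonneg_left h2
          (clear * - hθ0 hZ2 hZ1 hx hy; positivity)
      _ = _ := by
          (clear * - hZ1 hZ0 hy hx hZ2 hθ0; field_simp)

/-- Analysis of all stages. -/
theorem rounds_good (hR : ∀ x y, adj R x y = adj R y x) (hn : Even R.length) (h2 : 2 ≤ R.length)
    (hP : ParOK c1 R.length P η)
    (hW : ∀ j A, EstOK R P.W P.F j A → ∀ r : Fin R.length, (r : ℕ) = 0 →
      WOK (kZ R P.W j) (toZ P.F (impS R P j A)) (fun u => (A.getD u 0 : ℤ) - P.F) P.c r)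
    (hrun : ∀ j A u, ∃ M : PM R.length, runM R.length P.b P.ℓ P.T (impS R P j A) u = toL M)
    (hmix : ∀ j A, EstOK R P.W P.F j A → Mixed R P η j A) :
    ∀ (K j s : ℕ) (A : List ℕ) (x y : ℕ), EstOK R P.W P.F j A → 0 < x → 0 < y →
      prob (K * (2 ^ P.σ * (P.T * P.ℓ + P.L)) + s) (fun w => ¬ Good R P.W (32 * η) K j x y
        ((stage R P)^[K] ((A, (j, (x, y))), ⟨w⟩)).1.2.2) ≤
        K * ((R.length + 2 : ℕ) * (2 * Real.exp (-(((2 ^ P.σ : ℕ) : ℝ) * η ^ 2 / 4)))) := by
  have hη0 := hP.ηpos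
  have hη1 : η ≤ 1 / 1024 := by
    have h3 : (1024 : ℝ) ≤ 2 ^ (P.c + 10) := by
      calc (1024 : ℝ) = 2 ^ 10 := by norm_num
        _ ≤ 2 ^ (P.c + 10) := pow_le_pow_right₀ (by norm_num) (by omega)
    have := hP.ηle
    rw [le_div_iff₀ (by norm_num)]
    nlinarith only [this, h3]
  intro K
  induction K with
  | zero =>
    intro j s A x y _ hx hy
    have hZ0 : 0 < Zs R P.W j := Zf_pos hn _
    have h1 : ∀ w : List Bool, Good R P.W (32 * η) 0 j x y
        ((stage R P)^[0] ((A, (j, (x, y))), ⟨w⟩)).1.2.2 := by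
      intro w
      refine ⟨hy, ?_, ?_⟩ <;>
      simp [div_self hZ0.ne']
    simp only [h1, not_true, Nat.cast_zero, zero_mul]
    rw [prob]
    simp
  | succ K ih =>
    intro j s A x y hA hx hy
    set D := 2 ^ P.σ * (P.T * P.ℓ + P.L) with hD
    set β := ((R.length + 2 : ℕ) : ℝ) * (2 * Real.exp (-(((2 ^ P.σ : ℕ) : ℝ) * η ^ 2 / 4)))
      with hβ
    have e1 : (K + 1) * D + s = D + (K * D + s) := by ring
    have e2 : ((K + 1 : ℕ) : ℝ) * β = β + K * β := by push_cast; ring
    rw [e1, e2]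
    refine prob_add_le D (K * D + s) (fun u => ∃ τ < R.length + 2,
      η ≤ |((((List.range (2 ^ P.σ)).filter fun q =>
      tst R.length P.b P.ℓ P.T P.L P.F (schM R P.W j) (schM R P.W (j + 1)) (impS R P j A) τ
        ((u.drop (q * (P.T * P.ℓ + P.L))).take (P.T * P.ℓ + P.L))).length : ℕ) : ℝ) /
          (2 ^ P.σ : ℕ) -
      prob (P.T * P.ℓ + P.L) (fun v => tst R.length P.b P.ℓ P.T P.L P.F (schM R P.W j)
        (schM R P.W (j + 1)) (impS R P j A) τ v = true)|) _ (by (clear * - h2; positivity)) ?_ ?_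
    · rw [hβ]
      exact prob_exists_le _ _ _ fun τ _ => prob_count_dev (P.T * P.ℓ + P.L) (2 ^ P.σ)
        (by positivity) _ hη0 (by linarith only [hη1])
    · intro u hu hbad
      push Not at hbad
      obtain ⟨A', cA, cB, p1, p2, p3, p4, p5, p6⟩ := stage_good hR hn h2 hP hA (hW j A hA)
        (hrun j A) (hmix j A hA) u hbad
      refine le_trans (prob_mono _ fun v _ hv => ?_) (ih (j + 1) s A' (x * cB) (y * cA) p5
        (by (clear * - hx p2; positivity)) (by (clear * - hy p1; positivity)))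
      intro hgood
      apply hv
      rw [iterate_succ_apply, stage_append R P _ hu v, p6 x y]
      exact good_step hn (by linarith only [hη0]) (by linarith only [hη1]) p1 p2 p3 p4 hx hy hgood

end Stage

end Vale.Agent.P308.Alg
end

section

/-!
# P308: the improved exponents satisfy what the stage analysis uses
-/

namespace Vale.Agent.P308.Alg

open Vale.Agent.Lib.PolyTime Finset Function

variable {R : List Raw} {P : Par} {c1 : ℕ} {η : ℝ} {j : ℕ} {A : List ℕ}

theorem ent_schM_symm (hR : ∀ x y, adj R x y = adj R y x) (W j x y : ℕ) :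
    ent (schM R W j) x y = ent (schM R W j) y x := by
  by_cases h : x < R.length ∧ y < R.length
  · rw [schM, ent_mk _ h.1 h.2, ent_mk _ h.2 h.1, sch_symm hR]
  · have h' : ¬ (y < R.length ∧ x < R.length) := fun h2 => h ⟨h2.2, h2.1⟩
    rw [schM, ent_mk_eq_zero _ h, ent_mk_eq_zero _ h']

/-- The number `H` of `CloOK`. -/
def Hof (n W : ℕ) : ℕ := n * W + n * Nat.size n + W + 4

theorem cloOK (hR : ∀ x y, adj R x y = adj R y x) (hn : Even R.length) (h2 : 2 ≤ R.length)
    (hF : 8 * (R.length * P.W + R.length * Nat.size R.length + P.W + 8) ≤ P.F)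
    (hA : EstOK R P.W P.F j A) :
    CloOK R.length (schM R P.W j) A P.F P.W (Hof R.length P.W) := by
  refine ⟨ent_schM_symm hR P.W j, ent_schM_le R P.W j, ?_, ?_⟩
  · intro x hx0 hx
    have hr : ((⟨0, by omega⟩ : Fin R.length) : ℕ) = 0 := rfl
    have hne : (⟨x, hx⟩ : Fin R.length) ≠ ⟨0, by omega⟩ := by
      intro h
      have := congrArg Fin.val h
      simp only at this
      omega
    have h3 := hA ⟨0, by omega⟩ ⟨x, hx⟩ rfl hne
    have h4 := alpha_bounds hn (k := kZ R P.W j) (W := P.W)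
      (fun x y _ => kZ_nonneg R P.W j x y) (fun x y _ => kZ_le R P.W j x y) hne
    have h5 := (zpow_le_zpow_iff_right₀ (by norm_num : (1 : ℝ) < 2)).1 (h3.1.trans h4.2)
    have h6 := (zpow_le_zpow_iff_right₀ (by norm_num : (1 : ℝ) < 2)).1 (h4.1.trans h3.2)
    simp only at h5 h6
    unfold Hof
    have h7 : ((R.length * P.W + R.length * Nat.size R.length : ℕ) : ℤ) =
        (R.length : ℤ) * P.W + R.length * Nat.size R.length := by push_cast; ring
    rw [← h7] at h6
    generalize R.length * P.W + R.length * Nat.size R.length = q at *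
    omega
  · unfold Hof
    generalize R.length * P.W + R.length * Nat.size R.length = q at *
    omega

/-- The data of stage `j`. -/
theorem stageData (hR : ∀ x y, adj R x y = adj R y x) (hn : Even R.length) (h2 : 2 ≤ R.length)
    (hF : 8 * (R.length * P.W + R.length * Nat.size R.length + P.W + 8) ≤ P.F)
    (hA : EstOK R P.W P.F j A) [NeZero R.length] :
    StageData (0 : Fin R.length) (kZ R P.W j) (fun u => (A.getD u 0 : ℤ) - P.F)
      (fun x y => (ent ((clo R.length)^[cloN R.length P.F P.W]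
        (rho R.length P.F (schM R P.W j) A)) x y : ℤ) - 3 * P.F) where
  symm := kZ_symm hR P.W j
  nonneg := kZ_nonneg R P.W j
  est := fun u hu => hA 0 u (by simp) hu
  bottle := closure_isBottle (cloOK hR hn h2 hF hA)

/-- The improved exponents of stage `j`, as integer function. -/
theorem toZ_impS (hR : ∀ x y, adj R x y = adj R y x) (hn : Even R.length) (h2 : 2 ≤ R.length)
    (hF : 8 * (R.length * P.W + R.length * Nat.size R.length + P.W + 8) ≤ P.F)
    (hA : EstOK R P.W P.F j A) [NeZero R.length] (x y : Fin R.length) (hxy : x ≠ y) :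
    toZ P.F (impS R P j A) x y = impZ (0 : Fin R.length) (kZ R P.W j)
      (fun u => (A.getD u 0 : ℤ) - P.F)
      (fun x y => (ent ((clo R.length)^[cloN R.length P.F P.W]
        (rho R.length P.F (schM R P.W j) A)) x y : ℤ) - 3 * P.F) P.c x y := by
  unfold toZ impS
  rw [imp_eq (cloOK hR hn h2 hF hA) P.c x y hxy, add_sub_cancel_left]
  rfl

theorem wok (hM1 : M1 c1) (hR : ∀ x y, adj R x y = adj R y x) (hn : Even R.length)
    (h2 : 2 ≤ R.length) (hP : ParOK c1 R.length P η) (hA : EstOK R P.W P.F j A)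
    (r : Fin R.length) (hr : (r : ℕ) = 0) :
    WOK (kZ R P.W j) (toZ P.F (impS R P j A)) (fun u => (A.getD u 0 : ℤ) - P.F) P.c r := by
  haveI : NeZero R.length := ⟨by omega⟩
  have hr0 : r = 0 := Fin.ext (by rw [hr]; simp)
  subst hr0
  have hcongr : ∀ x y, x ≠ y → toZ P.F (impS R P j A) x y = _ :=
    fun x y hxy => toZ_impS hR hn h2 hP.F hA x y hxy
  obtain ⟨m1, m2, m3⟩ := hM1 R.length 0 (kZ R P.W j) (fun u => (A.getD u 0 : ℤ) - P.F)
    (fun x y => (ent ((clo R.length)^[cloN R.length P.F P.W]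
        (rho R.length P.F (schM R P.W j) A)) x y : ℤ) - 3 * P.F) P.c hn
    (stageData hR hn h2 hP.F hA) (by rw [hP.c]; push_cast; exact le_rfl)
  refine ⟨?_, ?_, ?_, ?_, ?_, ?_⟩
  · intro x y hxy
    rw [hcongr x y hxy]
    exact min_le_left _ _
  · intro u hu
    rw [hcongr 0 u hu.symm]
    refine (min_le_right _ _).trans ?_
    rw [if_pos rfl]
  · rw [Zf_congr hcongr]
    exact m1
  · rw [Zf_congr hcongr]
    exact m2
  · intro u hu
    rw [alpha_congr hcongr hu]
    exact (m3 u hu).1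
  · intro u hu
    rw [alpha_congr hcongr hu]
    exact (m3 u hu).2

end Vale.Agent.P308.Alg
end

section

/-!
# P308: the chain of every stage is well mixed
-/

namespace Vale.Agent.P308.Alg

open Vale.Agent.Lib.PolyTime Finset

variable {n : ℕ}

theorem impZ_symm' {r : Fin n} {k : Fin n → Fin n → ℤ} {A : Fin n → ℤ} {B : Fin n → Fin n → ℤ}
    (hk : ∀ x y, k x y = k y x) (hB : ∀ x y, B x y = B y x) (c : ℤ) (x y : Fin n) :
    impZ r k A B c x y = impZ r k A B c y x := by
  unfold impZ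
  rw [hk x y, hB x y]
  by_cases hx : x = r
  · by_cases hy : y = r
    · simp only [hy, hx, ↓reduceIte]
    · simp only [hx, ↓reduceIte, hy]
  · by_cases hy : y = r
    · simp only [hy, hx, ↓reduceIte]
    · simp only [hx, ↓reduceIte, hy, add_comm (A x)]

/-- The general form: mixing of the chain for the matrix `E` which represents the improved
exponents. -/
theorem mixed_core {c1 C : ℕ} (hM2 : M2 c1 C) (hn : Even n) {W F c b ℓ T : ℕ}
    {r : Fin n} {k : Fin n → Fin n → ℤ} {A : Fin n → ℤ} {B : Fin n → Fin n → ℤ}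
    (hD : StageData r k A B) (hc : c = c1 * (Nat.size n + 1)) (hb : b = Nat.size n)
    (hℓ : 2 * b + 2 * (W + F) + 1 ≤ ℓ) {η : ℝ} (hη : 0 < η) (hη1 : η ≤ 1)
    (hT : (2 : ℝ) ^ (C * (Nat.size n + 1) ^ 2 + 2 * Nat.size n + 1) *
      ((4 * n * (W + F + Nat.size n) : ℕ) + 4 * Real.logb 2 (1 / η)) ≤ T)
    {E : List (List ℕ)} (hE : ∀ x y : Fin n, x ≠ y → (ent E x y : ℤ) = F + impZ r k A B c x y)
    (hEle : ∀ x y : Fin n, x ≠ y → ent E x y ≤ W + F) :
    ∑ M : PM n, |rlaw n b ℓ T E M - law (impZ r k A B c) M| ≤ η := by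
  have hb2 : n ≤ 2 ^ b := by rw [hb]; exact (Nat.lt_size_self n).le
  have hrep : St.Rep E (impZ r k A B c) (F : ℤ) :=
    ⟨impZ_symm' hD.symm hD.bottle.symm c, fun x y h => hE x y h⟩
  have hen : St.Enough n b ℓ E := St.enough_of_le (D := W + F) hEle (by omega)
  have : Nonempty (PM n) := nonempty_PM hn
  have hch := St.chain_stepKer hb2 hrep hen
  set q : ℝ := (1 / 2 : ℝ) ^ (2 * b + 1) with hq
  have hq0 : 0 < q := by positivity
  have hcz : (c : ℤ) = (c1 * (Nat.size n + 1) : ℤ) := by rw [hc]; push_cast; ring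
  have poin := hM2 n r k A B c hn hD hcz (stepKer ℓ (St.stepP b E)) q hq0 hch
    (fun M M' hs => St.switch_rate hb2 hrep hen M M' hs)
  set CC : ℝ := (2 : ℝ) ^ (C * (Nat.size n + 1) ^ 2 + 2 * Nat.size n + 1) with hCC
  have hCC1 : 1 ≤ CC := one_le_pow₀ (by norm_num)
  have hCC0 : 0 < CC := by linarith only [hCC1]
  have eC : (2 : ℝ) ^ (C * (Nat.size n + 1) ^ 2) / q = CC := by
    rw [hq, hCC, hb, div_eq_iff (by positivity), add_assoc, pow_add, mul_assoc, ← mul_pow]
    norm_num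
  rw [eC] at poin
  have htv := St.run_tv hn hb2 hrep hen hCC1 poin T
  have hlaw := St.one_div_law_le (impZ r k A B c) hrep.symm (R := W + F)
    (fun x y x' y' h h' => by
      have e1 := hE x y h
      have e2 := hE x' y' h'
      have e3 := hEle x y h
      (clear * - e1 e2 e3; omega)) (St.M0P hn)
  refine htv.trans ?_
  -- the bound of the square root
  have hs0 : (0 : ℝ) ≤ 1 / law (impZ r k A B c) (St.M0P hn) :=
    (one_div_pos.2 (St.law_pos _ _)).le
  have h3 : 1 / law (impZ r k A B c) (St.M0P hn) ≤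
      (2 : ℝ) ^ (2 * (n * (W + F + Nat.size n))) := by
    refine hlaw.trans ?_
    have h4 : (n : ℝ) ^ n ≤ (2 : ℝ) ^ (Nat.size n * n) := by
      rw [pow_mul]
      refine pow_le_pow_left₀ (Nat.cast_nonneg n) ?_ n
      exact_mod_cast (Nat.lt_size_self n).le
    have h4' : Nat.size n * n + n * (W + F) ≤ 2 * (n * (W + F + Nat.size n)) := by
      have e : 2 * (n * (W + F + Nat.size n)) =
        Nat.size n * n + n * (W + F) + (Nat.size n * n + n * (W + F)) := by ring
      omega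
    calc (n : ℝ) ^ n * 2 ^ (n * (W + F)) ≤ 2 ^ (Nat.size n * n) * 2 ^ (n * (W + F)) :=
          mul_le_mul_of_nonneg_right h4 (by positivity)
      _ = 2 ^ (Nat.size n * n + n * (W + F)) := (pow_add _ _ _).symm
      _ ≤ _ := pow_le_pow_right₀ (by norm_num) h4'
  have h5 : Real.sqrt (1 / law (impZ r k A B c) (St.M0P hn)) ≤
      (2 : ℝ) ^ (n * (W + F + Nat.size n)) := by
    apply Real.sqrt_le_iff.2
    refine ⟨by positivity, ?_⟩
    rw [← pow_mul, mul_comm _ 2]
    exact h3
  set N : ℕ := n * (W + F + Nat.size n) with hN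
  have hlog : 0 ≤ Real.logb 2 (1 / η) :=
    Real.logb_nonneg (by norm_num) (by rw [le_div_iff₀ hη]; linarith only [hη1])
  have h6 : (N : ℝ) + Real.logb 2 (1 / η) ≤ T / (2 * CC) := by
    rw [le_div_iff₀ (by positivity)]
    have h7 : ((4 * n * (W + F + Nat.size n) : ℕ) : ℝ) = 4 * N := by
      rw [hN]; push_cast; ring
    rw [h7] at hT
    have h8 : (0 : ℝ) ≤ N := Nat.cast_nonneg N
    nlinarith only [hT]
  have h9 : Real.exp (-(T / (2 * CC))) ≤ (2 : ℝ) ^ (-(N : ℝ) - Real.logb 2 (1 / η)) := by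
    rw [Real.rpow_def_of_pos (by norm_num)]
    apply Real.exp_le_exp.2
    have hl2 : Real.log 2 ≤ 1 := by
      have := Real.log_two_lt_d9
      linarith only [this]
    have hl0 : 0 < Real.log 2 := Real.log_pos (by norm_num)
    have h10 : Real.log 2 * ((N : ℝ) + Real.logb 2 (1 / η)) ≤
        1 * ((N : ℝ) + Real.logb 2 (1 / η)) :=
      mul_le_mul_of_nonneg_right hl2 (add_nonneg (Nat.cast_nonneg N) hlog)
    nlinarith only [h6, h10]
  calc Real.sqrt (1 / law (impZ r k A B c) (St.M0P hn)) * Real.exp (-(T / (2 * CC)))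
      ≤ (2 : ℝ) ^ N * (2 : ℝ) ^ (-(N : ℝ) - Real.logb 2 (1 / η)) :=
        mul_le_mul h5 h9 (Real.exp_pos _).le (by positivity)
    _ = η := by
        rw [← Real.rpow_natCast, ← Real.rpow_add (by norm_num)]
        have e : (N : ℝ) + (-(N : ℝ) - Real.logb 2 (1 / η)) = Real.logb 2 η := by
          rw [one_div, Real.logb_inv]; ring
        rw [e, Real.rpow_logb (by norm_num) (by norm_num) hη]

theorem ent_schM_symm_bd742 {R : List Raw} (hR : ∀ x y, adj R x y = adj R y x) (W j x y : ℕ) :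
    ent (schM R W j) x y = ent (schM R W j) y x := by
  unfold schM
  by_cases h : x < R.length ∧ y < R.length
  · rw [ent_mk _ h.1 h.2, ent_mk _ h.2 h.1, sch_symm hR]
  · rw [ent_mk_eq_zero _ h, ent_mk_eq_zero _ (fun h' => h h'.symm)]

/-- The estimates are close to `F`, so that nothing is truncated. -/
theorem cloOK_of {c1 : ℕ} {R : List Raw} (hR : ∀ x y, adj R x y = adj R y x)
    (hn : Even R.length) {P : Par} {η : ℝ} (hP : ParOK c1 R.length P η)
    {j : ℕ} {A : List ℕ} (hA : EstOK R P.W P.F j A) :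
    CloOK R.length (schM R P.W j) A P.F P.W
      (R.length * P.W + R.length * Nat.size R.length + P.W + 4) where
  symm := ent_schM_symm_bd742 hR P.W j
  leW := ent_schM_le R P.W j
  A := by
    intro x hx0 hx
    have hn0 : 0 < R.length := by omega
    obtain ⟨h1, h2⟩ := hA ⟨0, hn0⟩ ⟨x, hx⟩ rfl (by
      intro e
      have := congrArg Fin.val e
      simp only at this
      omega)
    obtain ⟨h3, h4⟩ := alpha_bounds hn (k := kZ R P.W j) (W := P.W)
      (fun x y _ => kZ_nonneg R P.W j x y) (fun x y _ => kZ_le R P.W j x y)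
      (r := ⟨0, hn0⟩) (u := ⟨x, hx⟩) (by
        intro e
        have := congrArg Fin.val e
        simp only at this
        omega)
    have h5 := (zpow_le_zpow_iff_right₀ (by norm_num : (1 : ℝ) < 2)).1 (h1.trans h4)
    have h6 := (zpow_le_zpow_iff_right₀ (by norm_num : (1 : ℝ) < 2)).1 (h3.trans h2)
    simp only at h5 h6
    constructor
    · zify
      linarith
    · zify
      have : (0 : ℤ) ≤ (R.length * P.W + R.length * Nat.size R.length : ℕ) := by (clear * -; positivity)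
      push_cast at this
      linarith only [h5, this]
  F := by
    have := hP.F
    omega

/-- **The chain of every stage is well mixed.** -/
theorem mixed_of (c1 C : ℕ) (hM2 : M2 c1 C) (R : List Raw)
    (hR : ∀ x y, adj R x y = adj R y x) (hn : Even R.length) (h2 : 2 ≤ R.length) (P : Par) (η : ℝ)
    (hP : ParOK c1 R.length P η)
    (hT : (2 : ℝ) ^ (C * (Nat.size R.length + 1) ^ 2 + 2 * Nat.size R.length + 1) *
      ((4 * R.length * (P.W + P.F + Nat.size R.length) : ℕ) + 4 * Real.logb 2 (1 / η)) ≤ P.T)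
    (j : ℕ) (A : List ℕ) (hA : EstOK R P.W P.F j A) : Mixed R P η j A := by
  have hne : NeZero R.length := ⟨by omega⟩
  have hclo := cloOK_of hR hn hP hA
  have hη1 : η ≤ 1 := by
    have h1 := hP.ηle
    have h3 : (1 : ℝ) ≤ 2 ^ (P.c + 10) := one_le_pow₀ (by norm_num)
    have h4 := hP.ηpos
    nlinarith only [h1, h3]
  have hD : StageData (0 : Fin R.length) (kZ R P.W j) (fun x => (A.getD x 0 : ℤ) - P.F)
      (fun x y => (ent ((clo R.length)^[cloN R.length P.F P.W]
        (rho R.length P.F (schM R P.W j) A)) x y : ℤ) - 3 * P.F) := by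
    refine ⟨kZ_symm hR P.W j, kZ_nonneg R P.W j, ?_, closure_isBottle hclo⟩
    intro u hu
    exact hA 0 u (by simp) hu
  have hE := imp_eq hclo P.c
  have hle := fun x y : ℕ => imp_le hclo P.c x y
  have key := mixed_core hM2 hn hD hP.c hP.b hP.ℓ hP.ηpos hη1 hT (E := impS R P j A)
    (fun x y h => hE x y h) (fun x y _ => hle x y)
  unfold Mixed
  refine le_of_eq_of_le ?_ key
  refine Finset.sum_congr rfl fun M _ => ?_
  rw [law_congr (w := toZ P.F (impS R P j A)) (fun x y h => ?_) M]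
  unfold toZ
  rw [show (ent (impS R P j A) x y : ℤ) = _ from hE x y h]
  unfold kZ
  ring

end Vale.Agent.P308.Alg
end

section

/-!
# P308: analysis of all stages, from the two mathematical facts
-/

namespace Vale.Agent.P308.Alg

open Vale.Agent.Lib.PolyTime Finset Function

/-- Analysis of all stages. -/
theorem rounds_good' (c1 : ℕ) (hM1 : M1 c1) (R : List Raw) (hR : ∀ x y, adj R x y = adj R y x)
    (hn : Even R.length) (h2 : 2 ≤ R.length) (P : Par) (η : ℝ) (hP : ParOK c1 R.length P η)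
    (hmix : ∀ j A, EstOK R P.W P.F j A → Mixed R P η j A) :
    ∀ (K j r : ℕ) (A : List ℕ) (x y : ℕ), EstOK R P.W P.F j A → 0 < x → 0 < y →
      prob (K * (2 ^ P.σ * (P.T * P.ℓ + P.L)) + r) (fun w => ¬ Good R P.W (32 * η) K j x y
        ((stage R P)^[K] ((A, (j, (x, y))), ⟨w⟩)).1.2.2) ≤
        K * ((R.length + 2 : ℕ) * (2 * Real.exp (-(((2 ^ P.σ : ℕ) : ℝ) * η ^ 2 / 4)))) :=
  rounds_good hR hn h2 hP (fun _ _ hA r hr => wok hM1 hR hn h2 hP hA r hr)
    (fun j A u => ⟨_, St.runM_eq hn P.b P.ℓ P.T (impS R P j A) u⟩) hmix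

end Vale.Agent.P308.Alg
end
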