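import Vale.Agent.P308.QP.Defs
import Vale.Agent.P308.Bd3.B7
import Vale.Agent.P308.Bd3.B1
import Vale.Agent.P308.Bd3.B4
import Vale.Agent.P308.Bd3.B5
import Vale.Agent.P308.Bd3.B6
import Vale.Agent.P308.Bd3.B3

set_option linter.all false

section

/-!
# P308: from the algorithm on lists to Turing machines
-/

namespace Vale.Agent.P308.QP

open Vale.Agent.Lib.PolyTime Vale.Agent.P308.Alg

theorem block_eq (u v : List Bool) : block u v = pr u v := by
  induction u with
  | nil => rfl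
  | cons b u ih => simp only [block, ih, pr]

theorem foldr_block (l : List Raw) : (l.map Raw.w).foldr block [] = enc l := by
  induction l with
  | nil => rfl
  | cons x l ih =>
    rw [enc_cons, ← ih, ← block_eq]
    rfl

theorem inputWord_eq {n : ℕ} (G : SimpleGraph (Fin n)) (e l : ℕ) :
    inputWord G e l = enc ((rows G, (⟨e⟩, ⟨l⟩)) : Input) := by
  unfold inputWord
  rw [enc_pair, enc_pair, enc_un, enc_un, ← foldr_block, block_eq, block_eq]
  unfold rows
  rw [List.map_ofFn]
  rfl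

theorem length_rows_word {n : ℕ} (L : List (List Bool)) (h : ∀ u ∈ L, u.length = n) :
    (L.foldr block []).length = L.length * (2 * n + 1) := by
  induction L with
  | nil => simp
  | cons u L ih =>
    rw [List.foldr_cons, block_eq, length_pr, ih fun v hv => h v (List.mem_cons_of_mem _ hv),
      h u List.mem_cons_self, List.length_cons]
    ring

theorem length_inputWord {n : ℕ} (G : SimpleGraph (Fin n)) (e l : ℕ) :
    (inputWord G e l).length = 2 * (n * (2 * n + 1)) + (2 * e + l + 1) + 1 := by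
  unfold inputWord
  rw [block_eq, length_pr, length_rows_word (n := n), List.length_ofFn, block_eq, length_pr,
    List.length_replicate, List.length_replicate]
  intro u hu
  rw [List.mem_ofFn] at hu
  obtain ⟨i, rfl⟩ := hu
  simp

theorem le_pow_log (n : ℕ) : n + 2 ≤ (n + 2) ^ Nat.log 2 (n + 2) := by
  have h : Nat.log 2 (n + 2) ≠ 0 := by
    have := Nat.log_pos (b := 2) (n := n + 2) (by norm_num) (by omega)
    omega
  exact Nat.le_self_pow h _

/-- The total number of bits is polynomially bounded in `b = (n + 2) ^ log₂ (n + 2) (e + l + 2)`. -/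
theorem length_total_le {n : ℕ} (G : SimpleGraph (Fin n)) (e l d : ℕ) {w : List Bool} {b : ℕ}
    (hb : b = (n + 2) ^ Nat.log 2 (n + 2) * (e + l + 2)) (hw : w.length = b ^ d) :
    (block (inputWord G e l) w).length ≤ b ^ (d + 6) := by
  have h1 := le_pow_log n
  have h2 : (n + 2) * (e + l + 2) ≤ b := by
    rw [hb]
    exact Nat.mul_le_mul_right _ h1
  have hn : n + 2 ≤ b := le_trans (Nat.le_mul_of_pos_right _ (by omega)) h2
  have he : e + l + 2 ≤ b := le_trans (Nat.le_mul_of_pos_left _ (by omega)) h2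
  have h4 : 4 ≤ b := le_trans (by (clear * -; nlinarith)) h2
  rw [block_eq, length_pr, length_inputWord, hw]
  have e1 : 2 * (2 * (n * (2 * n + 1)) + (2 * e + l + 1) + 1) + 1 ≤ 8 * b ^ 2 + 8 * b := by
    nlinarith only [hn, he]
  have e2 : 8 * b ^ 2 + 8 * b + 1 ≤ b ^ 6 - 1 := by
    have : 16 * 16 * b ^ 2 ≤ b ^ 6 := by
      calc 16 * 16 * b ^ 2 = 4 ^ 4 * b ^ 2 := by norm_num
        _ ≤ b ^ 4 * b ^ 2 := by (clear * - h4; gcongr)
        _ = b ^ 6 := by ring
    have h5 : b ≤ b ^ 2 := Nat.le_self_pow (by norm_num) b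
    have h6 : 16 ≤ b ^ 2 := by nlinarith only [h4]
    (clear * - hb e1 this h5 h6; omega)
  have e3 : b ^ d + (b ^ 6 - 1) ≤ b ^ (d + 6) := by
    have h5 : 1 ≤ b ^ d := Nat.one_le_pow _ _ (by omega)
    have h6 : 1 ≤ b ^ 6 := Nat.one_le_pow _ _ (by omega)
    rw [pow_add]
    obtain ⟨x, hx⟩ := Nat.exists_eq_add_of_le h5
    obtain ⟨y, hy⟩ := Nat.exists_eq_add_of_le h6
    rw [hx, hy]
    have : 1 + y - 1 = y := by omega
    rw [this]
    nlinarith only []
  omega

/-- A polynomial is bounded by a power. -/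
theorem poly_le (p : Polynomial ℕ) : ∃ k, ∀ b N m : ℕ, 4 ≤ b → N ≤ b ^ m → p.eval N ≤ b ^ (k + k * m) := by
  induction p using Polynomial.induction_on' with
  | add p q hp hq =>
    obtain ⟨k, hk⟩ := hp
    obtain ⟨k', hk'⟩ := hq
    refine ⟨k + k' + 1, fun b N m hb hN => ?_⟩
    rw [Polynomial.eval_add]
    have h1 := hk b N m hb hN
    have h2 := hk' b N m hb hN
    have h3 : b ^ (k + k * m) ≤ b ^ (k + k' + (k + k') * m) :=
      Nat.pow_le_pow_right (by omega) (by nlinarith only [])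
    have h4 : b ^ (k' + k' * m) ≤ b ^ (k + k' + (k + k') * m) :=
      Nat.pow_le_pow_right (by omega) (by nlinarith only [])
    calc p.eval N + q.eval N ≤ 2 * b ^ (k + k' + (k + k') * m) := by omega
      _ ≤ b * b ^ (k + k' + (k + k') * m) := Nat.mul_le_mul_right _ (by omega)
      _ = b ^ (k + k' + (k + k') * m + 1) := by ring
      _ ≤ _ := Nat.pow_le_pow_right (by omega) (by linarith)
  | monomial i a =>
    refine ⟨a + i, fun b N m hb hN => ?_⟩
    rw [Polynomial.eval_monomial]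
    have h1 : a ≤ b ^ a := (Nat.lt_pow_self (by omega)).le
    calc a * N ^ i ≤ b ^ a * (b ^ m) ^ i := Nat.mul_le_mul h1 (Nat.pow_le_pow_left hN i)
      _ = b ^ (a + m * i) := by rw [← pow_mul, ← pow_add]
      _ ≤ _ := Nat.pow_le_pow_right (by omega) (by nlinarith only [])

theorem numPM_eq' {n : ℕ} (G : SimpleGraph (Fin n)) : numPM G = Vale.Agent.P308.numPM G := rfl

theorem one_sub_prob_le (q : ℕ) (P : List Bool → Prop) :
    1 - prob q (fun w => ¬ P w) ≤ prob q P := by
  have h1 := prob_or_le q P (fun w => ¬ P w)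
  have h2 : Alg.prob q (fun w => P w ∨ ¬ P w) = 1 := by
    have : (fun w => P w ∨ ¬ P w) = fun _ : List Bool => True := by
      funext w
      simp [em]
    rw [this, prob_const]
    simp
  have h3 : Alg.prob q P = prob q P := rfl
  have h4 : Alg.prob q (fun w => ¬ P w) = prob q (fun w => ¬ P w) := rfl
  linarith

/-- The final theorem, from the bound for the algorithm on lists. -/
theorem main_of_alg {c1 c2 d : ℕ}
    (h : ∀ (n : ℕ) (G : SimpleGraph (Fin n)) (e l : ℕ), 0 < e →
      Alg.prob (((n + 2) ^ Nat.log 2 (n + 2) * (e + l + 2)) ^ d) (fun w =>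
        ¬ ((1 - 1 / (e : ℝ)) * Vale.Agent.P308.numPM G ≤
            (alg c1 c2 d ((rows G, (⟨e⟩, ⟨l⟩)), ⟨w⟩) : ℝ) ∧
          (alg c1 c2 d ((rows G, (⟨e⟩, ⟨l⟩)), ⟨w⟩) : ℝ) ≤
            (1 + 1 / (e : ℝ)) * Vale.Agent.P308.numPM G)) ≤ (1 / 2) ^ l) :
    ∃ (f : List Bool → List Bool)
      (M : Turing.TM2ComputableInPolyTime (id : List Bool → List Bool)
        (id : List Bool → List Bool) f), (∀ k, Finite (M.tm.Γ k)) ∧
      ∃ d d' : ℕ, ∀ (n : ℕ) (G : SimpleGraph (Fin n)) (ε δ : ℝ), 0 < ε → ε < 1 → 0 < δ → δ < 1 →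
        ∀ e l b : ℕ, e = ⌈1 / ε⌉₊ → l = ⌈Real.logb 2 (1 / δ)⌉₊ →
          b = (n + 2) ^ Nat.log 2 (n + 2) * (e + l + 2) →
          (∀ w : List Bool, w.length = b ^ d →
            M.time.eval (block (inputWord G e l) w).length ≤ b ^ d') ∧
          1 - δ ≤ prob (b ^ d) fun w => ∃ a : ℕ, f (block (inputWord G e l) w) = a.bits ∧
            (1 - ε) * numPM G ≤ a ∧ a ≤ (1 + ε) * numPM G := by
  obtain ⟨g, hg, hg'⟩ := PT_alg (A := ∅) c1 c2 d
  obtain ⟨M, hM⟩ := exists_tm2_of_polyTimeFun id id g g (polyTimeFun_iff.2 hg) fun _ => rfl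
  obtain ⟨k, hk⟩ := poly_le M.time
  have key : ∀ (n : ℕ) (G : SimpleGraph (Fin n)) (e l : ℕ) (w : List Bool),
      g (block (inputWord G e l) w) = (alg c1 c2 d ((rows G, (⟨e⟩, ⟨l⟩)), ⟨w⟩)).bits := by
    intro n G e l w
    have h1 := hg' ((rows G, (⟨e⟩, ⟨l⟩)), ⟨w⟩)
    rw [enc_nat, enc_pair, enc_raw, ← inputWord_eq, ← block_eq] at h1
    exact h1
  refine ⟨g, M, hM, d, k + k * (d + 6), ?_⟩
  intro n G ε δ hε hε1 hδ hδ1 e l b he hl hb
  constructor
  · intro w hw
    refine hk b _ (d + 6) ?_ (length_total_le G e l d hb hw)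
    rw [hb]
    have h1 := le_pow_log n
    calc 4 = 2 * 2 := rfl
      _ ≤ (n + 2) ^ Nat.log 2 (n + 2) * (e + l + 2) := Nat.mul_le_mul (by omega) (by omega)
  · have he0 : 0 < e := by
      rw [he]
      exact Nat.ceil_pos.2 (by (clear * - hε; positivity))
    have her : (0 : ℝ) < e := by exact_mod_cast he0
    have h1 : 1 / (e : ℝ) ≤ ε := by
      have h2 : 1 / ε ≤ e := by
        rw [he]
        exact Nat.le_ceil _
      rw [div_le_iff₀ hε] at h2
      rw [div_le_iff₀ her]
      linarith only [h2]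
    have h2 : ((1 : ℝ) / 2) ^ l ≤ δ := by
      have h3 : Real.logb 2 (1 / δ) ≤ l := by
        rw [hl]
        exact Nat.le_ceil _
      have h4 : 1 / δ ≤ 2 ^ l := by
        have h5 : (1 / δ) = (2 : ℝ) ^ (Real.logb 2 (1 / δ)) := by
          rw [Real.rpow_logb (by norm_num) (by norm_num) (by (clear * - hδ; positivity))]
        rw [h5, ← Real.rpow_natCast]
        exact Real.rpow_le_rpow_of_exponent_le (by norm_num) h3
      rw [one_div, inv_pow, ← one_div, div_le_iff₀ (by positivity)]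
      rw [div_le_iff₀ hδ] at h4
      linarith only [h4]
    have h3 := h n G e l he0
    rw [← hb] at h3
    have h4 := one_sub_prob_le (b ^ d) (fun w => ∃ a : ℕ,
      g (block (inputWord G e l) w) = a.bits ∧ (1 - ε) * numPM G ≤ a ∧ a ≤ (1 + ε) * numPM G)
    have h5 : prob (b ^ d) (fun w => ¬ ∃ a : ℕ, g (block (inputWord G e l) w) = a.bits ∧
        (1 - ε) * numPM G ≤ a ∧ a ≤ (1 + ε) * numPM G) ≤ (1 / 2) ^ l := by
      refine le_trans ?_ h3
      refine prob_mono _ fun w _ hw hgood => hw ?_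
      refine ⟨_, key n G e l w, ?_, ?_⟩
      · refine le_trans ?_ hgood.1
        have : (0 : ℝ) ≤ numPM G := by (clear * -; positivity)
        rw [numPM_eq'] at *
        nlinarith only [h1]
      · refine le_trans hgood.2 ?_
        have : (0 : ℝ) ≤ numPM G := by (clear * -; positivity)
        rw [numPM_eq'] at *
        nlinarith only [h1]
    linarith only [h2, h4, h5]

end Vale.Agent.P308.QP
end

section

/-!
# P308: from a polynomial algorithm on lists to Turing machines
-/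

namespace Vale.Agent.P308.PA

open Vale.Agent.Lib.PolyTime Vale.Agent.P308.Alg Vale.Agent.P308.QP

/-- The total number of bits is polynomially bounded in `b = n + e + l + 2`. -/
theorem length_total_le {n : ℕ} (G : SimpleGraph (Fin n)) (e l d : ℕ) {w : List Bool} {b : ℕ}
    (hb : b = n + e + l + 2) (hw : w.length = b ^ d) :
    (block (inputWord G e l) w).length ≤ b ^ (d + 6) := by
  have hn : n + 2 ≤ b := by omega
  have he : e + l + 2 ≤ b := by omega
  have h2 : 2 ≤ b := by omega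
  rw [block_eq, length_pr, length_inputWord, hw]
  have e1 : 2 * (2 * (n * (2 * n + 1)) + (2 * e + l + 1) + 1) + 1 ≤ 8 * b ^ 2 - 1 := by
    have : 2 * (2 * (n * (2 * n + 1)) + (2 * e + l + 1) + 1) + 2 ≤ 8 * b ^ 2 := by
      subst hb
      nlinarith only []
    omega
  have e2 : 8 * b ^ 2 ≤ b ^ 6 := by
    calc 8 * b ^ 2 ≤ 2 ^ 4 * b ^ 2 := by nlinarith only []
      _ ≤ b ^ 4 * b ^ 2 := by gcongr
      _ = b ^ 6 := by ring
  have e3 : b ^ d + (b ^ 6 - 1) ≤ b ^ (d + 6) := by
    have h5 : 1 ≤ b ^ d := Nat.one_le_pow _ _ (by omega)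
    have h6 : 1 ≤ b ^ 6 := Nat.one_le_pow _ _ (by omega)
    rw [pow_add]
    obtain ⟨x, hx⟩ := Nat.exists_eq_add_of_le h5
    obtain ⟨y, hy⟩ := Nat.exists_eq_add_of_le h6
    rw [hx, hy]
    have : 1 + y - 1 = y := by (clear * - h6 hy; omega)
    rw [this]
    nlinarith only []
  omega

/-- A polynomial is bounded by a power. -/
theorem poly_le' (p : Polynomial ℕ) :
    ∃ k, ∀ b N m : ℕ, 2 ≤ b → N ≤ b ^ m → p.eval N ≤ b ^ (k + k * m) := by
  induction p using Polynomial.induction_on' with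
  | add p q hp hq =>
    obtain ⟨k, hk⟩ := hp
    obtain ⟨k', hk'⟩ := hq
    refine ⟨k + k' + 1, fun b N m hb hN => ?_⟩
    rw [Polynomial.eval_add]
    have h1 := hk b N m hb hN
    have h2 := hk' b N m hb hN
    have h3 : b ^ (k + k * m) ≤ b ^ (k + k' + (k + k') * m) :=
      Nat.pow_le_pow_right (by omega) (by nlinarith only [])
    have h4 : b ^ (k' + k' * m) ≤ b ^ (k + k' + (k + k') * m) :=
      Nat.pow_le_pow_right (by omega) (by nlinarith only [])
    calc p.eval N + q.eval N ≤ 2 * b ^ (k + k' + (k + k') * m) := by omega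
      _ ≤ b * b ^ (k + k' + (k + k') * m) := Nat.mul_le_mul_right _ (by omega)
      _ = b ^ (k + k' + (k + k') * m + 1) := by ring
      _ ≤ _ := Nat.pow_le_pow_right (by omega) (by linarith)
  | monomial i a =>
    refine ⟨a + i, fun b N m hb hN => ?_⟩
    rw [Polynomial.eval_monomial]
    have h1 : a ≤ b ^ a := (Nat.lt_pow_self (by omega)).le
    calc a * N ^ i ≤ b ^ a * (b ^ m) ^ i := Nat.mul_le_mul h1 (Nat.pow_le_pow_left hN i)
      _ = b ^ (a + m * i) := by rw [← pow_mul, ← pow_add]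
      _ ≤ _ := Nat.pow_le_pow_right (by omega) (by nlinarith only [])

/-- The final theorem, from the bound for a polynomial time algorithm on lists. -/
theorem main_of_alg_poly {d : ℕ} {alg : Input × Raw → ℕ} (hPT : PT ∅ alg)
    (h : ∀ (n : ℕ) (G : SimpleGraph (Fin n)) (e l : ℕ), 0 < e →
      Alg.prob ((n + e + l + 2) ^ d) (fun w =>
        ¬ ((1 - 1 / (e : ℝ)) * Vale.Agent.P308.numPM G ≤
            (alg ((rows G, (⟨e⟩, ⟨l⟩)), ⟨w⟩) : ℝ) ∧
          (alg ((rows G, (⟨e⟩, ⟨l⟩)), ⟨w⟩) : ℝ) ≤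
            (1 + 1 / (e : ℝ)) * Vale.Agent.P308.numPM G)) ≤ (1 / 2) ^ l) :
    ∃ (f : List Bool → List Bool)
      (M : Turing.TM2ComputableInPolyTime (id : List Bool → List Bool)
        (id : List Bool → List Bool) f), (∀ k, Finite (M.tm.Γ k)) ∧
      ∃ d d' : ℕ, ∀ (n : ℕ) (G : SimpleGraph (Fin n)) (ε δ : ℝ), 0 < ε → ε < 1 → 0 < δ → δ < 1 →
        ∀ e l b : ℕ, e = ⌈1 / ε⌉₊ → l = ⌈Real.logb 2 (1 / δ)⌉₊ →
          b = n + e + l + 2 →
          (∀ w : List Bool, w.length = b ^ d →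
            M.time.eval (block (inputWord G e l) w).length ≤ b ^ d') ∧
          1 - δ ≤ QP.prob (b ^ d) fun w => ∃ a : ℕ, f (block (inputWord G e l) w) = a.bits ∧
            (1 - ε) * QP.numPM G ≤ a ∧ a ≤ (1 + ε) * QP.numPM G := by
  obtain ⟨g, hg, hg'⟩ := hPT
  obtain ⟨M, hM⟩ := exists_tm2_of_polyTimeFun id id g g (polyTimeFun_iff.2 hg) fun _ => rfl
  obtain ⟨k, hk⟩ := poly_le' M.time
  have key : ∀ (n : ℕ) (G : SimpleGraph (Fin n)) (e l : ℕ) (w : List Bool),
      g (block (inputWord G e l) w) = (alg ((rows G, (⟨e⟩, ⟨l⟩)), ⟨w⟩)).bits := by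
    intro n G e l w
    have h1 := hg' ((rows G, (⟨e⟩, ⟨l⟩)), ⟨w⟩)
    rw [enc_nat, enc_pair, enc_raw, ← inputWord_eq, ← block_eq] at h1
    exact h1
  refine ⟨g, M, hM, d, k + k * (d + 6), ?_⟩
  intro n G ε δ hε hε1 hδ hδ1 e l b he hl hb
  constructor
  · intro w hw
    exact hk b _ (d + 6) (by omega) (length_total_le G e l d hb hw)
  · have he0 : 0 < e := by
      rw [he]
      exact Nat.ceil_pos.2 (by positivity)
    have her : (0 : ℝ) < e := by exact_mod_cast he0
    have h1 : 1 / (e : ℝ) ≤ ε := by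
      have h2 : 1 / ε ≤ e := by
        rw [he]
        exact Nat.le_ceil _
      rw [div_le_iff₀ hε] at h2
      rw [div_le_iff₀ her]
      linarith only [h2]
    have h2 : ((1 : ℝ) / 2) ^ l ≤ δ := by
      have h3 : Real.logb 2 (1 / δ) ≤ l := by
        rw [hl]
        exact Nat.le_ceil _
      have h4 : 1 / δ ≤ 2 ^ l := by
        have h5 : (1 / δ) = (2 : ℝ) ^ (Real.logb 2 (1 / δ)) := by
          rw [Real.rpow_logb (by norm_num) (by norm_num) (by positivity)]
        rw [h5, ← Real.rpow_natCast]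
        exact Real.rpow_le_rpow_of_exponent_le (by norm_num) h3
      rw [one_div, inv_pow, ← one_div, div_le_iff₀ (by positivity)]
      rw [div_le_iff₀ hδ] at h4
      linarith only [h4]
    have h3 := h n G e l he0
    rw [← hb] at h3
    have h4 := one_sub_prob_le (b ^ d) (fun w => ∃ a : ℕ,
      g (block (inputWord G e l) w) = a.bits ∧ (1 - ε) * QP.numPM G ≤ a ∧
        a ≤ (1 + ε) * QP.numPM G)
    have h5 : QP.prob (b ^ d) (fun w => ¬ ∃ a : ℕ, g (block (inputWord G e l) w) = a.bits ∧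
        (1 - ε) * QP.numPM G ≤ a ∧ a ≤ (1 + ε) * QP.numPM G) ≤ (1 / 2) ^ l := by
      refine le_trans ?_ h3
      refine prob_mono _ fun w _ hw hgood => hw ?_
      refine ⟨_, key n G e l w, ?_, ?_⟩
      · refine le_trans ?_ hgood.1
        have : (0 : ℝ) ≤ QP.numPM G := by (clear * -; positivity)
        rw [numPM_eq'] at *
        nlinarith only [h1]
      · refine le_trans hgood.2 ?_
        have : (0 : ℝ) ≤ QP.numPM G := by (clear * -; positivity)
        rw [numPM_eq'] at *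
        nlinarith only [h1]
    linarith only [h2, h4, h5]

end Vale.Agent.P308.PA
end

section

end

section

/-!
# P308, polynomial version: the final theorem, from the analysis of the sampler and of the stages
-/

set_option linter.all false

namespace Vale.Agent.P308.PA

open Vale.Agent.Lib.PolyTime Vale.Agent.P308.Alg Finset

theorem alg_eq (c1 c2 c3 c4 c5 c6 d n e l : ℕ) (G : SimpleGraph (Fin n)) (hd : 0 < d)
    (w : List Bool) (hw : w.length = (n + e + l + 2) ^ d) :
    alg c1 c2 c3 c4 c5 c6 d ((rows G, (⟨e⟩, ⟨l⟩)), ⟨w⟩) =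
      out (runX n (par c1 c2 c3 c4 c5 c6 n (n + e + l + 2)))
        (par c1 c2 c3 c4 c5 c6 n (n + e + l + 2)).B (rows G)
        (par c1 c2 c3 c4 c5 c6 n (n + e + l + 2)) ⟨w⟩ := by
  unfold alg
  simp only
  rw [length_rows, hw, root_pow hd]

/-- The algorithm is correct with high probability. -/
theorem alg_good_of (c1 C : ℕ) (hRG : RoundsGood c1) (hMO : MixedOf c1 C) :
    ∃ c2 c3 c4 c5 c6 d : ℕ, ∀ (n : ℕ) (G : SimpleGraph (Fin n)) (e l : ℕ), 0 < e →
      prob ((n + e + l + 2) ^ d) (fun w =>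
        ¬ ((1 - 1 / (e : ℝ)) * numPM G ≤
            (alg c1 c2 c3 c4 c5 c6 d ((rows G, (⟨e⟩, ⟨l⟩)), ⟨w⟩) : ℝ) ∧
          (alg c1 c2 c3 c4 c5 c6 d ((rows G, (⟨e⟩, ⟨l⟩)), ⟨w⟩) : ℝ) ≤
            (1 + 1 / (e : ℝ)) * numPM G)) ≤ (1 / 2) ^ l := by
  have hd : 0 < k7 c1 C := by unfold k7; omega
  refine ⟨k2 c1, k3 c1 C, k4 c1 C, k5 c1 C, k6 c1 C, k7 c1 C, ?_⟩
  intro n G e l he
  have he1 : (1 : ℝ) ≤ e := by exact_mod_cast he
  rcases Nat.even_or_odd n with hn | hn
  swap
  · rw [prob_false]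
    · positivity
    · intro w hw h
      apply h
      rw [alg_eq _ _ _ _ _ _ _ n e l G hd w hw, numPM_odd hn,
        out_odd _ _ _ _ _ (by rw [length_rows]; exact Nat.odd_iff.1 hn)]
      simp
  rcases Nat.eq_zero_or_pos n with h0 | hpos
  · rw [prob_false]
    · positivity
    · intro w hw h
      apply h
      rw [alg_eq _ _ _ _ _ _ _ n e l G hd w hw]
      have h1 : out (runX n (par c1 (k2 c1) (k3 c1 C) (k4 c1 C) (k5 c1 C) (k6 c1 C) n
          (n + e + l + 2))) (par c1 (k2 c1) (k3 c1 C) (k4 c1 C) (k5 c1 C) (k6 c1 C) n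
          (n + e + l + 2)).B (rows G) (par c1 (k2 c1) (k3 c1 C) (k4 c1 C) (k5 c1 C) (k6 c1 C) n
          (n + e + l + 2)) ⟨w⟩ = 1 := out_zero _ _ _ _ _ (by rw [length_rows, h0])
      have h2 : numPM G = 1 := by
        subst h0
        exact numPM_fin_zero G
      rw [h1, h2]
      have : 0 ≤ 1 / (e : ℝ) := by positivity
      constructor <;> push_cast <;> linarith only [this]
  -- the main case
  have hn2 : 2 ≤ n := by
    obtain ⟨m, rfl⟩ := hn
    omega
  obtain ⟨hp5, hn3, he2, hlp⟩ := pz_facts (l := l) he hn2 rfl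
  have h := out_good c1 C hRG hMO n e l ((n + e + l + 2) ^ k7 c1 C) G he hn hn2
    (parP c1 C n (n + e + l + 2)) (eta c1 (n + e + l + 2)) (parOK C (by omega) (by omega))
    (sampOK (by omega) (by omega)) ((size_le_self' _).trans (by
      show n - 1 ≤ (n + e + l + 2) ^ 7
      exact le_trans (by omega) (Nat.le_self_pow (by norm_num) (n + e + l + 2))))
    (bits_le (by omega) (by omega)) (failure_le (by omega) (by omega) hlp)
    (acc_le (by omega) (by omega) (by omega)) (rest_le hp5 hn3 he2)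
  refine (prob_mono _ ?_).trans h
  intro w hw hbad
  rwa [alg_eq _ _ _ _ _ _ _ n e l G hd w hw] at hbad

/-- The final theorem, from the analysis of the sampler and of the stages. -/
theorem scheme_of (c1 C : ℕ) (hRG : RoundsGood c1) (hMO : MixedOf c1 C) :
    ∃ (f : List Bool → List Bool)
      (M : Turing.TM2ComputableInPolyTime (id : List Bool → List Bool)
        (id : List Bool → List Bool) f), (∀ k, Finite (M.tm.Γ k)) ∧
      ∃ d d' : ℕ, ∀ (n : ℕ) (G : SimpleGraph (Fin n)) (ε δ : ℝ), 0 < ε → ε < 1 → 0 < δ → δ < 1 →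
        ∀ e l b : ℕ, e = ⌈1 / ε⌉₊ → l = ⌈Real.logb 2 (1 / δ)⌉₊ →
          b = n + e + l + 2 →
          (∀ w : List Bool, w.length = b ^ d →
            M.time.eval (QP.block (QP.inputWord G e l) w).length ≤ b ^ d') ∧
          1 - δ ≤ QP.prob (b ^ d) fun w => ∃ a : ℕ,
            f (QP.block (QP.inputWord G e l) w) = a.bits ∧
            (1 - ε) * QP.numPM G ≤ a ∧ a ≤ (1 + ε) * QP.numPM G := by
  obtain ⟨c2, c3, c4, c5, c6, d, h⟩ := alg_good_of c1 C hRG hMO
  exact main_of_alg_poly (d := d) (PT_alg c1 c2 c3 c4 c5 c6 d) h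

end Vale.Agent.P308.PA
end

section

/-!
# P308, polynomial sampler: the symmetrised pair kernel satisfies `PairKer`
-/

namespace Vale.Agent.P308.PA

open Finset
open Vale.Agent.P308.Poly (PairKer)

variable {X : Type*} [Fintype X] [DecidableEq X]

section Second

open Finset Vale.Agent.P308.Poly

/-- The Dirichlet form of `q` at `F x y`. -/
noncomputable def dir4 (μ : X → ℝ) (q : X → X → X → X → ℝ) (F : X → X → ℝ) : ℝ :=
  ∑ x, ∑ y, ∑ x', ∑ y', μ x * μ y * q x y x' y' * (F x y - F x' y') ^ 2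

theorem dir4_swap (μ : X → ℝ) (q : X → X → X → X → ℝ) {F : X → X → ℝ}
    (hF : ∀ x y, F x y = F y x) : dir4 μ (fun x y x' y' => q y x y' x') F = dir4 μ q F := by
  unfold dir4
  rw [sum_comm]
  refine sum_congr rfl fun y _ => sum_congr rfl fun x _ => ?_
  rw [sum_comm]
  refine sum_congr rfl fun y' _ => sum_congr rfl fun x' _ => ?_
  rw [hF x y, hF x' y']
  ring

theorem dir4_symK (μ : X → ℝ) (q : X → X → X → X → ℝ) (S : ℝ) {F : X → X → ℝ}
    (hF : ∀ x y, F x y = F y x) : dir4 μ (symK S q) F = (1 - 1 / S) * dir4 μ q F := by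
  have h1 : dir4 μ (symK S q) F = (1 - 1 / S) / 2 * dir4 μ q F
      + (1 - 1 / S) / 2 * dir4 μ (fun x y x' y' => q y x y' x') F := by
    unfold dir4
    simp only [mul_sum, ← sum_add_distrib]
    refine sum_congr rfl fun x _ => sum_congr rfl fun y _ => sum_congr rfl fun x' _ =>
      sum_congr rfl fun y' _ => ?_
    unfold symK
    by_cases h : x = x' ∧ y = y'
    · obtain ⟨rfl, rfl⟩ := h
      simp
    · rw [if_neg h]
      ring
  rw [h1, dir4_swap μ q hF]
  ring

theorem pairKer_symK {μ : X → ℝ} {q : X → X → X → X → ℝ} {g S : ℝ} (hS : 1 < S)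
    (hμ : ∀ x, 0 < μ x) (hμ1 : ∑ x, μ x = 1) (hg : 0 < g)
    (h0 : ∀ x y x' y', 0 ≤ q x y x' y') (h1 : ∀ x y, ∑ x', ∑ y', q x y x' y' = 1)
    (hrev : ∀ x y x' y', μ x * μ y * q x y x' y' = μ x' * μ y' * q x' y' x y)
    (hlazy : ∀ x y, 1 / 2 ≤ q x y x y)
    (hgap : ∀ f : X → ℝ, ∑ x, μ x * f x = 0 → 2 * g * ∑ x, μ x * f x ^ 2 ≤
      1 / 2 * ∑ x, ∑ y, ∑ x', ∑ y', μ x * μ y * q x y x' y' * ((f x + f y) - (f x' + f y')) ^ 2) :
    PairKer μ (symK S q) (g * (1 - 1 / S)) := by
  have hS0 : 0 < S := by linarith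
  have ha : 0 < 1 / S := by positivity
  have hb : 0 < 1 - 1 / S := by
    rw [sub_pos, div_lt_one hS0]; exact hS
  refine ⟨hμ, hμ1, mul_pos hg hb, ?_, ?_, ?_, ?_, ?_, ?_⟩
  · intro x y x' y'
    unfold symK
    have h2 := h0 x y x' y'
    have h3 := h0 y x y' x'
    have h4 : (0 : ℝ) ≤ if x = x' ∧ y = y' then 1 else 0 := by split_ifs <;> norm_num
    (clear * - hS hb h2 h3; positivity)
  · intro x y
    unfold symK
    have e1 : ∑ x', ∑ y', (1 / S * (if x = x' ∧ y = y' then (1 : ℝ) else 0)) = 1 / S := by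
      rw [sum_eq_single x, sum_eq_single y]
      · simp
      · intro y' _ hy'
        rw [if_neg (fun h => hy' h.2.symm), mul_zero]
      · intro h; exact absurd (mem_univ y) h
      · intro x' _ hx'
        refine sum_eq_zero fun y' _ => ?_
        rw [if_neg (fun h => hx' h.1.symm), mul_zero]
      · intro h; exact absurd (mem_univ x) h
    have e2 : ∑ x', ∑ y', (1 - 1 / S) * ((q x y x' y' + q y x y' x') / 2) = 1 - 1 / S := by
      have e3 : ∑ x', ∑ y', q y x y' x' = 1 := by rw [sum_comm]; exact h1 y x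
      have e4 : ∑ x', ∑ y', (1 - 1 / S) * ((q x y x' y' + q y x y' x') / 2)
          = (1 - 1 / S) / 2 * (∑ x', ∑ y', q x y x' y' + ∑ x', ∑ y', q y x y' x') := by
        rw [← sum_add_distrib, mul_sum]
        refine sum_congr rfl fun x' _ => ?_
        rw [← sum_add_distrib, mul_sum]
        refine sum_congr rfl fun y' _ => ?_
        ring
      rw [e4, h1 x y, e3]
      ring
    simp only [sum_add_distrib]
    rw [e1, e2]
    ring
  · intro x y x' y'
    unfold symK
    have h2 := hrev x y x' y'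
    have h3 := hrev y x y' x'
    by_cases h : x = x' ∧ y = y'
    · obtain ⟨rfl, rfl⟩ := h
      rfl
    · have h' : ¬ (x' = x ∧ y' = y) := fun h4 => h ⟨h4.1.symm, h4.2.symm⟩
      rw [if_neg h, if_neg h']
      linear_combination (1 - 1 / S) / 2 * h2 + (1 - 1 / S) / 2 * h3
  · intro x y x' y'
    unfold symK
    have h2 : (y = y' ∧ x = x') ↔ (x = x' ∧ y = y') := and_comm
    simp only [h2]
    ring
  · intro x y
    unfold symK
    rw [if_pos ⟨rfl, rfl⟩]
    have h2 := hlazy x y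
    have h3 := hlazy y x
    nlinarith only [ha, hb, h2, h3]
  · intro f hf
    have h2 := hgap f hf
    have h3 := dir4_symK μ q S (F := fun x y => f x + f y) (fun x y => add_comm _ _)
    unfold dir4 at h3
    rw [h3]
    calc 2 * (g * (1 - 1 / S)) * ∑ x, μ x * f x ^ 2
        = (1 - 1 / S) * (2 * g * ∑ x, μ x * f x ^ 2) := by ring
      _ ≤ (1 - 1 / S) * (1 / 2 * ∑ x, ∑ y, ∑ x', ∑ y',
            μ x * μ y * q x y x' y' * ((f x + f y) - (f x' + f y')) ^ 2) :=
          mul_le_mul_of_nonneg_left h2 hb.le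
      _ = _ := by ring

end Second

end Vale.Agent.P308.PA
end

section

/-!
# P308, polynomial version: the law of the sampler, from the parts [C], [D], [F], the linearised
gap and the replica theorem
-/

namespace Vale.Agent.P308.PA

open Finset Vale.Agent.P308.Alg Vale.Agent.P308.Rep
open Vale.Agent.Lib.PolyTime (Raw)

variable {n : ℕ}

theorem wt_pos {lam : Fin n → Fin n → ℝ} (h : ∀ x y, x ≠ y → 0 < lam x y) (M : PM n) :
    0 < Poly.wt lam M := by
  unfold Poly.wt
  refine prod_pos fun x _ => ?_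
  split_ifs
  · exact h _ _ (M.2.2 x).symm
  · exact one_pos

theorem ultr_pos {lam : Fin n → Fin n → ℝ} {ε : ℝ} (hε : 0 < ε) (h : Poly.Ultr lam ε)
    (x y : Fin n) (hxy : x ≠ y) : 0 < lam x y := by
  obtain ⟨-, g, c, hg, hc, -, -, hb⟩ := h
  exact lt_of_lt_of_le (mul_pos hε (mul_pos (mul_pos (hg x) (hg y)) (hc x y))) (hb x y hxy).1

theorem Zt_pos (hn : Even n) {lam : Fin n → Fin n → ℝ} (h : ∀ x y, x ≠ y → 0 < lam x y) :
    0 < Poly.Zt lam := by
  have : Nonempty (PM n) := nonempty_PM hn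
  exact sum_pos (fun M _ => wt_pos h M) univ_nonempty

theorem mu_pos (hn : Even n) {lam : Fin n → Fin n → ℝ} (h : ∀ x y, x ≠ y → 0 < lam x y)
    (M : PM n) : 0 < Poly.mu lam M := div_pos (wt_pos h M) (Zt_pos hn h)

theorem sum_mu (hn : Even n) {lam : Fin n → Fin n → ℝ} (h : ∀ x y, x ≠ y → 0 < lam x y) :
    ∑ M, Poly.mu lam M = 1 := by
  unfold Poly.mu
  rw [← sum_div]
  exact div_self (Zt_pos hn h).ne'

/-- The pair kernel of the machine, symmetrised, has the linearised gap. -/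
theorem pairKer_of {lam : Fin n → Fin n → ℝ} {ε c γ S : ℝ} {L Cg : ℕ}
    {ps : List Bool → PM n × PM n → PM n × PM n}
    (hn : Even n) (hGap : Poly.Gap Cg) (hε : 0 < ε) (hε1 : ε ≤ 1) (hU : Poly.Ultr lam ε)
    (hps : PairOK lam L ps c) (hc : 0 < c) (hS : 2 ≤ S) (hγ0 : 0 < γ)
    (hγ : 4 * γ ≤ c * (ε ^ Cg / (n + 1 : ℝ) ^ Cg)) :
    Poly.PairKer (Poly.mu lam) (symK S (pairLaw L ps)) γ := by
  have hpos := ultr_pos hε hU
  have hμ := mu_pos hn hpos
  have hn1 : (0 : ℝ) < (n : ℝ) + 1 := by (clear * -; positivity)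
  set g : ℝ := c * (ε ^ Cg / (n + 1 : ℝ) ^ Cg) / 2 with hg
  have hg0 : 0 < g := by (clear * - hc hε; positivity)
  have hrow : ∀ z : PM n × PM n, ∑ z', prob L (fun u => ps u z = z') = 1 := fun z =>
    stepKer_row L ps z
  have key := pairKer_symK (μ := Poly.mu lam) (q := pairLaw L ps) (g := g) (S := S) (by linarith only [hS])
    hμ (sum_mu hn hpos) hg0 (fun x y x' y' => prob_nonneg _ _)
    (fun x y => by
      have := hrow (x, y)
      rw [Fintype.sum_prod_type] at this
      exact this)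
    (fun x y x' y' => hps.rev (x, y) (x', y'))
    (fun x y => by
      have := hps.lazy (x, y)
      unfold pairLaw
      linarith only [this])
    (fun f hf => by
      have h1 := hGap n lam ε hn hε hε1 hU f hf
      have h2 := hps.dir f
      have h3 : 2 * g * ∑ M, Poly.mu lam M * f M ^ 2 ≤ c * Poly.En lam f := by
        calc 2 * g * ∑ M, Poly.mu lam M * f M ^ 2
            ≤ 2 * g * ((n + 1 : ℝ) ^ Cg / ε ^ Cg * Poly.En lam f) :=
              mul_le_mul_of_nonneg_left h1 (by (clear * - hc hε; positivity))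
          _ = c * Poly.En lam f := by
              rw [hg]
              (clear * - hε hc; field_simp)
      refine h3.trans (h2.trans (le_of_eq ?_))
      rw [Fintype.sum_prod_type]
      congr 1
      refine sum_congr rfl fun x _ => sum_congr rfl fun y _ => ?_
      rw [Fintype.sum_prod_type]
      rfl)
  refine ⟨key.μpos, key.μsum, hγ0, key.nonneg, key.sum, key.rev, key.swap, key.lazy, ?_⟩
  intro f hf
  refine le_trans ?_ (key.gap f hf)
  have h4 : (1 : ℝ) / 2 ≤ 1 - 1 / S := by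
    have : 1 / S ≤ 1 / 2 := by
      apply one_div_le_one_div_of_le (by norm_num) hS
    linarith
  have h5 : γ ≤ g * (1 - 1 / S) := by
    have : g * (1 / 2) ≤ g * (1 - 1 / S) := mul_le_mul_of_nonneg_left h4 hg0.le
    linarith only [hγ, hg, this]
  have h6 : 0 ≤ ∑ x, Poly.mu lam x * f x ^ 2 :=
    sum_nonneg fun x _ => mul_nonneg (hμ x).le (sq_nonneg _)
  exact mul_le_mul_of_nonneg_right (by linarith only [h5]) h6

/-- **The law of the sampler.** -/
theorem mixed_core {Cg C c0 c1 : ℕ} (hGap : Poly.Gap Cg) (hRep : Poly.RepStatement)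
    (hn : Even n) {P : Par} {E : List (List ℕ)} {η ε κ c : ℝ}
    (hS : SampOK C n P η) (hη : 0 < η) (hη1 : η ≤ 1) (hC : 2 * c1 + 2 * c0 + 17 ≤ C)
    (hε : 0 < ε) (hε1 : ε ≤ 1)
    (hPath : PathOK P E (St.M0P hn) ε κ ((n : ℝ) ^ n * (2 : ℝ) ^ (-(P.X : ℤ))))
    {ps : ℕ → List Bool → PM n × PM n → PM n × PM n} {L : ℕ} (hL : P.ℓ = P.σ + P.σ + L)
    (hPair : ∀ t, 1 ≤ t → t ≤ P.J → PairOK (lamT n P E t) L (ps t) c) (hc : 0 < c)
    (hκ0 : 0 ≤ κ) (hκ : κ ≤ (c0 : ℝ) * n / 2 ^ P.h)
    (hγ : 4 * (1 / ((n : ℝ) + 2) ^ c1) ≤ c * (ε ^ Cg / (n + 1 : ℝ) ^ Cg))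
    (i₀ : Fin (2 ^ P.σ))
    (hrun : ∀ u : List Bool, u.length = P.B → runX n P E ⟨u⟩ =
      toL (runV P.ℓ (fun k => repStep P.σ (ps (k / P.T + 1))) (P.J * P.T) 0 u
        (fun _ => St.M0P hn) i₀)) :
    ∑ M : PM n, |rlaw (runX n P E) P.B M - law (toZ P.F E) M| ≤ η := by
  have hn0 : (0 : ℝ) ≤ n := Nat.cast_nonneg n
  set γ : ℝ := 1 / ((n : ℝ) + 2) ^ c1 with hγd
  have hγ0 : 0 < γ := by (clear * -; positivity)
  have hγ1 : γ ≤ 1 := by
    rw [hγd, div_le_one (by (clear * -; positivity))]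
    exact one_le_pow₀ (by linarith only [])
  obtain ⟨h3, hT, hs, hη2, hsum⟩ := samp_num hS hη hη1 hC hκ0 hκ (le_refl γ)
  have hσ : 1 ≤ P.σ := by
    by_contra h
    have : P.σ = 0 := by omega
    rw [this] at h3
    norm_num at h3
  have hσ2 : (2 : ℝ) ≤ 2 ^ P.σ := by
    calc (2 : ℝ) = 2 ^ 1 := by norm_num
      _ ≤ 2 ^ P.σ := pow_le_pow_right₀ (by norm_num) hσ
  have hpos := fun t ht => ultr_pos hε (hPath.ultr t ht)
  have key := pop_tv (X := PM n) (ι := Fin (2 ^ P.σ)) hRep
    (μ := fun t => Poly.mu (lamT n P E t))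
    (K := fun t => symK (2 ^ P.σ) (pairLaw L (ps (t + 1))))
    (rep := fun t => repStep P.σ (ps (t + 1))) (b := P.ℓ) (T := P.T) (J := P.J)
    (x₀ := St.M0P hn) i₀ (η := (n : ℝ) ^ n * (2 : ℝ) ^ (-(P.X : ℤ))) (κ := κ) (γ := γ)
    ⟨fun M => (mu_pos hn (hpos 0 (Nat.zero_le _)) M).le, sum_mu hn (hpos 0 (Nat.zero_le _))⟩
    (fun t ht => pairKer_of hn hGap hε hε1 (hPath.ultr (t + 1) ht)
      (hPair (t + 1) (by omega) ht) hc hσ2 hγ0 hγ)
    (fun t _ ω ω' => by rw [hL, stepKer_repStep hσ])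
    (fun t ht M => hPath.ratio t ht M)
    hPath.start hη2 hγ1 (by rw [Fintype.card_fin]; exact h3) hκ0
    (by rw [Fintype.card_fin]; exact hs) hT
  rw [Fintype.card_fin] at key
  refine le_trans (le_of_eq ?_) (key.trans hsum)
  refine sum_congr rfl fun M _ => ?_
  rw [← hPath.last M]
  congr 2
  unfold rlaw
  have hB : P.B = P.J * P.T * P.ℓ := by unfold Par.B; ring
  rw [hB]
  simp only [prob_eq_sum]
  congr 1
  refine sum_congr rfl fun u hu => ?_
  have hu' : u.length = P.B := by rw [hB]; exact mem_words.1 hu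
  have h4 : (runX n P E ⟨u⟩ = toL M) ↔ (runV P.ℓ (fun k => repStep P.σ (ps (k / P.T + 1)))
      (P.J * P.T) 0 u (fun _ => St.M0P hn) i₀ = M) := by
    rw [hrun u hu']
    exact toL_injective.eq_iff
  simp only [h4]

/-- The same for a pair step on matchings which represents the list program. -/
theorem mixed_of_pair {Cg C c0 c1 : ℕ} (hGap : Poly.Gap Cg) (hRep : Poly.RepStatement)
    (hn : Even n) {P : Par} {E : List (List ℕ)} {η ε κ c : ℝ}
    (hS : SampOK C n P η) (hη : 0 < η) (hη1 : η ≤ 1) (hC : 2 * c1 + 2 * c0 + 17 ≤ C)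
    (hε : 0 < ε) (hε1 : ε ≤ 1)
    (hPath : PathOK P E (St.M0P hn) ε κ ((n : ℝ) ^ n * (2 : ℝ) ^ (-(P.X : ℤ))))
    {psP : List (List ℕ) → List Bool → PM n × PM n → PM n × PM n}
    (hps : ListPair psP P.b P.h) {L : ℕ} (hL : P.ℓ = P.σ + P.σ + L)
    (hPair : ∀ t, 1 ≤ t → t ≤ P.J →
      PairOK (lamT n P E t) L (psP (pathM n P.h P.X P.D E t)) c) (hc : 0 < c)
    (hκ0 : 0 ≤ κ) (hκ : κ ≤ (c0 : ℝ) * n / 2 ^ P.h)
    (hγ : 4 * (1 / ((n : ℝ) + 2) ^ c1) ≤ c * (ε ^ Cg / (n + 1 : ℝ) ^ Cg)) :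
    ∑ M : PM n, |rlaw (runX n P E) P.B M - law (toZ P.F E) M| ≤ η := by
  obtain ⟨-, hT, -⟩ := samp_num hS hη hη1 hC hκ0 hκ (le_refl (1 / ((n : ℝ) + 2) ^ c1))
  exact mixed_core hGap hRep hn hS hη hη1 hC hε hε1 hPath
    (ps := fun t => psP (pathM n P.h P.X P.D E t)) hL hPair hc hκ0 hκ hγ ⟨0, by positivity⟩
    (fun u _ => runX_eq hps hT hn E u)

end Vale.Agent.P308.PA
end

section

/-! # C6: the second fact `Alg.M2` -/

namespace Vale.Agent.P308.Canon

open Finset Vale.Agent.P308.Split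

variable {n : ℕ}

section tree

open Vale.Agent.P308.Alg

/-- the bottleneck matrix extended to the root -/
def bx (r : Fin n) (B : Fin n → Fin n → ℤ) (x y : Fin n) : ℤ :=
  if x = r ∨ y = r then -(2 * ∑ a, ∑ b, |B a b|) else B x y

theorem le_bx (r : Fin n) (B : Fin n → Fin n → ℤ) (x y : Fin n) :
    -(2 * ∑ a, ∑ b, |B a b|) ≤ bx r B x y := by
  unfold bx
  split_ifs with h
  · exact le_rfl
  · have h1 : |B x y| ≤ ∑ b, |B x b| :=
      Finset.single_le_sum (f := fun b => |B x b|) (fun b _ => abs_nonneg _) (mem_univ y)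
    have h2 : ∑ b, |B x b| ≤ ∑ a, ∑ b, |B a b| :=
      Finset.single_le_sum (f := fun a => ∑ b, |B a b|)
        (fun a _ => Finset.sum_nonneg fun b _ => abs_nonneg _) (mem_univ x)
    have h3 : 0 ≤ |B x y| := abs_nonneg _
    have h4 : -|B x y| ≤ B x y := neg_abs_le _
    linarith

theorem bx_symm {r : Fin n} {B : Fin n → Fin n → ℤ} (hB : ∀ x y, B x y = B y x) (x y : Fin n) :
    bx r B x y = bx r B y x := by
  unfold bx
  rw [hB x y]
  by_cases h : x = r ∨ y = r
  · rw [if_pos h, if_pos h.symm]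
  · rw [if_neg h, if_neg fun h' => h h'.symm]

/-- the natural valued ultrametric -/
def um (r : Fin n) (B : Fin n → Fin n → ℤ) (x y : Fin n) : ℕ :=
  (bx r B x y + 2 * ∑ a, ∑ b, |B a b|).toNat

theorem um_cast (r : Fin n) (B : Fin n → Fin n → ℤ) (x y : Fin n) :
    (um r B x y : ℤ) = bx r B x y + 2 * ∑ a, ∑ b, |B a b| := by
  unfold um
  have := le_bx r B x y
  omega

/-- the ultrametric of a bottleneck matrix -/
def ult {r : Fin n} {ρ B : Fin n → Fin n → ℤ} (h : IsBottle r ρ B) :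
    Ultra n (∑ a, ∑ b, um r B a b) where
  m := um r B
  symm x y := by unfold um; rw [bx_symm h.symm]
  le x y := by
    have h1 : um r B x y ≤ ∑ b, um r B x b :=
      Finset.single_le_sum (f := fun b => um r B x b) (fun b _ => Nat.zero_le _) (mem_univ y)
    have h2 : ∑ b, um r B x b ≤ ∑ a, ∑ b, um r B a b :=
      Finset.single_le_sum (f := fun a => ∑ b, um r B a b) (fun a _ => Nat.zero_le _) (mem_univ x)
    exact h1.trans h2
  ultra x y z hxy hyz hxz := by
    have hx := um_cast r B x y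
    have hy := um_cast r B y z
    have hz := um_cast r B x z
    have lx := le_bx r B x y
    have ly := le_bx r B y z
    have lz := le_bx r B x z
    have key : min (bx r B x y) (bx r B y z) ≤ bx r B x z := by
      by_cases h1 : x = r
      · have : bx r B x y = -(2 * ∑ a, ∑ b, |B a b|) := by unfold bx; rw [if_pos (Or.inl h1)]
        rw [min_le_iff]; left; rw [this]; exact lz
      by_cases h2 : z = r
      · have : bx r B y z = -(2 * ∑ a, ∑ b, |B a b|) := by unfold bx; rw [if_pos (Or.inr h2)]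
        rw [min_le_iff]; right; rw [this]; exact lz
      by_cases h3 : y = r
      · have : bx r B x y = -(2 * ∑ a, ∑ b, |B a b|) := by unfold bx; rw [if_pos (Or.inr h3)]
        rw [min_le_iff]; left; rw [this]; exact lz
      · have e1 : bx r B x y = B x y := by unfold bx; rw [if_neg (by tauto)]
        have e2 : bx r B y z = B y z := by unfold bx; rw [if_neg (by tauto)]
        have e3 : bx r B x z = B x z := by unfold bx; rw [if_neg (by tauto)]
        rw [e1, e2, e3]
        exact h.ultra x z y h1 h2 h3 hxz hxy hyz.symm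
    omega

/-- the improved exponents are tree-like -/
theorem treeLike {r : Fin n} {k : Fin n → Fin n → ℤ} {A : Fin n → ℤ} {B : Fin n → Fin n → ℤ}
    (h : StageData r k A B) (c : ℕ) :
    TreeLike (impZ r k A B c) (ult h.bottle) (c + 4) where
  symm x y := by
    unfold impZ
    rw [h.symm x y, h.bottle.symm x y]
    by_cases hx : x = r <;> by_cases hy : y = r
    · simp only [hy, hx, ↓reduceIte]
    · simp only [hx, ↓reduceIte, hy]
    · simp only [hy, hx, ↓reduceIte]
    · simp only [hx, ↓reduceIte, hy, add_comm (A x) (A y)]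
  ex := by
    refine ⟨fun x => (if x = r then -(2 * ∑ a, ∑ b, |B a b|) else A x) +
      (∑ a, ∑ b, |B a b|) - 2, fun x y hxy => ?_⟩
    have hroot : ∀ u, u ≠ r → A u - 4 ≤ k r u := by
      intro u hu
      obtain ⟨h1, -⟩ := h.est u hu
      have hZ0 : 0 ≤ Zf k := Finset.sum_nonneg fun M _ => by unfold mass; positivity
      have hp : (0 : ℝ) < 2 ^ (A u - 4) := by positivity
      have hZ : 0 < Zf k := by
        rcases hZ0.lt_or_eq with h0 | h0
        · exact h0
        · exfalso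
          unfold alpha at h1
          rw [← h0, div_zero] at h1
          linarith
      have hle : alpha k r u ≤ (2 : ℝ) ^ (k r u) := by
        unfold alpha
        rw [div_le_iff₀ hZ, mul_comm]
        refine mul_le_mul_of_nonneg_left ?_ (by positivity)
        unfold Zf
        refine Finset.sum_le_sum fun M _ => ?_
        split_ifs
        · exact le_rfl
        · unfold mass; positivity
      exact (zpow_le_zpow_iff_right₀ (by norm_num : (1 : ℝ) < 2)).1 (h1.trans hle)
    have hum : ((ult h.bottle).m x y : ℤ) = bx r B x y + 2 * ∑ a, ∑ b, |B a b| := um_cast r B x y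
    rw [hum]
    have hcast : (((c + 4 : ℕ) : ℤ)) = (c : ℤ) + 4 := by push_cast; ring
    rw [hcast]
    unfold impZ bx
    generalize (∑ a, ∑ b, |B a b|) = S
    by_cases hx : x = r
    · have hy : y ≠ r := fun hy => hxy (hx.trans hy.symm)
      have h1 := hroot y hy
      subst hx
      simp only [if_true, true_or, if_neg hy]
      rcases min_cases (k x y) (A y + (c : ℤ)) with ⟨h2, h3⟩ | ⟨h2, h3⟩ <;> rw [h2] <;>
        constructor <;> linarith only [h1, h3]
    · by_cases hy : y = r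
      · have h1 := hroot x hx
        have h1' : A x - 4 ≤ k x y := by rw [h.symm x y, hy]; exact h1
        subst hy
        simp only [if_true, or_true, if_neg hx]
        rcases min_cases (k x y) (A x + (c : ℤ)) with ⟨h2, h3⟩ | ⟨h2, h3⟩ <;> rw [h2] <;>
          constructor <;> linarith only [h1', h3]
      · have h1 := h.bottle.le x y hx hy hxy
        have h4 : ¬ (x = r ∨ y = r) := by (clear * - hx hy; tauto)
        simp only [if_neg hx, if_neg hy, if_neg h4]
        rcases min_cases (k x y) (A x + A y - B x y + (c : ℤ)) with ⟨h2, h3⟩ | ⟨h2, h3⟩ <;>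
          rw [h2] <;> constructor <;> linarith only [h1, h3]

end tree

/-- the bound for the constants -/
theorem const_le (c1 n : ℕ) :
    ((n * (2 * n) : ℕ) : ℝ) ^ 2 *
      ((2 : ℝ) ^ ((c1 * (Nat.size n + 1) + 4) * Bd n) * (2 * ((n : ℝ) ^ 3 + 1) ^ Bd n)) ≤
    2 ^ ((12 * c1 + 103) * (Nat.size n + 1) ^ 2) := by
  set s := Nat.size n + 1 with hs
  have hs1 : 1 ≤ s := by omega
  have hn : n ≤ 2 ^ s := by
    have h1 : n < 2 ^ Nat.size n := Nat.lt_size_self n
    have h2 : 2 ^ Nat.size n ≤ 2 ^ s := Nat.pow_le_pow_right (by norm_num) (by omega)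
    omega
  have hlog : Nat.log 2 n ≤ s := by
    have : Nat.log 2 n < s + 1 := by
      apply Nat.lt_of_le_of_lt (Nat.log_mono_right hn)
      rw [Nat.log_pow (by norm_num)]
      omega
    omega
  have hB : Bd n ≤ 12 * s := by unfold Bd; omega
  have hnR : (n : ℝ) ≤ 2 ^ s := by exact_mod_cast hn
  have e1 : ((n * (2 * n) : ℕ) : ℝ) ^ 2 ≤ 2 ^ (2 + 4 * s) := by
    have : ((n * (2 * n) : ℕ) : ℝ) ^ 2 = 4 * (n : ℝ) ^ 4 := by push_cast; ring
    rw [this]
    have h4 : (n : ℝ) ^ 4 ≤ (2 ^ s) ^ 4 := pow_le_pow_left₀ (by positivity) hnR 4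
    calc 4 * (n : ℝ) ^ 4 ≤ 4 * (2 ^ s) ^ 4 := by linarith only [h4]
      _ = 2 ^ (2 + 4 * s) := by rw [← pow_mul, pow_add]; norm_num [mul_comm]
  have e2 : (2 : ℝ) ^ ((c1 * s + 4) * Bd n) ≤ 2 ^ ((c1 * s + 4) * (12 * s)) :=
    pow_le_pow_right₀ (by norm_num) (Nat.mul_le_mul_left _ hB)
  have e3 : (2 * ((n : ℝ) ^ 3 + 1) ^ Bd n) ≤ 2 ^ (1 + (3 * s + 1) * (12 * s)) := by
    have h1 : (n : ℝ) ^ 3 + 1 ≤ 2 ^ (3 * s + 1) := by
      have h3 : (n : ℝ) ^ 3 ≤ (2 ^ s) ^ 3 := pow_le_pow_left₀ (by (clear * -; positivity)) hnR 3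
      have h5 : (1 : ℝ) ≤ (2 ^ s) ^ 3 := one_le_pow₀ (one_le_pow₀ (by norm_num))
      calc (n : ℝ) ^ 3 + 1 ≤ (2 ^ s) ^ 3 + (2 ^ s) ^ 3 := by linarith only [h3, h5]
        _ = 2 ^ (3 * s + 1) := by rw [← pow_mul, pow_add, mul_comm s 3]; ring
    have h2 : ((n : ℝ) ^ 3 + 1) ^ Bd n ≤ (2 ^ (3 * s + 1)) ^ (12 * s) := by
      calc ((n : ℝ) ^ 3 + 1) ^ Bd n ≤ (2 ^ (3 * s + 1)) ^ Bd n :=
            pow_le_pow_left₀ (by (clear * -; positivity)) h1 _
        _ ≤ (2 ^ (3 * s + 1)) ^ (12 * s) :=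
            pow_le_pow_right₀ (one_le_pow₀ (by norm_num)) hB
    calc 2 * ((n : ℝ) ^ 3 + 1) ^ Bd n ≤ 2 * (2 ^ (3 * s + 1)) ^ (12 * s) := by linarith only [h2]
      _ = 2 ^ (1 + (3 * s + 1) * (12 * s)) := by rw [← pow_mul, pow_add, pow_one]
  calc ((n * (2 * n) : ℕ) : ℝ) ^ 2 *
      ((2 : ℝ) ^ ((c1 * s + 4) * Bd n) * (2 * ((n : ℝ) ^ 3 + 1) ^ Bd n))
      ≤ 2 ^ (2 + 4 * s) * (2 ^ ((c1 * s + 4) * (12 * s)) * 2 ^ (1 + (3 * s + 1) * (12 * s))) := by
        refine mul_le_mul e1 (mul_le_mul e2 e3 (by (clear * -; positivity)) (by positivity)) (by (clear * -; positivity))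
          (by positivity)
    _ = 2 ^ ((2 + 4 * s) + ((c1 * s + 4) * (12 * s) + (1 + (3 * s + 1) * (12 * s)))) := by
        rw [← pow_add, ← pow_add]
    _ ≤ 2 ^ ((12 * c1 + 103) * s ^ 2) := by
        refine pow_le_pow_right₀ (by norm_num) ?_
        nlinarith only [hs]

/-- **Second fact.** -/
theorem M2_holds (c1 : ℕ) : Alg.M2 c1 (12 * c1 + 103) := by
  intro n r k A B c _ hS hc P q hq hC hstep f
  set w := Alg.impZ r k A B c with hw
  have hcn : c = ((c1 * (Nat.size n + 1) : ℕ) : ℤ) := by rw [hc]; push_cast; ring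
  have hT : TreeLike w (ult hS.bottle) (c1 * (Nat.size n + 1) + 4) := by
    rw [hw, hcn]
    exact treeLike hS _
  have hZ0 : 0 ≤ Alg.Zf w := Finset.sum_nonneg fun M _ => by unfold Alg.mass; positivity
  have hZ : 0 < Alg.Zf w := by
    rcases hZ0.lt_or_eq with h0 | h0
    · exact h0
    · exfalso
      have h1 := hC.sum_one
      have : ∀ M, Alg.law w M = 0 := by
        intro M
        unfold Alg.law
        rw [← h0, div_zero]
      simp only [this] at h1
      simp only [sum_const_zero, zero_ne_one] at h1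
  have hdir : 0 ≤ Soft.Mix.dir (Alg.law w) P f := by
    unfold Soft.Mix.dir
    refine mul_nonneg (by norm_num) (Finset.sum_nonneg fun x _ => Finset.sum_nonneg fun y _ => ?_)
    exact mul_nonneg (mul_nonneg (hC.pos x).le (hC.nonneg x y)) (sq_nonneg _)
  have hP : Soft.Mix.var (Alg.law w) f ≤ ((n * (2 * n) : ℕ) : ℝ) ^ 2 *
      ((2 : ℝ) ^ ((c1 * (Nat.size n + 1) + 4) * Bd n) * (2 * ((n : ℝ) ^ 3 + 1) ^ Bd n)) / q *
        Soft.Mix.dir (Alg.law w) P f := by
    refine poincare (n := n) (π := Alg.law w) (P := P) hT hC hZ (fun M => rfl) hq ?_ f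
    intro M M' h hne
    rcases h with h | ⟨a, b, h1, h2, h3⟩
    · exact absurd h.symm hne
    · exact hstep M M' ⟨a, b, h1, h2, h3⟩
  refine hP.trans (mul_le_mul_of_nonneg_right ?_ hdir)
  exact div_le_div_of_nonneg_right (const_le c1 n) hq.le

end Vale.Agent.P308.Canon
end

section

/-!
# P308, polynomial version: the annealing path

Refined exponents `q` (`H` units per factor `2`), their weights `wq H q`, the path of the exponents
`pos` from the point mass at `01|23|…` over the uniform law to the law of the weights `2 ^ (-E)`.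
-/

namespace Vale.Agent.P308.Poly

open Finset Vale.Agent.P308.Alg

variable {n : ℕ}

/-! ### Weights of refined exponents -/

/-- The weight of the refined exponent `q`. -/
noncomputable def wq (H q : ℕ) : ℝ := ((2 * H - q % H : ℕ) : ℝ) / (2 * H) / 2 ^ (q / H)

theorem wq_pos {H : ℕ} (hH : 0 < H) (q : ℕ) : 0 < wq H q := by
  unfold wq
  have h1 : q % H < H := Nat.mod_lt _ hH
  have h2 : 0 < 2 * H - q % H := by omega
  have h3 : (0 : ℝ) < ((2 * H - q % H : ℕ) : ℝ) := by exact_mod_cast h2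
  have h4 : (0 : ℝ) < H := by exact_mod_cast hH
  positivity

theorem wq_mul {H : ℕ} (hH : 0 < H) (k : ℕ) : wq H (H * k) = 1 / 2 ^ k := by
  unfold wq
  have h4 : (0 : ℝ) < H := by exact_mod_cast hH
  rw [Nat.mul_mod_right, Nat.mul_div_cancel_left _ hH, Nat.sub_zero]
  push_cast
  rw [div_self (by positivity)]

theorem wq_zero {H : ℕ} (hH : 0 < H) : wq H 0 = 1 := by
  have := wq_mul hH 0
  simpa using this

/-- consecutive weights -/
theorem wq_succ {H : ℕ} (hH : 0 < H) (q : ℕ) :
    wq H (q + 1) ≤ wq H q ∧ (1 - 1 / ((H : ℝ) + 1)) * wq H q ≤ wq H (q + 1) := by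
  have hR : (0 : ℝ) < H := by exact_mod_cast hH
  obtain ⟨a, b, hb, rfl⟩ : ∃ a b, b < H ∧ q = H * a + b :=
    ⟨q / H, q % H, Nat.mod_lt _ hH, (Nat.div_add_mod q H).symm⟩
  have e1 : (H * a + b) % H = b := by rw [Nat.mul_add_mod, Nat.mod_eq_of_lt hb]
  have e2 : (H * a + b) / H = a := by
    rw [Nat.mul_add_div hH, Nat.div_eq_of_lt hb, Nat.add_zero]
  have key : wq H (H * a + b) = (2 * H - b : ℝ) / (2 * H) / 2 ^ a := by
    unfold wq
    rw [e1, e2, Nat.cast_sub (by omega)]
    push_cast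
    rfl
  have key2 : wq H (H * a + b + 1) = (2 * H - b - 1 : ℝ) / (2 * H) / 2 ^ a := by
    rcases Nat.lt_or_ge (b + 1) H with h | h
    · have e3 : (H * a + b + 1) % H = b + 1 := by
        rw [add_assoc, Nat.mul_add_mod, Nat.mod_eq_of_lt h]
      have e4 : (H * a + b + 1) / H = a := by
        rw [add_assoc, Nat.mul_add_div hH, Nat.div_eq_of_lt h, Nat.add_zero]
      unfold wq
      rw [e3, e4, Nat.cast_sub (by omega)]
      push_cast
      congr 2
      ring
    · have hb1 : b + 1 = H := by omega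
      have e3 : H * a + b + 1 = H * (a + 1) := by rw [add_assoc, hb1]; ring
      have hbR : (b : ℝ) = H - 1 := by
        rw [eq_sub_iff_add_eq]
        exact_mod_cast hb1
      rw [e3, wq_mul hH, hbR, pow_succ]
      field_simp
      ring
  rw [key, key2]
  have hbR : (b : ℝ) ≤ H - 1 := by
    rw [le_sub_iff_add_le]
    exact_mod_cast hb
  have hp : (0 : ℝ) < 2 ^ a := by positivity
  constructor
  · refine div_le_div_of_nonneg_right (div_le_div_of_nonneg_right ?_ (by positivity)) hp.le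
    linarith only []
  · have h1 : (1 - 1 / ((H : ℝ) + 1)) * ((2 * H - b : ℝ) / (2 * H) / 2 ^ a) =
        ((1 - 1 / ((H : ℝ) + 1)) * (2 * H - b : ℝ)) / (2 * H) / 2 ^ a := by ring
    rw [h1]
    refine div_le_div_of_nonneg_right (div_le_div_of_nonneg_right ?_ (by positivity)) hp.le
    have h2 : (1 : ℝ) ≤ 1 / ((H : ℝ) + 1) * (2 * H - b) := by
      rw [one_div, ← div_eq_inv_mul, le_div_iff₀ (by linarith only [])]
      linarith only [hbR]
    linarith only [h2]

theorem wq_le_one {H : ℕ} (hH : 0 < H) (q : ℕ) : wq H q ≤ 1 := by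
  induction q with
  | zero => rw [wq_zero hH]
  | succ q ih => exact (wq_succ hH q).1.trans ih

/-- lower bound by the power of `2` -/
theorem rpow_le_wq {H : ℕ} (hH : 0 < H) (q : ℕ) : (2 : ℝ) ^ (-((q : ℝ) / H)) ≤ wq H q := by
  have hR : (0 : ℝ) < H := by exact_mod_cast hH
  have hq : (q : ℝ) = H * ((q / H : ℕ) : ℝ) + ((q % H : ℕ) : ℝ) := by
    exact_mod_cast (Nat.div_add_mod q H).symm
  have hb : ((q % H : ℕ) : ℝ) < H := by exact_mod_cast Nat.mod_lt _ hH
  have hb0 : (0 : ℝ) ≤ ((q % H : ℕ) : ℝ) := by positivity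
  have e1 : -((q : ℝ) / H) = -(((q / H : ℕ) : ℝ)) + -(((q % H : ℕ) : ℝ) / H) := by
    rw [hq]
    field_simp
    ring
  rw [e1, Real.rpow_add (by norm_num), Real.rpow_neg (by norm_num), Real.rpow_natCast]
  have h1 : (2 : ℝ) ^ (-(((q % H : ℕ) : ℝ) / H)) ≤ 1 + (((q % H : ℕ) : ℝ) / H) * (-(1 / 2)) := by
    have h2 := rpow_one_add_le_one_add_mul_self (s := -(1 / 2 : ℝ)) (by norm_num)
      (p := ((q % H : ℕ) : ℝ) / H) (by (clear * - hH; positivity)) (by rw [div_le_one hR]; exact hb.le)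
    have h3 : (1 + -(1 / 2 : ℝ)) = 2⁻¹ := by norm_num
    rw [h3, Real.inv_rpow (by norm_num), ← Real.rpow_neg (by norm_num)] at h2
    exact h2
  have h4 : wq H q = (2 ^ (q / H))⁻¹ * (1 + (((q % H : ℕ) : ℝ) / H) * (-(1 / 2))) := by
    unfold wq
    rw [Nat.cast_sub (by have := Nat.mod_lt q hH; omega)]
    push_cast
    field_simp
    ring
  rw [h4]
  exact mul_le_mul_of_nonneg_left h1 (by positivity)

/-- upper bound by the power of `2` -/
theorem wq_le_rpow {H : ℕ} (hH : 0 < H) (q : ℕ) : wq H q ≤ 2 * (2 : ℝ) ^ (-((q : ℝ) / H)) := by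
  have hR : (0 : ℝ) < H := by exact_mod_cast hH
  have hq : (q : ℝ) = H * ((q / H : ℕ) : ℝ) + ((q % H : ℕ) : ℝ) := by
    exact_mod_cast (Nat.div_add_mod q H).symm
  have hb : ((q % H : ℕ) : ℝ) < H := by exact_mod_cast Nat.mod_lt _ hH
  have hb0 : (0 : ℝ) ≤ ((q % H : ℕ) : ℝ) := by positivity
  have h1 : wq H q ≤ 1 / 2 ^ (q / H) := by
    unfold wq
    gcongr
    rw [div_le_one (by positivity), Nat.cast_sub (by have := Nat.mod_lt q hH; (clear * - hH this; omega))]
    push_cast
    linarith only []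
  refine h1.trans ?_
  have h2 : (1 : ℝ) / 2 ^ (q / H) = (2 : ℝ) ^ (-(((q / H : ℕ) : ℝ))) := by
    rw [Real.rpow_neg (by norm_num), Real.rpow_natCast, one_div]
  have h3 : 2 * (2 : ℝ) ^ (-((q : ℝ) / H)) = (2 : ℝ) ^ (1 + -((q : ℝ) / H)) := by
    rw [Real.rpow_add (by norm_num), Real.rpow_one]
  rw [h2, h3]
  refine Real.rpow_le_rpow_of_exponent_le (by norm_num) ?_
  have h4 : ((q : ℝ) / H) ≤ ((q / H : ℕ) : ℝ) + 1 := by
    rw [div_le_iff₀ hR, hq]
    have : (((H : ℝ) * ((q / H : ℕ) : ℝ) + ((q % H : ℕ) : ℝ))) =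
        (H : ℝ) * ((q / H : ℕ) : ℝ) + ((q % H : ℕ) : ℝ) := rfl
    nlinarith only [hb]
  linarith only [h4]

/-! ### The path -/

/-- The refined exponents along the path: `t ≤ X * H`: from the point mass at `01|23|…` to the
uniform law; then from the uniform law to the weights `2 ^ (-E)`. -/
def pos (H X D : ℕ) (E : ℕ → ℕ → ℕ) (t x y : ℕ) : ℕ :=
  if t ≤ X * H then (if x / 2 = y / 2 then 0 else X * H - t) else (t - X * H) * E x y / D

/-- The weights along the path. -/
noncomputable def lamP (H X D : ℕ) (E : ℕ → ℕ → ℕ) (t : ℕ) (x y : Fin n) : ℝ :=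
  wq H (pos H X D E t x y)

variable {H X D : ℕ} {E : ℕ → ℕ → ℕ}

theorem lamP_pos (hH : 0 < H) (t : ℕ) (x y : Fin n) : 0 < lamP H X D E t x y := wq_pos hH _

theorem lamP_le_one (hH : 0 < H) (t : ℕ) (x y : Fin n) : lamP H X D E t x y ≤ 1 :=
  wq_le_one hH _

theorem lamP_symm (hE : ∀ x y : Fin n, E x y = E y x) (t : ℕ) (x y : Fin n) :
    lamP H X D E t x y = lamP H X D E t y x := by
  unfold lamP pos
  rw [hE x y]
  by_cases h : (x : ℕ) / 2 = (y : ℕ) / 2
  · rw [if_pos h, if_pos h.symm]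
  · rw [if_neg h, if_neg (Ne.symm h)]

/-- the end of the path -/
theorem lamP_end (hH : 0 < H) (hD : 0 < D) (x y : Fin n) :
    lamP H X D E (X * H + D * H) x y = 1 / 2 ^ (E x y) := by
  unfold lamP pos
  rw [if_neg (by have : 0 < D * H := Nat.mul_pos hD hH; omega)]
  have : (X * H + D * H - X * H) * E x y / D = H * E x y := by
    rw [Nat.add_sub_cancel_left, mul_assoc, Nat.mul_div_cancel_left _ hD]
  rw [this, wq_mul hH]

/-- the positions of consecutive times differ by at most one, in one direction for all pairs -/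
theorem pos_step (hED : ∀ x y : Fin n, E x y ≤ D) (hD : 0 < D) (t : ℕ) :
    (∀ x y : Fin n, pos H X D E t x y = pos H X D E (t + 1) x y ∨
      pos H X D E t x y = pos H X D E (t + 1) x y + 1) ∨
    (∀ x y : Fin n, pos H X D E (t + 1) x y = pos H X D E t x y ∨
      pos H X D E (t + 1) x y = pos H X D E t x y + 1) := by
  rcases lt_trichotomy t (X * H) with h | h | h
  · left
    intro x y
    unfold pos
    rw [if_pos h.le, if_pos (show t + 1 ≤ X * H by omega)]
    split_ifs
    · left; rfl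
    · right; omega
  · right
    intro x y
    unfold pos
    rw [if_pos h.le, if_neg (show ¬ t + 1 ≤ X * H by omega)]
    have h1 : t + 1 - X * H = 1 := by omega
    have h2 : X * H - t = 0 := by omega
    rw [h1, h2, one_mul]
    have h3 : E x y / D ≤ 1 := by
      have := Nat.div_le_div_right (c := D) (hED x y)
      rwa [Nat.div_self hD] at this
    generalize E x y / D = k at h3 ⊢
    split_ifs <;> omega
  · right
    intro x y
    unfold pos
    rw [if_neg (show ¬ t ≤ X * H by omega), if_neg (show ¬ t + 1 ≤ X * H by omega)]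
    have h1 : t + 1 - X * H = (t - X * H) + 1 := by omega
    rw [h1]
    have h2 : (t - X * H) * E x y / D ≤ ((t - X * H) + 1) * E x y / D :=
      Nat.div_le_div_right (Nat.mul_le_mul_right _ (by omega))
    have h3 : ((t - X * H) + 1) * E x y / D ≤ (t - X * H) * E x y / D + 1 := by
      have : ((t - X * H) + 1) * E x y ≤ (t - X * H) * E x y + D := by
        rw [add_mul, one_mul]
        exact Nat.add_le_add_left (hED x y) _
      calc ((t - X * H) + 1) * E x y / D ≤ ((t - X * H) * E x y + D) / D :=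
            Nat.div_le_div_right this
        _ = (t - X * H) * E x y / D + 1 := Nat.add_div_right _ hD
    omega

/-! ### Consecutive laws -/

section ratio

variable {lam lam' : Fin n → Fin n → ℝ} {r : ℝ}

theorem wt_pos' (h : ∀ x y, 0 < lam x y) (M : PM n) : 0 < wt lam M :=
  Finset.prod_pos fun x _ => by split_ifs <;> [exact h _ _; norm_num]

theorem wt_le_wt (h : ∀ x y, 0 < lam x y) (hle : ∀ x y, lam x y ≤ lam' x y) (M : PM n) :
    wt lam M ≤ wt lam' M :=
  Finset.prod_le_prod (fun x _ => by split_ifs <;> [exact (h _ _).le; norm_num])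
    fun x _ => by split_ifs <;> [exact hle _ _; exact le_rfl]

theorem wt_ge_wt (hr0 : 0 ≤ r) (hr : r ≤ 1)
    (hle : ∀ x y, (1 - r) * lam' x y ≤ lam x y) (h' : ∀ x y, 0 < lam' x y) (M : PM n) :
    (1 - r) ^ n * wt lam' M ≤ wt lam M := by
  have h1 : (1 - r) ^ n = ∏ _x : Fin n, (1 - r) := by
    rw [Finset.prod_const, Finset.card_univ, Fintype.card_fin]
  unfold wt
  rw [h1, ← Finset.prod_mul_distrib]
  refine Finset.prod_le_prod (fun x _ => ?_) fun x _ => ?_
  · have : 0 ≤ 1 - r := by linarith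
    split_ifs
    · exact mul_nonneg this (h' _ _).le
    · rw [mul_one]; exact this
  · split_ifs
    · exact hle _ _
    · linarith only [hr0]

/-- The laws of two systems of weights within the factor `1 - r`. -/
theorem mu_close (h : ∀ x y, 0 < lam x y) (h' : ∀ x y, 0 < lam' x y) (hr0 : 0 ≤ r)
    (hrn : 2 * (n * r) ≤ 1) (hle : ∀ x y, lam x y ≤ lam' x y)
    (hge : ∀ x y, (1 - r) * lam' x y ≤ lam x y) (M : PM n) :
    |mu lam M - mu lam' M| ≤ 2 * (n * r) * mu lam' M ∧
      |mu lam' M - mu lam M| ≤ 2 * (n * r) * mu lam M := by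
  rcases Nat.eq_zero_or_pos n with h0 | hn
  · subst h0
    have e : mu lam M = mu lam' M := by
      unfold mu Zt
      have : ∀ (l : Fin 0 → Fin 0 → ℝ) (M : PM 0), wt l M = 1 := fun l M => by simp only [wt, univ_eq_empty, ne_eq, prod_empty]
      simp only [this, sum_const, card_univ, nsmul_eq_mul, mul_one, one_div]
    rw [e]
    simp only [sub_self, abs_zero, CharP.cast_eq_zero, zero_mul, mul_zero, Std.le_refl, and_self]
  have hn1 : (1 : ℝ) ≤ n := by exact_mod_cast hn
  have hr1 : r ≤ 1 := by nlinarith only [hrn, hn1]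
  have hz : 0 < Zt lam := Finset.sum_pos (fun M _ => wt_pos' h M) ⟨M, mem_univ _⟩
  have hz' : 0 < Zt lam' := Finset.sum_pos (fun M _ => wt_pos' h' M) ⟨M, mem_univ _⟩
  have hw := wt_pos' h M
  have hw' := wt_pos' h' M
  have a1 := wt_le_wt h hle M
  have a2 := wt_ge_wt hr0 hr1 hge h' M
  have b1 : Zt lam ≤ Zt lam' := Finset.sum_le_sum fun M _ => wt_le_wt h hle M
  have b2 : (1 - r) ^ n * Zt lam' ≤ Zt lam := by
    unfold Zt
    rw [Finset.mul_sum]
    exact Finset.sum_le_sum fun M _ => wt_ge_wt hr0 hr1 hge h' M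
  have hber : 1 - n * r ≤ (1 - r) ^ n := by
    have := one_add_mul_le_pow (a := -r) (by linarith only [hr1]) n
    have e : 1 + (n : ℝ) * -r = 1 - n * r := by ring
    rw [e] at this
    have e2 : 1 + -r = 1 - r := by ring
    rwa [e2] at this
  set q := (1 - r) ^ n with hq
  have hq0 : 0 < q := by nlinarith only [hrn, hber]
  have hq1 : q ≤ 1 := pow_le_one₀ (by linarith only [hr1]) (by linarith only [hr0])
  have hmu' : 0 < mu lam' M := div_pos hw' hz'
  have hmu : 0 < mu lam M := div_pos hw hz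
  -- q mu' <= mu and q mu <= mu'
  have c1 : q * mu lam' M ≤ mu lam M := by
    unfold mu
    rw [← mul_div_assoc]
    exact div_le_div₀ hw.le a2 hz b1
  have c2 : q * mu lam M ≤ mu lam' M := by
    unfold mu
    rw [← mul_div_assoc, div_le_div_iff₀ hz hz']
    calc q * wt lam M * Zt lam' = wt lam M * (q * Zt lam') := by ring
      _ ≤ wt lam' M * Zt lam := mul_le_mul a1 b2 (by (clear * - hq0 hz'; positivity)) hw'.le
  have hnr : 0 ≤ n * r := by (clear * - hn hr0; positivity)
  constructor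
  · rw [abs_le]
    constructor
    · nlinarith only [c1, c2, hrn, hber, hmu', hmu]
    · -- mu - mu' <= 2 n r mu'
      have : mu lam M ≤ (1 + 2 * (n * r)) * mu lam' M := by
        have h5 : 1 ≤ (1 + 2 * (n * r)) * q := by nlinarith only [hber, hrn, hq1]
        calc mu lam M = 1 * mu lam M := (one_mul _).symm
          _ ≤ ((1 + 2 * (n * r)) * q) * mu lam M := by (clear * - h5 hmu; gcongr)
          _ = (1 + 2 * (n * r)) * (q * mu lam M) := by ring
          _ ≤ (1 + 2 * (n * r)) * mu lam' M := by (clear * - c2 hn hr0; gcongr)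
      linarith only [this]
  · rw [abs_le]
    constructor
    · nlinarith only [c1, c2, hrn, hber, hmu', hmu]
    · have : mu lam' M ≤ (1 + 2 * (n * r)) * mu lam M := by
        have h5 : 1 ≤ (1 + 2 * (n * r)) * q := by nlinarith only [hber, hrn, hq1]
        calc mu lam' M = 1 * mu lam' M := (one_mul _).symm
          _ ≤ ((1 + 2 * (n * r)) * q) * mu lam' M := by (clear * - h5 hmu'; gcongr)
          _ = (1 + 2 * (n * r)) * (q * mu lam' M) := by ring
          _ ≤ (1 + 2 * (n * r)) * mu lam M := by (clear * - c1 hn hr0; gcongr)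
      linarith only [this]

end ratio

/-- **Consecutive laws of the path are close.** -/
theorem path_close (hH : 0 < H) (hD : 0 < D) (hED : ∀ x y : Fin n, E x y ≤ D)
    (hn : 2 * n ≤ H + 1) (t : ℕ) (M : PM n) :
    |mu (lamP H X D E t) M - mu (lamP H X D E (t + 1)) M| ≤
      2 * n / (H + 1) * mu (lamP H X D E (t + 1)) M := by
  have hr0 : (0 : ℝ) ≤ 1 / ((H : ℝ) + 1) := by positivity
  have hH1 : (0 : ℝ) < (H : ℝ) + 1 := by positivity
  have hrn : 2 * ((n : ℝ) * (1 / ((H : ℝ) + 1))) ≤ 1 := by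
    rw [mul_one_div, ← mul_div_assoc, div_le_one hH1]
    exact_mod_cast hn
  have e : 2 * ((n : ℝ) * (1 / ((H : ℝ) + 1))) = 2 * n / (H + 1) := by ring
  rcases pos_step (H := H) (X := X) (E := E) hED hD t with h | h
  · -- weights increase
    have h1 : ∀ x y : Fin n, lamP H X D E t x y ≤ lamP H X D E (t + 1) x y ∧
        (1 - 1 / ((H : ℝ) + 1)) * lamP H X D E (t + 1) x y ≤ lamP H X D E t x y := by
      intro x y
      unfold lamP
      rcases h x y with h2 | h2
      · rw [h2]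
        refine ⟨le_rfl, ?_⟩
        have := (wq_pos hH (pos H X D E (t + 1) x y)).le
        nlinarith only [hr0, this]
      · rw [h2]
        exact wq_succ hH _
    have := (mu_close (fun x y => lamP_pos hH t x y) (fun x y => lamP_pos hH (t + 1) x y) hr0 hrn
      (fun x y => (h1 x y).1) (fun x y => (h1 x y).2) M).1
    rwa [e] at this
  · have h1 : ∀ x y : Fin n, lamP H X D E (t + 1) x y ≤ lamP H X D E t x y ∧
        (1 - 1 / ((H : ℝ) + 1)) * lamP H X D E t x y ≤ lamP H X D E (t + 1) x y := by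
      intro x y
      unfold lamP
      rcases h x y with h2 | h2
      · rw [h2]
        refine ⟨le_rfl, ?_⟩
        have := (wq_pos hH (pos H X D E t x y)).le
        nlinarith only [hr0, this]
      · rw [h2]
        exact wq_succ hH _
    have := (mu_close (fun x y => lamP_pos hH (t + 1) x y) (fun x y => lamP_pos hH t x y) hr0 hrn
      (fun x y => (h1 x y).1) (fun x y => (h1 x y).2) M).2
    rwa [e] at this

/-! ### The ultrametric form -/

/-- phase 0 -/
theorem ultr_phase0 (hH : 0 < H) {t : ℕ} (ht : t ≤ X * H) :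
    Ultr (n := n) (lamP H X D E t) 1 := by
  have hlam : ∀ x y : Fin n, lamP H X D E t x y =
      if (x : ℕ) / 2 = (y : ℕ) / 2 then 1 else wq H (X * H - t) := by
    intro x y
    unfold lamP pos
    rw [if_pos ht]
    split_ifs
    · exact wq_zero hH
    · rfl
  have hsymm : ∀ x y : Fin n, lamP H X D E t x y = lamP H X D E t y x := by
    intro x y
    rw [hlam, hlam]
    by_cases h : (x : ℕ) / 2 = (y : ℕ) / 2
    · rw [if_pos h, if_pos h.symm]
    · rw [if_neg h, if_neg (Ne.symm h)]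
  refine ⟨hsymm, fun _ => 1, lamP H X D E t, fun _ => one_pos, fun x y => lamP_pos hH t x y,
    hsymm, ?_, fun x y _ => by simp⟩
  intro x y z _ _ _
  rw [hlam x y, hlam y z, hlam x z]
  have h1 := wq_le_one hH (X * H - t)
  by_cases h : (x : ℕ) / 2 = (z : ℕ) / 2
  · rw [if_pos h]
    refine (min_le_left _ _).trans ?_
    split_ifs <;> [exact le_rfl; exact h1]
  · rw [if_neg h]
    by_cases h2 : (x : ℕ) / 2 = (y : ℕ) / 2
    · rw [if_neg (fun h3 : (y : ℕ) / 2 = (z : ℕ) / 2 => h (h2.trans h3))]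
      exact min_le_right _ _
    · rw [if_neg h2]
      exact min_le_left _ _

/-- phase 1 -/
theorem ultr_phase1 (hH : 0 < H) (hD : 0 < D) {t : ℕ} (ht : X * H < t)
    (ht2 : t ≤ X * H + D * H) {F c : ℕ} {K : Fin n → Fin n → ℤ} {Hu : ℕ} {U : Split.Ultra n Hu}
    (hK : Canon.TreeLike K U c) (hE : ∀ x y : Fin n, E x y = E y x)
    (hEK : ∀ x y : Fin n, x ≠ y → (E x y : ℤ) = K x y + F) :
    Ultr (n := n) (lamP H X D E t) (1 / 2 ^ (c + 2)) := by
  obtain ⟨p, hp⟩ := hK.ex
  have hHR : (0 : ℝ) < H := by exact_mod_cast hH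
  have hDR : (0 : ℝ) < D := by exact_mod_cast hD
  have hH1 : (1 : ℝ) ≤ H := by exact_mod_cast hH
  set s := t - X * H with hs
  set θ : ℝ := (s : ℝ) / (D * H) with hθ
  have hθ0 : 0 ≤ θ := by positivity
  have hθ1 : θ ≤ 1 := by
    rw [hθ, div_le_one (by positivity)]
    have : s ≤ D * H := by omega
    exact_mod_cast this
  -- bounds for the weights
  have hlam : ∀ x y : Fin n, (2 : ℝ) ^ (-(θ * E x y)) ≤ lamP H X D E t x y ∧
      lamP H X D E t x y ≤ 4 * (2 : ℝ) ^ (-(θ * E x y)) := by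
    intro x y
    have e : lamP H X D E t x y = wq H (s * E x y / D) := by
      unfold lamP pos
      rw [if_neg (by omega)]
    have h1 : ((s * E x y / D : ℕ) : ℝ) ≤ (s : ℝ) * E x y / D := by
      have := Nat.cast_div_le (α := ℝ) (m := s * E x y) (n := D)
      push_cast at this
      exact this
    have h2 : (s : ℝ) * E x y / D ≤ ((s * E x y / D : ℕ) : ℝ) + 1 := by
      rw [div_le_iff₀ hDR]
      have h9 : s * E x y ≤ (s * E x y / D + 1) * D := by
        have h7 := Nat.div_add_mod (s * E x y) D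
        have h8 := Nat.mod_lt (s * E x y) hD
        calc s * E x y = D * (s * E x y / D) + s * E x y % D := h7.symm
          _ ≤ D * (s * E x y / D) + D := by omega
          _ = (s * E x y / D + 1) * D := by ring
      exact_mod_cast h9
    rw [e]
    constructor
    · refine le_trans ?_ (rpow_le_wq hH _)
      refine Real.rpow_le_rpow_of_exponent_le (by norm_num) ?_
      rw [neg_le_neg_iff, div_le_iff₀ hHR]
      calc ((s * E x y / D : ℕ) : ℝ) ≤ (s : ℝ) * E x y / D := h1
        _ = θ * E x y * H := by rw [hθ]; (clear * - hH hD; field_simp)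
    · refine (wq_le_rpow hH _).trans ?_
      have h4 : (4 : ℝ) * (2 : ℝ) ^ (-(θ * E x y)) = 2 * (2 : ℝ) ^ (1 + -(θ * E x y)) := by
        rw [Real.rpow_add (by norm_num), Real.rpow_one]
        ring
      rw [h4]
      refine mul_le_mul_of_nonneg_left ?_ (by norm_num)
      refine Real.rpow_le_rpow_of_exponent_le (by norm_num) ?_
      have h5 : θ * E x y ≤ ((s * E x y / D : ℕ) : ℝ) / H + 1 := by
        have h6 : θ * E x y = ((s : ℝ) * E x y / D) / H := by rw [hθ]; field_simp
        rw [h6, div_le_iff₀ hHR, add_mul, one_mul, div_mul_cancel₀ _ hHR.ne']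
        linarith only [hH1, h2]
      linarith only [h5]
  -- the gauge and the similarity
  refine ⟨fun x y => lamP_symm hE t x y,
    fun x => 2 * (2 : ℝ) ^ (-(θ * (p x + (F : ℝ) / 2))), fun x y => (2 : ℝ) ^ (θ * (U.m x y : ℝ)),
    fun x => by positivity, fun x y => by positivity, ?_, ?_, ?_⟩
  · intro x y
    show (2 : ℝ) ^ (θ * (U.m x y : ℝ)) = (2 : ℝ) ^ (θ * (U.m y x : ℝ))
    rw [U.symm x y]
  · intro x y z hxy hyz hxz
    have hu := U.ultra x y z hxy hyz hxz
    have hmono : ∀ a b : ℕ, a ≤ b → (2 : ℝ) ^ (θ * (a : ℝ)) ≤ (2 : ℝ) ^ (θ * (b : ℝ)) := by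
      intro a b hab
      refine Real.rpow_le_rpow_of_exponent_le (by norm_num) ?_
      have : (a : ℝ) ≤ b := by exact_mod_cast hab
      exact mul_le_mul_of_nonneg_left this hθ0
    rcases min_le_iff.1 hu with h | h
    · exact (min_le_left _ _).trans (hmono _ _ h)
    · exact (min_le_right _ _).trans (hmono _ _ h)
  · intro x y hxy
    obtain ⟨h1, h2⟩ := hp x y hxy
    obtain ⟨l1, l2⟩ := hlam x y
    have hEr : (E x y : ℝ) = (K x y : ℝ) + F := by exact_mod_cast hEK x y hxy
    have h1r : (p x : ℝ) + p y - U.m x y ≤ K x y := by exact_mod_cast h1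
    have h2r : (K x y : ℝ) ≤ p x + p y - U.m x y + c := by exact_mod_cast h2
    have hprod : 2 * (2 : ℝ) ^ (-(θ * (p x + (F : ℝ) / 2))) *
        (2 * (2 : ℝ) ^ (-(θ * (p y + (F : ℝ) / 2)))) * (2 : ℝ) ^ (θ * (U.m x y : ℝ)) =
        4 * (2 : ℝ) ^ (-(θ * (p x + p y - U.m x y + F))) := by
      have e3 : -(θ * ((p x : ℝ) + p y - U.m x y + F)) = -(θ * (p x + (F : ℝ) / 2)) +
          -(θ * (p y + (F : ℝ) / 2)) + θ * (U.m x y : ℝ) := by ring
      rw [e3, Real.rpow_add (by norm_num), Real.rpow_add (by norm_num)]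
      ring
    rw [hprod]
    constructor
    · have e4 : (1 : ℝ) / 2 ^ (c + 2) * (4 * (2 : ℝ) ^ (-(θ * (p x + p y - U.m x y + F)))) =
          (2 : ℝ) ^ (-(c : ℝ) + -(θ * (p x + p y - U.m x y + F))) := by
        have e5 : (2 : ℝ) ^ (-(c : ℝ)) = 1 / 2 ^ c := by
          rw [Real.rpow_neg (by norm_num), Real.rpow_natCast, one_div]
        rw [Real.rpow_add (by norm_num), e5, pow_add]
        ring
      rw [e4]
      refine le_trans ?_ l1
      refine Real.rpow_le_rpow_of_exponent_le (by norm_num) ?_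
      rw [hEr]
      have hc : (0 : ℝ) ≤ c := by (clear * -; positivity)
      nlinarith only [hθ1, hθ0, h2r]
    · refine l2.trans ?_
      refine mul_le_mul_of_nonneg_left ?_ (by norm_num)
      refine Real.rpow_le_rpow_of_exponent_le (by norm_num) ?_
      rw [hEr]
      nlinarith only [hθ0, h1r]

/-- smaller `ε` -/
theorem Ultr.mono {lam : Fin n → Fin n → ℝ} {ε ε' : ℝ} (h : Ultr lam ε) (he : ε' ≤ ε) :
    Ultr lam ε' := by
  obtain ⟨h1, g, c, h2, h3, h4, h5, h6⟩ := h
  refine ⟨h1, g, c, h2, h3, h4, h5, fun x y hxy => ⟨le_trans ?_ (h6 x y hxy).1, (h6 x y hxy).2⟩⟩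
  have : 0 < g x * g y * c x y := mul_pos (mul_pos (h2 x) (h2 y)) (h3 x y)
  exact mul_le_mul_of_nonneg_right he this.le

/-- **Every point of the path has the ultrametric form.** -/
theorem path_ultr (hH : 0 < H) (hD : 0 < D) {t : ℕ} (ht2 : t ≤ X * H + D * H) {F c : ℕ}
    {K : Fin n → Fin n → ℤ} {Hu : ℕ} {U : Split.Ultra n Hu} (hK : Canon.TreeLike K U c)
    (hE : ∀ x y : Fin n, E x y = E y x)
    (hEK : ∀ x y : Fin n, x ≠ y → (E x y : ℤ) = K x y + F) :
    Ultr (n := n) (lamP H X D E t) (1 / 2 ^ (c + 2)) := by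
  rcases Nat.lt_or_ge (X * H) t with h | h
  · exact ultr_phase1 hH hD h ht2 hK hE hEK
  · refine (ultr_phase0 hH h).mono ?_
    rw [div_le_one (by positivity)]
    exact one_le_pow₀ (by norm_num)

/-! ### The end and the start -/

theorem zpow_sum_two {ι : Type*} (t : Finset ι) (f : ι → ℤ) :
    (2 : ℝ) ^ (∑ i ∈ t, f i) = ∏ i ∈ t, (2 : ℝ) ^ (f i) := by
  classical
  induction t using Finset.induction_on with
  | empty => simp
  | insert a t ha ih =>
    rw [Finset.sum_insert ha, Finset.prod_insert ha, zpow_add₀ (by norm_num), ih]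

theorem card_lt_partner (M : PM n) : 2 * (univ.filter fun x : Fin n => x < M.1 x).card = n := by
  have h1 : (univ.filter fun x : Fin n => x < M.1 x).card =
      (univ.filter fun x : Fin n => ¬ x < M.1 x).card := by
    refine Finset.card_bij (fun x _ => M.1 x) ?_ ?_ ?_
    · intro x hx
      rw [mem_filter] at hx ⊢
      refine ⟨mem_univ _, ?_⟩
      rw [M.2.1 x]
      exact not_lt.2 hx.2.le
    · intro x _ y _ h
      have := congrArg M.1 h
      rwa [M.2.1, M.2.1] at this
    · intro y hy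
      rw [mem_filter] at hy
      refine ⟨M.1 y, ?_, M.2.1 y⟩
      rw [mem_filter, M.2.1 y]
      exact ⟨mem_univ _, lt_of_le_of_ne (not_lt.1 hy.2) (M.2.2 y)⟩
  have h2 := Finset.card_filter_add_card_filter_not (s := (univ : Finset (Fin n)))
    (fun x : Fin n => x < M.1 x)
  rw [Finset.card_univ, Fintype.card_fin] at h2
  omega

/-- **The last law of the path.** -/
theorem mu_end (hH : 0 < H) (hD : 0 < D) {F : ℕ} {K : Fin n → Fin n → ℤ}
    (hEK : ∀ x y : Fin n, x ≠ y → (E x y : ℤ) = K x y + F) (M : PM n) :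
    mu (lamP H X D E (X * H + D * H)) M = law K M := by
  have hm : ∀ M : PM n, wt (lamP H X D E (X * H + D * H)) M =
      ((2 : ℝ) ^ (-((F : ℤ) * ((n / 2 : ℕ) : ℤ)))) * mass K M := by
    intro M
    have hc : (univ.filter fun x : Fin n => x < M.1 x).card = n / 2 := by
      have := card_lt_partner M
      omega
    unfold wt mass ew
    rw [← zpow_add₀ (by norm_num : (2 : ℝ) ≠ 0), ← neg_add, ← hc]
    have e1 : (F : ℤ) * ((univ.filter fun x : Fin n => x < M.1 x).card : ℤ) +
        ∑ x, (if x < M.1 x then K x (M.1 x) else 0) =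
        ∑ x, (if x < M.1 x then (E x (M.1 x) : ℤ) else 0) := by
      rw [Finset.card_filter, Nat.cast_sum, Finset.mul_sum, ← Finset.sum_add_distrib]
      refine Finset.sum_congr rfl fun x _ => ?_
      split_ifs with h
      · rw [hEK x (M.1 x) h.ne]
        push_cast
        ring
      · simp
    rw [e1, ← Finset.sum_neg_distrib, zpow_sum_two]
    refine Finset.prod_congr rfl fun x _ => ?_
    split_ifs
    · rw [lamP_end hH hD, zpow_neg, zpow_natCast, one_div]
    · simp
  have hp : (0 : ℝ) < (2 : ℝ) ^ (-((F : ℤ) * ((n / 2 : ℕ) : ℤ))) := by positivity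
  unfold mu Zt law Zf
  rw [hm M]
  have : ∑ M : PM n, wt (lamP H X D E (X * H + D * H)) M =
      ((2 : ℝ) ^ (-((F : ℤ) * ((n / 2 : ℕ) : ℤ)))) * ∑ M : PM n, mass K M := by
    rw [Finset.mul_sum]
    exact Finset.sum_congr rfl fun M _ => hm M
  rw [this, mul_div_mul_left _ _ hp.ne']

/-- **The first law of the path is concentrated on `01|23|…`.** -/
theorem mu_start (hH : 0 < H) (hn : Even n) :
    1 - mu (lamP (n := n) H X D E 0) (St.M0P hn) ≤ n ^ n / 2 ^ X := by
  classical
  set lam := lamP (n := n) H X D E 0 with hlam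
  have hl : ∀ x y : Fin n, lam x y = if (x : ℕ) / 2 = (y : ℕ) / 2 then 1 else 1 / 2 ^ X := by
    intro x y
    rw [hlam]
    unfold lamP pos
    rw [if_pos (Nat.zero_le _), Nat.sub_zero]
    split_ifs
    · exact wq_zero hH
    · rw [mul_comm, wq_mul hH]
  have hpos : ∀ x y, 0 < lam x y := fun x y => lamP_pos hH 0 x y
  have hle : ∀ x y, lam x y ≤ 1 := fun x y => lamP_le_one hH 0 x y
  have h0 : wt lam (St.M0P hn) = 1 := by
    unfold wt
    refine Finset.prod_eq_one fun x _ => ?_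
    split_ifs with h
    · rw [hl, if_pos]
      unfold St.M0P at h ⊢
      simp only at h ⊢
      split_ifs at h ⊢ with h1
      · simp only
        omega
      · exfalso
        rw [Fin.lt_def] at h
        simp only at h
        omega
    · rfl
  have h1 : ∀ M : PM n, M ≠ St.M0P hn → wt lam M ≤ 1 / 2 ^ X := by
    intro M hM
    -- a pair outside
    obtain ⟨x, hx⟩ : ∃ x : Fin n, x < M.1 x ∧ (x : ℕ) / 2 ≠ (M.1 x : ℕ) / 2 := by
      by_contra hcon
      push Not at hcon
      apply hM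
      have key : ∀ x : Fin n, (x : ℕ) / 2 = (M.1 x : ℕ) / 2 := by
        intro x
        rcases lt_trichotomy x (M.1 x) with h | h | h
        · exact hcon x h
        · exact absurd h.symm (M.2.2 x)
        · have := hcon (M.1 x) (by rw [M.2.1]; exact h)
          rw [M.2.1] at this
          exact this.symm
      apply Subtype.ext
      funext x
      have h2 := key x
      have h3 : (M.1 x : ℕ) ≠ x := fun h => M.2.2 x (Fin.ext h)
      apply Fin.ext
      unfold St.M0P
      simp only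
      split_ifs with h4
      · simp only
        omega
      · simp only
        (clear * - h2 h3 h4; omega)
    have h5 : wt lam M ≤ ∏ z : Fin n, if z = x then (1 : ℝ) / 2 ^ X else 1 := by
      unfold wt
      refine Finset.prod_le_prod (fun z _ => ?_) fun z _ => ?_
      · split_ifs
        · exact (hpos _ _).le
        · norm_num
      · by_cases hz : z = x
        · subst hz
          rw [if_pos hx.1, if_pos rfl, hl, if_neg hx.2]
        · rw [if_neg hz]
          split_ifs
          · exact hle _ _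
          · exact le_rfl
    rwa [Finset.prod_ite_eq' univ x (fun _ => (1 : ℝ) / 2 ^ X), if_pos (mem_univ _)] at h5
  have hZ : Zt lam = wt lam (St.M0P hn) + ∑ M ∈ univ.erase (St.M0P hn), wt lam M :=
    (Finset.add_sum_erase univ (wt lam) (mem_univ _)).symm
  have hrest : ∑ M ∈ univ.erase (St.M0P hn), wt lam M ≤ n ^ n / 2 ^ X := by
    calc ∑ M ∈ univ.erase (St.M0P hn), wt lam M
        ≤ ∑ _M ∈ univ.erase (St.M0P hn), (1 : ℝ) / 2 ^ X :=
          Finset.sum_le_sum fun M hM => h1 M (Finset.ne_of_mem_erase hM)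
      _ = ((univ.erase (St.M0P hn)).card : ℝ) * (1 / 2 ^ X) := by
          rw [Finset.sum_const, nsmul_eq_mul]
      _ ≤ (n : ℝ) ^ n * (1 / 2 ^ X) := by
          refine mul_le_mul_of_nonneg_right ?_ (by positivity)
          have h6 : (univ.erase (St.M0P hn)).card ≤ n ^ n :=
            (Finset.card_le_univ _).trans (St.card_PM_le n)
          exact_mod_cast h6
      _ = n ^ n / 2 ^ X := by ring
  have hrest0 : 0 ≤ ∑ M ∈ univ.erase (St.M0P hn), wt lam M :=
    Finset.sum_nonneg fun M _ => (wt_pos' hpos M).le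
  unfold mu
  rw [h0] at hZ ⊢
  have hZ1 : 1 ≤ Zt lam := by rw [hZ]; linarith only [hrest0]
  have hZ0 : 0 < Zt lam := by linarith only [hZ, hrest0]
  have e7 : 1 - 1 / Zt lam = (∑ M ∈ univ.erase (St.M0P hn), wt lam M) / Zt lam := by
    field_simp
    linarith only [hZ]
  rw [e7, div_le_iff₀ hZ0]
  have h8 : (0 : ℝ) ≤ n ^ n / 2 ^ X := by (clear * -; positivity)
  nlinarith only [hrest, hZ, hrest0]

end Vale.Agent.P308.Poly
end

section

/-!
# P308, polynomial version: the path of weights of the algorithm (part [F])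
-/

namespace Vale.Agent.P308.PA

open Finset Vale.Agent.P308.Alg
open Vale.Agent.Lib.PolyTime (Raw)

variable {n : ℕ}

/-! ### Only the values outside of the diagonal matter -/

theorem wt_congr_off {lam lam' : Fin n → Fin n → ℝ} (h : ∀ x y, x ≠ y → lam x y = lam' x y)
    (M : PM n) : Poly.wt lam M = Poly.wt lam' M := by
  unfold Poly.wt
  refine Finset.prod_congr rfl fun x _ => ?_
  split_ifs with hx
  · exact h _ _ hx.ne
  · rfl

theorem mu_congr_off {lam lam' : Fin n → Fin n → ℝ} (h : ∀ x y, x ≠ y → lam x y = lam' x y) :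
    Poly.mu (n := n) lam = Poly.mu lam' := by
  have h1 : Poly.wt (n := n) lam = Poly.wt lam' := funext (wt_congr_off h)
  funext M
  unfold Poly.mu Poly.Zt
  rw [h1]

theorem ultr_congr_off {lam lam' : Fin n → Fin n → ℝ} (h : ∀ x y, x ≠ y → lam x y = lam' x y)
    {ε : ℝ} (hu : Poly.Ultr lam' ε) : Poly.Ultr lam ε := by
  obtain ⟨h1, g, c, h2, h3, h4, h5, h6⟩ := hu
  refine ⟨fun x y => ?_, g, c, h2, h3, h4, h5, fun x y hxy => ?_⟩
  · by_cases hxy : x = y
    · rw [hxy]
    · rw [h x y hxy, h y x (Ne.symm hxy), h1 x y]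
  · rw [h x y hxy]
    exact h6 x y hxy

/-! ### The weights of the algorithm are the weights of the path -/

theorem wq_eq_poly (h q : ℕ) : wq h q = Poly.wq (2 ^ h) q := by
  unfold wq Poly.wq exq maq
  have e1 : 2 ^ (h + 1) = 2 * 2 ^ h := by rw [pow_succ]; ring
  have e2 : (2 : ℝ) ^ (h + 1) = 2 * ((2 ^ h : ℕ) : ℝ) := by push_cast; rw [pow_succ]; ring
  rw [e1, e2, one_div, inv_pow, div_eq_mul_inv (_ / _), mul_comm]

theorem lamT_eq (P : Par) (E : List (List ℕ)) (t : ℕ) (x y : Fin n) (hxy : x ≠ y) :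
    lamT n P E t x y = Poly.lamP (2 ^ P.h) P.X P.D (fun a b => ent E a b) t x y := by
  unfold lamT lamQ Poly.lamP Poly.pos pathM
  rw [wq_eq_poly, ent_mk _ x.2 y.2]
  have hne : (x : ℕ) ≠ y := fun h => hxy (Fin.ext h)
  have hc : ((y : ℕ) = if (x : ℕ) % 2 = 0 then (x : ℕ) + 1 else x - 1) ↔
      (x : ℕ) / 2 = (y : ℕ) / 2 := by
    split_ifs <;> omega
  simp only [hc]

/-! ### The path -/

/-- **Part [F].** The path of weights, for symmetric exponents `E ≤ D` which are tree-like up to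
the offset `F`. -/
theorem pathOK_of {P : Par} {E : List (List ℕ)} {c Hu : ℕ} {K : Fin n → Fin n → ℤ}
    {U : Split.Ultra n Hu} (hn : Even n) (hD : 0 < P.D) (hED : ∀ x y : Fin n, ent E x y ≤ P.D)
    (hnh : 2 * n ≤ 2 ^ P.h + 1) (hK : Canon.TreeLike K U c)
    (hE : ∀ x y : Fin n, ent E x y = ent E y x)
    (hEK : ∀ x y : Fin n, x ≠ y → (ent E x y : ℤ) = K x y + P.F) :
    PathOK P E (St.M0P hn) (1 / 2 ^ (c + 2)) (2 * n / (2 ^ P.h + 1)) (n ^ n / 2 ^ P.X) where
  ultr t ht := by
    refine ultr_congr_off (lamT_eq P E t) ?_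
    refine Poly.path_ultr (E := fun a b => ent E a b) (by positivity) hD ?_ hK hE hEK
    unfold Par.J at ht
    rwa [add_mul] at ht
  ratio t _ M := by
    rw [mu_congr_off (lamT_eq P E t), mu_congr_off (lamT_eq P E (t + 1))]
    have := Poly.path_close (n := n) (H := 2 ^ P.h) (X := P.X) (D := P.D)
      (E := fun a b => ent E a b) (by positivity) hD hED hnh t M
    push_cast at this
    exact this
  start := by
    rw [mu_congr_off (lamT_eq P E 0)]
    have := Poly.mu_start (n := n) (H := 2 ^ P.h) (X := P.X) (D := P.D)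
      (E := fun a b => ent E a b) (by positivity) hn
    linarith only [this]
  last M := by
    rw [mu_congr_off (lamT_eq P E P.J)]
    have e : P.J = P.X * 2 ^ P.h + P.D * 2 ^ P.h := by unfold Par.J; rw [add_mul]
    rw [e, Poly.mu_end (E := fun a b => ent E a b) (by positivity) hD hEK M]
    refine law_congr (fun x y hxy => ?_) M
    unfold Alg.toZ
    rw [hEK x y hxy]
    ring

/-! ### The stages -/

section stage

variable {R : List Raw} {P : Par} {c1 : ℕ} {η : ℝ} {j : ℕ} {A : List ℕ}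

/-- The parameters of the stages, for the lemmas of `Alg`. -/
def toAlg (P : Par) : Alg.Par where
  W := P.W
  F := P.F
  c := P.c
  b := P.b
  ℓ := P.ℓ
  T := P.T
  L := P.L
  σ := P.s

/-- The path of weights of stage `j`. -/
theorem pathOK_stage (hR : ∀ x y, adj R x y = adj R y x) (hn : Even R.length)
    (h2 : 2 ≤ R.length) (hP : ParOK c1 R.length P η) (hD : P.W + P.F + 1 ≤ P.D)
    (hnh : 2 * R.length ≤ 2 ^ P.h + 1) (hA : EstOK R P.W P.F j A) :
    PathOK (n := R.length) P (impS R P j A) (St.M0P hn) (1 / 2 ^ (P.c + 6))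
      (2 * R.length / (2 ^ P.h + 1)) (R.length ^ R.length / 2 ^ P.X) := by
  have : NeZero R.length := ⟨by omega⟩
  have hclo := Alg.cloOK (P := toAlg P) (j := j) (A := A) hR hn h2 hP.F hA
  have hst := Alg.stageData (P := toAlg P) (j := j) (A := A) hR hn h2 hP.F hA
  refine pathOK_of hn (by omega) (fun x y => ?_) hnh (Canon.treeLike hst P.c) (fun x y => ?_)
    (fun x y hxy => ?_)
  · have := Alg.imp_le hclo P.c x y
    have h3 : ent (impS R P j A) x y ≤ P.W + P.F := this
    omega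
  · exact Alg.imp_symm hclo P.c x y
  · have := Alg.imp_eq hclo P.c x y hxy
    rw [add_comm]
    exact this

end stage

end Vale.Agent.P308.PA
end

section

/-!
# P308, polynomial version: the analysis of the sampler

`mixedOf_of`: the statement `MixedOf` from the linearised gap (`Poly.Gap`), the replica theorem
(`Poly.RepStatement`) and the properties of the pair step (`CStmt`).
-/

namespace Vale.Agent.P308.PA

open Finset Vale.Agent.P308.Alg Vale.Agent.P308.Rep
open Vale.Agent.Lib.PolyTime (Raw)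

/-- Statement of [C]: the pair step. -/
def CStmt (k : ℕ) : Prop :=
  ∀ (n b h : ℕ), Even n → 2 ≤ n → n ≤ 2 ^ b →
    ∃ psP : List (List ℕ) → List Bool → PM n × PM n → PM n × PM n, ListPair psP b h ∧
      ∀ (Q : List (List ℕ)) (L D : ℕ), (∀ x y : Fin n, ent Q x y = ent Q y x) →
        (∀ x y : Fin n, ent Q x y ≤ D * 2 ^ h) → 3 + 2 * b + 2 * (h + 1) + 2 * D ≤ L →
        PairOK (lamQ n h Q) L (psP Q) ((1 / 2) ^ (2 * b + k))

theorem two_pow_size_le (n : ℕ) : (2 : ℝ) ^ Nat.size n ≤ ((n : ℝ) + 2) ^ 2 := by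
  have h1 : 2 ^ Nat.size n ≤ 2 * n + 1 := by
    by_cases h0 : n = 0
    · subst h0; simp
    have hs : 0 < Nat.size n := Nat.size_pos.2 (Nat.pos_of_ne_zero h0)
    have h2 : 2 ^ (Nat.size n - 1) ≤ n := by
      by_contra h
      push Not at h
      have := Nat.size_le.2 h
      omega
    have h3 : 2 ^ Nat.size n = 2 * 2 ^ (Nat.size n - 1) := by
      rw [← pow_succ']
      congr 1
      omega
    (clear * - h2 h3; omega)
  have h4 : (2 : ℝ) ^ Nat.size n ≤ 2 * (n : ℝ) + 1 := by exact_mod_cast h1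
  have h5 : (0 : ℝ) ≤ n := Nat.cast_nonneg n
  nlinarith only [h4]

theorem consts_le (n Cg CF k : ℕ) :
    4 * (1 / ((n : ℝ) + 2) ^ (2 + 4 + k + 3 * (CF * Cg) + Cg)) ≤
      (1 / 2) ^ (2 * Nat.size n + k) *
        (((1 / 2) ^ (CF * (Nat.size n + 1))) ^ Cg / (n + 1 : ℝ) ^ Cg) := by
  have hn0 : (0 : ℝ) ≤ n := Nat.cast_nonneg n
  set u : ℝ := (n : ℝ) + 2 with hu
  have hu2 : 2 ≤ u := by linarith
  have hu0 : 0 < u := by linarith
  have e1 : (2 : ℝ) ^ (2 * Nat.size n + k) ≤ u ^ (4 + k) := by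
    rw [pow_add, pow_add]
    refine mul_le_mul ?_ (pow_le_pow_left₀ (by norm_num) hu2 _) (by positivity) (by positivity)
    rw [mul_comm 2, pow_mul]
    calc ((2 : ℝ) ^ Nat.size n) ^ 2 ≤ (u ^ 2) ^ 2 :=
          pow_le_pow_left₀ (by positivity) (two_pow_size_le n) 2
      _ = u ^ 4 := by ring
  have e2 : ((2 : ℝ) ^ (CF * (Nat.size n + 1))) ^ Cg ≤ u ^ (3 * (CF * Cg)) := by
    have e3 : (2 : ℝ) ^ (Nat.size n + 1) ≤ u ^ 3 := by
      rw [pow_succ, pow_succ u 2]
      exact mul_le_mul (two_pow_size_le n) hu2 (by norm_num) (by positivity)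
    calc ((2 : ℝ) ^ (CF * (Nat.size n + 1))) ^ Cg = ((2 : ℝ) ^ (Nat.size n + 1)) ^ (CF * Cg) := by
          rw [← pow_mul, ← pow_mul]
          congr 1
          ring
      _ ≤ (u ^ 3) ^ (CF * Cg) := pow_le_pow_left₀ (by positivity) e3 _
      _ = u ^ (3 * (CF * Cg)) := by rw [← pow_mul]
  have e4 : ((n : ℝ) + 1) ^ Cg ≤ u ^ Cg := pow_le_pow_left₀ (by linarith only []) (by linarith only []) _
  have e5 : (4 : ℝ) ≤ u ^ 2 := by nlinarith
  have e6 : ((1 : ℝ) / 2) ^ (2 * Nat.size n + k) *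
      (((1 / 2) ^ (CF * (Nat.size n + 1))) ^ Cg / (n + 1 : ℝ) ^ Cg) =
      1 / ((2 : ℝ) ^ (2 * Nat.size n + k) * (((2 : ℝ) ^ (CF * (Nat.size n + 1))) ^ Cg *
        (n + 1 : ℝ) ^ Cg)) := by
    rw [one_div_pow, one_div_pow, one_div_pow, div_div, one_div_mul_one_div]
  rw [e6, ← mul_div_assoc, mul_one, div_le_div_iff₀ (by (clear * -; positivity)) (by positivity), one_mul]
  have e7 : (2 : ℝ) ^ (2 * Nat.size n + k) * (((2 : ℝ) ^ (CF * (Nat.size n + 1))) ^ Cg *
      (n + 1 : ℝ) ^ Cg) ≤ u ^ (4 + k) * (u ^ (3 * (CF * Cg)) * u ^ Cg) := by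
    (clear * - e1 e2 e4; gcongr)
  calc 4 * ((2 : ℝ) ^ (2 * Nat.size n + k) * (((2 : ℝ) ^ (CF * (Nat.size n + 1))) ^ Cg *
      (n + 1 : ℝ) ^ Cg)) ≤ u ^ 2 * (u ^ (4 + k) * (u ^ (3 * (CF * Cg)) * u ^ Cg)) :=
        mul_le_mul e5 e7 (by positivity) (by positivity)
    _ = u ^ (2 + 4 + k + 3 * (CF * Cg) + Cg) := by ring

/-- Positions of the path are symmetric. -/
theorem pathM_symm {n h X D : ℕ} {E : List (List ℕ)}
    (hE : ∀ x y : Fin n, ent E x y = ent E y x) (t : ℕ) (x y : Fin n) :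
    ent (pathM n h X D E t) x y = ent (pathM n h X D E t) y x := by
  unfold pathM
  rw [ent_mk _ x.2 y.2, ent_mk _ y.2 x.2]
  by_cases ht : t ≤ X * 2 ^ h
  · rw [if_pos ht, if_pos ht]
    have e : ((y : ℕ) = if (x : ℕ) % 2 = 0 then (x : ℕ) + 1 else (x : ℕ) - 1) ↔
        ((x : ℕ) = if (y : ℕ) % 2 = 0 then (y : ℕ) + 1 else (y : ℕ) - 1) := by
      split_ifs <;> omega
    by_cases hxy : ((y : ℕ) = if (x : ℕ) % 2 = 0 then (x : ℕ) + 1 else (x : ℕ) - 1)
    · rw [if_pos hxy, if_pos (e.1 hxy)]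
    · rw [if_neg hxy, if_neg fun h => hxy (e.2 h)]
  · rw [if_neg ht, if_neg ht, hE x y]

/-- Positions of the path are bounded. -/
theorem pathM_le {n h X D B : ℕ} {E : List (List ℕ)} (hD : 0 < D)
    (hE : ∀ x y : Fin n, ent E x y ≤ B) (hB : B ≤ D) {t : ℕ} (ht : t ≤ (X + D) * 2 ^ h)
    (x y : Fin n) : ent (pathM n h X D E t) x y ≤ (X + D) * 2 ^ h := by
  unfold pathM
  rw [ent_mk _ x.2 y.2]
  have h1 : (X + D) * 2 ^ h = X * 2 ^ h + D * 2 ^ h := by ring
  by_cases ht' : t ≤ X * 2 ^ h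
  · rw [if_pos ht']
    split_ifs <;> omega
  · rw [if_neg ht']
    have h2 : (t - X * 2 ^ h) * ent E x y ≤ (D * 2 ^ h) * D :=
      Nat.mul_le_mul (by omega) ((hE x y).trans hB)
    have h3 : (t - X * 2 ^ h) * ent E x y / D ≤ (D * 2 ^ h) * D / D := Nat.div_le_div_right h2
    rw [Nat.mul_div_cancel _ hD] at h3
    omega

/-- **The analysis of the sampler.** -/
theorem mixedOf_of {c1 Cg k C : ℕ} (hGap : Poly.Gap Cg) (hRep : Poly.RepStatement)
    (hC : CStmt k)
    (hCC : 2 * (2 + 4 + k + 3 * ((c1 + 6) * Cg) + Cg) + 2 * 2 + 17 ≤ C) : MixedOf c1 C := by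
  intro R hR hn h2 P η hP hS j A hA
  have hne : NeZero R.length := ⟨by omega⟩
  set n := R.length with hnd
  have hη : 0 < η := hP.ηpos
  have hη1 : η ≤ 1 := by
    have h1 := hP.ηle
    have h3 : (1 : ℝ) ≤ 2 ^ (P.c + 10) := one_le_pow₀ (by norm_num)
    nlinarith only [h1, h3]
  have hn0 : (0 : ℝ) ≤ n := Nat.cast_nonneg n
  have hD := hS.D
  have hDpos : 0 < P.D := by omega
  -- the mesh is fine
  have hnh : 2 * n ≤ 2 ^ P.h + 1 := by
    have h3 := hS.h
    have hXD : (1 : ℝ) ≤ (P.X : ℝ) + P.D := by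
      have : (1 : ℝ) ≤ P.D := by exact_mod_cast hDpos
      have h4 : (0 : ℝ) ≤ P.X := Nat.cast_nonneg _
      linarith only [this]
    have h5 : (1 : ℝ) ≤ 2 ^ P.σ := one_le_pow₀ (by norm_num)
    have h6 : ((n : ℝ) + 2) ^ 2 ≤ ((n : ℝ) + 2) ^ C := pow_le_pow_right₀ (by linarith only []) (by omega)
    have h7 : ((n : ℝ) + 2) ^ C ≤ ((n : ℝ) + 2) ^ C * 2 ^ P.σ * (P.X + P.D) / η := by
      rw [le_div_iff₀ hη]
      have h8 : (0 : ℝ) < ((n : ℝ) + 2) ^ C := by (clear * - h2; positivity)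
      calc ((n : ℝ) + 2) ^ C * η ≤ ((n : ℝ) + 2) ^ C * 1 := by (clear * - hη1 h2; gcongr)
        _ ≤ ((n : ℝ) + 2) ^ C * 2 ^ P.σ * (P.X + P.D) := by
            rw [mul_assoc]
            refine mul_le_mul_of_nonneg_left ?_ h8.le
            nlinarith only [hXD, h5]
    have h9 : (2 : ℝ) * n ≤ 2 ^ P.h := by nlinarith only [h3, h6, h7]
    have : 2 * n ≤ 2 ^ P.h := by exact_mod_cast h9
    (clear * - this; omega)
  have hPath := pathOK_stage hR hn h2 hP hD hnh hA
  have hclo := Alg.cloOK (P := toAlg P) (j := j) (A := A) hR hn h2 hP.F hA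
  have hEsym : ∀ x y : Fin n, ent (impS R P j A) x y = ent (impS R P j A) y x :=
    fun x y => Alg.imp_symm hclo P.c x y
  have hEle : ∀ x y : Fin n, ent (impS R P j A) x y ≤ P.W + P.F :=
    fun x y => Alg.imp_le hclo P.c x y
  obtain ⟨psP, hps, hpair⟩ := hC n P.b P.h hn h2 (by
    rw [hS.b]
    exact (Nat.lt_size_self n).le)
  have hℓ := hS.ℓ
  have hPath' : PathOK P (impS R P j A) (St.M0P hn) (1 / 2 ^ (P.c + 6))
      (2 * (n : ℝ) / (2 ^ P.h + 1)) ((n : ℝ) ^ n * (2 : ℝ) ^ (-(P.X : ℤ))) := by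
    have e : (n : ℝ) ^ n * (2 : ℝ) ^ (-(P.X : ℤ)) = (n : ℝ) ^ n / 2 ^ P.X := by
      rw [zpow_neg, zpow_natCast, div_eq_mul_inv]
    rw [e]
    exact hPath
  refine mixed_of_pair (c0 := 2) (c1 := 2 + 4 + k + 3 * ((c1 + 6) * Cg) + Cg) hGap hRep hn hS hη
    hη1 hCC (by positivity) ?_ hPath' hps (L := P.ℓ - (P.σ + P.σ)) (by omega)
    (c := (1 / 2) ^ (2 * P.b + k)) (fun t _ ht => ?_) (by positivity) (by positivity) ?_ ?_
  · rw [div_le_one (by positivity)]
    exact one_le_pow₀ (by norm_num)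
  · refine hpair (pathM n P.h P.X P.D (impS R P j A) t) (P.ℓ - (P.σ + P.σ)) (P.X + P.D)
      (pathM_symm hEsym t) (fun x y => pathM_le hDpos hEle (by omega) ht x y) (by (clear * - hℓ; omega))
  · push_cast
    apply div_le_div_of_nonneg_left (by (clear * - h2; positivity)) (by positivity)
    linarith only []
  · refine (consts_le n Cg (c1 + 6) k).trans ?_
    rw [hS.b]
    refine mul_le_mul_of_nonneg_left ?_ (by positivity)
    refine div_le_div_of_nonneg_right ?_ (by positivity)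
    refine pow_le_pow_left₀ (by positivity) ?_ _
    rw [one_div_pow]
    apply one_div_le_one_div_of_le (by positivity)
    apply pow_le_pow_right₀ (by norm_num)
    rw [hP.c]
    nlinarith only []

end Vale.Agent.P308.PA
end

section

/-!
# P308, polynomial sampler: the kernel of the pair step is reversible and lazy, and its Dirichlet
form controls the exchange energy
-/

namespace Vale.Agent.P308.PA.Lk

open Finset
open Vale.Agent.Lib.PolyTime (val val_lt Raw)
open Vale.Agent.P308.Alg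
open Vale.Agent.P308.Poly (Lab mv rv mu2 mu wt Zt Seg walk En)

variable {n : ℕ}

/-! ### The labels -/

theorem mv_rv (l : Lab n) (z : PM n × PM n) :
    mv (rv l z) (mv l z) = z ∧ rv (rv l z) (mv l z) = l := by
  obtain ⟨t, x, y⟩ := l
  fin_cases t
  · exact Poly.mv_rv_zero rfl
  · have e := Xch.Comp.rv_one x y z
    show mv (rv (1, x, y) z) (mv (1, x, y) z) = z ∧ rv (rv (1, x, y) z) (mv (1, x, y) z) = (1, x, y)
    rw [e]
    exact ⟨Xch.Comp.mv_mv_one x y z, Xch.Comp.rv_one x y _⟩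
  · exact Poly.mv_rv_two rfl

theorem rv_type (l : Lab n) (z : PM n × PM n) : (rv l z).1 = l.1 := by
  unfold rv
  split_ifs with h1 h2 h3 h4
  · exact h1.symm
  · rfl
  · rfl
  · rfl
  · rfl

/-- Probability of acceptance. -/
noncomputable def aP (h : ℕ) (Q : List (List ℕ)) (l : Lab n) (z : PM n × PM n) : ℝ :=
  if l.1 = 1 then 1 else accP h (oa Q l z) (ob Q l z) (na Q l z) (nb Q l z)

theorem two_of {l : Lab n} (h0 : l.1 ≠ 0) (h1 : l.1 ≠ 1) : l.1 = 2 := by
  obtain ⟨t, x, y⟩ := l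
  fin_cases t
  · exact absurd rfl h0
  · exact absurd rfl h1
  · rfl

/-- The positions of the reverse move. -/
theorem rev_pos (Q : List (List ℕ)) {l : Lab n} {z : PM n × PM n} (h1 : l.1 ≠ 1)
    (hne : mv l z ≠ z) :
    oa Q (rv l z) (mv l z) = na Q l z ∧ ob Q (rv l z) (mv l z) = nb Q l z ∧
      na Q (rv l z) (mv l z) = oa Q l z ∧ nb Q (rv l z) (mv l z) = ob Q l z := by
  by_cases h0 : l.1 = 0
  · have hs : l.2.1 ≠ l.2.2 ∧ z.1.1 l.2.1 ≠ l.2.2 := by
      by_contra hs
      exact hne (Poly.mv_zero_neg h0 hs)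
    have e1 := Poly.rv_zero_pos h0 hs
    have e2 := Poly.mv_zero_pos h0 hs
    have s1 := Poly.swf_at_x z.1.1 l.2.1 l.2.2
    have s2 := Poly.swf_at_fx z.1.2 hs.2
    have ho : (rv l z).1 = 0 := by rw [e1]
    refine ⟨?_, ?_, ?_, ?_⟩
    · unfold oa na
      rw [if_pos h0, e1, e2]
      show ent Q l.2.1 (swf z.1.1 l.2.1 l.2.2 l.2.1) = _
      rw [s1]
    · unfold ob nb
      rw [if_pos h0, if_pos ho, e1, e2]
      show ent Q (z.1.1 l.2.1) (swf z.1.1 l.2.1 l.2.2 (z.1.1 l.2.1)) = _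
      rw [s2]
    · unfold oa na
      rw [if_pos ho, e1]
    · unfold ob nb
      rw [if_pos h0, if_pos ho, e1, e2]
      show ent Q (swf z.1.1 l.2.1 l.2.2 l.2.1) (swf z.1.1 l.2.1 l.2.2 (z.1.1 l.2.1)) = _
      rw [s1, s2]
  · have h2 := two_of h0 h1
    have hs : Seg z.1.1 z.2.1 l.2.1 l.2.2 := by
      by_contra hs
      exact hne (Poly.mv_two_neg h2 hs)
    have e1 := Poly.rv_two_pos h2 hs
    have e2 := Poly.mv_two_pos h2 hs
    have ho : (rv l z).1 ≠ 0 := by rw [rv_type]; exact h0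
    have s1 : (Poly.x1 z.1.1 z.2.1 l.2.1 l.2.2).1 (walk z.1.1 z.2.1 l.2.1 (2 * l.2.2)) =
        z.1.1 l.2.1 := Poly.x1_fst_y
    have s2 : (Poly.x1 z.1.1 z.2.1 l.2.1 l.2.2).2 l.2.1 =
        z.2.1 (walk z.1.1 z.2.1 l.2.1 (2 * l.2.2)) := Poly.x1_snd_v
    have s3 := Poly.walk_x1_last z.1.2 z.2.2 hs
    refine ⟨?_, ?_, ?_, ?_⟩
    · unfold oa na
      rw [if_neg h0, e1, e2]
      show ent Q (walk z.1.1 z.2.1 l.2.1 (2 * l.2.2))
        ((Poly.x1 z.1.1 z.2.1 l.2.1 l.2.2).1 (walk z.1.1 z.2.1 l.2.1 (2 * l.2.2))) = _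
      rw [s1]
    · unfold ob nb
      rw [if_neg h0, if_neg ho, e1, e2]
      show ent Q (walk (Poly.x1 z.1.1 z.2.1 l.2.1 l.2.2).1 (Poly.x1 z.1.1 z.2.1 l.2.1 l.2.2).2
          (walk z.1.1 z.2.1 l.2.1 (2 * l.2.2)) (2 * l.2.2))
        ((Poly.x1 z.1.1 z.2.1 l.2.1 l.2.2).2
          (walk (Poly.x1 z.1.1 z.2.1 l.2.1 l.2.2).1 (Poly.x1 z.1.1 z.2.1 l.2.1 l.2.2).2
          (walk z.1.1 z.2.1 l.2.1 (2 * l.2.2)) (2 * l.2.2))) = _
      rw [s3, s2]
    · unfold oa na
      rw [if_neg ho, e1, e2]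
      show ent Q (walk (Poly.x1 z.1.1 z.2.1 l.2.1 l.2.2).1 (Poly.x1 z.1.1 z.2.1 l.2.1 l.2.2).2
          (walk z.1.1 z.2.1 l.2.1 (2 * l.2.2)) (2 * l.2.2))
        ((Poly.x1 z.1.1 z.2.1 l.2.1 l.2.2).1 (walk z.1.1 z.2.1 l.2.1 (2 * l.2.2))) = _
      rw [s3, s1]
    · unfold ob nb
      rw [if_neg h0, if_neg ho, e1, e2]
      show ent Q (walk z.1.1 z.2.1 l.2.1 (2 * l.2.2))
        ((Poly.x1 z.1.1 z.2.1 l.2.1 l.2.2).2
          (walk (Poly.x1 z.1.1 z.2.1 l.2.1 l.2.2).1 (Poly.x1 z.1.1 z.2.1 l.2.1 l.2.2).2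
          (walk z.1.1 z.2.1 l.2.1 (2 * l.2.2)) (2 * l.2.2))) = _
      rw [s3, s2]

/-! ### The weights -/

section Weights

variable {h : ℕ} {Q : List (List ℕ)}

theorem lamQ_symm (hQ : ∀ x y : Fin n, ent Q x y = ent Q y x) (x y : Fin n) :
    lamQ n h Q x y = lamQ n h Q y x := by
  unfold lamQ; rw [hQ]

theorem lamQ_pos (x y : Fin n) : 0 < lamQ n h Q x y := wq_pos _ _

theorem Zt_pos (z : PM n) : 0 < Zt (lamQ n h Q) :=
  Finset.sum_pos (fun M _ => Poly.wt_pos (fun x y _ => lamQ_pos x y) M) ⟨z, mem_univ _⟩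

theorem mu2_pos (z : PM n × PM n) : 0 < mu2 (lamQ n h Q) z := by
  unfold mu2 mu
  have h1 := Zt_pos (h := h) (Q := Q) z.1
  have h2 := Poly.wt_pos (lam := lamQ n h Q) (fun x y _ => lamQ_pos x y) z.1
  have h3 := Poly.wt_pos (lam := lamQ n h Q) (fun x y _ => lamQ_pos x y) z.2
  positivity

theorem mu2_eq (lam : Fin n → Fin n → ℝ) (z : PM n × PM n) :
    mu2 lam z = wt lam z.1 * wt lam z.2 / (Zt lam * Zt lam) := by
  unfold mu2 mu
  rw [div_mul_div_comm]

/-- The quotient of the weights. -/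
theorem ratio (hQ : ∀ x y : Fin n, ent Q x y = ent Q y x) {l : Lab n} {z : PM n × PM n}
    (h1 : l.1 ≠ 1) (hne : mv l z ≠ z) :
    mu2 (lamQ n h Q) (mv l z) * (wq h (oa Q l z) * wq h (ob Q l z)) =
      mu2 (lamQ n h Q) z * (wq h (na Q l z) * wq h (nb Q l z)) := by
  rw [mu2_eq, mu2_eq]
  by_cases h0 : l.1 = 0
  · have hs : l.2.1 ≠ l.2.2 ∧ z.1.1 l.2.1 ≠ l.2.2 := by
      by_contra hs
      exact hne (Poly.mv_zero_neg h0 hs)
    have e2 := Poly.mv_zero_pos h0 hs
    have key := Poly.wt_swf (lam := lamQ n h Q) (lamQ_symm hQ) (fun x y _ => lamQ_pos x y) z.1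
      hs.1 hs.2
    unfold oa ob na nb
    rw [if_pos h0, if_pos h0, if_pos h0, e2]
    show wt (lamQ n h Q) ⟨swf z.1.1 l.2.1 l.2.2, _⟩ * wt (lamQ n h Q) z.2 / _ * _ = _
    unfold lamQ at key ⊢
    linear_combination (wt (fun x y : Fin n => wq h (ent Q x y)) z.2 /
      (Zt (fun x y : Fin n => wq h (ent Q x y)) * Zt (fun x y : Fin n => wq h (ent Q x y)))) * key
  · have h2 := two_of h0 h1
    have hs : Seg z.1.1 z.2.1 l.2.1 l.2.2 := by
      by_contra hs
      exact hne (Poly.mv_two_neg h2 hs)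
    have e2 := Poly.mv_two_pos h2 hs
    have key := Poly.wt_x1 (lam := lamQ n h Q) (lamQ_symm hQ) (fun x y _ => lamQ_pos x y) z.1 z.2
      hs
    unfold oa ob na nb
    rw [if_neg h0, if_neg h0, if_neg h0, e2]
    show wt (lamQ n h Q) ⟨(Poly.x1 z.1.1 z.2.1 l.2.1 l.2.2).1, _⟩ *
      wt (lamQ n h Q) ⟨(Poly.x1 z.1.1 z.2.1 l.2.1 l.2.2).2, _⟩ / _ * _ = _
    unfold lamQ at key ⊢
    linear_combination (1 /
      (Zt (fun x y : Fin n => wq h (ent Q x y)) * Zt (fun x y : Fin n => wq h (ent Q x y)))) * key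

theorem mu2_mv_one {l : Lab n} (h1 : l.1 = 1) (lam : Fin n → Fin n → ℝ) (z : PM n × PM n) :
    mu2 lam (mv l z) = mu2 lam z := by
  obtain ⟨t, x, y⟩ := l
  simp only at h1
  subst h1
  exact Xch.Comp.mu2_one lam x y z

/-- Detailed balance. -/
theorem bal (hQ : ∀ x y : Fin n, ent Q x y = ent Q y x) {l : Lab n} {z : PM n × PM n}
    (hne : mv l z ≠ z) :
    mu2 (lamQ n h Q) z * aP h Q l z = mu2 (lamQ n h Q) (mv l z) * aP h Q (rv l z) (mv l z) := by
  unfold aP
  by_cases h1 : l.1 = 1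
  · rw [if_pos h1, if_pos (by rw [rv_type]; exact h1), mu2_mv_one h1]
  · rw [if_neg h1, if_neg (by rw [rv_type]; exact h1)]
    obtain ⟨e1, e2, e3, e4⟩ := rev_pos Q h1 hne
    rw [e1, e2, e3, e4]
    exact mu_accP h _ _ _ _ (ratio hQ h1 hne)

/-- Comparison with the Metropolis rates. -/
theorem low (hQ : ∀ x y : Fin n, ent Q x y = ent Q y x) {l : Lab n} {z : PM n × PM n}
    (hne : mv l z ≠ z) :
    1 / 4 * min (mu2 (lamQ n h Q) z) (mu2 (lamQ n h Q) (mv l z)) ≤
      mu2 (lamQ n h Q) z * aP h Q l z := by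
  unfold aP
  have hp := mu2_pos (h := h) (Q := Q) z
  by_cases h1 : l.1 = 1
  · rw [if_pos h1, mu2_mv_one h1, min_self]
    linarith only [hp]
  · rw [if_neg h1]
    exact quarter_min_mu h _ _ _ _ hp (ratio hQ h1 hne)

end Weights

/-! ### The kernel -/

section Kernel

variable {b h : ℕ} {Q : List (List ℕ)}

theorem sum_goL (h : ℕ) (Q : List (List ℕ)) {m : ℕ} {l : Lab n} {z z' : PM n × PM n}
    (hz : z ≠ z')
    (hm : (exq h (na Q l z) + exq h (nb Q l z)) - (exq h (oa Q l z) + exq h (ob Q l z)) ≤ m) :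
    ∑ v ∈ words ((h + 1) + ((h + 1) + m)), (if goL h Q l ⟨v⟩ z = z' then (1 : ℝ) else 0) =
      2 ^ ((h + 1) + ((h + 1) + m)) * (if mv l z = z' then aP h Q l z else 0) := by
  by_cases hmv : mv l z = z'
  · rw [if_pos hmv]
    have e : ∀ v, (if goL h Q l ⟨v⟩ z = z' then (1 : ℝ) else 0) =
        if accL h Q l z ⟨v⟩ = true then 1 else 0 := by
      intro v
      unfold goL
      by_cases ha : accL h Q l z ⟨v⟩ = true
      · rw [if_pos ha, if_pos ha, if_pos hmv]
      · rw [if_neg ha, if_neg ha, if_neg hz]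
    rw [Finset.sum_congr rfl fun v _ => e v]
    unfold accL aP
    by_cases h1 : l.1 = 1
    · simp only [if_pos h1, if_true]
      rw [Finset.sum_const, card_words, nsmul_eq_mul]
      push_cast
      ring
    · simp only [if_neg h1]
      exact sum_acc h m _ _ _ _ hm
  · rw [if_neg hmv, mul_zero]
    refine Finset.sum_eq_zero fun v _ => ?_
    unfold goL
    by_cases ha : accL h Q l z ⟨v⟩ = true
    · rw [if_pos ha, if_neg hmv]
    · rw [if_neg ha, if_neg hz]

theorem psP_append (b h : ℕ) (Q : List (List ℕ)) {u1 u2 u3 v : List Bool} (h1 : u1.length = 3)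
    (h2 : u2.length = b) (h3 : u3.length = b) (z : PM n × PM n) :
    psP b h Q (u1 ++ (u2 ++ (u3 ++ v))) z = goP h Q (val u1) (val u2) (val u3) ⟨v⟩ z := by
  have e1 : (u1 ++ (u2 ++ (u3 ++ v))).take 3 = u1 := List.take_left' h1
  have e2 : (u1 ++ (u2 ++ (u3 ++ v))).drop 3 = u2 ++ (u3 ++ v) := List.drop_left' h1
  have e3 : (u1 ++ (u2 ++ (u3 ++ v))).drop (3 + b) = u3 ++ v := by
    rw [← List.drop_drop, e2]; exact List.drop_left' h2
  have e4 : (u1 ++ (u2 ++ (u3 ++ v))).drop (3 + b + b) = v := by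
    rw [← List.drop_drop, e3]; exact List.drop_left' h3
  unfold psP
  rw [e1, e2, e3, e4, List.take_left' h2, List.take_left' h3]

/-- Sums over all words as sums over the proposals. -/
theorem sum_psP (b h : ℕ) (Q : List (List ℕ)) (M : ℕ) (z : PM n × PM n)
    (F : PM n × PM n → ℝ) :
    ∑ u ∈ words (3 + (b + (b + M))), F (psP b h Q u z) =
      ∑ t ∈ range 8, ∑ x ∈ range (2 ^ b), ∑ y ∈ range (2 ^ b), ∑ v ∈ words M,
        F (goP h Q t x y ⟨v⟩ z) := by
  rw [sum_words_add]
  have e : ∀ u1 ∈ words 3, ∑ w ∈ words (b + (b + M)), F (psP b h Q (u1 ++ w) z) =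
      (fun t => ∑ x ∈ range (2 ^ b), ∑ y ∈ range (2 ^ b), ∑ v ∈ words M,
        F (goP h Q t x y ⟨v⟩ z)) (val u1) := by
    intro u1 hu1
    rw [sum_words_add]
    have e2 : ∀ u2 ∈ words b, ∑ w ∈ words (b + M), F (psP b h Q (u1 ++ (u2 ++ w)) z) =
        (fun x => ∑ y ∈ range (2 ^ b), ∑ v ∈ words M, F (goP h Q (val u1) x y ⟨v⟩ z))
          (val u2) := by
      intro u2 hu2
      rw [sum_words_add]
      have e3 : ∀ u3 ∈ words b, ∑ v ∈ words M, F (psP b h Q (u1 ++ (u2 ++ (u3 ++ v))) z) =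
          (fun y => ∑ v ∈ words M, F (goP h Q (val u1) (val u2) y ⟨v⟩ z)) (val u3) := by
        intro u3 hu3
        refine Finset.sum_congr rfl fun v _ => ?_
        rw [psP_append b h Q (mem_words.1 hu1) (mem_words.1 hu2) (mem_words.1 hu3)]
      rw [Finset.sum_congr rfl e3]
      exact sum_words_val b
        (fun y => ∑ v ∈ words M, F (goP h Q (val u1) (val u2) y ⟨v⟩ z))
    rw [Finset.sum_congr rfl e2]
    exact sum_words_val b
      (fun x => ∑ y ∈ range (2 ^ b), ∑ v ∈ words M, F (goP h Q (val u1) x y ⟨v⟩ z))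
  rw [Finset.sum_congr rfl e]
  exact sum_words_val 3 (fun t => ∑ x ∈ range (2 ^ b), ∑ y ∈ range (2 ^ b), ∑ v ∈ words M,
    F (goP h Q t x y ⟨v⟩ z))

theorem goP_ge (h : ℕ) (Q : List (List ℕ)) (t x y : ℕ) (v : Raw) (z : PM n × PM n)
    (hh : 3 ≤ t ∨ n ≤ x ∨ n ≤ y) : goP h Q t x y v z = z := by
  unfold goP
  rw [dif_neg]
  rintro ⟨h1, h2, h3⟩
  omega

theorem goP_fin (h : ℕ) (Q : List (List ℕ)) (t : Fin 3) (x y : Fin n) (v : Raw)
    (z : PM n × PM n) : goP h Q t x y v z = goL h Q (t, x, y) v z := by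
  unfold goP
  rw [dif_pos ⟨t.2, x.2, y.2⟩]

/-- **The kernel off the diagonal.** -/
theorem ker_ne (hn : n ≤ 2 ^ b) {m : ℕ} {z z' : PM n × PM n} (hz : z ≠ z')
    (hm : ∀ l : Lab n,
      (exq h (na Q l z) + exq h (nb Q l z)) - (exq h (oa Q l z) + exq h (ob Q l z)) ≤ m) :
    prob (3 + (b + (b + ((h + 1) + ((h + 1) + m))))) (fun u => psP b h Q u z = z') =
      1 / (8 * 4 ^ b) * ∑ l : Lab n, if mv l z = z' then aP h Q l z else 0 := by
  classical
  rw [prob_eq_sum]
  have e0 := sum_psP b h Q ((h + 1) + ((h + 1) + m)) z (fun w => if w = z' then (1 : ℝ) else 0)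
  rw [e0]
  have e1 : ∑ t ∈ range 8, ∑ x ∈ range (2 ^ b), ∑ y ∈ range (2 ^ b),
      ∑ v ∈ words ((h + 1) + ((h + 1) + m)), (if goP h Q t x y ⟨v⟩ z = z' then (1 : ℝ) else 0) =
      ∑ t : Fin 3, ∑ x : Fin n, ∑ y : Fin n,
      ∑ v ∈ words ((h + 1) + ((h + 1) + m)),
        (if goP h Q t x y ⟨v⟩ z = z' then (1 : ℝ) else 0) := by
    rw [St.sum_range_fin (n := 3) (N := 8) (by norm_num)
      (fun t => ∑ x ∈ range (2 ^ b), ∑ y ∈ range (2 ^ b),
      ∑ v ∈ words ((h + 1) + ((h + 1) + m)), (if goP h Q t x y ⟨v⟩ z = z' then (1 : ℝ) else 0))]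
    · refine Finset.sum_congr rfl fun t _ => ?_
      rw [St.sum_range_fin (n := n) hn (fun x => ∑ y ∈ range (2 ^ b),
        ∑ v ∈ words ((h + 1) + ((h + 1) + m)), (if goP h Q t x y ⟨v⟩ z = z' then (1 : ℝ) else 0))]
      · refine Finset.sum_congr rfl fun x _ => ?_
        rw [St.sum_range_fin (n := n) hn (fun y =>
          ∑ v ∈ words ((h + 1) + ((h + 1) + m)),
            (if goP h Q t x y ⟨v⟩ z = z' then (1 : ℝ) else 0))]
        intro k hk
        refine Finset.sum_eq_zero fun v _ => ?_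
        rw [goP_ge h Q _ _ _ _ _ (Or.inr (Or.inr hk)), if_neg hz]
      · intro k hk
        refine Finset.sum_eq_zero fun y _ => Finset.sum_eq_zero fun v _ => ?_
        rw [goP_ge h Q _ _ _ _ _ (Or.inr (Or.inl hk)), if_neg hz]
    · intro k hk
      refine Finset.sum_eq_zero fun x _ => Finset.sum_eq_zero fun y _ =>
        Finset.sum_eq_zero fun v _ => ?_
      rw [goP_ge h Q _ _ _ _ _ (Or.inl hk), if_neg hz]
  rw [e1]
  have e2 : ∑ t : Fin 3, ∑ x : Fin n, ∑ y : Fin n, ∑ v ∈ words ((h + 1) + ((h + 1) + m)),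
        (if goP h Q t x y ⟨v⟩ z = z' then (1 : ℝ) else 0) =
      ∑ l : Lab n, 2 ^ ((h + 1) + ((h + 1) + m)) * (if mv l z = z' then aP h Q l z else 0) := by
    rw [Fintype.sum_prod_type]
    refine Finset.sum_congr rfl fun t _ => ?_
    rw [Fintype.sum_prod_type]
    refine Finset.sum_congr rfl fun x _ => Finset.sum_congr rfl fun y _ => ?_
    rw [← sum_goL h Q hz (hm (t, x, y))]
    refine Finset.sum_congr rfl fun v _ => ?_
    rw [goP_fin]
  rw [e2, ← Finset.mul_sum]
  have e3 : (2 : ℝ) ^ (3 + (b + (b + ((h + 1) + ((h + 1) + m))))) =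
      8 * 4 ^ b * 2 ^ ((h + 1) + ((h + 1) + m)) := by
    rw [pow_add 2 3, pow_add 2 b, pow_add 2 b]
    have : (4 : ℝ) ^ b = 2 ^ b * 2 ^ b := by
      rw [← mul_pow]; norm_num
    rw [this]
    ring
  rw [e3]
  field_simp

/-- The kernel is lazy. -/
theorem ker_lazy (M : ℕ) (z : PM n × PM n) :
    5 / 8 ≤ prob (3 + (b + (b + M))) (fun u => psP b h Q u z = z) := by
  classical
  rw [prob_eq_sum]
  have e0 := sum_psP b h Q M z (fun w => if w = z then (1 : ℝ) else 0)
  rw [e0, le_div_iff₀ (by positivity)]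
  have e1 : ∑ t ∈ range 8, ∑ x ∈ range (2 ^ b), ∑ y ∈ range (2 ^ b), ∑ v ∈ words M,
      (if 3 ≤ t then (1 : ℝ) else 0) ≤
      ∑ t ∈ range 8, ∑ x ∈ range (2 ^ b), ∑ y ∈ range (2 ^ b), ∑ v ∈ words M,
        (if goP h Q t x y ⟨v⟩ z = z then (1 : ℝ) else 0) := by
    refine Finset.sum_le_sum fun t _ => Finset.sum_le_sum fun x _ =>
      Finset.sum_le_sum fun y _ => Finset.sum_le_sum fun v _ => ?_
    by_cases ht : 3 ≤ t
    · rw [if_pos ht, if_pos (goP_ge h Q _ _ _ _ _ (Or.inl ht))]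
    · rw [if_neg ht]
      split_ifs <;> norm_num
  refine le_trans (le_of_eq ?_) e1
  simp only [sum_const, card_words, nsmul_eq_mul, card_range]
  rw [← Finset.mul_sum, ← Finset.mul_sum, ← Finset.mul_sum]
  have e2 : ∑ t ∈ range 8, (if 3 ≤ t then (1 : ℝ) else 0) = 5 := by
    rw [Finset.sum_boole]
    have e3 : ((range 8).filter (fun t => 3 ≤ t)).card = 5 := by decide
    rw [e3]
    norm_num
  rw [e2, pow_add 2 3, pow_add 2 b, pow_add 2 b]
  push_cast
  ring

end Kernel

/-- **The pair step satisfies `PairOK`.** -/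
theorem pairOK {b h : ℕ} {Q : List (List ℕ)} (hn : n ≤ 2 ^ b)
    (hQ : ∀ x y : Fin n, ent Q x y = ent Q y x) {D L : ℕ}
    (hD : ∀ x y : Fin n, exq h (ent Q x y) ≤ D) (hL : 3 + 2 * b + 2 * (h + 1) + 2 * D ≤ L) :
    PairOK (lamQ n h Q) L (psP b h Q) (1 / (64 * 4 ^ b)) := by
  classical
  obtain ⟨m, hm⟩ : ∃ m, L = 3 + (b + (b + ((h + 1) + ((h + 1) + m)))) :=
    ⟨L - (3 + 2 * b + 2 * (h + 1)), by omega⟩
  have hmD : 2 * D ≤ m := by omega
  have hbd : ∀ (z : PM n × PM n) (l : Lab n),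
      (exq h (na Q l z) + exq h (nb Q l z)) - (exq h (oa Q l z) + exq h (ob Q l z)) ≤ m := by
    intro z l
    have h1 : exq h (na Q l z) ≤ D := by
      unfold na; split_ifs <;> exact hD _ _
    have h2 : exq h (nb Q l z) ≤ D := by
      unfold nb; split_ifs <;> exact hD _ _
    omega
  have hker : ∀ z z' : PM n × PM n, z ≠ z' → prob L (fun u => psP b h Q u z = z') =
      1 / (8 * 4 ^ b) * ∑ l : Lab n, if mv l z = z' then aP h Q l z else 0 := by
    intro z z' hz
    rw [hm]
    exact ker_ne hn hz (hbd z)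
  refine ⟨?_, ?_, ?_⟩
  · intro z z'
    by_cases hz : z = z'
    · subst hz; rfl
    rw [hker z z' hz, hker z' z (Ne.symm hz)]
    have key : ∑ l : Lab n, mu2 (lamQ n h Q) z * (if mv l z = z' then aP h Q l z else 0) =
        ∑ l : Lab n, mu2 (lamQ n h Q) z' * (if mv l z' = z then aP h Q l z' else 0) := by
      have e1 : ∀ (w w' : PM n × PM n), ∑ l : Lab n, mu2 (lamQ n h Q) w *
          (if mv l w = w' then aP h Q l w else 0) =
          ∑ l ∈ univ.filter (fun l : Lab n => mv l w = w'), mu2 (lamQ n h Q) w * aP h Q l w := by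
        intro w w'
        rw [Finset.sum_filter]
        refine Finset.sum_congr rfl fun l _ => ?_
        split_ifs <;> simp
      rw [e1, e1]
      refine Finset.sum_nbij' (fun l => rv l z) (fun l => rv l z') ?_ ?_ ?_ ?_ ?_
      · intro l hl
        simp only [mem_filter, mem_univ, true_and] at hl ⊢
        rw [← hl]
        exact (mv_rv l z).1
      · intro l hl
        simp only [mem_filter, mem_univ, true_and] at hl ⊢
        rw [← hl]
        exact (mv_rv l z').1
      · intro l hl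
        simp only [mem_filter, mem_univ, true_and] at hl
        rw [← hl]
        exact (mv_rv l z).2
      · intro l hl
        simp only [mem_filter, mem_univ, true_and] at hl
        rw [← hl]
        exact (mv_rv l z').2
      · intro l hl
        simp only [mem_filter, mem_univ, true_and] at hl
        have hne : mv l z ≠ z := by rw [hl]; exact Ne.symm hz
        rw [bal hQ hne, hl]
    rw [← Finset.mul_sum, ← Finset.mul_sum] at key
    linear_combination (1 / (8 * 4 ^ b) : ℝ) * key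
  · intro z
    rw [hm]
    exact ker_lazy _ z
  · intro f
    have e1 : ∀ z : PM n × PM n, ∑ z' : PM n × PM n,
        mu2 (lamQ n h Q) z * prob L (fun u => psP b h Q u z = z') *
          ((f z.1 + f z.2) - (f z'.1 + f z'.2)) ^ 2 =
        1 / (8 * 4 ^ b) * ∑ l : Lab n, mu2 (lamQ n h Q) z * aP h Q l z *
          ((f z.1 + f z.2) - (f (mv l z).1 + f (mv l z).2)) ^ 2 := by
      intro z
      have e2 : ∀ z' : PM n × PM n,
          mu2 (lamQ n h Q) z * prob L (fun u => psP b h Q u z = z') *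
            ((f z.1 + f z.2) - (f z'.1 + f z'.2)) ^ 2 =
          ∑ l : Lab n, 1 / (8 * 4 ^ b) * (if mv l z = z' then mu2 (lamQ n h Q) z * aP h Q l z *
            ((f z.1 + f z.2) - (f z'.1 + f z'.2)) ^ 2 else 0) := by
        intro z'
        by_cases hz : z = z'
        · subst hz
          rw [sub_self]
          simp only [ne_eq, OfNat.ofNat_ne_zero, not_false_eq_true, zero_pow, mul_zero, one_div, mul_inv_rev, ite_self, sum_const_zero]
        · rw [hker z z' hz, ← Finset.mul_sum]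
          have e3 : ∀ l : Lab n, (if mv l z = z' then mu2 (lamQ n h Q) z * aP h Q l z *
              ((f z.1 + f z.2) - (f z'.1 + f z'.2)) ^ 2 else 0) =
              mu2 (lamQ n h Q) z * ((f z.1 + f z.2) - (f z'.1 + f z'.2)) ^ 2 *
                (if mv l z = z' then aP h Q l z else 0) := by
            intro l
            split_ifs
            · ring
            · ring
          rw [Finset.sum_congr rfl fun l _ => e3 l, ← Finset.mul_sum]
          ring
      rw [Finset.sum_congr rfl fun z' _ => e2 z', Finset.sum_comm, Finset.mul_sum]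
      refine Finset.sum_congr rfl fun l _ => ?_
      rw [← Finset.mul_sum]
      congr 1
      rw [Finset.sum_ite_eq univ (mv l z)]
      simp only [mem_univ, ↓reduceIte]
    rw [Finset.sum_congr rfl fun z _ => e1 z, ← Finset.mul_sum]
    unfold En
    have e4 : ∑ z : PM n × PM n, ∑ l : Lab n, 1 / 4 * (min (mu2 (lamQ n h Q) z)
        (mu2 (lamQ n h Q) (mv l z)) * (f z.1 + f z.2 - f (mv l z).1 - f (mv l z).2) ^ 2) ≤
        ∑ z : PM n × PM n, ∑ l : Lab n, mu2 (lamQ n h Q) z * aP h Q l z *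
          ((f z.1 + f z.2) - (f (mv l z).1 + f (mv l z).2)) ^ 2 := by
      refine Finset.sum_le_sum fun z _ => Finset.sum_le_sum fun l _ => ?_
      by_cases hne : mv l z = z
      · rw [hne]
        have e5 : f z.1 + f z.2 - f z.1 - f z.2 = 0 := by ring
        rw [e5]
        simp only [one_div, min_self, ne_eq, OfNat.ofNat_ne_zero, not_false_eq_true, zero_pow, mul_zero, sub_self, Std.le_refl]
      · have e6 := low (h := h) hQ hne
        have e7 : f z.1 + f z.2 - f (mv l z).1 - f (mv l z).2 =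
            (f z.1 + f z.2) - (f (mv l z).1 + f (mv l z).2) := by ring
        rw [e7]
        calc _ = 1 / 4 * min (mu2 (lamQ n h Q) z) (mu2 (lamQ n h Q) (mv l z)) *
              ((f z.1 + f z.2) - (f (mv l z).1 + f (mv l z).2)) ^ 2 := by ring
          _ ≤ _ := mul_le_mul_of_nonneg_right e6 (sq_nonneg _)
    simp only [← mul_sum] at e4
    have e8 : (0 : ℝ) ≤ 1 / (8 * 4 ^ b) := by positivity
    have e9 := mul_le_mul_of_nonneg_left e4 e8
    calc _ = 1 / 2 * (1 / (8 * 4 ^ b) * (1 / 4 * ∑ z : PM n × PM n, ∑ l : Lab n,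
          min (mu2 (lamQ n h Q) z) (mu2 (lamQ n h Q) (mv l z)) *
            (f z.1 + f z.2 - f (mv l z).1 - f (mv l z).2) ^ 2)) := by
          field_simp
          ring
      _ ≤ _ := mul_le_mul_of_nonneg_left e9 (by norm_num)

end Vale.Agent.P308.PA.Lk
end

section

end

section

/-!
# P308, polynomial version: the statement [C] on the pair step
-/

namespace Vale.Agent.P308.PA

open Vale.Agent.P308.Alg

/-- **[C].** -/
theorem cStmt : CStmt 6 := by
  intro n b h _ _ hn
  refine ⟨psP b h, listPair n b h, ?_⟩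
  intro Q L D hQ hD hL
  have h1 := Lk.pairOK (n := n) (b := b) (h := h) (Q := Q) hn hQ (D := D) (L := L) ?_ hL
  · have e : (1 / (64 * 4 ^ b) : ℝ) = (1 / 2) ^ (2 * b + 6) := by
      have e1 : ((1 : ℝ) / 2) ^ (2 * b + 6) = ((1 / 2) ^ 2) ^ b * (1 / 2) ^ 6 := by
        rw [← pow_mul, ← pow_add]
      rw [e1]
      have e2 : ((1 : ℝ) / 2) ^ 2 = 1 / 4 := by norm_num
      have e3 : ((1 : ℝ) / 2) ^ 6 = 1 / 64 := by norm_num
      rw [e2, e3, one_div_pow]
      ring
    rw [← e]
    exact h1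
  · intro x y
    unfold exq
    exact Nat.div_le_of_le_mul (by rw [Nat.mul_comm]; exact hD x y)

end Vale.Agent.P308.PA
end

section

/-!
# P308: the first fact `M1` of the interface, from the comparison theorem `Soft.M1` (helper52)
-/

namespace Vale.Agent.P308.Alg

open Finset

variable {n : ℕ}

/-- a fixed point free involution of `Fin n` has `n / 2` pairs -/
theorem card_pairs (M : PM n) : 2 * (univ.filter (fun x => x < M.1 x)).card = n := by
  have hinv := M.2.1
  have hne := M.2.2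
  have h1 : (univ.filter (fun x => x < M.1 x)).card
      = (univ.filter (fun x => M.1 x < x)).card := by
    refine Finset.card_bij' (fun x _ => M.1 x) (fun x _ => M.1 x) ?_ ?_ ?_ ?_
    · intro x hx
      simp only [Finset.mem_filter, Finset.mem_univ, true_and] at hx ⊢
      rw [hinv]; exact hx
    · intro x hx
      simp only [Finset.mem_filter, Finset.mem_univ, true_and] at hx ⊢
      rw [hinv]; exact hx
    · intro x _; exact hinv x
    · intro x _; exact hinv x
  have h2 : (univ.filter (fun x : Fin n => M.1 x < x)) = (univ.filter (fun x => x < M.1 x))ᶜ := by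
    ext x
    simp only [mem_filter, mem_univ, true_and, mem_compl, not_lt]
    constructor
    · exact le_of_lt
    · intro h
      exact lt_of_le_of_ne h (hne x)
  have h3 := Finset.card_add_card_compl (univ.filter (fun x => x < M.1 x))
  rw [Fintype.card_fin] at h3
  rw [h2] at h1
  omega

theorem wt_eq {w : Fin n → Fin n → ℤ} {a : Fin n → Fin n → ℕ} {F : ℕ}
    (h : ∀ x y, (a x y : ℤ) = w x y + F) (M : PM n) :
    (Soft.wtN a M.1 : ℤ) = ew w M + F * (univ.filter (fun x => x < M.1 x)).card := by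
  unfold Soft.wtN ew
  push_cast
  rw [Finset.card_filter]
  push_cast
  rw [Finset.mul_sum, ← Finset.sum_add_distrib]
  refine Finset.sum_congr rfl fun x _ => ?_
  split_ifs
  · rw [h]; ring
  · ring

theorem half_pow_wt {w : Fin n → Fin n → ℤ} {a : Fin n → Fin n → ℕ} {F : ℕ}
    (h : ∀ x y, (a x y : ℤ) = w x y + F) (M : PM n) :
    (2 : ℝ)⁻¹ ^ Soft.wtN a M.1 = mass w M * ((2 : ℝ)⁻¹ ^ F) ^ (n / 2) := by
  have hc : (univ.filter (fun x => x < M.1 x)).card = n / 2 := by
    have := card_pairs M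
    omega
  have e := wt_eq h M
  rw [hc] at e
  have h1 : (2 : ℝ)⁻¹ ^ Soft.wtN a M.1 = (2 : ℝ) ^ (-(Soft.wtN a M.1 : ℤ)) := by
    rw [zpow_neg, zpow_natCast, inv_pow]
  have h2 : ((2 : ℝ)⁻¹ ^ F) ^ (n / 2) = (2 : ℝ) ^ (-((F : ℤ) * (n / 2 : ℕ))) := by
    rw [zpow_neg, ← pow_mul, inv_pow, ← Nat.cast_mul, zpow_natCast]
  rw [h1, h2, e, mass, ← zpow_add₀ (by norm_num)]
  congr 1
  ring

theorem Zn_empty {w : Fin n → Fin n → ℤ} {a : Fin n → Fin n → ℕ} {F : ℕ}
    (h : ∀ x y, (a x y : ℤ) = w x y + F) :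
    Soft.Zn a ∅ = ((2 : ℝ)⁻¹ ^ F) ^ (n / 2) * Zf w := by
  unfold Soft.Zn Zf
  rw [Finset.mul_sum]
  have hs : ∀ f : Fin n → Fin n, f ∈ Soft.Invs (∅ : Finset (Fin n)) ↔
      ((∀ x, f (f x) = x) ∧ ∀ x, f x ≠ x) := by
    intro f
    rw [Soft.mem_Invs]
    simp only [notMem_empty, iff_false, ne_eq]
  rw [Finset.sum_subtype (Soft.Invs (∅ : Finset (Fin n))) hs]
  refine Finset.sum_congr rfl fun M _ => ?_
  rw [mul_comm]
  exact half_pow_wt h M

/-- adding the pair `r u` -/
theorem swap_mem {g : Fin n → Fin n} {r u : Fin n} (hur : u ≠ r)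
    (hg : g ∈ Soft.Invs ({u, r} : Finset (Fin n))) :
    (∀ x, (g ∘ Equiv.swap r u) ((g ∘ Equiv.swap r u) x) = x) ∧
      (∀ x, (g ∘ Equiv.swap r u) x ≠ x) ∧ (g ∘ Equiv.swap r u) r = u := by
  obtain ⟨hg1, hg2⟩ := Soft.mem_Invs.1 hg
  have hgr : g r = r := (hg2 r).2 (by simp)
  have hgu : g u = u := (hg2 u).2 (by simp)
  have hne : ∀ v, v ≠ r → v ≠ u → g v ≠ r ∧ g v ≠ u := by
    intro v hva hvy
    constructor
    · intro h
      apply hva
      rw [← hg1 v, h, hgr]
    · intro h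
      apply hvy
      rw [← hg1 v, h, hgu]
  refine ⟨fun v => ?_, fun v => ?_, ?_⟩
  · simp only [Function.comp_apply]
    by_cases hva : v = r
    · subst hva
      simp [hgu, hgr]
    · by_cases hvy : v = u
      · subst hvy
        simp [hgu, hgr]
      · rw [Equiv.swap_apply_of_ne_of_ne hva hvy,
          Equiv.swap_apply_of_ne_of_ne (hne v hva hvy).1 (hne v hva hvy).2, hg1]
  · simp only [Function.comp_apply]
    by_cases hva : v = r
    · subst hva
      simp [hgu, hur]
    · by_cases hvy : v = u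
      · subst hvy
        simp [hgr, Ne.symm hur]
      · rw [Equiv.swap_apply_of_ne_of_ne hva hvy]
        intro h
        have := (hg2 v).1 h
        simp [hva, hvy] at this
  · simp [hgu]

/-- removing the pair `r u` -/
theorem swap_mem' {f : Fin n → Fin n} {r u : Fin n} (hf1 : ∀ x, f (f x) = x)
    (hf2 : ∀ x, f x ≠ x) (hfr : f r = u) :
    f ∘ Equiv.swap r u ∈ Soft.Invs ({u, r} : Finset (Fin n)) := by
  have hfu : f u = r := by rw [← hfr, hf1]
  have hne : ∀ v, v ≠ r → v ≠ u → f v ≠ r ∧ f v ≠ u := by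
    intro v hva hvy
    constructor
    · intro h
      apply hvy
      rw [← hfr, ← h, hf1]
    · intro h
      apply hva
      rw [← hf1 v, h, hfu]
  rw [Soft.mem_Invs]
  constructor
  · intro v
    simp only [Function.comp_apply]
    by_cases hva : v = r
    · subst hva
      simp [hfu]
    · by_cases hvy : v = u
      · subst hvy
        simp [hfr]
      · rw [Equiv.swap_apply_of_ne_of_ne hva hvy,
          Equiv.swap_apply_of_ne_of_ne (hne v hva hvy).1 (hne v hva hvy).2, hf1]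
  · intro v
    simp only [Function.comp_apply]
    by_cases hva : v = r
    · subst hva
      simp [hfu]
    · by_cases hvy : v = u
      · subst hvy
        simp [hfr]
      · rw [Equiv.swap_apply_of_ne_of_ne hva hvy]
        simp [hva, hvy, hf2 v]

theorem Zn_pair {w : Fin n → Fin n → ℤ} {a : Fin n → Fin n → ℕ} {F : ℕ}
    (ha : ∀ x y, a x y = a y x)
    (h : ∀ x y, (a x y : ℤ) = w x y + F) {r u : Fin n} (hur : u ≠ r) :
    Soft.Zn a {u, r} = ((2 : ℝ)⁻¹ ^ F) ^ (n / 2) * 2 ^ F *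
      ((∑ M : PM n, if M.1 r = u then mass w M else 0) * (2 : ℝ) ^ (w r u)) := by
  classical
  have key : ∀ f : Fin n → Fin n, (∀ x, f (f x) = x) → f r = u →
      (2 : ℝ)⁻¹ ^ Soft.wtN a f = (2 : ℝ)⁻¹ ^ a r u * (2 : ℝ)⁻¹ ^ Soft.wtN a (f ∘ Equiv.swap r u) := by
    intro f hf hfr
    have := Soft.wprod_swap (Soft.expW a ha) hf (Ne.symm hur) hfr
    rw [Soft.wprod_expW, Soft.wprod_expW, Soft.expW_mk] at this
    exact this
  have e1 : (∑ M : PM n, if M.1 r = u then mass w M else 0) * ((2 : ℝ)⁻¹ ^ F) ^ (n / 2) =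
      ∑ f ∈ Soft.Invs ({u, r} : Finset (Fin n)),
        (2 : ℝ)⁻¹ ^ a r u * (2 : ℝ)⁻¹ ^ Soft.wtN a f := by
    rw [Finset.sum_mul, ← Finset.sum_filter_add_sum_filter_not univ (fun M : PM n => M.1 r = u)]
    have hz : ∑ M ∈ univ.filter (fun M : PM n => ¬ M.1 r = u),
        (if M.1 r = u then mass w M else 0) * ((2 : ℝ)⁻¹ ^ F) ^ (n / 2) = 0 := by
      refine Finset.sum_eq_zero fun M hM => ?_
      rw [if_neg (Finset.mem_filter.1 hM).2, zero_mul]
    rw [hz, add_zero]
    refine Finset.sum_bij' (fun M _ => M.1 ∘ Equiv.swap r u)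
      (fun f hf => (⟨f ∘ Equiv.swap r u, (swap_mem hur hf).1, (swap_mem hur hf).2.1⟩ : PM n))
      ?_ ?_ ?_ ?_ ?_
    · intro M hM
      exact swap_mem' M.2.1 M.2.2 (Finset.mem_filter.1 hM).2
    · intro f hf
      exact Finset.mem_filter.2 ⟨Finset.mem_univ _, (swap_mem hur hf).2.2⟩
    · intro M hM
      apply Subtype.ext
      simp only
      rw [Function.comp_assoc]
      have : (Equiv.swap r u : Fin n → Fin n) ∘ (Equiv.swap r u) = id := by
        funext v; simp
      rw [this]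
      rfl
    · intro f hf
      simp only
      rw [Function.comp_assoc]
      have : (Equiv.swap r u : Fin n → Fin n) ∘ (Equiv.swap r u) = id := by
        funext v; simp
      rw [this]
      rfl
    · intro M hM
      have hM' := (Finset.mem_filter.1 hM).2
      rw [if_pos hM', ← half_pow_wt h M]
      exact key M.1 M.2.1 hM'
  unfold Soft.Zn
  rw [← Finset.mul_sum] at e1
  have e2 : (2 : ℝ)⁻¹ ^ a r u * (2 ^ F * (2 : ℝ) ^ (w r u)) = 1 := by
    have : (2 : ℝ)⁻¹ ^ a r u = (2 : ℝ) ^ (-(a r u : ℤ)) := by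
      rw [zpow_neg, zpow_natCast, inv_pow]
    rw [this, ← zpow_natCast 2 F, ← zpow_add₀ (by norm_num), ← zpow_add₀ (by norm_num), h]
    have : -(w r u + (F : ℤ)) + ((F : ℤ) + w r u) = 0 := by ring
    rw [this, zpow_zero]
  calc ∑ f ∈ Soft.Invs ({u, r} : Finset (Fin n)), (2 : ℝ)⁻¹ ^ Soft.wtN a f
      = ((2 : ℝ)⁻¹ ^ a r u * (2 ^ F * (2 : ℝ) ^ (w r u))) *
        ∑ f ∈ Soft.Invs ({u, r} : Finset (Fin n)), (2 : ℝ)⁻¹ ^ Soft.wtN a f := by
        rw [e2, one_mul]
    _ = (2 ^ F * (2 : ℝ) ^ (w r u)) * ((2 : ℝ)⁻¹ ^ a r u *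
        ∑ f ∈ Soft.Invs ({u, r} : Finset (Fin n)), (2 : ℝ)⁻¹ ^ Soft.wtN a f) := by ring
    _ = _ := by rw [← e1]; ring

theorem impZ_symm {r : Fin n} {k : Fin n → Fin n → ℤ} {A : Fin n → ℤ} {B : Fin n → Fin n → ℤ}
    (hk : ∀ x y, k x y = k y x) (hB : ∀ x y, B x y = B y x) (c : ℤ) (x y : Fin n) :
    impZ r k A B c x y = impZ r k A B c y x := by
  unfold impZ
  rw [hk x y, hB x y]
  by_cases hx : x = r <;> by_cases hy : y = r
  · subst hx; subst hy; rfl
  · simp only [hx, ↓reduceIte, hy]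
  · simp only [hy, hx, ↓reduceIte]
  · simp only [hx, hy, if_false]
    rw [add_comm (A x)]

/-- **The first fact of the interface.** -/
theorem M1_holds : M1 22 := by
  intro n r k A B c hn hS hc
  classical
  have hn2 : 2 ≤ n := by
    obtain ⟨m, rfl⟩ := hn
    have := r.2
    omega
  obtain ⟨u₀, hu₀⟩ : ∃ u : Fin n, u ≠ r := by
    have : Nontrivial (Fin n) := Fin.nontrivial_iff_two_le.2 hn2
    exact exists_ne r
  have hZpos : 0 < Zf k := by
    have h0 : 0 ≤ Zf k := Finset.sum_nonneg fun M _ => by unfold mass; positivity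
    rcases h0.lt_or_eq with h | h
    · exact h
    · exfalso
      have h1 := (hS.est u₀ hu₀).1
      unfold alpha at h1
      rw [← h, div_zero] at h1
      have : (0 : ℝ) < 2 ^ (A u₀ - 4) := by positivity
      linarith only [h1, this]
  have hc0 : 0 ≤ c := le_trans (by (clear * -; positivity)) hc
  -- the offset
  obtain ⟨F, hF⟩ : ∃ F : ℕ, ∀ x y, 0 ≤ impZ r k A B c x y + F := by
    refine ⟨∑ x, ∑ y, (impZ r k A B c x y).natAbs, fun x y => ?_⟩
    have h1 : (impZ r k A B c x y).natAbs ≤ ∑ x, ∑ y, (impZ r k A B c x y).natAbs :=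
      (Finset.single_le_sum (f := fun y => (impZ r k A B c x y).natAbs)
        (fun _ _ => Nat.zero_le _) (Finset.mem_univ y)).trans
      (Finset.single_le_sum (f := fun x => ∑ y, (impZ r k A B c x y).natAbs)
        (fun _ _ => Nat.zero_le _) (Finset.mem_univ x))
    omega
  let a : Fin n → Fin n → ℕ := fun x y => (k x y + F).toNat
  let w : Fin n → Fin n → ℕ := fun x y => (impZ r k A B c x y + F).toNat
  have hak : ∀ x y, (a x y : ℤ) = k x y + F := fun x y =>
    Int.toNat_of_nonneg (by have := hS.nonneg x y; (clear * - this; positivity))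
  have hwk : ∀ x y, (w x y : ℤ) = impZ r k A B c x y + F := fun x y =>
    Int.toNat_of_nonneg (hF x y)
  have ha : ∀ x y, a x y = a y x := fun x y => by
    simp only [a]; rw [hS.symm x y]
  have hw : ∀ x y, w x y = w y x := fun x y => by
    simp only [w]; rw [impZ_symm hS.symm hS.bottle.symm c x y]
  have hgen : ∀ (b : ℤ) (x z : Fin n), Relation.ReflTransGen
      (fun p q => p ≠ r ∧ q ≠ r ∧ p ≠ q ∧ b ≤ A p + A q - k p q) x z →
      (Soft.LG a ha r (fun u => A u + F) (b + F)).Reachable x z := by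
    intro b x z h
    induction h with
    | refl => exact SimpleGraph.Reachable.refl _
    | tail _ hstep ih =>
      refine ih.trans (SimpleGraph.Adj.reachable ?_)
      refine ⟨hstep.2.2.1, hstep.1, hstep.2.1, ?_⟩
      rw [hak]
      have := hstep.2.2.2
      linarith only [hstep]
  set P : ℝ := ((2 : ℝ)⁻¹ ^ F) ^ (n / 2) with hP
  have hP0 : 0 < P := by positivity
  have hZa : Soft.Zn a ∅ = P * Zf k := Zn_empty hak
  have hZw : Soft.Zn w ∅ = P * Zf (impZ r k A B c) := Zn_empty hwk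
  have hza : ∀ u, u ≠ r → Soft.Zn a {u, r} = P * 2 ^ F * (alpha k r u * Zf k) := by
    intro u hu
    rw [Zn_pair ha hak hu]
    unfold alpha
    rw [div_mul_cancel₀ _ hZpos.ne']
  have hres := Soft.M1 a w ha hw r (fun u => A u + F) (fun x y => B x y + F) 4 c.toNat
    (fun x y => by rw [hS.bottle.symm]) (by rw [hZa]; positivity)
    ⟨fun u hu => by
        rw [hza u hu, hZa]
        have h1 := (hS.est u hu).1
        have h2 : (2 : ℝ) ^ (A u + (F : ℤ) - ((4 : ℕ) : ℤ)) = 2 ^ F * (2 : ℝ) ^ (A u - 4) := by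
          rw [← zpow_natCast 2 F, ← zpow_add₀ (by norm_num)]
          congr 1
          push_cast
          ring
        rw [h2]
        calc 2 ^ F * (2 : ℝ) ^ (A u - 4) * (P * Zf k)
            = P * 2 ^ F * ((2 : ℝ) ^ (A u - 4) * Zf k) := by ring
          _ ≤ P * 2 ^ F * (alpha k r u * Zf k) := by (clear * - h1 hZpos; gcongr),
      fun u hu => by
        rw [hza u hu, hZa]
        have h1 := (hS.est u hu).2
        have h2 : (2 : ℝ) ^ (A u + (F : ℤ) + ((4 : ℕ) : ℤ)) = 2 ^ F * (2 : ℝ) ^ (A u + 4) := by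
          rw [← zpow_natCast 2 F, ← zpow_add₀ (by (clear * -; norm_num))]
          congr 1
          push_cast
          ring
        rw [h2]
        calc P * 2 ^ F * (alpha k r u * Zf k) ≤ P * 2 ^ F * ((2 : ℝ) ^ (A u + 4) * Zf k) := by
              gcongr
          _ = 2 ^ F * (2 : ℝ) ^ (A u + 4) * (P * Zf k) := by ring⟩
    (by
      intro x y hxy hxr hyr
      exact hgen (B x y) x y (hS.bottle.path x y hxr hyr hxy))
    (by
      rw [Fintype.card_fin]
      have h1 : n < 2 ^ Nat.size n := Nat.lt_size_self n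
      have h2 : n ^ 3 ≤ (2 ^ Nat.size n) ^ 3 := Nat.pow_le_pow_left h1.le 3
      have h3 : 22 + 3 * Nat.size n ≤ c.toNat := by
        have : ((22 * (Nat.size n + 1) : ℕ) : ℤ) ≤ c := by push_cast; exact hc
        omega
      calc 64 * n ^ 3 * 2 ^ (4 * 4) ≤ 64 * (2 ^ Nat.size n) ^ 3 * 2 ^ (4 * 4) := by (clear * - h2; gcongr)
        _ = 2 ^ (22 + 3 * Nat.size n) := by
          rw [pow_add, pow_mul, ← pow_mul, mul_comm (Nat.size n) 3, pow_mul]; norm_num; ring
        _ ≤ 2 ^ c.toNat := Nat.pow_le_pow_right (by norm_num) h3)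
    (by
      intro x y _
      have h1 : impZ r k A B c x y ≤ k x y := min_le_left _ _
      have h2 := hak x y
      have h3 := hwk x y
      omega)
    (by
      intro x y hxy hxr hyr
      have h2 := hak x y
      have h3 := hwk x y
      have h4 : impZ r k A B c x y = min (k x y) (A x + A y - B x y + c) := by
        unfold impZ
        rw [if_neg hxr, if_neg hyr]
      have h5 : (c.toNat : ℤ) = c := Int.toNat_of_nonneg hc0
      rcases min_choice (k x y) (A x + A y - B x y + c) with h | h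
      · left; rw [h] at h4; omega
      · right; rw [h] at h4; omega)
    (by
      intro x hxr
      have h2 := hak x r
      have h3 := hwk x r
      have h4 : impZ r k A B c x r = min (k x r) (A x + c) := by
        unfold impZ
        rw [if_neg hxr, if_pos rfl]
      have h5 : (c.toNat : ℤ) = c := Int.toNat_of_nonneg hc0
      rcases min_choice (k x r) (A x + c) with h | h
      · left; rw [h] at h4; omega
      · right; rw [h] at h4; omega)
  obtain ⟨g1, g2, g3⟩ := hres
  rw [hZa, hZw] at g1 g2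
  have hle : Zf k ≤ Zf (impZ r k A B c) := le_of_mul_le_mul_left g1 hP0
  have hle2 : Zf (impZ r k A B c) ≤ 2 * Zf k := by
    refine le_of_mul_le_mul_left (a := P) ?_ hP0
    linarith only [g2]
  have hZpos' : 0 < Zf (impZ r k A B c) := lt_of_lt_of_le hZpos hle
  have hzw : ∀ u, u ≠ r → Soft.Zn w {u, r} =
      P * 2 ^ F * (alpha (impZ r k A B c) r u * Zf (impZ r k A B c)) := by
    intro u hu
    rw [Zn_pair hw hwk hu]
    unfold alpha
    rw [div_mul_cancel₀ _ hZpos'.ne']
  refine ⟨hle, hle2, fun u hu => ?_⟩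
  obtain ⟨q1, q2⟩ := g3 u hu
  rw [hza u hu, hzw u hu] at q1 q2
  have hPF : 0 < P * 2 ^ F := by positivity
  have r1 : alpha k r u * Zf k ≤ alpha (impZ r k A B c) r u * Zf (impZ r k A B c) :=
    le_of_mul_le_mul_left q1 hPF
  have r2 : alpha (impZ r k A B c) r u * Zf (impZ r k A B c) ≤ 2 * (alpha k r u * Zf k) := by
    refine le_of_mul_le_mul_left (a := P * 2 ^ F) ?_ hPF
    linarith only [q2]
  have al0 : 0 ≤ alpha k r u := (by positivity : (0 : ℝ) ≤ 2 ^ (A u - 4)).trans (hS.est u hu).1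
  have al1 : 0 ≤ alpha (impZ r k A B c) r u := by
    have h1 : 0 ≤ alpha (impZ r k A B c) r u * Zf (impZ r k A B c) :=
      (mul_nonneg al0 hZpos.le).trans r1
    exact nonneg_of_mul_nonneg_left h1 hZpos'
  constructor
  · refine le_of_mul_le_mul_right (a := Zf k) ?_ hZpos
    calc alpha k r u * Zf k ≤ alpha (impZ r k A B c) r u * Zf (impZ r k A B c) := r1
      _ ≤ alpha (impZ r k A B c) r u * (2 * Zf k) := mul_le_mul_of_nonneg_left hle2 al1
      _ = _ := by ring
  · refine le_of_mul_le_mul_right (a := Zf k) ?_ hZpos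
    calc alpha (impZ r k A B c) r u * Zf k
        ≤ alpha (impZ r k A B c) r u * Zf (impZ r k A B c) := mul_le_mul_of_nonneg_left hle al1
      _ ≤ 2 * (alpha k r u * Zf k) := r2
      _ = _ := by ring

end Vale.Agent.P308.Alg
end

section

/-!
# P308, polynomial version: analysis of the stages, for any sampler
-/

namespace Vale.Agent.P308.PA

open Vale.Agent.Lib.PolyTime Vale.Agent.P308.Alg Finset Function

section Generic

variable {run : List (List ℕ) → Raw → List ℕ} {B : ℕ} {n : ℕ}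

/-- The sampler uses only the first `B` bits. -/
def Uses (run : List (List ℕ) → Raw → List ℕ) (B : ℕ) : Prop :=
  ∀ (E : List (List ℕ)) (u : List Bool), run E ⟨u⟩ = run E ⟨u.take B⟩

theorem smp_take (hB : Uses run B) (n L F : ℕ) (K K' E : List (List ℕ)) (u : List Bool) :
    smp run B n L F K K' E ⟨u⟩ = smp run B n L F K K' E ⟨u.take (B + L)⟩ := by
  unfold smp
  simp only
  have e1 : run E ⟨u.take (B + L)⟩ = run E ⟨u⟩ := by
    rw [hB E, hB E u]
    congr 2
    rw [List.take_take, min_eq_left (by omega)]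
  have e2 : ((u.take (B + L)).drop (B)).take L = (u.drop (B)).take L := by
    rw [List.drop_take]
    rw [List.take_take]
    congr 1
    omega
  rw [e1, e2]

/-- The test number `τ` of a block of bits: for `τ < n` the root is matched with `τ`, for `τ = n`
the first acceptance test, for `τ > n` the second one. -/
def tst (run : List (List ℕ) → Raw → List ℕ) (B n L F : ℕ) (K K' E : List (List ℕ)) (τ : ℕ) (u : List Bool) : Bool :=
  if τ < n then decide (prt (smp run B n L F K K' E ⟨u⟩).1 0 = τ)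
  else if τ = n then (smp run B n L F K K' E ⟨u⟩).2.1 else (smp run B n L F K K' E ⟨u⟩).2.2

/-- The number of blocks which pass the test `τ`. -/
def cnt (run : List (List ℕ) → Raw → List ℕ) (B n L F S : ℕ) (K K' E : List (List ℕ)) (τ : ℕ) (w : List Bool) : ℕ :=
  ((List.range S).filter fun q => tst run B n L F K K' E τ
    ((w.drop (q * (B + L))).take (B + L))).length

theorem cntU_eq (hB : Uses run B) (n L F S : ℕ) (K K' E : List (List ℕ)) (w : List Bool) {v : ℕ}
    (hv : v < n) : cntU (smps run B n L F S K K' E ⟨w⟩) v = cnt run B n L F S K K' E v w := by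
  unfold cntU smps cnt
  rw [List.filter_map, List.length_map]
  congr 1
  apply List.filter_congr
  intro q _
  simp only [Function.comp_apply, tst, if_pos hv]
  rw [← smp_take hB]

theorem cntA_eq (hB : Uses run B) (n L F S : ℕ) (K K' E : List (List ℕ)) (w : List Bool) :
    cntA (smps run B n L F S K K' E ⟨w⟩) = cnt run B n L F S K K' E n w := by
  unfold cntA smps cnt
  rw [List.filter_map, List.length_map]
  congr 1
  apply List.filter_congr
  intro q _
  simp only [Function.comp_apply, tst, lt_irrefl, if_false, if_true]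
  rw [← smp_take hB]

theorem cntB_eq (hB : Uses run B) (n L F S : ℕ) (K K' E : List (List ℕ)) (w : List Bool) :
    cntB (smps run B n L F S K K' E ⟨w⟩) = cnt run B n L F S K K' E (n + 1) w := by
  unfold cntB smps cnt
  rw [List.filter_map, List.length_map]
  congr 1
  apply List.filter_congr
  intro q _
  have h1 : ¬ n + 1 < n := by omega
  have h2 : ¬ n + 1 = n := by omega
  simp only [Function.comp_apply, tst, if_neg h1, if_neg h2]
  rw [← smp_take hB]

theorem smps_congr (hB : Uses run B) (n L F S : ℕ) (K K' E : List (List ℕ)) {w w' : List Bool}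
    (h : w.take (S * (B + L)) = w'.take (S * (B + L))) :
    smps run B n L F S K K' E ⟨w⟩ = smps run B n L F S K K' E ⟨w'⟩ := by
  unfold smps
  apply List.map_congr_left
  intro q hq
  rw [List.mem_range] at hq
  rw [smp_take hB, smp_take hB n L F K K' E (w'.drop _)]
  congr 2
  have h1 : q * (B + L) + (B + L) ≤ S * (B + L) := by
    calc q * (B + L) + (B + L) = (q + 1) * (B + L) := by ring
      _ ≤ S * (B + L) := Nat.mul_le_mul_right _ hq
  have h2 : ∀ u : List Bool, (u.drop (q * (B + L))).take (B + L) =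
      ((u.take (S * (B + L))).drop (q * (B + L))).take (B + L) := by
    intro u
    rw [List.drop_take, List.take_take, min_eq_left]
    omega
  rw [h2 w, h2 w', h]

theorem stage_append (hB : Uses run B) (R : List Raw) (P : Par) (s : List ℕ × (ℕ × (ℕ × ℕ))) {u : List Bool}
    (hu : u.length = 2 ^ P.s * (B + P.L)) (v : List Bool) :
    stage run B R P (s, ⟨u ++ v⟩) = ((stage run B R P (s, ⟨u⟩)).1, ⟨v⟩) := by
  unfold stage
  dsimp only
  have h1 : smps run B R.length P.L P.F (2 ^ P.s) (schM R P.W s.2.1)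
      (schM R P.W (s.2.1 + 1)) (imp R.length P.F P.W P.c (schM R P.W s.2.1) s.1) ⟨u ++ v⟩ =
      smps run B R.length P.L P.F (2 ^ P.s) (schM R P.W s.2.1)
      (schM R P.W (s.2.1 + 1)) (imp R.length P.F P.W P.c (schM R P.W s.2.1) s.1) ⟨u⟩ := by
    apply smps_congr hB
    rw [List.take_append_of_le_length (by omega)]
  rw [h1, List.drop_append_of_le_length (by omega), List.drop_eq_nil_of_le (by omega)]
  rfl

/-- A function of the matching and of the acceptance bits. -/
theorem prob_test (hB : Uses run B) {L F : ℕ} {K K' E : List (List ℕ)}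
    (hrun : ∀ u, ∃ M : PM n, run E u = toL M)
    (ψ : List ℕ × (Bool × Bool) → Bool) (g : PM n → ℝ)
    (hg : ∀ M : PM n, prob L (fun v => ψ (toL M,
      (ones ⟨v⟩ (ex K (toL M) + n / 2 * F - ex E (toL M)),
        ones ⟨v⟩ (ex K' (toL M) + n / 2 * F - ex E (toL M)))) = true) = g M) :
    prob (B + L) (fun u => ψ (smp run B n L F K K' E ⟨u⟩) = true) =
      ∑ M : PM n, rlaw (run E) B M * g M := by
  choose X hX using fun u : List Bool => hrun ⟨u⟩
  rw [prob_split (B) L X _ g]
  · refine Finset.sum_congr rfl fun M _ => ?_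
    congr 1
    unfold rlaw
    refine prob_congr _ fun u _ => ?_
    rw [hX u]
    exact ⟨fun h => by rw [h], fun h => toL_injective h⟩
  · intro u hu
    rw [← hg (X u)]
    refine prob_congr _ fun v hv => ?_
    have e1 : smp run B n L F K K' E ⟨u ++ v⟩ = (toL (X u),
      (ones ⟨v⟩ (ex K (toL (X u)) + n / 2 * F - ex E (toL (X u))),
        ones ⟨v⟩ (ex K' (toL (X u)) + n / 2 * F - ex E (toL (X u))))) := by
      unfold smp
      have e2 : run E ⟨u ++ v⟩ = toL (X u) := by
        rw [hB E, List.take_append_of_le_length (by omega), List.take_of_length_le (by omega)]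
        exact hX u
      have e3 : ((u ++ v).drop (B)).take L = v := by
        rw [List.drop_append_of_le_length (by omega), List.drop_eq_nil_of_le (by omega),
          List.nil_append, List.take_of_length_le (by omega)]
      simp only [e2, e3]
    rw [e1]

end Generic

section Stage

variable {R : List Raw} {P : Par} {c1 : ℕ} {η : ℝ} {run : List (List ℕ) → Raw → List ℕ} {B : ℕ}

/-- Analysis of one stage. -/
theorem stage_good (hB : Uses run B) (hR : ∀ x y, adj R x y = adj R y x) (hn : Even R.length) (h2 : 2 ≤ R.length)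
    (hP : ParOK c1 R.length P η) {j : ℕ} {A : List ℕ} (hA : EstOK R P.W P.F j A)
    (hW : ∀ r : Fin R.length, (r : ℕ) = 0 →
      WOK (kZ R P.W j) (toZ P.F (impS R P j A)) (fun u => (A.getD u 0 : ℤ) - P.F) P.c r)
    (hrun : ∀ u, ∃ M : PM R.length, run (impS R P j A) u = toL M)
    (hmix : ∑ M : PM R.length, |rlaw (run (impS R P j A)) B M -
      law (toZ P.F (impS R P j A)) M| ≤ η) (u : List Bool)
    (hbad : ∀ τ < R.length + 2, |((((List.range (2 ^ P.s)).filter fun q =>
      tst run B R.length P.L P.F (schM R P.W j) (schM R P.W (j + 1)) (impS R P j A) τ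
        ((u.drop (q * (B + P.L))).take (B + P.L))).length : ℕ) : ℝ) /
          (2 ^ P.s : ℕ) -
      prob (B + P.L) (fun v => tst run B R.length P.L P.F (schM R P.W j)
        (schM R P.W (j + 1)) (impS R P j A) τ v = true)| < η) :
    ∃ (A' : List ℕ) (cA cB : ℕ), 0 < cA ∧ 0 < cB ∧
      (1 - 32 * η) * (Zs R P.W (j + 1) / Zs R P.W j) ≤ (cB : ℝ) / cA ∧
      (cB : ℝ) / cA ≤ (1 + 32 * η) * (Zs R P.W (j + 1) / Zs R P.W j) ∧
      EstOK R P.W P.F (j + 1) A' ∧
      ∀ x y : ℕ, stage run B R P ((A, (j, (x, y))), ⟨u⟩) =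
        ((A', (j + 1, (x * cB, y * cA))), ⟨u.drop (2 ^ P.s * (B + P.L))⟩) := by
  obtain ⟨a0, b0, hstep⟩ := kZ_step hR (by omega) P.W j
  set n := R.length with hnd
  set K := schM R P.W j with hK
  set K' := schM R P.W (j + 1) with hK'
  set E := impS R P j A with hE
  set S := 2 ^ P.s with hS
  have hS0 : (0 : ℝ) < (S : ℕ) := by rw [hS]; positivity
  have hη0 := hP.ηpos
  have hηc : η * 2 ^ (P.c + 10) ≤ 1 := hP.ηle
  have hη1 : η ≤ 1 / 1024 := by
    have h3 : (1024 : ℝ) ≤ 2 ^ (P.c + 10) := by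
      calc (1024 : ℝ) = 2 ^ 10 := by norm_num
        _ ≤ 2 ^ (P.c + 10) := pow_le_pow_right₀ (by norm_num) (by omega)
    rw [le_div_iff₀ (by norm_num)]
    nlinarith only [hηc, h3]
  -- the counts
  set c : ℕ → ℕ := fun τ => cnt run B n P.L P.F S K K' E τ u with hc
  have hbad' : ∀ τ < n + 2, |((c τ : ℕ) : ℝ) / (S : ℕ) - prob (B + P.L) (fun v =>
      tst run B n P.L P.F K K' E τ v = true)| < η := hbad
  set r : Fin n := ⟨0, by omega⟩ with hr
  set k : Fin n → Fin n → ℤ := kZ R P.W j with hk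
  set k' : Fin n → Fin n → ℤ := kZ R P.W (j + 1) with hk'
  set w : Fin n → Fin n → ℤ := toZ P.F E with hw
  have hWr := hW r rfl
  have hkk : ∀ x y, k x y ≤ k' x y := by
    intro x y
    rcases hstep.step x y with h | h
    · exact h.ge
    · rw [h.1]; (clear * - h2; omega)
  have hZk : 0 < Zf k := Zf_pos hn k
  have hZw : 0 < Zf w := Zf_pos hn w
  have hewk : ∀ M : PM n, ew w M ≤ ew k M := fun M => ew_mono hWr.le M
  have hewk' : ∀ M : PM n, ew w M ≤ ew k' M := fun M =>
    (hewk M).trans (ew_mono (fun x y _ => hkk x y) M)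
  -- number of bits of the acceptance tests
  have hbits : ∀ (K₁ : List (List ℕ)), (∀ x y, ent K₁ x y ≤ P.W) → ∀ M : PM n,
      ex K₁ (toL M) + n / 2 * P.F - ex E (toL M) ≤ P.L := by
    intro K₁ hK₁ M
    have h3 := ex_toL_le hK₁ M
    have h4 : n / 2 * P.F ≤ n * P.F := Nat.mul_le_mul_right _ (Nat.div_le_self _ _)
    have h5 := hP.L
    have h6 : n * (P.W + P.F) = n * P.W + n * P.F := by ring
    omega
  -- probabilities of the tests
  have pA : |prob (B + P.L) (fun v => tst run B n P.L P.F K K' E n v = true) -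
      Zf k / Zf w| ≤ η := by
    have h3 := prob_test hB (K := K) (K' := K') (L := P.L) (F := P.F) hrun (fun s => s.2.1)
      (fun M => (2 : ℝ) ^ (-(ew k M - ew w M))) (fun M => by
        rw [prob_ones (hbits K (ent_schM_le R P.W j) M)]
        exact congrArg (fun z : ℤ => (2 : ℝ) ^ (-z))
          (test_exp (F := P.F) (K := K) (E := E) (M := M) (hewk M)))
    have h4 : prob (B + P.L) (fun v => tst run B n P.L P.F K K' E n v = true) =
        prob (B + P.L) (fun u => (smp run B n P.L P.F K K' E ⟨u⟩).2.1 = true) := by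
      refine prob_congr _ fun v _ => ?_
      simp [tst]
    rw [h4, h3, ← ideal_accept w k]
    refine abs_sum_sub_le hmix (fun M => by positivity) fun M => ?_
    apply zpow_le_one_of_nonpos₀ (by norm_num)
    have := hewk M
    omega
  have pB : |prob (B + P.L) (fun v => tst run B n P.L P.F K K' E (n + 1) v = true) -
      Zf k' / Zf w| ≤ η := by
    have h3 := prob_test hB (K := K) (K' := K') (L := P.L) (F := P.F) hrun (fun s => s.2.2)
      (fun M => (2 : ℝ) ^ (-(ew k' M - ew w M))) (fun M => by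
        rw [prob_ones (hbits K' (ent_schM_le R P.W (j + 1)) M)]
        exact congrArg (fun z : ℤ => (2 : ℝ) ^ (-z))
          (test_exp (F := P.F) (K := K') (E := E) (M := M) (hewk' M)))
    have h4 : prob (B + P.L)
        (fun v => tst run B n P.L P.F K K' E (n + 1) v = true) =
        prob (B + P.L) (fun u => (smp run B n P.L P.F K K' E ⟨u⟩).2.2 = true) := by
      refine prob_congr _ fun v _ => ?_
      simp [tst]
    rw [h4, h3, ← ideal_accept w k']
    refine abs_sum_sub_le hmix (fun M => by positivity) fun M => ?_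
    apply zpow_le_one_of_nonpos₀ (by norm_num)
    have := hewk' M
    omega
  have pU : ∀ v : Fin n, |prob (B + P.L)
      (fun z => tst run B n P.L P.F K K' E v z = true) -
      alpha w r v * (2 : ℝ) ^ (-(w r v))| ≤ η := by
    intro v
    have h3 := prob_test hB (K := K) (K' := K') (L := P.L) (F := P.F) hrun
      (fun s => decide (prt s.1 0 = (v : ℕ)))
      (fun M => if M.1 r = v then (1 : ℝ) else 0) (fun M => by
        have h5 : prt (toL M) 0 = M.1 r := prt_toL M r
        simp only [h5, decide_eq_true_eq, Fin.val_inj]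
        exact prob_const _ _)
    have h4 : prob (B + P.L) (fun z => tst run B n P.L P.F K K' E v z = true) =
        prob (B + P.L) (fun u =>
          decide (prt (smp run B n P.L P.F K K' E ⟨u⟩).1 0 = (v : ℕ)) = true) := by
      refine prob_congr _ fun z _ => ?_
      simp [tst, v.2]
    rw [h4, h3, ← ideal_root w r v]
    refine abs_sum_sub_le hmix (fun M => ?_) fun M => ?_
    · split_ifs <;> norm_num
    · split_ifs <;> norm_num
  -- the two ratios
  have dA : |((c n : ℕ) : ℝ) / (S : ℕ) - Zf k / Zf w| ≤ 2 * η := by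
    have := abs_sub_le (((c n : ℕ) : ℝ) / (S : ℕ)) (prob (B + P.L) (fun v =>
      tst run B n P.L P.F K K' E n v = true)) (Zf k / Zf w)
    have h5 := hbad' n (by omega)
    linarith only [pA, this, h5]
  have dB : |((c (n + 1) : ℕ) : ℝ) / (S : ℕ) - Zf k' / Zf w| ≤ 2 * η := by
    have := abs_sub_le (((c (n + 1) : ℕ) : ℝ) / (S : ℕ)) (prob (B + P.L) (fun v =>
      tst run B n P.L P.F K K' E (n + 1) v = true)) (Zf k' / Zf w)
    have h5 := hbad' (n + 1) (by omega)
    linarith only [pB, this, h5]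
  have hZ1 : 1 / 2 ≤ Zf k / Zf w := by
    rw [div_le_div_iff₀ (by norm_num) hZw]
    have := hWr.Z2
    linarith only [this]
  have hZ2 : 1 / 4 ≤ Zf k' / Zf w := by
    rw [div_le_div_iff₀ (by norm_num) hZw]
    have h5 := hWr.Z2
    have h6 := hstep.Zf_le.1
    linarith only [h5, h6]
  obtain ⟨r1, r2, r3, r4⟩ := ratio_bound hS0 hη0 (by linarith only [hη1]) dA dB hZ1 hZ2
  have hrat : (Zf k' / Zf w) / (Zf k / Zf w) = Zs R P.W (j + 1) / Zs R P.W j := by
    have : (Zf k' / Zf w) / (Zf k / Zf w) = Zf k' / Zf k := by (clear * - hZw hZk; field_simp)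
    rw [this]
    rfl
  rw [hrat] at r3 r4
  -- the new estimates
  set X := smps run B n P.L P.F S K K' E ⟨u⟩ with hX
  refine ⟨newA n P.s E X, c n, c (n + 1), by exact_mod_cast r1, by exact_mod_cast r2, r3, r4,
    ?_, ?_⟩
  · intro r' v hr' hv
    have hrr : r' = r := Fin.ext (by rw [hr', hr])
    subst hrr
    have hv0 : (v : ℕ) ≠ 0 := fun h => hv (Fin.ext (by rw [h]))
    have e1 : (newA n P.s E X).getD v 0 = ent E 0 v + Nat.size (c v) - (P.s + 1) := by
      have h5 : cntU X v = c v := cntU_eq hB n P.L P.F S K K' E u v.2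
      unfold newA
      rw [List.getD_eq_getElem?_getD, List.getElem?_map, List.getElem?_range v.2]
      simp only [Option.map_some, hv0, ↓reduceIte, h5, Option.getD_some]
    have dU : |((c v : ℕ) : ℝ) / (S : ℕ) - alpha w r v * (2 : ℝ) ^ (-(w r v))| ≤ 2 * η := by
      have := abs_sub_le (((c v : ℕ) : ℝ) / (S : ℕ)) (prob (B + P.L) (fun z =>
        tst run B n P.L P.F K K' E v z = true)) (alpha w r v * (2 : ℝ) ^ (-(w r v)))
      have h5 := hbad' v (by have := v.2; omega)
      have h6 := pU v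
      linarith only [this, h5, h6]
    have hlow : 32 * η ≤ alpha w r v * (2 : ℝ) ^ (-(w r v)) := by
      have h5 := (hA r v rfl hv).1
      have h6 := hWr.a1 v hv
      have h7 := hWr.root v hv
      have h8 : (2 : ℝ) ^ (-(P.c : ℤ) - 5) ≤ alpha w r v * (2 : ℝ) ^ (-(w r v)) := by
        have h9 : (2 : ℝ) ^ (((A.getD v 0 : ℤ) - P.F) - 5) ≤ alpha w r v := by
          have h10 : (2 : ℝ) ^ (((A.getD v 0 : ℤ) - P.F) - 5) * 2 =
              (2 : ℝ) ^ ((A.getD v 0 : ℤ) - P.F - 4) := by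
            rw [← zpow_add_one₀ (by norm_num)]
            congr 1
            ring
          linarith only [h5, h6, h10]
        calc (2 : ℝ) ^ (-(P.c : ℤ) - 5) =
            (2 : ℝ) ^ (((A.getD v 0 : ℤ) - P.F) - 5) *
              (2 : ℝ) ^ (-(((A.getD v 0 : ℤ) - P.F) + P.c)) := by
              rw [← zpow_add₀ (by norm_num)]
              congr 1
              ring
          _ ≤ alpha w r v * (2 : ℝ) ^ (-(w r v)) := by
              apply mul_le_mul h9 _ (by positivity) (alpha_nonneg w r v)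
              apply zpow_le_zpow_right₀ (by norm_num)
              have h7' : w r v ≤ ((A.getD v 0 : ℤ) - P.F) + P.c := h7
              omega
      refine le_trans ?_ h8
      have h11 : (2 : ℝ) ^ (-(P.c : ℤ) - 5) = 32 * (1 / 2 ^ (P.c + 10)) := by
        rw [zpow_sub₀ (by norm_num), zpow_neg, zpow_natCast, pow_add]
        norm_num
        field_simp
        norm_num
      rw [h11]
      gcongr
      rw [le_div_iff₀ (by positivity)]
      exact hηc
    have key := est_bound (cv := c v) (σ := P.s) hη0 dU hlow (hWr.a1 v hv) (hWr.a2 v hv)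
      (hstep.alpha_le hn r v).1 (hstep.alpha_le hn r v).2
    have hge : -(n * P.W + n * Nat.size n : ℤ) ≤ w r v + Nat.size (c v) - P.s - 1 + 4 := by
      have h5 := (alpha_bounds hn (k := k') (W := P.W) (fun x y _ => kZ_nonneg R P.W (j + 1) x y)
        (fun x y _ => kZ_le R P.W (j + 1) x y) hv).1
      have h6 := h5.trans key.2
      exact (zpow_le_zpow_iff_right₀ (by norm_num : (1 : ℝ) < 2)).1 h6
    have hF := hP.F
    have e2 : (((newA n P.s E X).getD v 0 : ℕ) : ℤ) - P.F =
        w r v + Nat.size (c v) - P.s - 1 := by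
      rw [e1]
      have h5 : w r v = (ent E 0 v : ℤ) - P.F := rfl
      rw [h5] at hge ⊢
      have h6 : (8 * (n * P.W + n * Nat.size n + P.W + 8) : ℤ) ≤ P.F := by exact_mod_cast hF
      have h7 : (0 : ℤ) ≤ n * P.W + n * Nat.size n := by (clear * - h2; positivity)
      have h8 : (0 : ℤ) ≤ P.W := by (clear * -; positivity)
      omega
    rw [e2]
    exact key
  · intro x y
    have eA : cntA X = c n := cntA_eq hB n P.L P.F S K K' E u
    have eB : cntB X = c (n + 1) := cntB_eq hB n P.L P.F S K K' E u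
    rw [← eA, ← eB]
    rfl

/-- Analysis of all stages. -/
theorem rounds_good (hB : Uses run B) (hR : ∀ x y, adj R x y = adj R y x) (hn : Even R.length) (h2 : 2 ≤ R.length)
    (hP : ParOK c1 R.length P η)
    (hW : ∀ j A, EstOK R P.W P.F j A → ∀ r : Fin R.length, (r : ℕ) = 0 →
      WOK (kZ R P.W j) (toZ P.F (impS R P j A)) (fun u => (A.getD u 0 : ℤ) - P.F) P.c r)
    (hrun : ∀ j A u, ∃ M : PM R.length, run (impS R P j A) u = toL M)
    (hmix : ∀ j A, EstOK R P.W P.F j A → ∑ M : PM R.length, |rlaw (run (impS R P j A)) B M -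
      law (toZ P.F (impS R P j A)) M| ≤ η) :
    ∀ (K j s : ℕ) (A : List ℕ) (x y : ℕ), EstOK R P.W P.F j A → 0 < x → 0 < y →
      prob (K * (2 ^ P.s * (B + P.L)) + s) (fun w => ¬ Good R P.W (32 * η) K j x y
        ((stage run B R P)^[K] ((A, (j, (x, y))), ⟨w⟩)).1.2.2) ≤
        K * ((R.length + 2 : ℕ) * (2 * Real.exp (-(((2 ^ P.s : ℕ) : ℝ) * η ^ 2 / 4)))) := by
  have hη0 := hP.ηpos
  have hη1 : η ≤ 1 / 1024 := by
    have h3 : (1024 : ℝ) ≤ 2 ^ (P.c + 10) := by
      calc (1024 : ℝ) = 2 ^ 10 := by norm_num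
        _ ≤ 2 ^ (P.c + 10) := pow_le_pow_right₀ (by norm_num) (by omega)
    have := hP.ηle
    rw [le_div_iff₀ (by norm_num)]
    nlinarith only [this, h3]
  intro K
  induction K with
  | zero =>
    intro j s A x y _ hx hy
    have hZ0 : 0 < Zs R P.W j := Zf_pos hn _
    have h1 : ∀ w : List Bool, Good R P.W (32 * η) 0 j x y
        ((stage run B R P)^[0] ((A, (j, (x, y))), ⟨w⟩)).1.2.2 := by
      intro w
      refine ⟨hy, ?_, ?_⟩ <;>
      simp [div_self hZ0.ne']
    simp only [h1, not_true, Nat.cast_zero, zero_mul]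
    rw [prob]
    simp only [zero_add, and_false, Set.ofPred_false, Set.ncard_empty, CharP.cast_eq_zero, zero_div, Std.le_refl]
  | succ K ih =>
    intro j s A x y hA hx hy
    set D := 2 ^ P.s * (B + P.L) with hD
    set β := ((R.length + 2 : ℕ) : ℝ) * (2 * Real.exp (-(((2 ^ P.s : ℕ) : ℝ) * η ^ 2 / 4)))
      with hβ
    have e1 : (K + 1) * D + s = D + (K * D + s) := by ring
    have e2 : ((K + 1 : ℕ) : ℝ) * β = β + K * β := by push_cast; ring
    rw [e1, e2]
    refine prob_add_le D (K * D + s) (fun u => ∃ τ < R.length + 2,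
      η ≤ |((((List.range (2 ^ P.s)).filter fun q =>
      tst run B R.length P.L P.F (schM R P.W j) (schM R P.W (j + 1)) (impS R P j A) τ
        ((u.drop (q * (B + P.L))).take (B + P.L))).length : ℕ) : ℝ) /
          (2 ^ P.s : ℕ) -
      prob (B + P.L) (fun v => tst run B R.length P.L P.F (schM R P.W j)
        (schM R P.W (j + 1)) (impS R P j A) τ v = true)|) _ (by (clear * - h2; positivity)) ?_ ?_
    · rw [hβ]
      exact prob_exists_le _ _ _ fun τ _ => prob_count_dev (B + P.L) (2 ^ P.s)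
        (by positivity) _ hη0 (by linarith only [hη1])
    · intro u hu hbad
      push Not at hbad
      obtain ⟨A', cA, cB, p1, p2, p3, p4, p5, p6⟩ := stage_good hB hR hn h2 hP hA (hW j A hA)
        (hrun j A) (hmix j A hA) u hbad
      refine le_trans (prob_mono _ fun v _ hv => ?_) (ih (j + 1) s A' (x * cB) (y * cA) p5
        (by (clear * - hx p2; positivity)) (by (clear * - hy p1; positivity)))
      intro hgood
      apply hv
      rw [iterate_succ_apply, stage_append hB R P _ hu v, p6 x y]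
      exact good_step hn (by linarith only [hη0]) (by linarith only [hη1]) p1 p2 p3 p4 hx hy hgood

end Stage

end Vale.Agent.P308.PA
end

section

/-!
# P308, polynomial version: the analysis of all stages for the sampler `runX`
-/

namespace Vale.Agent.P308.PA

open Vale.Agent.Lib.PolyTime Vale.Agent.P308.Alg Finset Function
open Vale.Agent.P308.Rep (runV)

theorem runV_take {Ω : Type*} (b : ℕ) (step : ℕ → List Bool → Ω → Ω) (t : ℕ) :
    ∀ (k : ℕ) (w : List Bool) (x : Ω),
      runV b step t k w x = runV b step t k (w.take (t * b)) x := by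
  induction t with
  | zero => intro k w x; rfl
  | succ t ih =>
    intro k w x
    rw [runV, runV]
    have e1 : (w.take ((t + 1) * b)).take b = w.take b := by
      rw [List.take_take, min_eq_left]
      nlinarith
    have e2 : (w.take ((t + 1) * b)).drop b = (w.drop b).take (t * b) := by
      rw [List.drop_take]
      congr 1
      rw [Nat.succ_mul]
      omega
    rw [e1, e2]
    exact ih _ _ _

theorem iter_micro_zero {n : ℕ} {P : Par} (hT : P.T = 0) (E : List (List ℕ)) (J : ℕ) :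
    ∀ (t : ℕ) (s : List (List ℕ) × Raw), (micro n P E)^[J] (t, s) = (t + J, s) := by
  induction J with
  | zero => intro t s; rfl
  | succ J ih =>
    intro t s
    rw [iterate_succ_apply]
    have e : micro n P E (t, s) = (t + 1, s) := by
      unfold micro
      rw [hT]
      rfl
    rw [e, ih]
    congr 1
    omega

theorem runX_zero {n : ℕ} {P : Par} (hn : Even n) (hT : P.T = 0) (E : List (List ℕ)) (u : Raw) :
    runX n P E u = toL (St.M0P hn) := by
  unfold runX
  rw [iter_micro_zero hT, replicate_M0 hn]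
  exact getD_toLL _ ⟨0, by positivity⟩

/-- The sampler uses `P.B` bits. -/
theorem uses_runX {n : ℕ} (hn : Even n) (P : Par) : Uses (runX n P) P.B := by
  intro E u
  rcases Nat.eq_zero_or_pos P.T with hT | hT
  · rw [runX_zero hn hT, runX_zero hn hT]
  · rw [runX_eq (listPair n P.b P.h) hT hn, runX_eq (listPair n P.b P.h) hT hn, runV_take]
    have e : P.J * P.T * P.ℓ = P.B := by unfold Par.B; ring
    rw [e]

/-- The sampler produces a perfect matching. -/
theorem exists_runX {n : ℕ} (hn : Even n) (P : Par) (E : List (List ℕ)) (u : Raw) :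
    ∃ M : PM n, runX n P E u = toL M := by
  rcases Nat.eq_zero_or_pos P.T with hT | hT
  · exact ⟨_, runX_zero hn hT E u⟩
  · exact ⟨_, runX_eq (listPair n P.b P.h) hT hn E u.w⟩

/-- The parameters, for `Alg.wok`. -/
def toAlgR (n : ℕ) (P : Par) : Alg.Par where
  W := P.W
  F := P.F
  c := P.c
  b := Nat.size n
  ℓ := 2 * Nat.size n + 2 * (P.W + P.F) + 1
  T := P.T
  L := P.L
  σ := P.s

/-- **Analysis of all stages.** -/
theorem roundsGood_of (c1 : ℕ) (hM1 : M1 c1) : RoundsGood c1 := by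
  intro R hR hn h2 P η hP hmix K j r A x y hA hx hy
  exact rounds_good (uses_runX hn P) hR hn h2 hP
    (fun j A hA r hr => Alg.wok (P := toAlgR R.length P) (η := η) hM1 hR hn h2
      ⟨hP.c, rfl, hP.F, le_rfl, hP.L, hP.ηpos, hP.ηle⟩ hA r hr)
    (fun j A u => exists_runX hn P _ u) hmix K j r A x y hA hx hy

end Vale.Agent.P308.PA
end

section

/-! Bridge: `Poly.RepStatement` from `rep_bound`. -/

set_option linter.unusedSectionVars false

namespace Vale.Agent.P308.Rep

open Finset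
open Vale.Agent.P308.Soft

section fin

variable {X : Type*} [Fintype X] [DecidableEq X] {s : ℕ}

/-- the kernel on pairs as a matrix on `X × X` -/
def KQ (K : X → X → X → X → ℝ) (p q : X × X) : ℝ := K p.1 p.2 q.1 q.2

theorem posProb_of_pairKer {μ : X → ℝ} {K : X → X → X → X → ℝ} {γ : ℝ}
    (hK : Poly.PairKer μ K γ) : PosProb μ := ⟨hK.μpos, hK.μsum⟩

theorem chain_KQ {μ : X → ℝ} {K : X → X → X → X → ℝ} {γ : ℝ}
    (hK : Poly.PairKer μ K γ) : MC.Chain (m2 μ) (KQ K) where
  pos := (m2_posProb (posProb_of_pairKer hK)).pos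
  sum_one := (m2_posProb (posProb_of_pairKer hK)).sum
  nonneg _ _ := hK.nonneg _ _ _ _
  row p := by
    rw [Fintype.sum_prod_type]
    exact hK.sum p.1 p.2
  rev p q := hK.rev p.1 p.2 q.1 q.2
  lazy p := hK.lazy p.1 p.2

theorem pairOp_KQ {μ : X → ℝ} {K : X → X → X → X → ℝ} {γ : ℝ}
    (hK : Poly.PairKer μ K γ) : PairOp μ γ (UQ (KQ K)) := by
  refine pairOp_UQ (chain_KQ hK) (fun p q => hK.swap _ _ _ _) fun f hf => ?_
  have h := hK.gap f hf
  have e1 : ∑ x, μ x * f x ^ 2 = nsq μ f := sum_congr rfl fun x _ => by ring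
  have e2 : 1 / 2 * ∑ x, ∑ y, ∑ x', ∑ y', μ x * μ y * K x y x' y' *
      ((f x + f y) - (f x' + f y')) ^ 2 = MC.dir (m2 μ) (KQ K) (dbl f) := by
    unfold MC.dir
    rw [Fintype.sum_prod_type]
    congr 1
    refine sum_congr rfl fun x _ => sum_congr rfl fun y _ => ?_
    rw [Fintype.sum_prod_type]
    rfl
  rw [e1, e2] at h
  exact h

theorem chain_PK_fin {μ : X → ℝ} {K : X → X → X → X → ℝ} {γ : ℝ}
    (hK : Poly.PairKer μ K γ) (hs : 2 ≤ s) :
    MC.Chain (mW μ (s := s)) (Poly.PK (ι := Fin s) K) := by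
  have h := Poly.chain_PK (ι := Fin s) hK (by rw [Fintype.card_fin]; exact hs)
  exact ⟨h.pos, h.sum_one, h.nonneg, h.row, h.rev, h.lazy⟩

theorem pull_PK_fin (K : X → X → X → X → ℝ) (hs : 2 ≤ s) (F : (Fin s → X) → ℝ) :
    MC.pull (Poly.PK (ι := Fin s) K) F = Pop (UQ (KQ K)) F := by
  funext x
  have h := Poly.pull_PK (ι := Fin s) (K := K) F x
  rw [Fintype.card_fin] at h
  refine h.trans ?_
  have hs2 : (2 : ℝ) ≤ s := by exact_mod_cast hs
  have hc := Poly.card_offDiag_real (ι := Fin s) (by rw [Fintype.card_fin]; exact hs)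
  rw [Fintype.card_fin] at hc
  have hpos : (0 : ℝ) < (s : ℝ) * (s - 1) := by nlinarith only [hs2]
  unfold Pop D
  have e : ∀ q ∈ (univ : Finset (Fin s)).offDiag, lift (UQ (KQ K)) q.1 q.2 F x
      = F x - ∑ a, ∑ b, K (x q.1) (x q.2) a b * F (Poly.upd x q.1 q.2 a b) := by
    intro q _
    unfold lift
    rw [UQ_apply, upd_self]
    unfold MC.pull
    rw [Fintype.sum_prod_type]
    rfl
  rw [sum_congr rfl e, sum_sub_distrib, sum_const, nsmul_eq_mul, hc]
  set S := ∑ p ∈ (univ : Finset (Fin s)).offDiag, ∑ a, ∑ b, K (x p.1) (x p.2) a b *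
    F (Poly.upd x p.1 p.2 a b) with hS
  have hne := hpos.ne'
  set c : ℝ := (s : ℝ) * (s - 1) with hcdef
  have e3 : F x - 1 / c * (c * F x - S) = c⁻¹ * S := by
    field_simp
    ring
  exact e3.symm

theorem rep_fin {μ ν : X → ℝ} {K : X → X → X → X → ℝ} {γ κ : ℝ} (T : ℕ)
    (hK : Poly.PairKer μ K γ) (hγ1 : γ ≤ 1) (hs : 3 ≤ s) (hν : ∑ x, ν x = 1)
    (hκ0 : 0 ≤ κ) (hκ : ∀ x, |ν x - μ x| ≤ κ * μ x) (hsκ : (s : ℝ) * κ ^ 2 ≤ 1) :
    ∑ ω : Fin s → X, |Soft.Mix.pushIter (Poly.PK K) T (Poly.pw ν) ω - Poly.pw μ ω|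
      ≤ Poly.repErr s γ κ T := by
  have hμ := posProb_of_pairKer hK
  have hs2 : 2 ≤ s := by omega
  set h : X → ℝ := fun x => ν x / μ x - 1 with hh
  have hμ0 : ∀ x, μ x ≠ 0 := fun x => (hμ.pos x).ne'
  have hνh : ∀ x, ν x = μ x * (1 + h x) := by
    intro x
    have := hμ0 x
    simp only [hh]
    field_simp
    ring
  have hmean : mean μ h = 0 := by
    unfold mean
    have : ∀ x, μ x * h x = ν x - μ x := fun x => by rw [hνh x]; ring
    simp only [this, sum_sub_distrib, hν, hμ.sum, sub_self]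
  have hhκ : ∀ x, |h x| ≤ κ := by
    intro x
    have h1 := hκ x
    have h2 : ν x - μ x = μ x * h x := by rw [hνh x]; ring
    rw [h2, abs_mul, abs_of_pos (hμ.pos x), mul_comm κ] at h1
    exact le_of_mul_le_mul_left h1 (hμ.pos x)
  have hnsq : nsq μ h ≤ κ ^ 2 := by
    calc nsq μ h ≤ ∑ x, μ x * κ ^ 2 := by
          refine sum_le_sum fun x _ => mul_le_mul_of_nonneg_left ?_ (hμ.pos x).le
          have := hhκ x
          rw [← sq, ← sq_abs]
          exact pow_le_pow_left₀ (abs_nonneg _) this 2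
      _ = κ ^ 2 := by rw [← sum_mul, hμ.sum, one_mul]
  have hch := chain_PK_fin (s := s) hK hs2
  have h1 := l1_pushIter_le_sqrt hμ hch (mW ν) T
  have h2 := rep_bound hμ (pairOp_KQ hK) hK.γpos hγ1 hs h hmean hκ0 hnsq hsκ T
  have e1 : MC.pull (Poly.PK (ι := Fin s) K) = Pop (UQ (KQ K)) := by
    funext F
    exact pull_PK_fin K hs2 F
  have e2 : (fun x : Fin s → X => mW ν x / mW μ x) = fun x => ∏ i, (1 + h (x i)) := by
    funext x
    exact density_prod hμ hνh x
  rw [e1, e2] at h1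
  rw [← Pop_eq] at h2
  have h3 := h1.trans h2
  refine (le_of_eq ?_).trans (h3.trans ?_)
  · rfl
  · unfold Poly.repErr
    have hγ := hK.γpos
    have hs0 : (0 : ℝ) < s := by
      have : (3 : ℝ) ≤ s := by exact_mod_cast hs
      linarith only [this]
    have a1 : 160 * κ / (γ ^ 2 * Real.sqrt s) ≤ 1000 * κ / (γ ^ 2 * Real.sqrt s) := by
      gcongr
      norm_num
    have a2 : 5 * (s : ℝ) ^ 2 * κ / (γ ^ 2 * Real.sqrt (T + 1))
        ≤ 1000 * (s : ℝ) ^ 2 * κ / (γ ^ 2 * Real.sqrt (T + 1)) := by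
      gcongr
      norm_num
    linarith only [a1, a2]

end fin

/-! ## transport to an arbitrary index type -/

section transport

variable {X : Type*} [Fintype X] [DecidableEq X] {ι κ' : Type*} [Fintype ι] [DecidableEq ι]
  [Fintype κ'] [DecidableEq κ']

/-- reindexing of configurations -/
def re (e : ι ≃ κ') : (ι → X) ≃ (κ' → X) := e.arrowCongr (Equiv.refl X)

theorem re_apply (e : ι ≃ κ') (ω : ι → X) (k : κ') : re e ω k = ω (e.symm k) := rfl

theorem re_upd (e : ι ≃ κ') (ω : ι → X) (i j : ι) (x y : X) :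
    re e (Poly.upd ω i j x y) = Poly.upd (re e ω) (e i) (e j) x y := by
  funext k
  rw [re_apply]
  unfold Poly.upd
  by_cases hj : k = e j
  · subst hj; simp
  · have hj' : e.symm k ≠ j := fun h => hj (by rw [← h]; simp)
    by_cases hi : k = e i
    · subst hi
      rw [Function.update_of_ne hj', Function.update_of_ne hj]
      simp
    · have hi' : e.symm k ≠ i := fun h => hi (by rw [← h]; simp)
      rw [Function.update_of_ne hj', Function.update_of_ne hj, Function.update_of_ne hi',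
        Function.update_of_ne hi, re_apply]

theorem re_PK (e : ι ≃ κ') (K : X → X → X → X → ℝ) (ω ω' : ι → X) :
    Poly.PK K (re e ω) (re e ω') = Poly.PK K ω ω' := by
  unfold Poly.PK
  rw [Fintype.card_congr e]
  congr 1
  symm
  refine sum_bij (fun p _ => (e p.1, e p.2)) ?_ ?_ ?_ ?_
  · intro p hp
    rw [mem_offDiag] at hp ⊢
    exact ⟨mem_univ _, mem_univ _, fun h => hp.2.2 (e.injective h)⟩
  · intro p _ q _ h
    have h1 := congrArg Prod.fst h
    have h2 := congrArg Prod.snd h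
    exact Prod.ext (e.injective h1) (e.injective h2)
  · intro q hq
    rw [mem_offDiag] at hq
    refine ⟨(e.symm q.1, e.symm q.2), ?_, ?_⟩
    · rw [mem_offDiag]
      exact ⟨mem_univ _, mem_univ _, fun h => hq.2.2 (e.symm.injective h)⟩
    · simp
  · intro p _
    refine sum_congr rfl fun x _ => sum_congr rfl fun y _ => ?_
    rw [re_apply, re_apply, Equiv.symm_apply_apply, Equiv.symm_apply_apply, ← re_upd]
    congr 1
    by_cases h : Poly.upd ω p.1 p.2 x y = ω'
    · rw [if_pos h, if_pos (by rw [h])]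
    · rw [if_neg h, if_neg fun h' => h ((re e).injective h')]

theorem re_push (e : ι ≃ κ') (K : X → X → X → X → ℝ) (ρ : (κ' → X) → ℝ) (ω : ι → X) :
    Soft.Mix.push (Poly.PK K) ρ (re e ω)
      = Soft.Mix.push (Poly.PK K) (fun ω => ρ (re e ω)) ω := by
  unfold Soft.Mix.push
  rw [← (re e).sum_comp]
  exact sum_congr rfl fun ω' _ => by rw [re_PK]

theorem re_pushIter (e : ι ≃ κ') (K : X → X → X → X → ℝ) (T : ℕ) (ρ : (κ' → X) → ℝ) :
    (fun ω : ι → X => Soft.Mix.pushIter (Poly.PK K) T ρ (re e ω))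
      = Soft.Mix.pushIter (Poly.PK K) T (fun ω : ι → X => ρ (re e ω)) := by
  induction T generalizing ρ with
  | zero => rfl
  | succ T ih =>
    have a1 : Soft.Mix.pushIter (Poly.PK K) (T + 1) ρ
        = Soft.Mix.pushIter (Poly.PK K) T (Soft.Mix.push (Poly.PK K) ρ) := by
      simp only [Soft.Mix.pushIter, Function.iterate_succ_apply]
    have a2 : Soft.Mix.pushIter (Poly.PK K) (T + 1) (fun ω : ι → X => ρ (re e ω))
        = Soft.Mix.pushIter (Poly.PK K) T
          (Soft.Mix.push (Poly.PK K) (fun ω : ι → X => ρ (re e ω))) := by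
      simp only [Soft.Mix.pushIter, Function.iterate_succ_apply]
    rw [a1, a2, ih]
    congr 1
    funext ω
    exact re_push e K ρ ω

theorem re_pw (e : ι ≃ κ') (μ : X → ℝ) (ω : ι → X) : Poly.pw μ (re e ω) = Poly.pw μ ω := by
  unfold Poly.pw
  rw [← e.prod_comp]
  exact prod_congr rfl fun i _ => by rw [re_apply, Equiv.symm_apply_apply]

end transport

/-- **Theorem 2** in the form of `Poly/RepDefs.lean`. -/
theorem rep_statement : Poly.RepStatement := by
  intro X _ _ ι _ _ μ ν K γ κ T hK hγ1 hs hν hκ0 hκ hsκ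
  have e := Fintype.equivFin ι
  have h := rep_fin (s := Fintype.card ι) T hK hγ1 hs hν hκ0 hκ hsκ
  rw [← (re e).sum_comp] at h
  refine (le_of_eq ?_).trans h
  refine sum_congr rfl fun ω _ => ?_
  have h1 : Soft.Mix.pushIter (Poly.PK K) T (Poly.pw ν) (re e ω)
      = Soft.Mix.pushIter (Poly.PK K) T (fun ω : ι → X => Poly.pw ν (re e ω)) ω :=
    congrFun (re_pushIter e K T (Poly.pw ν)) ω
  rw [h1, re_pw]
  have : (fun ω : ι → X => Poly.pw ν (re e ω)) = Poly.pw ν := by
    funext ω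
    exact re_pw e ν ω
  rw [this]

end Vale.Agent.P308.Rep
end

section

/-!
# P308: fully polynomial randomized approximation of the number of perfect matchings
-/

namespace Vale.Agent.P308.PA

open Vale.Agent.P308.Alg

/-- The number of perfect matchings of every graph can be approximated in time polynomial in the
size of the graph, in `1 / ε` and in `log (1 / δ)`. -/
theorem exists_fpras :
    ∃ (f : List Bool → List Bool)
      (M : Turing.TM2ComputableInPolyTime (id : List Bool → List Bool)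
        (id : List Bool → List Bool) f), (∀ k, Finite (M.tm.Γ k)) ∧
      ∃ d d' : ℕ, ∀ (n : ℕ) (G : SimpleGraph (Fin n)) (ε δ : ℝ), 0 < ε → ε < 1 → 0 < δ → δ < 1 →
        ∀ e l b : ℕ, e = ⌈1 / ε⌉₊ → l = ⌈Real.logb 2 (1 / δ)⌉₊ →
          b = n + e + l + 2 →
          (∀ w : List Bool, w.length = b ^ d →
            M.time.eval (QP.block (QP.inputWord G e l) w).length ≤ b ^ d') ∧
          1 - δ ≤ QP.prob (b ^ d) fun w => ∃ a : ℕ,
            f (QP.block (QP.inputWord G e l) w) = a.bits ∧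
            (1 - ε) * QP.numPM G ≤ a ∧ a ≤ (1 + ε) * QP.numPM G :=
  scheme_of 22 _ (roundsGood_of 22 M1_holds)
    (mixedOf_of Lin.gap Rep.rep_statement cStmt (le_refl _))

end Vale.Agent.P308.PA
end

section

/-!
# P308: quasi-polynomial randomized approximation of the number of perfect matchings
-/

namespace Vale.Agent.P308.QP

open Vale.Agent.P308.Alg

/-- The number of perfect matchings of every graph can be approximated in time
`n ^ O(log n)` (and polynomial in `1 / ε` and `log (1 / δ)`). -/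
theorem exists_scheme :
    ∃ (f : List Bool → List Bool)
      (M : Turing.TM2ComputableInPolyTime (id : List Bool → List Bool)
        (id : List Bool → List Bool) f), (∀ k, Finite (M.tm.Γ k)) ∧
      ∃ d d' : ℕ, ∀ (n : ℕ) (G : SimpleGraph (Fin n)) (ε δ : ℝ), 0 < ε → ε < 1 → 0 < δ → δ < 1 →
        ∀ e l b : ℕ, e = ⌈1 / ε⌉₊ → l = ⌈Real.logb 2 (1 / δ)⌉₊ →
          b = (n + 2) ^ Nat.log 2 (n + 2) * (e + l + 2) →
          (∀ w : List Bool, w.length = b ^ d →
            M.time.eval (block (inputWord G e l) w).length ≤ b ^ d') ∧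
          1 - δ ≤ prob (b ^ d) fun w => ∃ a : ℕ, f (block (inputWord G e l) w) = a.bits ∧
            (1 - ε) * numPM G ≤ a ∧ a ≤ (1 + ε) * numPM G := by
  obtain ⟨c2, d, -, h⟩ := alg_good_of 22 _ (rounds_good' 22 M1_holds)
    (mixed_of 22 _ (Canon.M2_holds 22))
  exact main_of_alg h

end Vale.Agent.P308.QP
end
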